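import Mathlib

/-!
# Row 185: closure properties of finitely presented groups
-/

set_option autoImplicit false

namespace Crest.Agent.R185

/-- Finite presentability does not depend on the finite generating family. -/
theorem fp_ker {G : Type} [Group G] (h : Group.IsFinitelyPresented G) {ι : Type} [Finite ι]
    (φ : FreeGroup ι →* G) (hφ : Function.Surjective φ) : φ.ker.IsFinitelyNormallyGenerated := by
  obtain ⟨n, ψ, hψ, S, hS, hSψ⟩ := h.out
  choose a ha using fun i : Fin n => hφ (ψ (FreeGroup.of i))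
  choose b hb using fun i : ι => hψ (φ (FreeGroup.of i))
  obtain ⟨α, hαd⟩ : ∃ α : FreeGroup (Fin n) →* FreeGroup ι, α = FreeGroup.lift a := ⟨_, rfl⟩
  obtain ⟨β, hβd⟩ : ∃ β : FreeGroup ι →* FreeGroup (Fin n), β = FreeGroup.lift b := ⟨_, rfl⟩
  have hα : ∀ x, φ (α x) = ψ x := by
    have : φ.comp α = ψ := by ext i; simp [hαd, ha]
    exact fun x => DFunLike.congr_fun this x
  have hβ : ∀ x, ψ (β x) = φ x := by
    have : ψ.comp β = φ := by ext i; simp [hβd, hb]
    exact fun x => DFunLike.congr_fun this x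
  refine ⟨α '' S ∪ Set.range (fun i => (α (β (FreeGroup.of i)))⁻¹ * FreeGroup.of i),
    (hS.image _).union (Set.finite_range _), le_antisymm ?_ ?_⟩
  · refine Subgroup.normalClosure_le_normal ?_
    rintro x (⟨y, hy, rfl⟩ | ⟨i, rfl⟩)
    · have : y ∈ ψ.ker := hSψ ▸ Subgroup.subset_normalClosure hy
      simpa [hα] using this
    · simp [hα, hβ]
  · intro z hz
    obtain ⟨M, hM⟩ : ∃ M, M = Subgroup.normalClosure
      (α '' S ∪ Set.range (fun i => (α (β (FreeGroup.of i)))⁻¹ * FreeGroup.of i)) := ⟨_, rfl⟩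
    rw [← hM]
    have : M.Normal := hM ▸ inferInstance
    have h1 : (QuotientGroup.mk' M).comp (α.comp β) = QuotientGroup.mk' M := by
      ext i
      simp only [MonoidHom.comp_apply, QuotientGroup.mk'_apply]
      rw [QuotientGroup.eq, hM]
      exact Subgroup.subset_normalClosure (Or.inr ⟨i, rfl⟩)
    have h2 : β z ∈ Subgroup.normalClosure S := by
      rw [hSψ, MonoidHom.mem_ker, hβ]; exact hz
    have h3 : α (β z) ∈ M := by
      refine (Subgroup.normalClosure_le_normal (N := M.comap α) ?_) h2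
      intro y hy
      simp only [SetLike.mem_coe, Subgroup.mem_comap]
      rw [hM]
      exact Subgroup.subset_normalClosure (Or.inl ⟨y, hy, rfl⟩)
    have h4 := DFunLike.congr_fun h1 z
    simp only [MonoidHom.comp_apply, QuotientGroup.mk'_apply] at h4
    rw [← QuotientGroup.eq_one_iff, ← h4, QuotientGroup.eq_one_iff]
    exact h3

theorem fp_of_ker {G : Type} [Group G] {ι : Type} [Finite ι] (φ : FreeGroup ι →* G)
    (hφ : Function.Surjective φ) (h : φ.ker.IsFinitelyNormallyGenerated) :
    Group.IsFinitelyPresented G :=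
  Group.IsFinitelyPresented.of_surjective φ hφ h

theorem fg_of_fp {G : Type} [Group G] (h : Group.IsFinitelyPresented G) : Group.FG G := by
  obtain ⟨n, ψ, hψ, -⟩ := h.out
  exact Group.fg_of_surjective hψ

/-- Retracts of finitely presented groups are finitely presented. -/
theorem fp_of_retract {G Γ : Type} [Group G] [Group Γ] (h : Group.IsFinitelyPresented Γ)
    (π : Γ →* G) (ψ : G →* Γ) (hψ : ∀ g, π (ψ g) = g) : Group.IsFinitelyPresented G := by
  obtain ⟨S, hS, hSf⟩ := Group.fg_iff.1 (fg_of_fp h)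
  refine Group.IsFinitelyPresented.of_surjective π (fun g => ⟨ψ g, hψ g⟩)
    ⟨(fun x => (ψ (π x))⁻¹ * x) '' S, hSf.image _, le_antisymm ?_ ?_⟩
  · refine Subgroup.normalClosure_le_normal ?_
    rintro x ⟨y, -, rfl⟩
    simp [hψ]
  · intro z hz
    obtain ⟨M, hM⟩ : ∃ M, M = Subgroup.normalClosure ((fun x => (ψ (π x))⁻¹ * x) '' S) :=
      ⟨_, rfl⟩
    rw [← hM]
    have : M.Normal := hM ▸ inferInstance
    have h1 : (QuotientGroup.mk' M).comp (ψ.comp π) = QuotientGroup.mk' M := by
      refine MonoidHom.eq_of_eqOn_dense hS fun x hx => ?_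
      simp only [MonoidHom.comp_apply, QuotientGroup.mk'_apply]
      rw [QuotientGroup.eq, hM]
      exact Subgroup.subset_normalClosure ⟨x, hx, rfl⟩
    have h4 := DFunLike.congr_fun h1 z
    simp only [MonoidHom.comp_apply, QuotientGroup.mk'_apply] at h4
    rw [← QuotientGroup.eq_one_iff, ← h4, MonoidHom.mem_ker.1 hz]
    simp

/-- Finitely many relations can be imposed on a finitely presented group over `G`. -/
theorem fp_kill {G Γ : Type} [Group G] [Group Γ] (h : Group.IsFinitelyPresented Γ)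
    (π : Γ →* G) (R : Set Γ) (hR : R.Finite) (hπ : ∀ r ∈ R, π r = 1) :
    ∃ (Γ' : Type) (_ : Group Γ') (q : Γ →* Γ') (π' : Γ' →* G), Group.IsFinitelyPresented Γ' ∧
      Function.Surjective q ∧ (∀ x, π' (q x) = π x) ∧ ∀ r ∈ R, q r = 1 := by
  have hle : Subgroup.normalClosure R ≤ π.ker := Subgroup.normalClosure_le_normal hπ
  refine ⟨Γ ⧸ Subgroup.normalClosure R, inferInstance, QuotientGroup.mk' _,
    QuotientGroup.lift _ π hle, Group.IsFinitelyPresented.quotient _ ⟨R, hR, rfl⟩,
    QuotientGroup.mk'_surjective _, fun x => rfl, fun r hr => ?_⟩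
  exact (QuotientGroup.eq_one_iff _).2 (Subgroup.subset_normalClosure hr)

/-- P. Hall: extensions of finitely presented groups. -/
theorem fp_of_extension {G : Type} [Group G] (N : Subgroup G) [hNn : N.Normal]
    (hN : Group.IsFinitelyPresented N) (hQ : Group.IsFinitelyPresented (G ⧸ N)) :
    Group.IsFinitelyPresented G := by
  obtain ⟨n, ψ, hψ, S, hS, hSψ⟩ := hQ.out
  obtain ⟨T, hT, hTf⟩ := Group.fg_iff.1 (fg_of_fp hN)
  choose a ha using fun i : Fin n => QuotientGroup.mk'_surjective N (ψ (FreeGroup.of i))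
  obtain ⟨α, hαd⟩ : ∃ α : FreeGroup (Fin n) →* G, α = FreeGroup.lift a := ⟨_, rfl⟩
  have hα : ∀ x, QuotientGroup.mk' N (α x) = ψ x := by
    have : (QuotientGroup.mk' N).comp α = ψ := by
      ext i
      simp only [hαd, MonoidHom.comp_apply, FreeGroup.lift_apply_of]
      exact ha i
    exact fun x => DFunLike.congr_fun this x
  have hαS : ∀ r ∈ S, α r ∈ N := by
    intro r hr
    have : r ∈ ψ.ker := hSψ ▸ Subgroup.subset_normalClosure hr
    rw [← QuotientGroup.eq_one_iff]
    exact (hα r).trans this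
  classical
  let cj : G → N →* N := fun g => (MulAut.conjNormal g : MulAut N).toMonoidHom
  have hcj : ∀ g y, ((cj g y : N) : G) = g * y * g⁻¹ := fun g y => rfl
  obtain ⟨Γ, _, q, π, hΓ, hq, hπ, hR⟩ := fp_kill
    (Γ := Monoid.Coprod N (FreeGroup (Fin n))) inferInstance (Monoid.Coprod.lift N.subtype α)
    ((fun p : Fin n × N => Monoid.Coprod.inr (FreeGroup.of p.1) * Monoid.Coprod.inl p.2 *
        (Monoid.Coprod.inr (FreeGroup.of p.1))⁻¹ *
        (Monoid.Coprod.inl (cj (α (FreeGroup.of p.1)) p.2))⁻¹) '' (Set.univ ×ˢ T) ∪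
      (fun r => Monoid.Coprod.inr r *
        (Monoid.Coprod.inl (if h : α r ∈ N then (⟨α r, h⟩ : N) else 1))⁻¹) '' S)
    (((Set.finite_univ.prod hTf).image _).union (hS.image _)) (by
      rintro r (⟨p, -, rfl⟩ | ⟨r, hr, rfl⟩)
      · simp [hcj, mul_assoc]
      · simp [hαS r hr])
  obtain ⟨s, hs⟩ : ∃ s : N →* Γ, s = q.comp Monoid.Coprod.inl := ⟨_, rfl⟩
  obtain ⟨e, he⟩ : ∃ e : FreeGroup (Fin n) →* Γ, e = q.comp Monoid.Coprod.inr := ⟨_, rfl⟩
  have hπs : ∀ y, π (s y) = y := fun y => by simp [hs, hπ]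
  have hπe : ∀ x, π (e x) = α x := fun y => by simp [he, hπ]
  -- conjugation formula
  let C : Subgroup Γ :=
    { carrier := {γ | ∀ y, γ * s y * γ⁻¹ = s (cj (π γ) y)}
      one_mem' := fun y => by
        have : cj 1 y = y := Subtype.ext (by simp [hcj])
        simp [this]
      mul_mem' := fun {x y} hx hy z => by
        have : cj (π x * π y) z = cj (π x) (cj (π y) z) := Subtype.ext (by simp [hcj, mul_assoc])
        rw [map_mul, this, ← hx, ← hy]; group
      inv_mem' := fun {x} hx z => by
        have h1 := hx (cj (π x⁻¹) z)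
        have : cj (π x) (cj (π x⁻¹) z) = z := Subtype.ext (by simp [hcj, mul_assoc])
        rw [this] at h1
        rw [← h1]; group }
  have hgen : ∀ D : Subgroup Γ, (∀ y, s y ∈ D) → (∀ i, e (FreeGroup.of i) ∈ D) → ∀ γ, γ ∈ D := by
    intro D h1 h2 γ
    obtain ⟨x, rfl⟩ := hq γ
    have h3 : ∀ x, e x ∈ D := by
      intro x
      have : x ∈ D.comap e := by
        have := FreeGroup.closure_range_of (Fin n)
        refine (show (⊤ : Subgroup _) ≤ D.comap e from ?_) (Subgroup.mem_top x)
        rw [← this, Subgroup.closure_le]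
        rintro _ ⟨i, rfl⟩
        exact h2 i
      exact this
    induction x using Monoid.Coprod.induction_on with
    | inl y => simpa [hs] using h1 y
    | inr y => simpa [he] using h3 y
    | mul x y hx hy => rw [map_mul]; exact D.mul_mem hx hy
  have hC : ∀ γ, γ ∈ C := by
    refine hgen C (fun y z => ?_) fun i => ?_
    · rw [← map_mul, ← map_inv, ← map_mul]
      congr 1
      exact Subtype.ext (by simp [hcj, hπs])
    · have : (MulAut.conj (e (FreeGroup.of i))).toMonoidHom.comp s =
          s.comp (cj (π (e (FreeGroup.of i)))) := by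
        refine MonoidHom.eq_of_eqOn_dense hT fun y hy => ?_
        have := hR _ (Or.inl ⟨(i, y), ⟨trivial, hy⟩, rfl⟩)
        simp only [map_mul, map_inv, mul_inv_eq_one] at this
        rw [hπe]
        simpa [hs, he] using this
      exact fun y => DFunLike.congr_fun this y
  have hnormal : s.range.Normal := ⟨by
    rintro _ ⟨y, rfl⟩ γ
    exact ⟨_, (hC γ y).symm⟩⟩
  have hker : ψ.ker ≤ ((QuotientGroup.mk' s.range).comp e).ker := by
    rw [← hSψ]
    refine Subgroup.normalClosure_le_normal fun r hr => ?_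
    have := hR _ (Or.inr ⟨r, hr, rfl⟩)
    simp only [map_mul, map_inv, mul_inv_eq_one] at this
    simp only [SetLike.mem_coe, MonoidHom.mem_ker, MonoidHom.comp_apply, QuotientGroup.mk'_apply,
      QuotientGroup.eq_one_iff]
    exact ⟨_, by rw [hs, he]; exact this.symm⟩
  let θ : G ⧸ N →* Γ ⧸ s.range :=
    ψ.liftOfSurjective hψ ⟨(QuotientGroup.mk' s.range).comp e, hker⟩
  have hθ : ∀ x, θ (ψ x) = QuotientGroup.mk' s.range (e x) := fun x =>
    MonoidHom.liftOfRightInverse_comp_apply _ _ _ _ _
  have hθ' : ∀ γ, θ (QuotientGroup.mk' N (π γ)) = QuotientGroup.mk' s.range γ := by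
    intro γ
    refine hgen ((θ.comp ((QuotientGroup.mk' N).comp π)).eqLocus (QuotientGroup.mk' s.range))
      (fun y => ?_) (fun i => ?_) γ
    · show θ (QuotientGroup.mk' N (π (s y))) = QuotientGroup.mk' s.range (s y)
      have h1 : QuotientGroup.mk' N (y : G) = 1 := (QuotientGroup.eq_one_iff _).2 y.2
      have h2 : QuotientGroup.mk' s.range (s y) = 1 := (QuotientGroup.eq_one_iff _).2 ⟨y, rfl⟩
      rw [hπs, h1, h2, map_one]
    · show θ (QuotientGroup.mk' N (π (e _))) = QuotientGroup.mk' s.range (e _)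
      rw [hπe, hα, hθ]
  have hinj : Function.Injective π := by
    rw [injective_iff_map_eq_one]
    intro γ hγ
    have h1 := hθ' γ
    rw [hγ, map_one, map_one] at h1
    obtain ⟨y, rfl⟩ := (QuotientGroup.eq_one_iff _).1 h1.symm
    rw [hπs] at hγ
    rw [show y = 1 from Subtype.ext hγ, map_one]
  have hsurj : Function.Surjective π := by
    intro g
    obtain ⟨x, hx⟩ := hψ (QuotientGroup.mk' N g)
    rw [← hα] at hx
    have h1 : (α x)⁻¹ * g ∈ N := QuotientGroup.eq.1 hx
    exact ⟨e x * s ⟨_, h1⟩, by simp [hπe, hπs]⟩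
  exact Group.IsFinitelyPresented.equiv (MulEquiv.ofBijective π ⟨hinj, hsurj⟩)

theorem fp_prod {G H : Type} [Group G] [Group H] (hG : Group.IsFinitelyPresented G)
    (hH : Group.IsFinitelyPresented H) : Group.IsFinitelyPresented (G × H) := by
  refine fp_of_extension (MonoidHom.snd G H).ker ?_ ?_
  · refine Group.IsFinitelyPresented.equiv (G := G) (MulEquiv.ofBijective
      ((MonoidHom.inl G H).codRestrict _ fun x => MonoidHom.mem_ker.2 rfl) ⟨fun x y h => ?_, fun x => ?_⟩)
    · simpa using congrArg (fun z => z.1.1) h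
    · refine ⟨x.1.1, Subtype.ext (Prod.ext rfl ?_)⟩
      exact (MonoidHom.mem_ker.1 x.2).symm
  · exact Group.IsFinitelyPresented.equiv (G := H)
      (QuotientGroup.quotientKerEquivOfSurjective (MonoidHom.snd G H) Prod.snd_surjective).symm

theorem fp_pi {ι : Type} [Finite ι] {G : ι → Type} [∀ i, Group (G i)]
    (h : ∀ i, Group.IsFinitelyPresented (G i)) : Group.IsFinitelyPresented (∀ i, G i) := by
  revert G
  induction ι using Finite.induction_empty_option with
  | of_equiv e ih =>
    intro G _ h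
    have := ih (G := fun i => G (e i)) fun i => h _
    refine Group.IsFinitelyPresented.equiv (G := ∀ i, G (e i))
      (MulEquiv.symm { (Equiv.piCongrLeft G e).symm with map_mul' := fun x y => ?_ })
    ext i
    simp
  | h_empty => intro G _ _; infer_instance
  | h_option ih =>
    intro G _ h
    have := fp_prod (h none) (ih (G := fun i => G (some i)) fun i => h _)
    exact Group.IsFinitelyPresented.equiv (G := G none × ∀ i, G (some i))
      (MulEquiv.symm { Equiv.piOptionEquivProd with map_mul' := fun x y => rfl })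

theorem fg_of_finiteIndex {G : Type} [Group G] (K : Subgroup G) [K.FiniteIndex] (h : K.FG) :
    Group.FG G := by
  obtain ⟨S, hS, hSf⟩ := (Subgroup.fg_iff K).1 h
  have : Finite (G ⧸ K) := Subgroup.finite_quotient_of_finiteIndex
  refine Group.fg_iff.2 ⟨S ∪ Set.range (fun q : G ⧸ K => q.out), ?_,
    hSf.union (Set.finite_range _)⟩
  rw [eq_top_iff]
  intro g _
  have h1 : ((QuotientGroup.mk g : G ⧸ K).out)⁻¹ * g ∈ K := by
    rw [← QuotientGroup.eq]; simp
  have h2 : g = (QuotientGroup.mk g : G ⧸ K).out * (((QuotientGroup.mk g : G ⧸ K).out)⁻¹ * g) := by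
    group
  rw [h2]
  refine Subgroup.mul_mem _ (Subgroup.subset_closure (Or.inr ⟨_, rfl⟩)) ?_
  exact Subgroup.closure_mono Set.subset_union_left (hS.ge h1)

end Crest.Agent.R185
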