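import Mathlib

/-!
# Row 185: marked groups, presentations, certificates (definitions)
-/

set_option autoImplicit false

namespace Crest.Agent.R185

/-- Words in the letters `ι` and their inverses. -/
abbrev Word (ι : Type) : Type := List (ι × Bool)

/-- Formal inverse of a word. -/
abbrev Word.inv {ι : Type} (w : Word ι) : Word ι := FreeGroup.invRev w

/-- Evaluation of a word. -/
def evW {ι G : Type} [Group G] (z : ι → G) (w : Word ι) : G := FreeGroup.lift z (FreeGroup.mk w)

/-- Substitution of words for letters. -/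
def subst {ι ι' : Type} (σ : ι → Word ι') (w : Word ι) : Word ι' :=
  w.flatMap fun x => bif x.2 then σ x.1 else (σ x.1).inv

/-- Renaming of letters. -/
def ren {ι ι' : Type} (f : ι → ι') (w : Word ι) : Word ι' := w.map fun x => (f x.1, x.2)

section
variable {ι ι' G H : Type} [Group G] [Group H]

@[simp] theorem evW_nil (z : ι → G) : evW z [] = 1 := by
  simp [evW, ← FreeGroup.one_eq_mk]

@[simp] theorem evW_append (z : ι → G) (v w : Word ι) : evW z (v ++ w) = evW z v * evW z w := by
  simp only [evW, ← FreeGroup.mul_mk, map_mul]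

@[simp] theorem evW_inv (z : ι → G) (w : Word ι) : evW z w.inv = (evW z w)⁻¹ := by
  simp only [evW, Word.inv, ← FreeGroup.inv_mk, map_inv]

@[simp] theorem evW_true (z : ι → G) (i : ι) : evW z [(i, true)] = z i := by
  simp [evW]

@[simp] theorem evW_false (z : ι → G) (i : ι) : evW z [(i, false)] = (z i)⁻¹ := by
  simp [evW]

theorem evW_cons (z : ι → G) (x : ι × Bool) (w : Word ι) :
    evW z (x :: w) = (bif x.2 then z x.1 else (z x.1)⁻¹) * evW z w := by
  rw [← List.singleton_append, evW_append]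
  rcases x with ⟨i, _ | _⟩ <;> simp

@[simp] theorem subst_nil (σ : ι → Word ι') : subst σ [] = [] := rfl

theorem subst_cons (σ : ι → Word ι') (x : ι × Bool) (w : Word ι) :
    subst σ (x :: w) = (bif x.2 then σ x.1 else (σ x.1).inv) ++ subst σ w := by
  simp [subst]

@[simp] theorem subst_append (σ : ι → Word ι') (v w : Word ι) :
    subst σ (v ++ w) = subst σ v ++ subst σ w := by
  simp [subst]

theorem evW_subst (z : ι' → G) (σ : ι → Word ι') (w : Word ι) :
    evW z (subst σ w) = evW (fun i => evW z (σ i)) w := by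
  induction w with
  | nil => simp
  | cons x w ih =>
    rw [subst_cons, evW_append, evW_cons, ih]
    rcases x with ⟨i, _ | _⟩ <;> simp

theorem evW_ren (z : ι' → G) (f : ι → ι') (w : Word ι) :
    evW z (ren f w) = evW (fun i => z (f i)) w := by
  induction w with
  | nil => simp [ren]
  | cons x w ih =>
    have : ren f (x :: w) = (f x.1, x.2) :: ren f w := rfl
    rw [this, evW_cons, evW_cons, ih]

theorem map_evW (f : G →* H) (z : ι → G) (w : Word ι) :
    f (evW z w) = evW (fun i => f (z i)) w := by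
  induction w with
  | nil => simp
  | cons x w ih =>
    rw [evW_cons, evW_cons, map_mul, ih]
    rcases x with ⟨i, _ | _⟩ <;> simp

theorem evW_of (w : Word ι) : evW FreeGroup.of w = FreeGroup.mk w := by
  rw [evW, FreeGroup.lift_of_apply]

theorem mem_closure_range_iff (z : ι → G) (g : G) :
    g ∈ Subgroup.closure (Set.range z) ↔ ∃ w, evW z w = g := by
  rw [← FreeGroup.range_lift_eq_closure]
  constructor
  · rintro ⟨x, rfl⟩
    induction x using Quot.inductionOn with
    | h w => exact ⟨w, rfl⟩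
  · rintro ⟨w, rfl⟩
    exact ⟨_, rfl⟩

end

/-- A group with a generating family indexed by `ι`. -/
structure MG (ι : Type) where
  G : Type
  [grp : Group G]
  gen : ι → G
  surj : ∀ g, ∃ w, evW gen w = g

attribute [instance] MG.grp

namespace MG
variable {ι : Type} (X : MG ι)

/-- Evaluation of words in a marked group. -/
abbrev ev (w : Word ι) : X.G := evW X.gen w

/-- The words representing the identity. -/
def rel : Set (Word ι) := {w | X.ev w = 1}

/-- The word norm. -/
noncomputable def wn (g : X.G) : ℕ := sInf {n | ∃ w : Word ι, X.ev w = g ∧ w.length = n}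

theorem wn_le (w : Word ι) : X.wn (X.ev w) ≤ w.length := Nat.sInf_le ⟨w, rfl, rfl⟩

theorem exists_wn (g : X.G) : ∃ w : Word ι, X.ev w = g ∧ w.length = X.wn g := by
  obtain ⟨w, hw⟩ := X.surj g
  exact Nat.sInf_mem (s := {n | ∃ w : Word ι, X.ev w = g ∧ w.length = n}) ⟨_, w, hw, rfl⟩

/-- The subgroup generated by a set of words. -/
def sub (T : Set (Word ι)) : Subgroup X.G := Subgroup.closure (X.ev '' T)

end MG

/-- A seminorm on a group with values in `ℕ`. -/
structure IsSN {G : Type} [Group G] (ν : G → ℕ) : Prop where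
  one : ν 1 = 0
  mul : ∀ a b, ν (a * b) ≤ ν a + ν b
  inv : ∀ a, ν a⁻¹ = ν a

theorem MG.isSN_wn {ι : Type} (X : MG ι) : IsSN X.wn := by
  have hinv : ∀ a, X.wn a⁻¹ ≤ X.wn a := fun a => by
    obtain ⟨w, rfl, hw⟩ := X.exists_wn a
    rw [← hw, ← evW_inv]
    simpa using X.wn_le w.inv
  refine ⟨?_, fun a b => ?_, fun a => le_antisymm (hinv a) (by simpa using hinv a⁻¹)⟩
  · simpa using X.wn_le []
  · obtain ⟨v, rfl, hv⟩ := X.exists_wn a
    obtain ⟨w, rfl, hw⟩ := X.exists_wn b
    rw [← hv, ← hw, ← evW_append, ← List.length_append]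
    exact X.wn_le _

theorem IsSN.evW_le {ι G : Type} [Group G] {ν : G → ℕ} (h : IsSN ν) {z : ι → G} {c : ℕ}
    (hz : ∀ i, ν (z i) ≤ c) (w : Word ι) : ν (evW z w) ≤ c * w.length := by
  induction w with
  | nil => simp [h.one]
  | cons x w ih =>
    rw [evW_cons, List.length_cons, Nat.mul_succ]
    refine (h.mul _ _).trans ?_
    have : ν (bif x.2 then z x.1 else (z x.1)⁻¹) ≤ c := by
      rcases x with ⟨i, _ | _⟩
      · simpa [h.inv] using hz i
      · simpa using hz i
    omega

/-- The word norm is the largest seminorm which is at most `1` on the generators. -/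
theorem IsSN.le_wn {ι : Type} (X : MG ι) {ν : X.G → ℕ} (h : IsSN ν) (hz : ∀ i, ν (X.gen i) ≤ 1)
    (g : X.G) : ν g ≤ X.wn g := by
  obtain ⟨w, rfl, hw⟩ := X.exists_wn g
  simpa [hw] using h.evW_le hz w

theorem MG.wn_gen {ι : Type} (X : MG ι) (i : ι) : X.wn (X.gen i) ≤ 1 := by
  simpa using X.wn_le [(i, true)]

theorem MG.eq_one_of_wn {ι : Type} (X : MG ι) {g : X.G} (h : X.wn g = 0) : g = 1 := by
  obtain ⟨w, rfl, hw⟩ := X.exists_wn g
  rw [h, List.length_eq_zero_iff] at hw
  simp [hw]

/-- `X` is presented by the relators `T`. -/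
def Pres {ι : Type} (X : MG ι) (T : Set (Word ι)) : Prop :=
  (∀ r ∈ T, X.ev r = 1) ∧ ∀ (Z : Type) [Group Z] (z : ι → Z), (∀ r ∈ T, evW z r = 1) →
    ∀ w, X.ev w = 1 → evW z w = 1

/-- A context for certificates: worlds, base facts with their truth and size, and the worlds in
which certificates have to be complete up to a given level. -/
structure Ctx where
  Ω : Type
  F : Type
  [pc : Primcodable F]
  holds : Ω → F → Prop
  size : Ω → F → ℕ
  lim : Ω → ℕ → Prop
  lim_anti : ∀ ω m n, m ≤ n → lim ω n → lim ω m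

attribute [instance] Ctx.pc

/-- `P` can be certified by a recursively enumerable rule from finitely many base facts: soundly
in every world, and completely, with base facts of size at most `ν`, in limit worlds. -/
def Cert (𝒞 : Ctx) {α : Type} [Primcodable α] (P : 𝒞.Ω → α → Prop) (ν : 𝒞.Ω → α → ℕ) : Prop :=
  ∃ R : α × List 𝒞.F → Prop, REPred R ∧
    (∀ ω a D, R (a, D) → (∀ φ ∈ D, 𝒞.holds ω φ) → P ω a) ∧
    ∀ ω a n, 𝒞.lim ω n → ν ω a ≤ n → P ω a →
      ∃ D, R (a, D) ∧ ∀ φ ∈ D, 𝒞.holds ω φ ∧ 𝒞.size ω φ ≤ n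

/-- Rescaling of a context: `Cert (𝒞.scale c) P ν ↔ Cert 𝒞 P ((c + 1) * ν)`. -/
def Ctx.scale (𝒞 : Ctx) (c : ℕ) : Ctx where
  Ω := 𝒞.Ω
  F := 𝒞.F
  holds := 𝒞.holds
  size ω φ := (𝒞.size ω φ + c) / (c + 1)
  lim ω n := 𝒞.lim ω ((c + 1) * n)
  lim_anti ω _ _ h := 𝒞.lim_anti ω _ _ (Nat.mul_le_mul_left _ h)

/-- The trivial context: certificates are just recursively enumerable predicates. -/
def Ctx.triv : Ctx where
  Ω := Unit
  F := Unit
  holds _ _ := True
  size _ _ := 0
  lim _ _ := True
  lim_anti _ _ _ _ _ := trivial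

end Crest.Agent.R185
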