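import Crest.Agent.R185.Basic

/-!
# Row 185: recursively enumerable predicates, words, certificates
-/

set_option autoImplicit false

namespace Crest.Agent.R185

section RE
variable {α β : Type} [Primcodable α] [Primcodable β]

/-- Normal form of recursively enumerable predicates. -/
theorem cl_re_norm {p : α → Prop} (hS : REPred p) :
    ∃ R : α × ℕ → Prop, PrimrecPred R ∧ (∀ a k k', k ≤ k' → R (a, k) → R (a, k')) ∧
      ∀ a, p a ↔ ∃ k, R (a, k) := by
  unfold REPred Partrec at hS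
  obtain ⟨c, hc⟩ := Nat.Partrec.Code.exists_code.1 hS
  refine ⟨fun v => (Nat.Partrec.Code.evaln v.2 c (Encodable.encode v.1)).isSome = true,
    ?_, fun a k k' hk h => ?_, fun a => ?_⟩
  · refine Primrec.eq.comp (Primrec.option_isSome.comp ?_) (Primrec.const true)
    exact Nat.Partrec.Code.primrec_evaln.comp
      ((Primrec.snd.pair (Primrec.const c)).pair (Primrec.encode.comp Primrec.fst))
  · obtain ⟨x, hx⟩ := Option.isSome_iff_exists.1 h
    exact Option.isSome_iff_exists.2 ⟨x, Nat.Partrec.Code.evaln_mono hk hx⟩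
  · have e := congrFun hc (Encodable.encode a)
    simp only [Encodable.encodek] at e
    constructor
    · intro ha
      have : Encodable.encode () ∈ c.eval (Encodable.encode a) := by
        rw [e]; simp [ha]; exact ⟨(), rfl⟩
      obtain ⟨k, hk⟩ := Nat.Partrec.Code.evaln_complete.1 this
      exact ⟨k, Option.isSome_iff_exists.2 ⟨_, hk⟩⟩
    · rintro ⟨k, hk⟩
      obtain ⟨x, hx⟩ := Option.isSome_iff_exists.1 hk
      have := Nat.Partrec.Code.evaln_sound (show x ∈ _ from hx)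
      rw [e] at this
      simp at this
      exact this.1

theorem cl_re_of_ex {R : α × ℕ → Prop} (hR : PrimrecPred R) : REPred fun a => ∃ k, R (a, k) := by
  classical
  have h : Partrec (fun a : α => Nat.rfind fun n => Part.some (decide (R (a, n)))) :=
    Partrec.rfind hR.computablePred.decide.partrec
  refine h.dom_re.of_eq fun a => ?_
  rw [Nat.rfind_dom]
  simp

theorem cl_primrecRel_mem : PrimrecRel fun (b : α) (l : List α) => b ∈ l :=
  ((PrimrecRel.exists_mem_list (R := fun a b : α => a = b) Primrec.eq).swap).of_eq fun b l => by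
    simp [Function.swap]

theorem re_comp {p : β → Prop} (hp : REPred p) {f : α → β} (hf : Computable f) :
    REPred fun a => p (f a) := by
  exact Partrec.comp hp hf

theorem re_and {p q : α → Prop} (hp : REPred p) (hq : REPred q) : REPred fun a => p a ∧ q a := by
  obtain ⟨R, hR, mR, eR⟩ := cl_re_norm hp
  obtain ⟨S, hS, mS, eS⟩ := cl_re_norm hq
  refine (cl_re_of_ex (hR.and hS)).of_eq fun a => ?_
  rw [eR, eS]
  constructor
  · rintro ⟨k, h₁, h₂⟩
    exact ⟨⟨k, h₁⟩, ⟨k, h₂⟩⟩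
  · rintro ⟨⟨k, h₁⟩, ⟨k', h₂⟩⟩
    exact ⟨max k k', mR _ _ _ (le_max_left _ _) h₁, mS _ _ _ (le_max_right _ _) h₂⟩

theorem re_or {p q : α → Prop} (hp : REPred p) (hq : REPred q) : REPred fun a => p a ∨ q a := by
  obtain ⟨R, hR, -, eR⟩ := cl_re_norm hp
  obtain ⟨S, hS, -, eS⟩ := cl_re_norm hq
  refine (cl_re_of_ex (hR.or hS)).of_eq fun a => ?_
  rw [eR, eS, exists_or]

theorem re_exists {p : α × β → Prop} (hp : REPred p) : REPred fun a => ∃ b, p (a, b) := by
  classical
  obtain ⟨R, hR, -, eR⟩ := cl_re_norm hp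
  have h1 : Primrec fun v : α × ℕ => (Encodable.decode (α := β) v.2.unpair.1).map
      fun b => decide (R ((v.1, b), v.2.unpair.2)) := by
    refine Primrec.option_map
      (Primrec.decode.comp (Primrec.fst.comp (Primrec.unpair.comp Primrec.snd))) ?_
    exact (hR.decide.comp (((Primrec.fst.comp Primrec.fst).pair Primrec.snd).pair
      (Primrec.snd.comp (Primrec.unpair.comp (Primrec.snd.comp Primrec.fst))))).to₂
  refine (cl_re_of_ex (Primrec.eq.comp h1 (Primrec.const (some true)))).of_eq fun a => ?_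
  constructor
  · rintro ⟨k, hk⟩
    obtain ⟨b, -, hb⟩ := Option.map_eq_some_iff.1 hk
    exact ⟨b, (eR _).2 ⟨_, of_decide_eq_true hb⟩⟩
  · rintro ⟨b, hb⟩
    obtain ⟨k, hk⟩ := (eR _).1 hb
    exact ⟨Nat.pair (Encodable.encode b) k, by simp [hk]⟩

theorem re_forall_mem {p : α × β → Prop} (hp : REPred p) {g : α → List β} (hg : Computable g) :
    REPred fun a => ∀ b ∈ g a, p (a, b) := by
  obtain ⟨R, hR, mR, eR⟩ := cl_re_norm hp
  have h1 : PrimrecRel fun (b : β) (v : α × ℕ) => R ((v.1, b), v.2) :=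
    hR.comp (((Primrec.fst.comp Primrec.snd).pair Primrec.fst).pair (Primrec.snd.comp Primrec.snd))
  have h2 : PrimrecPred fun v : (α × List β) × ℕ => ∀ b ∈ v.1.2, R ((v.1.1, b), v.2) :=
    h1.forall_mem_list.comp (Primrec.snd.comp Primrec.fst)
      ((Primrec.fst.comp Primrec.fst).pair Primrec.snd)
  have h3 : REPred fun v : α × List β => ∀ b ∈ v.2, p (v.1, b) := by
    refine (cl_re_of_ex h2).of_eq fun ⟨a, l⟩ => ?_
    constructor
    · rintro ⟨k, hk⟩ b hb
      exact (eR _).2 ⟨k, hk b hb⟩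
    · intro h
      induction l with
      | nil => exact ⟨0, by simp⟩
      | cons x l ih =>
        obtain ⟨k, hk⟩ := ih fun b hb => h b (List.mem_cons_of_mem _ hb)
        obtain ⟨k', hk'⟩ := (eR _).1 (h x List.mem_cons_self)
        refine ⟨max k k', fun b hb => ?_⟩
        rcases List.mem_cons.1 hb with rfl | hb
        · exact mR _ _ _ (le_max_right _ _) hk'
        · exact mR _ _ _ (le_max_left _ _) (hk b hb)
  exact re_comp h3 (Computable.id.pair hg)

theorem re_of_primrecPred {p : α → Prop} (hp : PrimrecPred p) : REPred p :=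
  hp.computablePred.to_re

theorem re_finite {κ : Type} [Primcodable κ] [Finite κ] {p : κ → α → Prop}
    (hp : ∀ k, REPred (p k)) : REPred fun x : κ × α => p x.1 x.2 := by
  have key : ∀ l : List κ, REPred fun x : κ × α => x.1 ∈ l ∧ p x.1 x.2 := by
    intro l
    induction l with
    | nil =>
      exact (re_of_primrecPred (Primrec.eq.comp (Primrec.const (0 : ℕ))
        (Primrec.const 1))).of_eq fun x => by simp
    | cons k l ih =>
      have h1 : REPred fun x : κ × α => x.1 = k ∧ p k x.2 :=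
        re_and (re_of_primrecPred (Primrec.eq.comp Primrec.fst (Primrec.const k)))
          (re_comp (hp k) Computable.snd)
      refine (re_or h1 ih).of_eq fun x => ?_
      rw [List.mem_cons]
      constructor
      · rintro (⟨h, h'⟩ | ⟨h, h'⟩)
        · exact ⟨Or.inl h, h ▸ h'⟩
        · exact ⟨Or.inr h, h'⟩
      · rintro ⟨h | h, h'⟩
        · exact Or.inl ⟨h, h ▸ h'⟩
        · exact Or.inr ⟨h, h'⟩
  have := Fintype.ofFinite κ
  exact (key Finset.univ.toList).of_eq fun x => by simp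

/-- Derivability from a rule. -/
inductive Der {α : Type} (Rule : α × List α → Prop) : α → Prop
  | mk (a : α) (D : List α) : Rule (a, D) → (∀ b ∈ D, Der Rule b) → Der Rule a

/-- The list of all pairs (entry, rest of the list). -/
def clTails {γ : Type} (L : List γ) : List (γ × List γ) :=
  List.rec [] (fun x rest ih => (x, rest) :: ih) L

theorem cl_primrec_tails {γ : Type} [Primcodable γ] : Primrec (clTails : List γ → _) :=
  Primrec.list_rec (h := fun _ v => (v.1, v.2.1) :: v.2.2) Primrec.id (Primrec.const [])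
    (Primrec.list_cons.comp
      ((Primrec.fst.comp Primrec.snd).pair (Primrec.fst.comp (Primrec.snd.comp Primrec.snd)))
      (Primrec.snd.comp (Primrec.snd.comp Primrec.snd))).to₂

/-- A list of rule instances in which all premises are derived later in the list. -/
def clValid {γ : Type} (Rule : γ × List γ → Prop) (L : List (γ × List γ)) : Prop :=
  ∀ y ∈ clTails L, Rule y.1 ∧ ∀ b ∈ y.1.2, ∃ z ∈ y.2, z.1 = b

theorem clValid_nil {γ : Type} (Rule : γ × List γ → Prop) : clValid Rule [] := by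
  intro y hy
  simp [clTails] at hy

theorem clValid_cons {γ : Type} {Rule : γ × List γ → Prop} {x : γ × List γ}
    {L : List (γ × List γ)} :
    clValid Rule (x :: L) ↔ (Rule x ∧ ∀ b ∈ x.2, ∃ z ∈ L, z.1 = b) ∧ clValid Rule L := by
  have : clTails (x :: L) = (x, L) :: clTails L := rfl
  simp only [clValid, this, List.forall_mem_cons]

theorem clValid_append {γ : Type} {Rule : γ × List γ → Prop} {L L' : List (γ × List γ)}
    (h : clValid Rule L) (h' : clValid Rule L') : clValid Rule (L ++ L') := by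
  induction L with
  | nil => exact h'
  | cons x L ih =>
    rw [clValid_cons] at h
    rw [List.cons_append, clValid_cons]
    refine ⟨⟨h.1.1, fun b hb => ?_⟩, ih h.2⟩
    obtain ⟨z, hz, e⟩ := h.1.2 b hb
    exact ⟨z, List.mem_append_left _ hz, e⟩

theorem cl_der_iff {γ : Type} {Rule : γ × List γ → Prop} (a : γ) :
    Der Rule a ↔ ∃ L, clValid Rule L ∧ ∃ z ∈ L, z.1 = a := by
  constructor
  · intro h
    induction h with
    | mk a D hR _ ih =>
      have key : ∀ D' : List γ, (∀ b ∈ D', ∃ L, clValid Rule L ∧ ∃ z ∈ L, z.1 = b) →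
          ∃ L, clValid Rule L ∧ ∀ b ∈ D', ∃ z ∈ L, z.1 = b := by
        intro D'
        induction D' with
        | nil => exact fun _ => ⟨[], clValid_nil _, by simp⟩
        | cons x D' ih' =>
          intro h
          obtain ⟨L, hL, hL'⟩ := ih' fun b hb => h b (List.mem_cons_of_mem _ hb)
          obtain ⟨M, hM, z, hz, e⟩ := h x List.mem_cons_self
          refine ⟨M ++ L, clValid_append hM hL, fun b hb => ?_⟩
          rcases List.mem_cons.1 hb with rfl | hb
          · exact ⟨z, List.mem_append_left _ hz, e⟩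
          · obtain ⟨z', hz', e'⟩ := hL' b hb
            exact ⟨z', List.mem_append_right _ hz', e'⟩
      obtain ⟨L, hL, hL'⟩ := key D ih
      exact ⟨(a, D) :: L, clValid_cons.2 ⟨⟨hR, hL'⟩, hL⟩, _, List.mem_cons_self, rfl⟩
  · rintro ⟨L, hL, z, hz, rfl⟩
    induction L generalizing z with
    | nil => simp at hz
    | cons x L ih =>
      rw [clValid_cons] at hL
      rcases List.mem_cons.1 hz with rfl | hz
      · refine Der.mk z.1 z.2 hL.1.1 fun b hb => ?_
        obtain ⟨y, hy, rfl⟩ := hL.1.2 b hb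
        exact ih hL.2 y hy
      · exact ih hL.2 z hz

theorem re_der {Rule : α × List α → Prop} (h : REPred Rule) : REPred (Der Rule) := by
  have h0 : PrimrecRel fun (L : List (α × List α)) (b : α) => ∃ z ∈ L, z.1 = b :=
    PrimrecRel.exists_mem_list (R := fun (z : α × List α) (b : α) => z.1 = b)
      (Primrec.eq.comp (Primrec.fst.comp Primrec.fst) Primrec.snd)
  have h1 : PrimrecPred fun y : (α × List α) × List (α × List α) =>
      ∀ b ∈ y.1.2, ∃ z ∈ y.2, z.1 = b :=
    (PrimrecRel.forall_mem_list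
      (R := fun (b : α) (L : List (α × List α)) => ∃ z ∈ L, z.1 = b) h0.swap).comp
      (Primrec.snd.comp Primrec.fst) Primrec.snd
  have h2 : REPred fun y : (α × List α) × List (α × List α) =>
      Rule y.1 ∧ ∀ b ∈ y.1.2, ∃ z ∈ y.2, z.1 = b :=
    re_and (re_comp h Computable.fst) (re_of_primrecPred h1)
  have h3 : REPred (clValid Rule) :=
    re_forall_mem (p := fun v : List (α × List α) × ((α × List α) × List (α × List α)) =>
      Rule v.2.1 ∧ ∀ b ∈ v.2.1.2, ∃ z ∈ v.2.2, z.1 = b) (re_comp h2 Computable.snd)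
      cl_primrec_tails.to_comp
  have h4 : REPred fun v : α × List (α × List α) => clValid Rule v.2 ∧ ∃ z ∈ v.2, z.1 = v.1 :=
    re_and (re_comp h3 Computable.snd) (re_of_primrecPred (h0.comp Primrec.snd Primrec.fst))
  exact (re_exists h4).of_eq fun a => (cl_der_iff a).symm

end RE

section Words
variable {ι ι' β : Type} [Primcodable ι] [Primcodable ι'] [Primcodable β]

theorem primrec_inv : Primrec (Word.inv : Word ι → Word ι) := by
  exact Primrec.list_reverse.comp (Primrec.list_map Primrec.id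
    ((Primrec.fst.comp Primrec.snd).pair (Primrec.not.comp (Primrec.snd.comp Primrec.snd))).to₂)

theorem primrec_ren {f : ι → ι'} (hf : Primrec f) : Primrec (ren f) := by
  exact Primrec.list_map Primrec.id
    ((hf.comp (Primrec.fst.comp Primrec.snd)).pair (Primrec.snd.comp Primrec.snd)).to₂

theorem primrec_subst₂ {σ : β → ι → Word ι'} (hσ : Primrec₂ σ) :
    Primrec₂ fun b w => subst (σ b) w := by
  have h1 : Primrec fun v : (β × Word ι) × (ι × Bool) => σ v.1.1 v.2.1 :=
    hσ.comp (Primrec.fst.comp Primrec.fst) (Primrec.fst.comp Primrec.snd)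
  exact Primrec.list_flatMap Primrec.snd
    (Primrec.cond (Primrec.snd.comp Primrec.snd) h1 (primrec_inv.comp h1)).to₂

theorem primrec_subst [Finite ι] (σ : ι → Word ι') : Primrec (subst σ) := by
  have h : Primrec₂ fun (_ : Unit) (i : ι) => σ i := ((Primrec.dom_finite σ).comp Primrec.snd).to₂
  exact (primrec_subst₂ h).comp (Primrec.const ()) Primrec.id

theorem cl_primrec_reduce [DecidableEq ι] : Primrec (FreeGroup.reduce : Word ι → Word ι) := by
  have h1 : Primrec₂ fun (x : ι × Bool) (ih : Word ι) => (List.casesOn ih [x] fun hd2 tl2 =>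
      if x.1 = hd2.1 ∧ x.2 = not hd2.2 then tl2 else x :: hd2 :: tl2 : Word ι) := by
    refine Primrec.list_casesOn (α := (ι × Bool) × Word ι) (f := fun v => v.2) (g := fun v => [v.1])
      (h := fun v y => if v.1.1 = y.1.1 ∧ v.1.2 = not y.1.2 then y.2 else v.1 :: y.1 :: y.2)
      Primrec.snd (Primrec.list_cons.comp Primrec.fst (Primrec.const [])) ?_
    refine Primrec.ite (PrimrecPred.and ?_ ?_) (Primrec.snd.comp Primrec.snd) ?_
    · exact Primrec.eq.comp (Primrec.fst.comp (Primrec.fst.comp Primrec.fst))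
        (Primrec.fst.comp (Primrec.fst.comp Primrec.snd))
    · exact Primrec.eq.comp (Primrec.snd.comp (Primrec.fst.comp Primrec.fst))
        (Primrec.not.comp (Primrec.snd.comp (Primrec.fst.comp Primrec.snd)))
    · exact Primrec.list_cons.comp (Primrec.fst.comp Primrec.fst)
        (Primrec.list_cons.comp (Primrec.fst.comp Primrec.snd) (Primrec.snd.comp Primrec.snd))
  exact Primrec.list_rec (α := Word ι) (f := id) (g := fun _ => ([] : Word ι))
    (h := fun _ v => (List.casesOn v.2.2 [v.1] fun hd2 tl2 =>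
      if v.1.1 = hd2.1 ∧ v.1.2 = not hd2.2 then tl2 else v.1 :: hd2 :: tl2 : Word ι))
    Primrec.id (Primrec.const [])
    (h1.comp (Primrec.fst.comp Primrec.snd) (Primrec.snd.comp (Primrec.snd.comp Primrec.snd))).to₂

theorem primrecPred_mk_eq : PrimrecPred fun p : Word ι × Word ι =>
    FreeGroup.mk p.1 = FreeGroup.mk p.2 := by
  classical
  exact (Primrec.eq.comp (cl_primrec_reduce.comp Primrec.fst)
    (cl_primrec_reduce.comp Primrec.snd)).of_eq fun p =>
      ⟨FreeGroup.reduce.exact, FreeGroup.reduce.sound⟩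

theorem primrec_reduce [DecidableEq ι] : Primrec (FreeGroup.reduce : Word ι → Word ι) := by
  exact cl_primrec_reduce

theorem exists_allWords [Finite ι] : ∃ g : ℕ → List (Word ι), Primrec g ∧
    ∀ n w, w ∈ g n ↔ w.length ≤ n := by
  have := Fintype.ofFinite ι
  let A : List (ι × Bool) := Finset.univ.toList
  have hA : ∀ x, x ∈ A := fun x => by simp [A]
  refine ⟨Nat.rec [[]] fun _ ih => [] :: A.flatMap fun x => ih.map fun w => x :: w, ?_, ?_⟩
  · refine Primrec.nat_rec₁ _ ?_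
    refine Primrec.list_cons.comp (Primrec.const []) (Primrec.list_flatMap (Primrec.const A) ?_)
    exact Primrec.list_map (Primrec.snd.comp Primrec.fst)
      (Primrec.list_cons.comp (Primrec.snd.comp Primrec.fst) Primrec.snd).to₂
  · intro n
    induction n with
    | zero => intro w; simp
    | succ n ih =>
      intro w
      simp only [List.mem_cons, List.mem_flatMap, List.mem_map]
      constructor
      · rintro (rfl | ⟨x, -, v, hv, rfl⟩)
        · simp
        · simpa using (ih v).1 hv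
      · intro h
        rcases w with _ | ⟨x, v⟩
        · exact Or.inl rfl
        · exact Or.inr ⟨x, hA x, v, (ih v).2 (by simpa using h), rfl⟩

end Words

namespace Cert
variable {𝒞 : Ctx} {α β : Type} [Primcodable α] [Primcodable β]

theorem of_re {p : α → Prop} (hp : REPred p) (ν : 𝒞.Ω → α → ℕ) : Cert 𝒞 (fun _ a => p a) ν := by
  exact ⟨fun v => p v.1, re_comp hp Computable.fst, fun _ _ _ h _ => h,
    fun _ _ _ _ _ h => ⟨[], h, by simp⟩⟩

theorem base (𝒞 : Ctx) : Cert 𝒞 𝒞.holds 𝒞.size := by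
  refine ⟨fun v => v.1 ∈ v.2, re_of_primrecPred cl_primrecRel_mem, fun _ _ _ h hD => hD _ h,
    fun _ a _ _ h₁ h₂ => ⟨[a], List.mem_singleton_self a, fun φ hφ => ?_⟩⟩
  rw [List.mem_singleton] at hφ
  subst hφ
  exact ⟨h₂, h₁⟩

theorem congr {P Q : 𝒞.Ω → α → Prop} {ν ν' : 𝒞.Ω → α → ℕ} (h : Cert 𝒞 Q ν)
    (h₁ : ∀ ω a, Q ω a → P ω a)
    (h₂ : ∀ ω a n, 𝒞.lim ω n → ν' ω a ≤ n → P ω a → Q ω a ∧ ν ω a ≤ n) : Cert 𝒞 P ν' := by
  obtain ⟨R, hR, s, c⟩ := h
  refine ⟨R, hR, fun ω a D h hD => h₁ _ _ (s ω a D h hD), fun ω a n hl hν hP => ?_⟩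
  obtain ⟨hQ, hν'⟩ := h₂ ω a n hl hν hP
  exact c ω a n hl hν' hQ

theorem mono {P : 𝒞.Ω → α → Prop} {ν ν' : 𝒞.Ω → α → ℕ} (h : Cert 𝒞 P ν)
    (hν : ∀ ω a, P ω a → ν ω a ≤ ν' ω a) : Cert 𝒞 P ν' :=
  h.congr (fun _ _ h => h) fun ω a _ _ h₂ h₃ => ⟨h₃, (hν ω a h₃).trans h₂⟩

theorem comp {P : 𝒞.Ω → β → Prop} {ν : 𝒞.Ω → β → ℕ} (h : Cert 𝒞 P ν) {f : α → β}
    (hf : Computable f) : Cert 𝒞 (fun ω a => P ω (f a)) fun ω a => ν ω (f a) := by
  obtain ⟨R, hR, s, c⟩ := h
  exact ⟨fun v => R (f v.1, v.2), re_comp hR ((hf.comp Computable.fst).pair Computable.snd),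
    fun ω a D h hD => s ω _ D h hD, fun ω a n hl hν hP => c ω _ n hl hν hP⟩

theorem and {P Q : 𝒞.Ω → α → Prop} {ν ν' : 𝒞.Ω → α → ℕ} (hP : Cert 𝒞 P ν) (hQ : Cert 𝒞 Q ν') :
    Cert 𝒞 (fun ω a => P ω a ∧ Q ω a) fun ω a => max (ν ω a) (ν' ω a) := by
  obtain ⟨R, hR, s, c⟩ := hP
  obtain ⟨R', hR', s', c'⟩ := hQ
  have h1 : REPred fun v : (α × List 𝒞.F) × (List 𝒞.F × List 𝒞.F) =>
      (R (v.1.1, v.2.1) ∧ R' (v.1.1, v.2.2)) ∧ v.1.2 = v.2.1 ++ v.2.2 := by
    refine re_and (re_and (re_comp hR ?_) (re_comp hR' ?_)) (re_of_primrecPred ?_)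
    · exact ((Primrec.fst.comp Primrec.fst).pair (Primrec.fst.comp Primrec.snd)).to_comp
    · exact ((Primrec.fst.comp Primrec.fst).pair (Primrec.snd.comp Primrec.snd)).to_comp
    · exact Primrec.eq.comp (Primrec.snd.comp Primrec.fst)
        (Primrec.list_append.comp (Primrec.fst.comp Primrec.snd) (Primrec.snd.comp Primrec.snd))
  refine ⟨_, re_exists h1, ?_, fun ω a n hl hν hP => ?_⟩
  · rintro ω a D ⟨⟨D₁, D₂⟩, ⟨h₁, h₂⟩, e⟩ hD
    dsimp only at h₁ h₂ e
    subst e
    exact ⟨s ω a D₁ h₁ fun φ hφ => hD φ (List.mem_append_left _ hφ),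
      s' ω a D₂ h₂ fun φ hφ => hD φ (List.mem_append_right _ hφ)⟩
  · obtain ⟨D₁, h₁, hD₁⟩ := c ω a n hl ((le_max_left _ _).trans hν) hP.1
    obtain ⟨D₂, h₂, hD₂⟩ := c' ω a n hl ((le_max_right _ _).trans hν) hP.2
    refine ⟨D₁ ++ D₂, ⟨(D₁, D₂), ⟨h₁, h₂⟩, rfl⟩, fun φ hφ => ?_⟩
    rcases List.mem_append.1 hφ with h | h
    · exact hD₁ φ h
    · exact hD₂ φ h

theorem or {P Q : 𝒞.Ω → α → Prop} {ν ν' : 𝒞.Ω → α → ℕ} (hP : Cert 𝒞 P ν) (hQ : Cert 𝒞 Q ν') :
    Cert 𝒞 (fun ω a => P ω a ∨ Q ω a) fun ω a => max (ν ω a) (ν' ω a) := by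
  obtain ⟨R, hR, s, c⟩ := hP
  obtain ⟨R', hR', s', c'⟩ := hQ
  refine ⟨_, re_or hR hR', ?_, fun ω a n hl hν hP => ?_⟩
  · rintro ω a D (h | h) hD
    · exact Or.inl (s ω a D h hD)
    · exact Or.inr (s' ω a D h hD)
  · rcases hP with hP | hP
    · obtain ⟨D, h, hD⟩ := c ω a n hl ((le_max_left _ _).trans hν) hP
      exact ⟨D, Or.inl h, hD⟩
    · obtain ⟨D, h, hD⟩ := c' ω a n hl ((le_max_right _ _).trans hν) hP
      exact ⟨D, Or.inr h, hD⟩

/-- Guessing a witness.  This is the workhorse: `P` follows from `Q` with any witness, and in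
limit worlds a small witness exists. -/
theorem guess {Q : 𝒞.Ω → α × β → Prop} {ν : 𝒞.Ω → α × β → ℕ} (h : Cert 𝒞 Q ν)
    {P : 𝒞.Ω → α → Prop} {ν' : 𝒞.Ω → α → ℕ} (h₁ : ∀ ω a b, Q ω (a, b) → P ω a)
    (h₂ : ∀ ω a n, 𝒞.lim ω n → ν' ω a ≤ n → P ω a → ∃ b, Q ω (a, b) ∧ ν ω (a, b) ≤ n) :
    Cert 𝒞 P ν' := by
  obtain ⟨R, hR, s, c⟩ := h
  have h1 : REPred fun v : (α × List 𝒞.F) × β => R ((v.1.1, v.2), v.1.2) :=
    re_comp hR (((Primrec.fst.comp Primrec.fst).pair Primrec.snd).pair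
      (Primrec.snd.comp Primrec.fst)).to_comp
  refine ⟨_, re_exists h1, ?_, fun ω a n hl hν hP => ?_⟩
  · rintro ω a D ⟨b, hb⟩ hD
    exact h₁ ω a b (s ω _ D hb hD)
  · obtain ⟨b, hQ, hb⟩ := h₂ ω a n hl hν hP
    obtain ⟨D, h, hD⟩ := c ω _ n hl hb hQ
    exact ⟨D, ⟨b, h⟩, hD⟩

theorem forall_mem {Q : 𝒞.Ω → α × β → Prop} {ν : 𝒞.Ω → α × β → ℕ} (h : Cert 𝒞 Q ν)
    {g : α → List β} (hg : Computable g) {ν' : 𝒞.Ω → α → ℕ}
    (hν : ∀ ω a, (∀ b ∈ g a, Q ω (a, b)) → ∀ b ∈ g a, ν ω (a, b) ≤ ν' ω a) :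
    Cert 𝒞 (fun ω a => ∀ b ∈ g a, Q ω (a, b)) ν' := by
  obtain ⟨R, hR, s, c⟩ := h
  have h0 : PrimrecRel fun (D' D : List 𝒞.F) => ∀ φ ∈ D', φ ∈ D :=
    PrimrecRel.forall_mem_list cl_primrecRel_mem
  have h1 : REPred fun v : ((α × List 𝒞.F) × β) × List 𝒞.F =>
      R ((v.1.1.1, v.1.2), v.2) ∧ ∀ φ ∈ v.2, φ ∈ v.1.1.2 := by
    refine re_and (re_comp hR ?_) (re_of_primrecPred ?_)
    · exact (((Primrec.fst.comp (Primrec.fst.comp Primrec.fst)).pair
        (Primrec.snd.comp Primrec.fst)).pair Primrec.snd).to_comp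
    · exact h0.comp Primrec.snd (Primrec.snd.comp (Primrec.fst.comp Primrec.fst))
  refine ⟨_, re_forall_mem (re_exists h1) (hg.comp Computable.fst), ?_,
    fun ω a n hl hν' hP => ?_⟩
  · intro ω a D h hD b hb
    obtain ⟨D', h', hD'⟩ := h b hb
    exact s ω _ D' h' fun φ hφ => hD φ (hD' φ hφ)
  · have key : ∀ l : List β, (∀ b ∈ l, b ∈ g a) → ∃ D : List 𝒞.F,
        (∀ b ∈ l, ∃ D', R ((a, b), D') ∧ ∀ φ ∈ D', φ ∈ D) ∧
          ∀ φ ∈ D, 𝒞.holds ω φ ∧ 𝒞.size ω φ ≤ n := by
      intro l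
      induction l with
      | nil => exact fun _ => ⟨[], by simp, by simp⟩
      | cons x l ih =>
        intro hl'
        obtain ⟨D, hD, hD'⟩ := ih fun b hb => hl' b (List.mem_cons_of_mem _ hb)
        have hx := hl' x List.mem_cons_self
        obtain ⟨E, hE, hE'⟩ := c ω (a, x) n hl ((hν ω a hP x hx).trans hν') (hP x hx)
        refine ⟨E ++ D, fun b hb => ?_, fun φ hφ => ?_⟩
        · rcases List.mem_cons.1 hb with rfl | hb
          · exact ⟨E, hE, fun φ hφ => List.mem_append_left _ hφ⟩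
          · obtain ⟨D', h', hD''⟩ := hD b hb
            exact ⟨D', h', fun φ hφ => List.mem_append_right _ (hD'' φ hφ)⟩
        · rcases List.mem_append.1 hφ with h | h
          · exact hE' φ h
          · exact hD' φ h
    exact key (g a) fun _ h => h

theorem finite {κ : Type} [Primcodable κ] [Finite κ] {P : κ → 𝒞.Ω → α → Prop}
    {ν : κ → 𝒞.Ω → α → ℕ} (h : ∀ k, Cert 𝒞 (P k) (ν k)) :
    Cert 𝒞 (fun ω (x : κ × α) => P x.1 ω x.2) fun ω x => ν x.1 ω x.2 := by
  choose R hR s c using h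
  have h1 : REPred fun v : (κ × α) × List 𝒞.F => R v.1.1 (v.1.2, v.2) :=
    re_comp (re_finite hR) (f := fun v : (κ × α) × List 𝒞.F => (v.1.1, (v.1.2, v.2)))
      ((Primrec.fst.comp Primrec.fst).pair
        ((Primrec.snd.comp Primrec.fst).pair Primrec.snd)).to_comp
  exact ⟨_, h1, fun ω x D h hD => s x.1 ω x.2 D h hD,
    fun ω x n hl hν hP => c x.1 ω x.2 n hl hν hP⟩

theorem scale_iff (c : ℕ) {P : 𝒞.Ω → α → Prop} {ν : 𝒞.Ω → α → ℕ} :
    Cert (𝒞.scale c) P ν ↔ Cert 𝒞 P fun ω a => (c + 1) * ν ω a := by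
  have key : ∀ s n : ℕ, (s + c) / (c + 1) ≤ n ↔ s ≤ (c + 1) * n := fun s n => by
    rw [← Nat.lt_succ_iff, Nat.div_lt_iff_lt_mul (Nat.succ_pos c)]
    constructor <;> intro h <;> nlinarith
  constructor
  · rintro ⟨R, hR, s, k⟩
    refine ⟨R, hR, s, fun ω a n hl hν hP => ?_⟩
    obtain ⟨D, h, hD⟩ := k ω a (ν ω a) (𝒞.lim_anti ω _ _ hν hl) le_rfl hP
    exact ⟨D, h, fun φ hφ => ⟨(hD φ hφ).1, ((key _ _).1 (hD φ hφ).2).trans hν⟩⟩
  · rintro ⟨R, hR, s, k⟩
    refine ⟨R, hR, s, fun ω a n hl hν hP => ?_⟩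
    obtain ⟨D, h, hD⟩ := k ω a ((c + 1) * n) hl (Nat.mul_le_mul_left _ hν) hP
    exact ⟨D, h, fun φ hφ => ⟨(hD φ hφ).1, (key _ _).2 (hD φ hφ).2⟩⟩

theorem triv_iff {p : α → Prop} {ν : Unit → α → ℕ} :
    Cert Ctx.triv (fun _ a => p a) ν ↔ REPred p := by
  refine ⟨?_, fun h => of_re h _⟩
  rintro ⟨R, hR, s, k⟩
  refine (re_exists hR).of_eq fun a => ⟨?_, fun h => ?_⟩
  · rintro ⟨D, hD⟩
    exact s () a D hD fun _ _ => trivial
  · obtain ⟨D, hD, -⟩ := k () a _ trivial le_rfl h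
    exact ⟨D, hD⟩

end Cert

section Positive
variable {𝒞 : Ctx} {ι : Type} [Primcodable ι]

/-- A product of conjugates of words and their inverses. -/
def clConjProd {ι : Type} (L : List (Word ι × Word ι × Bool)) : Word ι :=
  L.flatMap fun x => x.1 ++ (bif x.2.2 then x.2.1 else x.2.1.inv) ++ x.1.inv

/-- A product of words and their inverses. -/
def clProd {ι : Type} (L : List (Word ι × Bool)) : Word ι :=
  L.flatMap fun x => bif x.2 then x.1 else x.1.inv

theorem cl_primrec_conjProd : Primrec (clConjProd : List (Word ι × Word ι × Bool) → Word ι) := by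
  have h1 : Primrec fun v : List (Word ι × Word ι × Bool) × (Word ι × Word ι × Bool) => v.2.2.1 :=
    Primrec.fst.comp (Primrec.snd.comp Primrec.snd)
  exact Primrec.list_flatMap Primrec.id (Primrec.list_append.comp
    (Primrec.list_append.comp (Primrec.fst.comp Primrec.snd)
      (Primrec.cond (Primrec.snd.comp (Primrec.snd.comp Primrec.snd)) h1 (primrec_inv.comp h1)))
    (primrec_inv.comp (Primrec.fst.comp Primrec.snd))).to₂

theorem cl_primrec_prod : Primrec (clProd : List (Word ι × Bool) → Word ι) := by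
  have h1 : Primrec fun v : List (Word ι × Bool) × (Word ι × Bool) => v.2.1 :=
    Primrec.fst.comp Primrec.snd
  exact Primrec.list_flatMap Primrec.id
    (Primrec.cond (Primrec.snd.comp Primrec.snd) h1 (primrec_inv.comp h1)).to₂

theorem cl_evW_conjProd {κ G : Type} [Group G] (z : κ → G) (L : List (Word κ × Word κ × Bool)) :
    evW z (clConjProd L) = (L.map fun x => evW z x.1 *
      (bif x.2.2 then evW z x.2.1 else (evW z x.2.1)⁻¹) * (evW z x.1)⁻¹).prod := by
  induction L with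
  | nil => simp [clConjProd]
  | cons x L ih =>
    have : clConjProd (x :: L) =
      (x.1 ++ (bif x.2.2 then x.2.1 else x.2.1.inv) ++ x.1.inv) ++ clConjProd L := rfl
    rw [this, evW_append, ih, List.map_cons, List.prod_cons]
    rcases x with ⟨a, b, _ | _⟩ <;> simp [mul_assoc]

theorem cl_evW_prod {κ G : Type} [Group G] (z : κ → G) (L : List (Word κ × Bool)) :
    evW z (clProd L) = (L.map fun x => bif x.2 then evW z x.1 else (evW z x.1)⁻¹).prod := by
  induction L with
  | nil => simp [clProd]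
  | cons x L ih =>
    have : clProd (x :: L) = (bif x.2 then x.1 else x.1.inv) ++ clProd L := rfl
    rw [this, evW_append, ih, List.map_cons, List.prod_cons]
    rcases x with ⟨a, _ | _⟩ <;> simp

theorem cl_mem_closure_iff {κ G : Type} [Group G] (z : κ → G) (T : Set (Word κ)) (g : G) :
    g ∈ Subgroup.closure (evW z '' T) ↔
      ∃ L : List (Word κ × Bool), (∀ x ∈ L, x.1 ∈ T) ∧ evW z (clProd L) = g := by
  constructor
  · intro hg
    induction hg using Subgroup.closure_induction'' with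
    | mem x hx =>
      obtain ⟨r, hr, rfl⟩ := hx
      exact ⟨[(r, true)], by simpa using hr, by simp [cl_evW_prod]⟩
    | inv_mem x hx =>
      obtain ⟨r, hr, rfl⟩ := hx
      exact ⟨[(r, false)], by simpa using hr, by simp [cl_evW_prod]⟩
    | one => exact ⟨[], by simp, by simp [cl_evW_prod]⟩
    | mul x y _ _ hx hy =>
      obtain ⟨L, hL, rfl⟩ := hx
      obtain ⟨M, hM, rfl⟩ := hy
      refine ⟨L ++ M, fun x hx => (List.mem_append.1 hx).elim (hL x) (hM x), ?_⟩
      simp [cl_evW_prod]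
  · rintro ⟨L, hL, rfl⟩
    rw [cl_evW_prod]
    refine Subgroup.list_prod_mem _ fun g hg => ?_
    obtain ⟨x, hx, rfl⟩ := List.mem_map.1 hg
    have : evW z x.1 ∈ Subgroup.closure (evW z '' T) := Subgroup.subset_closure ⟨_, hL x hx, rfl⟩
    rcases x with ⟨a, _ | _⟩
    · exact Subgroup.inv_mem _ this
    · exact this

theorem cl_eq_one_iff {κ : Type} {X : MG κ} {T : Set (Word κ)} (h : Pres X T) (w : Word κ) :
    X.ev w = 1 ↔ ∃ L : List (Word κ × Word κ × Bool), (∀ x ∈ L, x.2.1 ∈ T) ∧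
      FreeGroup.mk w = FreeGroup.mk (clConjProd L) := by
  constructor
  · intro hw
    let N : Subgroup (FreeGroup κ) := Subgroup.normalClosure (FreeGroup.mk '' T)
    have e : ∀ v : Word κ, evW (fun i => (QuotientGroup.mk' N) (FreeGroup.of i)) v =
        QuotientGroup.mk' N (FreeGroup.mk v) := fun v => by
      rw [← map_evW, evW_of]
    have h1 := h.2 (FreeGroup κ ⧸ N) (fun i => (QuotientGroup.mk' N) (FreeGroup.of i))
      (fun r hr => by
        rw [e, QuotientGroup.mk'_apply, QuotientGroup.eq_one_iff]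
        exact Subgroup.subset_normalClosure ⟨r, hr, rfl⟩) w hw
    rw [e, QuotientGroup.mk'_apply, QuotientGroup.eq_one_iff] at h1
    generalize FreeGroup.mk w = g at h1
    have conj : ∀ x ∈ Group.conjugatesOfSet (FreeGroup.mk '' T), ∃ c r : Word κ, r ∈ T ∧
        x = FreeGroup.mk c * FreeGroup.mk r * (FreeGroup.mk c)⁻¹ := by
      intro x hx
      obtain ⟨a, ⟨r, hr, rfl⟩, hc⟩ := Group.mem_conjugatesOfSet_iff.1 hx
      obtain ⟨c, rfl⟩ := isConj_iff.1 hc
      induction c using Quot.inductionOn with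
      | h c => exact ⟨c, r, hr, rfl⟩
    induction h1 using Subgroup.closure_induction'' with
    | mem x hx =>
      obtain ⟨c, r, hr, rfl⟩ := conj x hx
      refine ⟨[(c, r, true)], by simpa using hr, ?_⟩
      rw [← evW_of (clConjProd _), cl_evW_conjProd]
      simp [evW_of]
    | inv_mem x hx =>
      obtain ⟨c, r, hr, rfl⟩ := conj x hx
      refine ⟨[(c, r, false)], by simpa using hr, ?_⟩
      rw [← evW_of (clConjProd _), cl_evW_conjProd]
      simp [evW_of, mul_assoc]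
    | one => exact ⟨[], by simp, rfl⟩
    | mul x y _ _ hx hy =>
      obtain ⟨L, hL, rfl⟩ := hx
      obtain ⟨M, hM, rfl⟩ := hy
      refine ⟨L ++ M, fun x hx => (List.mem_append.1 hx).elim (hL x) (hM x), ?_⟩
      simp [clConjProd]
  · rintro ⟨L, hL, e⟩
    have : X.ev w = X.ev (clConjProd L) := by
      simp only [MG.ev, evW, e]
    rw [this, MG.ev, cl_evW_conjProd]
    refine List.prod_eq_one fun g hg => ?_
    obtain ⟨x, hx, rfl⟩ := List.mem_map.1 hg
    have h1 : evW X.gen x.2.1 = 1 := h.1 _ (hL x hx)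
    rcases x with ⟨a, b, _ | _⟩ <;> simp_all

/-- Equality of words is certified from a presentation. -/
theorem cert_eq_of_pres (X : 𝒞.Ω → MG ι) (T : 𝒞.Ω → Set (Word ι)) (h : ∀ ω, Pres (X ω) (T ω))
    (hT : Cert 𝒞 (fun ω r => r ∈ T ω) fun _ _ => 0) :
    Cert 𝒞 (fun ω w => (X ω).ev w = 1) fun _ _ => 0 := by
  have h1 : Cert 𝒞 (fun ω (v : Word ι × List (Word ι × Word ι × Bool)) =>
      ∀ x ∈ v.2, x.2.1 ∈ T ω) fun _ _ => 0 :=
    (hT.comp (f := fun u : (Word ι × List (Word ι × Word ι × Bool)) × (Word ι × Word ι × Bool) =>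
      u.2.2.1) (Primrec.fst.comp (Primrec.snd.comp Primrec.snd)).to_comp).forall_mem
      Computable.snd fun _ _ _ _ _ => le_rfl
  have h2 : Cert 𝒞 (fun _ (v : Word ι × List (Word ι × Word ι × Bool)) =>
      FreeGroup.mk v.1 = FreeGroup.mk (clConjProd v.2)) fun _ _ => 0 :=
    Cert.of_re (re_of_primrecPred (primrecPred_mk_eq.comp
      (Primrec.fst.pair (cl_primrec_conjProd.comp Primrec.snd)))) _
  refine (h1.and h2).guess (fun ω w L hL => (cl_eq_one_iff (h ω) w).2 ⟨L, hL⟩)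
    fun ω w n _ _ hw => ?_
  obtain ⟨L, hL⟩ := (cl_eq_one_iff (h ω) w).1 hw
  exact ⟨L, hL, by simp⟩

theorem cl_cert_eq₂ (X : 𝒞.Ω → MG ι) (hE : Cert 𝒞 (fun ω w => (X ω).ev w = 1) fun _ _ => 0) :
    Cert 𝒞 (fun ω (p : Word ι × Word ι) => (X ω).ev p.1 = (X ω).ev p.2) fun _ _ => 0 := by
  refine (hE.comp (f := fun p : Word ι × Word ι => p.1 ++ p.2.inv)
    (Primrec.list_append.comp Primrec.fst (primrec_inv.comp Primrec.snd)).to_comp).congr
    (fun ω p h => ?_) fun ω p n _ _ h => ⟨?_, Nat.zero_le _⟩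
  · simpa [MG.ev, mul_inv_eq_one] using h
  · simpa [MG.ev, mul_inv_eq_one] using h

/-- Membership in a subgroup is certified from generators. -/
theorem cert_mem_sub (X : 𝒞.Ω → MG ι) (T : 𝒞.Ω → Set (Word ι))
    (hE : Cert 𝒞 (fun ω w => (X ω).ev w = 1) fun _ _ => 0)
    (hT : Cert 𝒞 (fun ω r => r ∈ T ω) fun _ _ => 0) :
    Cert 𝒞 (fun ω w => (X ω).ev w ∈ (X ω).sub (T ω)) fun _ _ => 0 := by
  have h1 : Cert 𝒞 (fun ω (v : Word ι × List (Word ι × Bool)) =>
      ∀ x ∈ v.2, x.1 ∈ T ω) fun _ _ => 0 :=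
    (hT.comp (f := fun u : (Word ι × List (Word ι × Bool)) × (Word ι × Bool) => u.2.1)
      (Primrec.fst.comp Primrec.snd).to_comp).forall_mem
      Computable.snd fun _ _ _ _ _ => le_rfl
  have h2 : Cert 𝒞 (fun ω (v : Word ι × List (Word ι × Bool)) =>
      (X ω).ev (clProd v.2) = (X ω).ev v.1) fun _ _ => 0 :=
    (cl_cert_eq₂ X hE).comp (f := fun v : Word ι × List (Word ι × Bool) => (clProd v.2, v.1))
      ((cl_primrec_prod.comp Primrec.snd).pair Primrec.fst).to_comp
  refine (h1.and h2).guess (fun ω w L hL => (cl_mem_closure_iff _ _ _).2 ⟨L, hL⟩)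
    fun ω w n _ _ hw => ?_
  obtain ⟨L, hL⟩ := (cl_mem_closure_iff _ _ _).1 hw
  exact ⟨L, hL, by simp⟩

theorem cert_eq₂ (X : 𝒞.Ω → MG ι) (hE : Cert 𝒞 (fun ω w => (X ω).ev w = 1) fun _ _ => 0) :
    Cert 𝒞 (fun ω (p : Word ι × Word ι) => (X ω).ev p.1 = (X ω).ev p.2) fun _ _ => 0 := by
  exact cl_cert_eq₂ X hE

end Positive

end Crest.Agent.R185
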