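import Crest.Agent.R185.Basic
import Crest.Agent.R185.FPres

/-!
# Row 185: presentations of marked groups
-/

set_option autoImplicit false

namespace Crest.Agent.R185

variable {ι ι' : Type}

theorem pres_rel (X : MG ι) : Pres X X.rel :=
  ⟨fun _ h => h, fun _ _ _ h w hw => h w hw⟩

/-- Replace relators by true relators which imply them. -/
theorem Pres.of_imp {X : MG ι} {T T' : Set (Word ι)} (h : Pres X T) (h₁ : ∀ r ∈ T', X.ev r = 1)
    (h₂ : ∀ (Z : Type) [Group Z] (z : ι → Z), (∀ r ∈ T', evW z r = 1) → ∀ r ∈ T, evW z r = 1) :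
    Pres X T' :=
  ⟨h₁, fun Z _ z hz w hw => h.2 Z z (h₂ Z z hz) w hw⟩

theorem Pres.rel_subset {X X' : MG ι} {T : Set (Word ι)} (h : Pres X T)
    (h' : ∀ r ∈ T, X'.ev r = 1) : X.rel ⊆ X'.rel :=
  fun w hw => h.2 X'.G X'.gen h' w hw

/-- A family of elements satisfying all relations defines a homomorphism. -/
theorem MG.exists_hom (X : MG ι) {Z : Type} [Group Z] (z : ι → Z)
    (h : ∀ w, X.ev w = 1 → evW z w = 1) : ∃ f : X.G →* Z, ∀ w, f (X.ev w) = evW z w := by
  have hs : Function.Surjective (FreeGroup.lift X.gen) := fun g => by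
    obtain ⟨w, hw⟩ := X.surj g
    exact ⟨FreeGroup.mk w, hw⟩
  have hk : (FreeGroup.lift X.gen).ker ≤ (FreeGroup.lift z).ker := by
    intro x hx
    induction x using Quot.inductionOn with
    | h w => exact h w hx
  refine ⟨(FreeGroup.lift X.gen).liftOfSurjective hs ⟨FreeGroup.lift z, hk⟩, fun w => ?_⟩
  exact MonoidHom.liftOfRightInverse_comp_apply _ _ _ _ _

theorem MG.exists_equiv (X X' : MG ι) (h : X.rel = X'.rel) :
    ∃ e : X.G ≃* X'.G, ∀ w, e (X.ev w) = X'.ev w := by
  obtain ⟨f, hf⟩ := X.exists_hom X'.gen fun w hw => (show w ∈ X'.rel from h ▸ hw)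
  obtain ⟨g, hg⟩ := X'.exists_hom X.gen fun w hw => (show w ∈ X.rel from h ▸ hw)
  refine ⟨MonoidHom.toMulEquiv f g ?_ ?_, hf⟩
  · ext x
    obtain ⟨w, rfl⟩ := X.surj x
    exact (congrArg g (hf w)).trans (hg w)
  · ext x
    obtain ⟨w, rfl⟩ := X'.surj x
    exact (congrArg f (hg w)).trans (hf w)

theorem pres_iff (X : MG ι) (T : Set (Word ι)) :
    Pres X T ↔ (FreeGroup.lift X.gen).ker = Subgroup.normalClosure (FreeGroup.mk '' T) := by
  constructor
  · rintro ⟨h1, h2⟩
    refine le_antisymm ?_ (Subgroup.normalClosure_le_normal ?_)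
    · intro x hx
      induction x using Quot.inductionOn with
      | h w =>
        have key : ∀ v : Word ι, evW (fun i => QuotientGroup.mk'
            (Subgroup.normalClosure (FreeGroup.mk '' T)) (FreeGroup.of i)) v = 1 ↔
            FreeGroup.mk v ∈ Subgroup.normalClosure (FreeGroup.mk '' T) := fun v => by
          rw [← map_evW, evW_of]
          exact QuotientGroup.eq_one_iff _
        exact (key w).1 (h2 _ _ (fun r hr => (key r).2
          (Subgroup.subset_normalClosure ⟨r, hr, rfl⟩)) w hx)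
    · rintro _ ⟨r, hr, rfl⟩
      exact h1 r hr
  · intro h
    refine ⟨fun r hr => ?_, fun Z _ z hz w hw => ?_⟩
    · have : FreeGroup.mk r ∈ (FreeGroup.lift X.gen).ker :=
        h ▸ Subgroup.subset_normalClosure ⟨r, hr, rfl⟩
      exact this
    · have h1 : FreeGroup.mk w ∈ (FreeGroup.lift X.gen).ker := hw
      rw [h] at h1
      have h2 : Subgroup.normalClosure (FreeGroup.mk '' T) ≤ (FreeGroup.lift z).ker :=
        Subgroup.normalClosure_le_normal (by
          rintro _ ⟨r, hr, rfl⟩
          exact hz r hr)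
      exact h2 h1

/-- The free group as a marked group. -/
def MG.free (ι : Type) : MG ι where
  G := FreeGroup ι
  gen := FreeGroup.of
  surj g := by
    induction g using Quot.inductionOn with
    | h w => exact ⟨w, evW_of w⟩

theorem MG.free_ev (w : Word ι) : (MG.free ι).ev w = FreeGroup.mk w := evW_of w

theorem pres_free (ι : Type) : Pres (MG.free ι) ∅ := by
  refine ⟨fun _ h => h.elim, fun Z _ z _ w hw => ?_⟩
  have hw' : FreeGroup.mk w = (1 : FreeGroup ι) := (MG.free_ev w).symm.trans hw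
  rw [evW, hw', map_one]

/-- The marked group with a given presentation. -/
def MG.ofRel (T : Set (Word ι)) : MG ι where
  G := FreeGroup ι ⧸ Subgroup.normalClosure (FreeGroup.mk '' T)
  gen i := QuotientGroup.mk (FreeGroup.of i)
  surj g := by
    obtain ⟨x, rfl⟩ := QuotientGroup.mk'_surjective _ g
    induction x using Quot.inductionOn with
    | h w =>
      refine ⟨w, ?_⟩
      have := map_evW (QuotientGroup.mk' (Subgroup.normalClosure (FreeGroup.mk '' T)))
        FreeGroup.of w
      rw [evW_of] at this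
      exact this.symm

theorem pres_ofRel (T : Set (Word ι)) : Pres (MG.ofRel T) T := by
  rw [pres_iff]
  have : FreeGroup.lift (MG.ofRel T).gen =
      QuotientGroup.mk' (Subgroup.normalClosure (FreeGroup.mk '' T)) := by
    ext i
    rw [FreeGroup.lift_apply_of]
    rfl
  rw [this]
  exact QuotientGroup.ker_mk' _

/-- Products of marked groups. -/
def MG.prod (X : MG ι) (Y : MG ι') : MG (ι ⊕ ι') where
  G := X.G × Y.G
  gen := Sum.elim (fun i => (X.gen i, 1)) fun i => (1, Y.gen i)
  surj g := by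
    obtain ⟨v, hv⟩ := X.surj g.1
    obtain ⟨w, hw⟩ := Y.surj g.2
    refine ⟨ren Sum.inl v ++ ren Sum.inr w, ?_⟩
    have h1 := map_evW (MonoidHom.inl X.G Y.G) X.gen v
    have h2 := map_evW (MonoidHom.inr X.G Y.G) Y.gen w
    rw [evW_append, evW_ren, evW_ren]
    erw [← h1, ← h2]
    simp [hv, hw]

/-- The letters of the first kind in a word. -/
def lft (w : Word (ι ⊕ ι')) : Word ι :=
  w.filterMap fun x => Sum.elim (fun i => some (i, x.2)) (fun _ => none) x.1

/-- The letters of the second kind in a word. -/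
def rgt (w : Word (ι ⊕ ι')) : Word ι' :=
  w.filterMap fun x => Sum.elim (fun _ => none) (fun i => some (i, x.2)) x.1

theorem MG.prod_ev (X : MG ι) (Y : MG ι') (w : Word (ι ⊕ ι')) :
    (X.prod Y).ev w = (X.ev (lft w), Y.ev (rgt w)) := by
  have key : ∀ w : Word (ι ⊕ ι'), evW (G := X.G × Y.G)
      (Sum.elim (fun i => (X.gen i, 1)) fun i => (1, Y.gen i)) w =
      (evW X.gen (lft w), evW Y.gen (rgt w)) := by
    intro w
    induction w with
    | nil => simp [lft, rgt, Prod.ext_iff]
    | cons x w ih =>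
      rw [evW_cons, ih]
      rcases x with ⟨i | i, b⟩
      · have h1 : lft ((Sum.inl i, b) :: w) = (i, b) :: lft w := rfl
        have h2 : rgt ((Sum.inl i, b) :: w) = rgt w := rfl
        rw [h1, h2, evW_cons]
        cases b <;> simp
      · have h1 : lft ((Sum.inr i, b) :: w) = lft w := rfl
        have h2 : rgt ((Sum.inr i, b) :: w) = (i, b) :: rgt w := rfl
        rw [h1, h2, evW_cons]
        cases b <;> simp
  exact key w

theorem MG.prod_ev_inl (X : MG ι) (Y : MG ι') (w : Word ι) :
    (X.prod Y).ev (ren Sum.inl w) = (X.ev w, 1) := by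
  rw [MG.ev, evW_ren]
  exact (map_evW (MonoidHom.inl X.G Y.G) X.gen w).symm

theorem MG.prod_ev_inr (X : MG ι) (Y : MG ι') (w : Word ι') :
    (X.prod Y).ev (ren Sum.inr w) = (1, Y.ev w) := by
  rw [MG.ev, evW_ren]
  exact (map_evW (MonoidHom.inr X.G Y.G) Y.gen w).symm

theorem primrec_lft [Primcodable ι] [Primcodable ι'] : Primrec (lft : Word (ι ⊕ ι') → Word ι) := by
  refine Primrec.listFilterMap Primrec.id ?_
  refine (Primrec.sumCasesOn (f := fun p : Word (ι ⊕ ι') × ((ι ⊕ ι') × Bool) => p.2.1)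
    (g := fun p i => some (i, p.2.2)) (h := fun _ _ => (none : Option (ι × Bool)))
    (Primrec.fst.comp Primrec.snd)
    (Primrec.option_some.comp (Primrec.snd.pair (Primrec.snd.comp (Primrec.snd.comp Primrec.fst))))
    (Primrec.const _)).of_eq ?_
  rintro ⟨_, _ | _, _⟩ <;> rfl

theorem primrec_rgt [Primcodable ι] [Primcodable ι'] :
    Primrec (rgt : Word (ι ⊕ ι') → Word ι') := by
  refine Primrec.listFilterMap Primrec.id ?_
  refine (Primrec.sumCasesOn (f := fun p : Word (ι ⊕ ι') × ((ι ⊕ ι') × Bool) => p.2.1)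
    (g := fun _ _ => (none : Option (ι' × Bool))) (h := fun p i => some (i, p.2.2))
    (Primrec.fst.comp Primrec.snd) (Primrec.const _)
    (Primrec.option_some.comp (Primrec.snd.pair
      (Primrec.snd.comp (Primrec.snd.comp Primrec.fst))))).of_eq ?_
  rintro ⟨_, _ | _, _⟩ <;> rfl

/-- The commutator of two words. -/
def comm (v w : Word ι) : Word ι := v ++ w ++ v.inv ++ w.inv

theorem evW_comm_eq_one {G : Type} [Group G] (z : ι → G) (v w : Word ι) :
    evW z (comm v w) = 1 ↔ Commute (evW z v) (evW z w) := by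
  simp only [comm, evW_append, evW_inv]
  exact commutatorElement_eq_one_iff_commute

theorem pres_prod {X : MG ι} {Y : MG ι'} {T : Set (Word ι)} {T' : Set (Word ι')} (h : Pres X T)
    (h' : Pres Y T') : Pres (X.prod Y) (ren Sum.inl '' T ∪ ren Sum.inr '' T' ∪
      {r | ∃ i i', r = comm [(Sum.inl i, true)] [(Sum.inr i', true)]}) := by
  constructor
  · rintro r ((⟨r, hr, rfl⟩ | ⟨r, hr, rfl⟩) | ⟨i, i', rfl⟩)
    · rw [MG.prod_ev_inl, h.1 r hr]; rfl
    · rw [MG.prod_ev_inr, h'.1 r hr]; rfl
    · rw [MG.ev, evW_comm_eq_one, evW_true, evW_true]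
      exact Prod.ext (by change X.gen i * 1 = 1 * X.gen i; simp)
        (by change 1 * Y.gen i' = Y.gen i' * 1; simp)
  · intro Z _ z hz w hw
    have hc : ∀ i i', Commute (z (Sum.inl i)) (z (Sum.inr i')) := fun i i' => by
      have := hz _ (Or.inr ⟨i, i', rfl⟩)
      rwa [evW_comm_eq_one, evW_true, evW_true] at this
    have hc' : ∀ (v : Word ι) i', Commute (evW (fun i => z (Sum.inl i)) v) (z (Sum.inr i')) := by
      intro v i'
      induction v with
      | nil => simp
      | cons x v ih =>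
        rw [evW_cons]
        refine Commute.mul_left ?_ ih
        rcases x with ⟨i, _ | _⟩
        · exact (hc i i').inv_left
        · exact hc i i'
    have key : ∀ w : Word (ι ⊕ ι'), evW z w =
        evW (fun i => z (Sum.inl i)) (lft w) * evW (fun i => z (Sum.inr i)) (rgt w) := by
      intro w
      induction w with
      | nil => simp [lft, rgt]
      | cons x w ih =>
        rw [evW_cons, ih]
        rcases x with ⟨i | i, b⟩
        · have h1 : lft ((Sum.inl i, b) :: w) = (i, b) :: lft w := rfl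
          have h2 : rgt ((Sum.inl i, b) :: w) = rgt w := rfl
          rw [h1, h2, evW_cons, mul_assoc]
        · have h1 : lft ((Sum.inr i, b) :: w) = lft w := rfl
          have h2 : rgt ((Sum.inr i, b) :: w) = (i, b) :: rgt w := rfl
          rw [h1, h2, evW_cons, ← mul_assoc, ← mul_assoc]
          congr 1
          cases b
          · exact ((hc' _ i).inv_right).eq.symm
          · exact (hc' _ i).eq.symm
    rw [MG.prod_ev] at hw
    rw [key, h.2 Z _ (fun r hr => by rw [← evW_ren]; exact hz _ (Or.inl (Or.inl ⟨r, hr, rfl⟩))) _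
      (congrArg Prod.fst hw), h'.2 Z _ (fun r hr => by
        rw [← evW_ren]; exact hz _ (Or.inl (Or.inr ⟨r, hr, rfl⟩))) _ (congrArg Prod.snd hw), mul_one]

/-- Change of generators. -/
theorem Pres.remark {X : MG ι} {X' : MG ι'} {T : Set (Word ι)} (h : Pres X T) (e : X.G ≃* X'.G)
    (σ : ι → Word ι') (τ : ι' → Word ι) (hσ : ∀ i, e (X.gen i) = X'.ev (σ i))
    (hτ : ∀ i, X'.gen i = e (X.ev (τ i))) :
    Pres X' (subst σ '' T ∪ {r | ∃ i, r = [(i, false)] ++ subst σ (τ i)}) := by
  have h1 : ∀ w, X'.ev (subst σ w) = e (X.ev w) := fun w => by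
    rw [MG.ev, evW_subst]
    erw [map_evW e.toMonoidHom X.gen w]
    congr 1
    funext i
    exact (hσ i).symm
  have h2 : ∀ w, e (X.ev (subst τ w)) = X'.ev w := fun w => by
    rw [MG.ev, evW_subst]
    erw [map_evW e.toMonoidHom _ w]
    congr 1
    funext i
    exact (hτ i).symm
  constructor
  · rintro r (⟨r, hr, rfl⟩ | ⟨i, rfl⟩)
    · rw [h1, h.1 r hr, map_one]
    · have h3 : evW X'.gen (subst σ (τ i)) = X'.gen i := (h1 _).trans (hτ i).symm
      rw [MG.ev, evW_append, evW_false, h3, inv_mul_cancel]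
  · intro Z _ z hz w hw
    have h3 : ∀ i, evW (fun i => evW z (σ i)) (τ i) = z i := fun i => by
      have := hz _ (Or.inr ⟨i, rfl⟩)
      rw [evW_append, evW_false, evW_subst, inv_mul_eq_one] at this
      exact this.symm
    have h4 := h.2 Z (fun i => evW z (σ i))
      (fun r hr => by rw [← evW_subst]; exact hz _ (Or.inl ⟨r, hr, rfl⟩)) (subst τ w)
      (e.injective (by rw [h2, hw, map_one]))
    rw [evW_subst] at h4
    simpa only [h3] using h4

theorem Pres.fp [Finite ι] {X : MG ι} {T : Set (Word ι)} (h : Pres X T) (hT : T.Finite) :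
    Group.IsFinitelyPresented X.G := by
  refine fp_of_ker (FreeGroup.lift X.gen) (fun g => ?_) ?_
  · obtain ⟨w, hw⟩ := X.surj g
    exact ⟨FreeGroup.mk w, hw⟩
  · exact ⟨_, hT.image _, ((pres_iff X T).1 h).symm⟩

theorem exists_pres_of_fp [Finite ι] (X : MG ι) (h : Group.IsFinitelyPresented X.G) :
    ∃ R : List (Word ι), Pres X {r | r ∈ R} := by
  obtain ⟨S, hS, hker⟩ := fp_ker h (FreeGroup.lift X.gen) (fun g => by
    obtain ⟨w, hw⟩ := X.surj g
    exact ⟨FreeGroup.mk w, hw⟩)
  have hsur : ∀ x : FreeGroup ι, ∃ w, FreeGroup.mk w = x := fun x => by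
    induction x using Quot.inductionOn with
    | h w => exact ⟨w, rfl⟩
  choose g hg using hsur
  refine ⟨hS.toFinset.toList.map g, (pres_iff X _).2 ?_⟩
  rw [← hker]
  congr 1
  ext x
  simp only [List.mem_map, Finset.mem_toList, Set.Finite.mem_toFinset, Set.mem_image,
    Set.mem_ofPred_eq]
  constructor
  · intro hx
    exact ⟨_, ⟨x, hx, rfl⟩, hg x⟩
  · rintro ⟨_, ⟨y, hy, rfl⟩, rfl⟩
    rwa [hg]

end Crest.Agent.R185
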