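import Crest.Agent.R185.Pkg
import Crest.Agent.R185.PresLib
import Crest.Agent.R185.CertLib

/-!
# Row 185: composition of extensions
-/

set_option autoImplicit false

namespace Crest.Agent.R185

theorem subst_inv {ι ι' : Type} (σ : ι → Word ι') (w : Word ι) {G : Type} [Group G] (z : ι' → G) :
    evW z (subst σ w.inv) = (evW z (subst σ w))⁻¹ := by
  rw [evW_subst, evW_subst, evW_inv]

theorem evW_subst_subst {ι ι' ι'' G : Type} [Group G] (z : ι'' → G) (σ : ι → Word ι')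
    (τ : ι' → Word ι'') (w : Word ι) :
    evW z (subst (fun i => subst τ (σ i)) w) = evW z (subst τ (subst σ w)) := by
  simp only [evW_subst]

theorem evW_subst_ren {ι ι' ι'' G : Type} [Group G] (z : ι'' → G) (σ : ι → Word ι')
    (τ : ι' → ι'') (w : Word ι) :
    evW z (subst (fun i => ren τ (σ i)) w) = evW z (ren τ (subst σ w)) := by
  simp only [evW_subst, evW_ren]

theorem hom_ev {ι ι' : Type} {X : MG ι} {X' : MG ι'} {f : X.G →* X'.G} {σ : ι → Word ι'}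
    (h : ∀ i, f (X.gen i) = X'.ev (σ i)) (w : Word ι) : f (X.ev w) = X'.ev (subst σ w) := by
  rw [MG.ev, map_evW, MG.ev, evW_subst]
  simp only [h]

theorem map_sub {ι ι' : Type} {X : MG ι} {X' : MG ι'} {f : X.G →* X'.G} {σ : ι → Word ι'}
    (h : ∀ i, f (X.gen i) = X'.ev (σ i)) (T : Set (Word ι)) :
    X'.sub (subst σ '' T) = (X.sub T).map f := by
  rw [MG.sub, MG.sub, MonoidHom.map_closure, Set.image_image, Set.image_image]
  simp only [hom_ev h]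

section
variable {ι ι' : Type} [Primcodable ι] [Primcodable ι'] {Λ κ : ℕ} (E : ExtPkg ι ι' Λ κ)

theorem ExtPkg.f_ev (X : MG ι) (w : Word ι) : E.f X (X.ev w) = (E.obj X).ev (subst E.σ w) :=
  hom_ev (E.f_gen X) w

/-- Disjunction where only the size of the true alternative matters. -/
theorem Cert.either {𝒞 : Ctx} {α : Type} [Primcodable α] {P Q R : 𝒞.Ω → α → Prop}
    {ν ν' ν'' : 𝒞.Ω → α → ℕ} (hP : Cert 𝒞 P ν) (hQ : Cert 𝒞 Q ν') (h₁ : ∀ ω a, P ω a → R ω a)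
    (h₂ : ∀ ω a, Q ω a → R ω a)
    (h₃ : ∀ ω a n, 𝒞.lim ω n → ν'' ω a ≤ n → R ω a →
      (P ω a ∧ ν ω a ≤ n) ∨ (Q ω a ∧ ν' ω a ≤ n)) : Cert 𝒞 R ν'' := by
  have h := Cert.finite (κ := Bool) (P := fun b => bif b then P else Q)
    (ν := fun b => bif b then ν else ν') (by rintro (_ | _); exacts [hQ, hP])
  refine (h.comp (f := fun p : α × Bool => (p.2, p.1)) (Computable.snd.pair .fst)).guess ?_ ?_
  · rintro ω a (_ | _) h
    exacts [h₂ ω a h, h₁ ω a h]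
  · intro ω a n hl hn hR
    rcases h₃ ω a n hl hn hR with h | h
    exacts [⟨true, h⟩, ⟨false, h⟩]

theorem cert_list {𝒞 : Ctx} (R : List (Word ι)) :
    Cert 𝒞 (fun _ r => r ∈ R) fun _ _ => 0 := by
  classical
  refine Cert.of_re (re_of_primrecPred ?_) _
  induction R with
  | nil => exact ⟨inferInstance, by simpa using Primrec.const false⟩
  | cons r R ih =>
    exact ((Primrec.eq.comp Primrec.id (Primrec.const r)).or ih).of_eq fun a => by simp

theorem cert_image {𝒞 : Ctx} {α β : Type} [Primcodable α] [Primcodable β] {T : 𝒞.Ω → Set α}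
    (h : Cert 𝒞 (fun ω a => a ∈ T ω) fun _ _ => 0) {f : α → β} (hf : Computable f) :
    Cert 𝒞 (fun ω b => b ∈ f '' T ω) fun _ _ => 0 := by
  classical
  have h1 : Cert 𝒞 (fun _ (p : β × α) => f p.2 = p.1) fun _ _ => 0 :=
    Cert.of_re (ComputablePred.to_re
      (Computable.computablePred (Primrec.eq.decide.to_comp.comp (hf.comp .snd) .fst))) _
  refine ((h.comp Computable.snd).and h1).guess (fun ω b a hq => ⟨a, hq⟩) ?_
  rintro ω b n - - ⟨a, ha⟩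
  exact ⟨a, ha, by simp⟩

theorem cert_union {𝒞 : Ctx} {α : Type} [Primcodable α] {T T' : 𝒞.Ω → Set α}
    (h : Cert 𝒞 (fun ω a => a ∈ T ω) fun _ _ => 0) (h' : Cert 𝒞 (fun ω a => a ∈ T' ω) fun _ _ => 0) :
    Cert 𝒞 (fun ω a => a ∈ T ω ∪ T' ω) fun _ _ => 0 :=
  (h.or h').mono (by simp)

theorem ExtPkg.cert_eq [Finite ι] {𝒞 : Ctx} (X : 𝒞.Ω → MG ι)
    (h : Cert 𝒞 (fun ω w => (X ω).ev w = 1) fun _ _ => 0) :
    Cert 𝒞 (fun ω w => (E.obj (X ω)).ev w = 1) fun _ _ => 0 :=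
  cert_eq_of_pres _ _ (fun ω => E.pres (X ω))
    (cert_union (cert_list E.R) (cert_image (T := fun ω => (X ω).rel) h (primrec_subst _).to_comp))

/-- Transfer of negative facts along an injective homomorphism given by a substitution. -/
theorem cert_not_image [Finite ι] {𝒞 : Ctx} {X : 𝒞.Ω → MG ι} {X' : 𝒞.Ω → MG ι'}
    (f : ∀ ω, (X ω).G →* (X' ω).G) (σ : ι → Word ι') (hσ : ∀ ω i, f ω ((X ω).gen i) = (X' ω).ev (σ i))
    (hf : ∀ ω, Function.Injective (f ω)) (𝒳 : ∀ ω, Set (X ω).G) {ν : ∀ ω, (X ω).G → ℕ}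
    {ν' : ∀ ω, (X' ω).G → ℕ} (hν : ∀ ω x, ν ω x ≤ ν' ω (f ω x))
    (heq : Cert 𝒞 (fun ω w => (X' ω).ev w = 1) fun _ _ => 0)
    (hr : Cert 𝒞 (fun ω w => (X' ω).ev w ∉ (f ω).range) fun ω w => ν' ω ((X' ω).ev w))
    (hX : Cert 𝒞 (fun ω w => (X ω).ev w ∉ 𝒳 ω) fun ω w => ν ω ((X ω).ev w)) :
    Cert 𝒞 (fun ω w => (X' ω).ev w ∉ f ω '' 𝒳 ω) fun ω w => ν' ω ((X' ω).ev w) := by
  have h1 := ((cert_eq₂ X' heq).comp (f := fun p : Word ι' × Word ι => (p.1, subst σ p.2))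
    (Computable.fst.pair ((primrec_subst σ).to_comp.comp .snd))).and (hX.comp Computable.snd)
  have h2 : Cert 𝒞 (fun ω w => ∃ x, f ω x = (X' ω).ev w ∧ x ∉ 𝒳 ω)
      fun ω w => ν' ω ((X' ω).ev w) := by
    refine h1.guess ?_ ?_
    · rintro ω w v ⟨h, h'⟩
      exact ⟨_, by rw [hom_ev (hσ ω)]; exact h.symm, h'⟩
    · rintro ω w n _ hn ⟨x, e, hx⟩
      obtain ⟨v, rfl⟩ := (X ω).surj x
      refine ⟨v, ⟨by simp only; rw [← hom_ev (hσ ω), ← e], hx⟩, ?_⟩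
      have := hν ω ((X ω).ev v)
      rw [e] at this
      simp only [max_le_iff, zero_le, true_and]
      omega
  refine hr.either h2 (fun ω w h ⟨x, _, e⟩ => h ⟨x, e⟩) ?_ ?_
  · rintro ω w ⟨x, e, hx⟩ ⟨x', hx', e'⟩
    exact hx (hf ω (e'.trans e.symm) ▸ hx')
  · intro ω w n _ hn h
    by_cases hw : (X' ω).ev w ∈ (f ω).range
    · obtain ⟨x, e⟩ := hw
      exact Or.inr ⟨⟨x, e, fun hx => h ⟨x, hx, e⟩⟩, hn⟩
    · exact Or.inl ⟨hw, hn⟩

end

end Crest.Agent.R185
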