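import Crest.Agent.R185.FPAlgC

/-!
# Row 185: algebra of `FP`
-/

set_option autoImplicit false
set_option linter.style.haveILetI false

namespace Crest.Agent.R185

theorem FP.mono {R : Type} [Ring R] {m n : ℕ} (hmn : m ≤ n) {M : Type} [AddCommGroup M]
    [Module R M] (h : FP R n M) : FP R m M := by
  exact fpa_mono hmn h

theorem FP.of_equiv {R : Type} [Ring R] {n : ℕ} {M M' : Type} [AddCommGroup M] [Module R M]
    [AddCommGroup M'] [Module R M'] (e : M ≃ₗ[R] M') (h : FP R n M) : FP R n M' := by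
  exact fpa_of_equiv e h

/-- Schanuel's lemma: the kernel of *any* surjection from a finitely generated free module. -/
theorem FP.ker {R : Type} [Ring R] {n : ℕ} {M : Type} [AddCommGroup M] [Module R M]
    (h : FP R (n + 1) M) {k : ℕ} (π : (Fin k → R) →ₗ[R] M) (hπ : Function.Surjective π) :
    FP R n (LinearMap.ker π) := by
  exact fpa_ker π hπ h (fpa_free n k)

theorem FPn.of_equiv {G H : Type} [Group G] [Group H] (e : G ≃* H) {n : ℕ} (h : FPn G n) :
    FPn H n := by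
  exact fpa_fpn_equiv e h

theorem FPn.of_finiteIndex {G : Type} [Group G] (K : Subgroup G) [K.FiniteIndex] {n : ℕ}
    (h : FPn K n) : FPn G n := by
  exact (fpa_fpn_finiteIndex K n).1 h

theorem fpinf_of_finite (G : Type) [Group G] [Finite G] : FPinf G := by
  intro n
  exact (fpa_fpn_finiteIndex (⊥ : Subgroup G) n).1 (fpa_fpn_subsingleton _ n)

/-- Lemma (P): an equivariant augmented complex of permutation modules, exact up to degree `n`,
with finitely many orbits and good stabilisers. -/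
theorem fpn_of_complex {G : Type} [Group G] (X : ℕ → Type) [∀ i, MulAction G (X i)]
    (d : ∀ i, (X (i + 1) →₀ ℤ) →+ (X i →₀ ℤ)) (ε : (X 0 →₀ ℤ) →+ ℤ) (n : ℕ)
    (hd : ∀ i, i ≤ n → ∀ (g : G) c, d i (chAct g c) = chAct g (d i c))
    (hε : ∀ (g : G) c, ε (chAct g c) = ε c)
    (hsurj : Function.Surjective ε)
    (hex0 : ∀ c, ε c = 0 ↔ c ∈ Set.range (d 0))
    (hex : ∀ i, i < n → ∀ c, d i c = 0 ↔ c ∈ Set.range (d (i + 1)))
    (hfin : ∀ i, i ≤ n → Finite (MulAction.orbitRel.Quotient G (X i)))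
    (hstab : ∀ i, i ≤ n → ∀ x : X i, FPn (MulAction.stabilizer G x) n) : FPn G n := by
  have hC : ∀ i, i ≤ n → FP (MonoidAlgebra ℤ G) n (FpaPerm G (X i)) := fun i hi => by
    haveI := hfin i hi
    exact fpa_perm (hstab i hi)
  let D : ∀ i, i ≤ n → (FpaPerm G (X (i + 1)) →ₗ[MonoidAlgebra ℤ G] FpaPerm G (X i)) :=
    fun i hi => fpaMap (d i) (hd i hi)
  have hB : ∀ j i (hi : i ≤ n), i + j ≤ n →
      FP (MonoidAlgebra ℤ G) j (LinearMap.range (D i hi)) := by
    intro j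
    induction j with
    | zero => intro i hi _; exact fpa_zero _
    | succ j ih =>
      intro i hi hij
      have hi' : i + 1 ≤ n := by omega
      refine fpa_quot (D i hi).rangeRestrict (D i hi).surjective_rangeRestrict
        (fpa_mono (by omega) (hC (i + 1) hi')) ?_
      rw [LinearMap.ker_rangeRestrict, fpa_ker_eq_range (D (i + 1) hi') (D i hi) (hex i hi')]
      exact ih (i + 1) hi' (by omega)
  cases n with
  | zero => exact fpa_zero _
  | succ n =>
    refine fpa_quot (fpaAug ε hε) hsurj (hC 0 (Nat.zero_le _)) ?_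
    rw [fpa_ker_eq_range (D 0 (Nat.zero_le _)) (fpaAug ε hε) hex0]
    exact hB n 0 (Nat.zero_le _) (by omega)

theorem FPinf.prod {G H : Type} [Group G] [Group H] (hG : FPinf G) (hH : FPinf H) :
    FPinf (G × H) := by
  exact fpa_fpinf_prod hG hH

theorem FPinf.pi {ι : Type} [Finite ι] {G : ι → Type} [∀ i, Group (G i)] (h : ∀ i, FPinf (G i)) :
    FPinf (∀ i, G i) := by
  exact fpa_fpinf_pi ι G h

/-- `G` acts on `G × J` through the first factor only. -/
noncomputable abbrev frAct {G J : Type} [Group G] (g : G) (c : G × J →₀ ℤ) : G × J →₀ ℤ :=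
  Finsupp.mapDomain (fun x => (g * x.1, x.2)) c

/-- Lemma (Q): an equivariant free partial resolution with finitely many generators in degrees
`0, 1, 2` extends to a full resolution of finite type. -/
theorem exists_resolution {G : Type} [Group G] (hG : FPinf G) (J₀ J₁ J₂ : Type) [Finite J₀]
    [Finite J₁] [Finite J₂] (ε : (G × J₀ →₀ ℤ) →+ ℤ) (d₀ : (G × J₁ →₀ ℤ) →+ (G × J₀ →₀ ℤ))
    (d₁ : (G × J₂ →₀ ℤ) →+ (G × J₁ →₀ ℤ))
    (hε : ∀ g c, ε (frAct g c) = ε c) (h₀ : ∀ g c, d₀ (frAct g c) = frAct g (d₀ c))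
    (h₁ : ∀ g c, d₁ (frAct g c) = frAct g (d₁ c)) (hsurj : Function.Surjective ε)
    (hex₀ : ∀ c, ε c = 0 ↔ c ∈ Set.range d₀) (hex₁ : ∀ c, d₀ c = 0 ↔ c ∈ Set.range d₁) :
    ∃ (k : ℕ → ℕ) (d₂ : (G × Fin (k 0) →₀ ℤ) →+ (G × J₂ →₀ ℤ))
      (d : ∀ n, (G × Fin (k (n + 1)) →₀ ℤ) →+ (G × Fin (k n) →₀ ℤ)),
      (∀ g c, d₂ (frAct g c) = frAct g (d₂ c)) ∧ (∀ n g c, d n (frAct g c) = frAct g (d n c)) ∧
      (∀ c, d₁ c = 0 ↔ c ∈ Set.range d₂) ∧ (∀ c, d₂ c = 0 ↔ c ∈ Set.range (d 0)) ∧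
      ∀ n c, d n c = 0 ↔ c ∈ Set.range (d (n + 1)) := by
  let E := fpaAug (G := G) (X := FpaFree G J₀) ε hε
  let D₀ := fpaMap (G := G) (X := FpaFree G J₁) (Y := FpaFree G J₀) d₀ h₀
  let D₁ := fpaMap (G := G) (X := FpaFree G J₂) (Y := FpaFree G J₁) d₁ h₁
  have hK₀ : ∀ n, FP (MonoidAlgebra ℤ G) n (LinearMap.ker E) := fun n =>
    fpa_ker E hsurj (hG _) (fpa_free_perm G J₀ n)
  have hK₁ : ∀ n, FP (MonoidAlgebra ℤ G) n (LinearMap.ker D₀) :=
    fpa_ker_of_range D₀ (fpa_free_perm G J₁) (fun n => by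
      rw [← fpa_ker_eq_range D₀ E hex₀]
      exact hK₀ n)
  have hK₂ : ∀ n, FP (MonoidAlgebra ℤ G) n (LinearMap.ker D₁) :=
    fpa_ker_of_range D₁ (fpa_free_perm G J₂) (fun n => by
      rw [← fpa_ker_eq_range D₁ D₀ hex₁]
      exact hK₁ n)
  obtain ⟨k, D₂, D, e₁, e₂, e₃⟩ := fpa_resolution (LinearMap.ker D₁) hK₂
  let d₂ := fpaUn D₂
  let d := fun n => fpaUn (D n)
  refine ⟨k, d₂, d, fpaUn_equiv D₂, fun n => fpaUn_equiv (D n),
    fun c => ?_, fun c => ?_, fun n c => ?_⟩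
  · exact (SetLike.ext_iff.1 e₁ (fpaOf G (FpaFree G J₂) c)).symm
  · exact (SetLike.ext_iff.1 e₂ (fpaOf G (FpaFree G _) c)).symm
  · exact (SetLike.ext_iff.1 (e₃ n) (fpaOf G (FpaFree G _) c)).symm

end Crest.Agent.R185
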