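import Crest.Agent.R185.FPDef

/-!
# Row 185: `FP` for modules — Schanuel and two-out-of-three, change of rings, induction
-/

set_option autoImplicit false

namespace Crest.Agent.R185

section Modules

variable {R : Type} [Ring R]

theorem fpa_zero (M : Type) [AddCommGroup M] [Module R M] : FP R 0 M := trivial

theorem fpa_succ {n : ℕ} {M : Type} [AddCommGroup M] [Module R M] :
    FP R (n + 1) M ↔ ∃ (k : ℕ) (π : (Fin k → R) →ₗ[R] M),
      Function.Surjective π ∧ FP R n (LinearMap.ker π) := Iff.rfl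

theorem fpa_of_equiv {n : ℕ} {M M' : Type} [AddCommGroup M] [Module R M]
    [AddCommGroup M'] [Module R M'] (e : M ≃ₗ[R] M') (h : FP R n M) : FP R n M' := by
  cases n with
  | zero => exact fpa_zero _
  | succ n =>
    obtain ⟨k, π, hπ, h⟩ := fpa_succ.1 h
    refine fpa_succ.2 ⟨k, e.toLinearMap ∘ₗ π, e.surjective.comp hπ, ?_⟩
    rw [LinearEquiv.ker_comp]
    exact h

theorem fpa_pred (n : ℕ) : ∀ (M : Type) [AddCommGroup M] [Module R M],
    FP R (n + 1) M → FP R n M := by
  induction n with
  | zero => intro M _ _ _; exact fpa_zero M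
  | succ n ih =>
    intro M _ _ h
    obtain ⟨k, π, hπ, h⟩ := fpa_succ.1 h
    exact fpa_succ.2 ⟨k, π, hπ, ih _ h⟩

theorem fpa_mono {m n : ℕ} (hmn : m ≤ n) {M : Type} [AddCommGroup M]
    [Module R M] (h : FP R n M) : FP R m M := by
  induction n, hmn using Nat.le_induction with
  | base => exact h
  | succ n _ ih => exact ih (fpa_pred n M h)

theorem fpa_subsingleton (n : ℕ) : ∀ (M : Type) [AddCommGroup M] [Module R M] [Subsingleton M],
    FP R n M := by
  induction n with
  | zero => intro M _ _ _; exact fpa_zero M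
  | succ n ih =>
    intro M _ _ _
    exact fpa_succ.2 ⟨0, 0, fun m => ⟨0, Subsingleton.elim _ _⟩, ih _⟩

/-- The kernel of `g` from an injective map with the right image. -/
theorem fpa_ker_of_inj {n : ℕ} {A B C : Type} [AddCommGroup A] [Module R A] [AddCommGroup B]
    [Module R B] [AddCommGroup C] [Module R C] (f : A →ₗ[R] B) (g : B →ₗ[R] C)
    (hf : Function.Injective f) (hfg : ∀ b, g b = 0 ↔ b ∈ Set.range f) (h : FP R n A) :
    FP R n (LinearMap.ker g) := by
  have : LinearMap.ker g = LinearMap.range f := by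
    ext b
    rw [LinearMap.mem_ker, hfg b]
    rfl
  rw [this]
  exact fpa_of_equiv (LinearEquiv.ofInjective f hf) h

theorem fpa_of_ker {n : ℕ} {A B C : Type} [AddCommGroup A] [Module R A] [AddCommGroup B]
    [Module R B] [AddCommGroup C] [Module R C] (f : A →ₗ[R] B) (g : B →ₗ[R] C)
    (hf : Function.Injective f) (hfg : ∀ b, g b = 0 ↔ b ∈ Set.range f)
    (h : FP R n (LinearMap.ker g)) : FP R n A := by
  have : LinearMap.ker g = LinearMap.range f := by
    ext b
    rw [LinearMap.mem_ker, hfg b]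
    rfl
  rw [this] at h
  exact fpa_of_equiv (LinearEquiv.ofInjective f hf).symm h

theorem fpa_succ_of_equiv {n k : ℕ} {F M : Type} [AddCommGroup F] [Module R F] [AddCommGroup M]
    [Module R M] (e : (Fin k → R) ≃ₗ[R] F) (π : F →ₗ[R] M) (hπ : Function.Surjective π)
    (h : FP R n (LinearMap.ker π)) : FP R (n + 1) M := by
  refine fpa_succ.2 ⟨k, π ∘ₗ e.toLinearMap, hπ.comp e.surjective, ?_⟩
  refine fpa_ker_of_inj (e.symm.toLinearMap ∘ₗ (LinearMap.ker π).subtype) _
    (e.symm.injective.comp Subtype.val_injective) (fun b => ?_) h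
  constructor
  · intro hb
    exact ⟨⟨e b, hb⟩, by simp⟩
  · rintro ⟨⟨x, hx⟩, rfl⟩
    simpa using hx

theorem fpa_free (n k : ℕ) : FP R n (Fin k → R) := by
  cases n with
  | zero => exact fpa_zero _
  | succ n =>
    refine fpa_succ.2 ⟨k, LinearMap.id, Function.surjective_id, ?_⟩
    rw [LinearMap.ker_id]
    exact fpa_subsingleton n _

/-- Horseshoe: extensions. -/
theorem fpa_ext (n : ℕ) : ∀ {B C : Type} [AddCommGroup B] [Module R B] [AddCommGroup C]
    [Module R C] (g : B →ₗ[R] C), Function.Surjective g → FP R n (LinearMap.ker g) →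
    FP R n C → FP R n B := by
  induction n with
  | zero => intro B C _ _ _ _ _ _ _ _; exact fpa_zero B
  | succ n ih =>
    intro B C _ _ _ _ g hg hA hC
    obtain ⟨a, πA, hπA, hA⟩ := fpa_succ.1 hA
    obtain ⟨c, πC, hπC, hC⟩ := fpa_succ.1 hC
    obtain ⟨σ, hσ⟩ := Module.projective_lifting_property g πC hg
    have hσ' : ∀ y, g (σ y) = πC y := fun y => LinearMap.congr_fun hσ y
    let π : ((Fin a → R) × (Fin c → R)) →ₗ[R] B :=
      LinearMap.coprod ((LinearMap.ker g).subtype ∘ₗ πA) σ
    have hπ' : ∀ x y, π (x, y) = (πA x : B) + σ y := fun x y => rfl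
    have hgπ : ∀ z, g (π z) = πC z.2 := by
      rintro ⟨x, y⟩
      rw [hπ', map_add, hσ', (πA x).2, zero_add]
    have hπ : Function.Surjective π := by
      intro b
      obtain ⟨y, hy⟩ := hπC (g b)
      obtain ⟨x, hx⟩ := hπA ⟨b - σ y, by rw [LinearMap.mem_ker, map_sub, hσ', hy, sub_self]⟩
      exact ⟨(x, y), by rw [hπ', hx]; simp⟩
    let e : (Fin (a + c) → R) ≃ₗ[R] ((Fin a → R) × (Fin c → R)) :=
      (LinearEquiv.funCongrLeft R R finSumFinEquiv).trans
        (LinearEquiv.sumArrowLequivProdArrow (Fin a) (Fin c) R R)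
    refine fpa_succ_of_equiv e π hπ ?_
    let q : LinearMap.ker π →ₗ[R] LinearMap.ker πC :=
      LinearMap.codRestrict _ (LinearMap.snd R _ _ ∘ₗ (LinearMap.ker π).subtype) (fun z => by
        have h1 := hgπ z.1
        rw [z.2, map_zero] at h1
        exact h1.symm)
    refine ih q ?_ ?_ hC
    · rintro ⟨y, hy⟩
      obtain ⟨x, hx⟩ := hπA ⟨-σ y, by
        rw [LinearMap.mem_ker, map_neg, hσ', LinearMap.mem_ker.1 hy, neg_zero]⟩
      exact ⟨⟨(x, y), by rw [LinearMap.mem_ker, hπ', hx]; simp⟩, rfl⟩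
    · let j : LinearMap.ker πA →ₗ[R] LinearMap.ker π :=
        LinearMap.codRestrict _ (LinearMap.inl R _ _ ∘ₗ (LinearMap.ker πA).subtype) (fun z => by
          change π (z.1, 0) = 0
          rw [hπ', z.2]
          simp)
      refine fpa_ker_of_inj j q ?_ ?_ hA
      · intro z z' h
        exact Subtype.ext (congrArg (fun w : LinearMap.ker π => w.1.1) h)
      · rintro ⟨⟨x, y⟩, hz⟩
        constructor
        · intro h
          have hy : y = 0 := congrArg Subtype.val h
          subst hy
          have hx : πA x = 0 := by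
            have h1 := LinearMap.mem_ker.1 hz
            rw [hπ', map_zero, add_zero] at h1
            exact Subtype.ext h1
          exact ⟨⟨x, hx⟩, rfl⟩
        · rintro ⟨w, hw⟩
          rw [← hw]
          rfl

/-- Quotients. -/
theorem fpa_quot {n : ℕ} {B C : Type} [AddCommGroup B] [Module R B] [AddCommGroup C]
    [Module R C] (g : B →ₗ[R] C) (hg : Function.Surjective g) (hB : FP R (n + 1) B)
    (hA : FP R n (LinearMap.ker g)) : FP R (n + 1) C := by
  obtain ⟨k, π, hπ, hK⟩ := fpa_succ.1 hB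
  refine fpa_succ.2 ⟨k, g ∘ₗ π, hg.comp hπ, ?_⟩
  let q : LinearMap.ker (g ∘ₗ π) →ₗ[R] LinearMap.ker g :=
    LinearMap.codRestrict _ (π ∘ₗ (LinearMap.ker (g ∘ₗ π)).subtype) (fun z => z.2)
  refine fpa_ext n q ?_ ?_ hA
  · rintro ⟨b, hb⟩
    obtain ⟨x, rfl⟩ := hπ b
    exact ⟨⟨x, hb⟩, rfl⟩
  · let j : LinearMap.ker π →ₗ[R] LinearMap.ker (g ∘ₗ π) :=
      Submodule.inclusion (LinearMap.ker_le_ker_comp π g)
    refine fpa_ker_of_inj j q (Submodule.inclusion_injective _) ?_ hK
    rintro ⟨x, hx⟩
    constructor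
    · intro h
      exact ⟨⟨x, congrArg Subtype.val h⟩, rfl⟩
    · rintro ⟨w, hw⟩
      rw [← hw]
      exact Subtype.ext w.2

/-- Kernels (Schanuel). -/
theorem fpa_ker {n : ℕ} {B C : Type} [AddCommGroup B] [Module R B] [AddCommGroup C]
    [Module R C] (g : B →ₗ[R] C) (hg : Function.Surjective g) (hC : FP R (n + 1) C)
    (hB : FP R n B) : FP R n (LinearMap.ker g) := by
  cases n with
  | zero => exact fpa_zero _
  | succ n =>
  obtain ⟨k, π, hπ, hK⟩ := fpa_succ.1 hC
  obtain ⟨σ, hσ⟩ := Module.projective_lifting_property g π hg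
  have hσ' : ∀ y, g (σ y) = π y := fun y => LinearMap.congr_fun hσ y
  let ψ : (LinearMap.ker g × (Fin k → R)) →ₗ[R] B := LinearMap.coprod (LinearMap.ker g).subtype σ
  have hψ' : ∀ x y, ψ (x, y) = (x : B) + σ y := fun x y => rfl
  have hψ : Function.Surjective ψ := by
    intro b
    obtain ⟨y, hy⟩ := hπ (g b)
    exact ⟨(⟨b - σ y, by rw [LinearMap.mem_ker, map_sub, hσ', hy, sub_self]⟩, y), by
      rw [hψ']; simp⟩
  have h1 : FP R (n + 1) (LinearMap.ker g × (Fin k → R)) := by
    refine fpa_ext (n + 1) ψ hψ ?_ hB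
    let j : LinearMap.ker π →ₗ[R] (LinearMap.ker g × (Fin k → R)) :=
      LinearMap.prod (LinearMap.codRestrict _ (-(σ ∘ₗ (LinearMap.ker π).subtype)) (fun z => by
        change g (-σ z.1) = 0
        rw [map_neg, hσ', z.2, neg_zero])) (LinearMap.ker π).subtype
    refine fpa_ker_of_inj j ψ ?_ ?_ hK
    · intro z z' h
      exact Subtype.ext (congrArg Prod.snd h)
    · rintro ⟨x, y⟩
      constructor
      · intro h
        rw [hψ'] at h
        have hy : π y = 0 := by
          have h2 := congrArg g h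
          rw [map_add, x.2, zero_add, hσ', map_zero] at h2
          exact h2
        refine ⟨⟨y, hy⟩, Prod.ext (Subtype.ext ?_) rfl⟩
        change -σ y = x
        exact neg_eq_of_add_eq_zero_left h
      · rintro ⟨w, hw⟩
        rw [← hw]
        change -σ w.1 + σ w.1 = 0
        exact neg_add_cancel _
  refine fpa_quot (LinearMap.fst R _ _) LinearMap.fst_surjective h1 ?_
  refine fpa_ker_of_inj (LinearMap.inr R _ _) _ LinearMap.inr_injective ?_ (fpa_free n k)
  rintro ⟨x, y⟩
  constructor
  · intro h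
    exact ⟨y, Prod.ext h.symm rfl⟩
  · rintro ⟨w, hw⟩
    rw [← hw]
    rfl

theorem fpa_prod {n : ℕ} {A B : Type} [AddCommGroup A] [Module R A] [AddCommGroup B]
    [Module R B] (hA : FP R n A) (hB : FP R n B) : FP R n (A × B) := by
  refine fpa_ext n (LinearMap.snd R A B) LinearMap.snd_surjective ?_ hB
  refine fpa_ker_of_inj (LinearMap.inl R _ _) _ LinearMap.inl_injective ?_ hA
  rintro ⟨x, y⟩
  constructor
  · intro h
    exact ⟨x, Prod.ext rfl h.symm⟩
  · rintro ⟨w, hw⟩
    rw [← hw]
    rfl

theorem fpa_pi {n : ℕ} (ι : Type) [Finite ι] : ∀ (M : ι → Type) [∀ i, AddCommGroup (M i)]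
    [∀ i, Module R (M i)], (∀ i, FP R n (M i)) → FP R n (∀ i, M i) := by
  induction ι using Finite.induction_empty_option with
  | of_equiv e ih =>
    intro M _ _ h
    exact fpa_of_equiv (LinearEquiv.piCongrLeft R M e) (ih _ (fun i => h (e i)))
  | h_empty =>
    intro M _ _ _
    exact fpa_subsingleton n _
  | h_option ih =>
    intro M _ _ h
    exact fpa_of_equiv (LinearEquiv.piOptionEquivProd R).symm
      (fpa_prod (h none) (ih _ (fun i => h (some i))))

end Modules

section Change

variable {R S : Type} [Ring R] [Ring S] [Module R S] [IsScalarTower R S S]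

omit [IsScalarTower R S S] in
theorem fpa_ker_restrict {n : ℕ} {B C : Type} [AddCommGroup B] [Module R B] [Module S B]
    [IsScalarTower R S B] [AddCommGroup C] [Module R C] [Module S C] [IsScalarTower R S C]
    (g : B →ₗ[S] C) :
    FP R n (LinearMap.ker (g.restrictScalars R)) ↔ FP R n (LinearMap.ker g) := by
  let e : LinearMap.ker (g.restrictScalars R) ≃ₗ[R] LinearMap.ker g :=
    { toFun := fun x => ⟨x.1, x.2⟩
      invFun := fun x => ⟨x.1, x.2⟩
      map_add' := fun _ _ => rfl
      map_smul' := fun _ _ => rfl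
      left_inv := fun _ => rfl
      right_inv := fun _ => rfl }
  exact ⟨fpa_of_equiv e, fpa_of_equiv e.symm⟩

/-- Change of rings when `S` is `FP∞` over `R`. -/
theorem fpa_change (hS : ∀ n, FP R n S) (n : ℕ) : ∀ (M : Type) [AddCommGroup M] [Module R M]
    [Module S M] [IsScalarTower R S M], FP R n M ↔ FP S n M := by
  induction n with
  | zero => intro M _ _ _ _; exact ⟨fun _ => fpa_zero M, fun _ => fpa_zero M⟩
  | succ n ih =>
    intro M _ _ _ _
    constructor
    · intro h
      obtain ⟨k, π, hπ, -⟩ := fpa_succ.1 h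
      let π' : (Fin k → S) →ₗ[S] M := Fintype.linearCombination S (fun i => π (Pi.single i 1))
      have hπ' : Function.Surjective π' := by
        intro m
        obtain ⟨x, rfl⟩ := hπ m
        refine ⟨fun i => x i • (1 : S), ?_⟩
        rw [Fintype.linearCombination_apply, LinearMap.pi_apply_eq_sum_univ π x]
        refine Finset.sum_congr rfl (fun i _ => ?_)
        rw [smul_assoc, one_smul]
        congr 2
        ext j
        rw [Pi.single_apply]
        simp [eq_comm]
      refine fpa_succ.2 ⟨k, π', hπ', (ih _).1 ?_⟩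
      rw [← fpa_ker_restrict]
      exact fpa_ker (π'.restrictScalars R) hπ' h (fpa_pi _ _ (fun _ => hS n))
    · intro h
      obtain ⟨k, π, hπ, hK⟩ := fpa_succ.1 h
      refine fpa_quot (π.restrictScalars R) hπ (fpa_pi _ _ (fun _ => hS _)) ?_
      rw [fpa_ker_restrict]
      exact (ih _).2 hK

end Change

section Induction

variable {R S : Type} [Ring R] [Ring S] {T : Type}

/-- The map `⊕_t M → N`, `(m_t) ↦ ∑ τ t • ι m_t`. -/
noncomputable def fpaInd (τ : T → S) {M N : Type} [AddCommGroup M] [AddCommGroup N] [Module S N]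
    (ι : M →+ N) : (T →₀ M) →+ N :=
  Finsupp.liftAddHom (fun t => (DistribSMul.toAddMonoidHom N (τ t)).comp ι)

theorem fpaInd_single (τ : T → S) {M N : Type} [AddCommGroup M] [AddCommGroup N] [Module S N]
    (ι : M →+ N) (t : T) (m : M) : fpaInd τ ι (Finsupp.single t m) = τ t • ι m := by
  simp [fpaInd]

theorem fpaInd_comm (τ : T → S) {M N M' N' : Type} [AddCommGroup M] [AddCommGroup N] [Module S N]
    [AddCommGroup M'] [AddCommGroup N'] [Module S N'] (ι : M →+ N) (ι' : M' →+ N')
    (p : M →+ M') (q : N →ₗ[S] N') (h : ∀ m, q (ι m) = ι' (p m)) (c : T →₀ M) :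
    q (fpaInd τ ι c) = fpaInd τ ι' (Finsupp.mapRange p p.map_zero c) := by
  induction c using Finsupp.induction_linear with
  | zero => simp
  | add a b ha hb => rw [map_add, map_add, ha, hb, Finsupp.mapRange_add' , map_add]
  | single t m => rw [Finsupp.mapRange_single, fpaInd_single, fpaInd_single, map_smul, h]

theorem fpaInd_pi (φ : R →+* S) (τ : T → S)
    (hτ : Function.Bijective (fpaInd τ φ.toAddMonoidHom)) (k : ℕ) :
    Function.Bijective (fpaInd τ (φ.toAddMonoidHom.compLeft (Fin k))) := by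
  have key : ∀ (c : T →₀ (Fin k → R)) (i : Fin k),
      fpaInd τ (φ.toAddMonoidHom.compLeft (Fin k)) c i =
        fpaInd τ φ.toAddMonoidHom
          (Finsupp.mapRange (Pi.evalAddMonoidHom (fun _ => R) i) (map_zero _) c) :=
    fun c i => fpaInd_comm τ (φ.toAddMonoidHom.compLeft (Fin k)) φ.toAddMonoidHom
      (Pi.evalAddMonoidHom (fun _ => R) i) (LinearMap.proj i) (fun _ => rfl) c
  constructor
  · rw [injective_iff_map_eq_zero]
    intro c hc
    ext t i
    have h1 := key c i
    rw [hc] at h1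
    have h2 := (injective_iff_map_eq_zero _).1 hτ.1 _ h1.symm
    exact DFunLike.congr_fun h2 t
  · intro y
    choose c hc using fun i => hτ.2 (y i)
    refine ⟨∑ i, Finsupp.mapRange (AddMonoidHom.single (fun _ : Fin k => R) i) (map_zero _) (c i),
      ?_⟩
    rw [map_sum]
    conv_rhs => rw [← Finset.univ_sum_single y]
    refine Finset.sum_congr rfl (fun i _ => ?_)
    rw [← fpaInd_comm τ φ.toAddMonoidHom (φ.toAddMonoidHom.compLeft (Fin k))
      (AddMonoidHom.single (fun _ : Fin k => R) i) (LinearMap.single S (fun _ => S) i) ?_ (c i),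
      hc]
    · rfl
    · intro m
      ext j
      by_cases hj : j = i
      · subst hj; simp
      · simp [hj]

/-- Induction of modules preserves `FP`. -/
theorem fpa_ind (φ : R →+* S) (τ : T → S)
    (hτ : Function.Bijective (fpaInd τ φ.toAddMonoidHom)) (n : ℕ) :
    ∀ (M N : Type) [AddCommGroup M] [Module R M] [AddCommGroup N] [Module S N] (ι : M →+ N),
      (∀ (r : R) m, ι (r • m) = φ r • ι m) → Function.Bijective (fpaInd τ ι) →
      FP R n M → FP S n N := by
  induction n with
  | zero => intro M N _ _ _ _ _ _ _ _; exact fpa_zero N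
  | succ n ih =>
    intro M N _ _ _ _ ι hι hb h
    obtain ⟨k, π, hπ, hK⟩ := fpa_succ.1 h
    let π' : (Fin k → S) →ₗ[S] N := Fintype.linearCombination S (fun i => ι (π (Pi.single i 1)))
    have hc : ∀ x, π' (φ.toAddMonoidHom.compLeft (Fin k) x) = ι (π.toAddMonoidHom x) := by
      intro x
      change _ = ι (π x)
      rw [Fintype.linearCombination_apply, LinearMap.pi_apply_eq_sum_univ π x, map_sum]
      refine Finset.sum_congr rfl (fun i _ => ?_)
      rw [hι]
      congr 3
      ext j
      rw [Pi.single_apply]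
      simp [eq_comm]
    have hF := fpaInd_pi φ τ hτ k
    have hcomm := fpaInd_comm τ (φ.toAddMonoidHom.compLeft (Fin k)) ι π.toAddMonoidHom π' hc
    have hπ' : Function.Surjective π' := by
      intro y
      obtain ⟨c, rfl⟩ := hb.2 y
      obtain ⟨c', rfl⟩ := Finsupp.mapRange_surjective π.toAddMonoidHom
        π.toAddMonoidHom.map_zero hπ c
      exact ⟨_, hcomm c'⟩
    let ι' : LinearMap.ker π →+ LinearMap.ker π' :=
      AddMonoidHom.codRestrict ((φ.toAddMonoidHom.compLeft (Fin k)).comp
        (LinearMap.ker π).subtype.toAddMonoidHom) (LinearMap.ker π') (fun z => by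
          change π' (φ.toAddMonoidHom.compLeft (Fin k) z.1) = 0
          rw [hc]
          change ι (π z.1) = 0
          rw [z.2, map_zero])
    have hsub := fpaInd_comm τ ι' (φ.toAddMonoidHom.compLeft (Fin k))
      (LinearMap.ker π).subtype.toAddMonoidHom (LinearMap.ker π').subtype (fun _ => rfl)
    refine fpa_succ.2 ⟨k, π', hπ', ih _ _ ι' ?_ ⟨?_, ?_⟩ hK⟩
    · intro r m
      refine Subtype.ext (funext fun i => ?_)
      exact φ.map_mul r (m.1 i)
    · rw [injective_iff_map_eq_zero]
      intro c hc0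
      have h1 := hsub c
      rw [hc0, map_zero] at h1
      have h2 := (injective_iff_map_eq_zero _).1 hF.1 _ h1.symm
      ext t : 1
      exact Subtype.ext (DFunLike.congr_fun h2 t)
    · rintro ⟨y, hy⟩
      obtain ⟨c, rfl⟩ := hF.2 y
      have h1 := hcomm c
      rw [LinearMap.mem_ker.1 hy] at h1
      have h2 := (injective_iff_map_eq_zero _).1 hb.1 _ h1.symm
      have h3 : ∀ t, c t ∈ LinearMap.ker π := fun t => DFunLike.congr_fun h2 t
      refine ⟨Finsupp.onFinset c.support (fun t => ⟨c t, h3 t⟩) (fun t ht => by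
        rw [Finsupp.mem_support_iff]
        exact fun h0 => ht (Subtype.ext h0)), Subtype.ext ?_⟩
      refine (hsub _).trans ?_
      congr 1
      ext t : 1
      rfl

end Induction

end Crest.Agent.R185
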