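import Crest.Agent.R185.FPAlgA

/-!
# Row 185: `FP` for permutation modules and change of groups
-/

set_option autoImplicit false
set_option linter.style.haveILetI false

namespace Crest.Agent.R185

theorem fpa_semilinear {K S : Type} [Group K] [Ring S] (φ : MonoidAlgebra ℤ K →+* S)
    {M N : Type} [AddCommGroup M] [Module (MonoidAlgebra ℤ K) M] [AddCommGroup N] [Module S N]
    (f : M →+ N)
    (hf : ∀ (g : K) m, f (MonoidAlgebra.single g (1 : ℤ) • m) =
      φ (MonoidAlgebra.single g 1) • f m) (r : MonoidAlgebra ℤ K) (m : M) :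
    f (r • m) = φ r • f m := by
  induction r using MonoidAlgebra.induction_linear with
  | zero => simp
  | add x y hx hy => rw [add_smul, map_add, hx, hy, map_add, add_smul]
  | single g a =>
    have h1 : MonoidAlgebra.single g a =
        (a : MonoidAlgebra ℤ K) * MonoidAlgebra.single g (1 : ℤ) := by
      rw [← zsmul_eq_mul, MonoidAlgebra.smul_single]
      simp
    rw [h1, mul_smul, map_intCast_smul f (MonoidAlgebra ℤ K) S, hf, map_mul, map_intCast, mul_smul]

/-- An equivariant additive map is linear over the group ring. -/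
noncomputable def fpaLin {G : Type} [Group G] {M N : Type} [AddCommGroup M]
    [Module (MonoidAlgebra ℤ G) M] [AddCommGroup N] [Module (MonoidAlgebra ℤ G) N] (f : M →+ N)
    (hf : ∀ (g : G) m, f (MonoidAlgebra.single g (1 : ℤ) • m) =
      MonoidAlgebra.single g (1 : ℤ) • f m) : M →ₗ[MonoidAlgebra ℤ G] N where
  toFun := f
  map_add' := f.map_add
  map_smul' r m := fpa_semilinear (RingHom.id _) f hf r m

/-- The permutation representation on chains. -/
noncomputable def fpaRep (G X : Type) [Group G] [MulAction G X] :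
    Representation ℤ G (X →₀ ℤ) where
  toFun g := Finsupp.lmapDomain ℤ ℤ (fun x => g • x)
  map_one' := by
    refine LinearMap.ext fun c => ?_
    change Finsupp.mapDomain _ c = c
    simp only [one_smul]
    exact Finsupp.mapDomain_id
  map_mul' g h := by
    refine LinearMap.ext fun c => ?_
    change Finsupp.mapDomain _ c = Finsupp.mapDomain _ (Finsupp.mapDomain _ c)
    rw [← Finsupp.mapDomain_comp]
    congr 1
    funext x
    exact mul_smul g h x

/-- The permutation module. -/
abbrev FpaPerm (G X : Type) [Group G] [MulAction G X] : Type := (fpaRep G X).asModule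

/-- The identity from chains to the permutation module. -/
noncomputable def fpaOf (G X : Type) [Group G] [MulAction G X] : (X →₀ ℤ) ≃+ FpaPerm G X :=
  (fpaRep G X).asModuleEquiv.symm.toAddEquiv

theorem fpa_smul {G X : Type} [Group G] [MulAction G X] (g : G) (c : X →₀ ℤ) :
    MonoidAlgebra.single g (1 : ℤ) • fpaOf G X c = fpaOf G X (chAct g c) := by
  rw [Representation.single_smul, one_smul]
  rfl

theorem fpa_symm_smul {G X : Type} [Group G] [MulAction G X] (g : G) (c : FpaPerm G X) :
    (fpaOf G X).symm (MonoidAlgebra.single g (1 : ℤ) • c) = chAct g ((fpaOf G X).symm c) := by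
  obtain ⟨c, rfl⟩ := (fpaOf G X).surjective c
  rw [fpa_smul, AddEquiv.symm_apply_apply, AddEquiv.symm_apply_apply]

/-- The identity from `ℤ` to the trivial module. -/
noncomputable def fpaTriv (G : Type) [Group G] : ℤ ≃+ Triv G :=
  (Representation.trivial ℤ G ℤ).asModuleEquiv.symm.toAddEquiv

theorem fpa_triv_smul {G : Type} [Group G] (g : G) (c : Triv G) :
    MonoidAlgebra.single g (1 : ℤ) • c = c := by
  rw [Representation.single_smul, one_smul]
  rfl

/-- `ℤ[G]` as a free right module over `ℤ[H]`. -/
theorem fpa_ind_ring {G T : Type} [Group G] (H : Subgroup G) (τ : T → G)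
    (hτ : Function.Bijective (fun p : T × H => τ p.1 * p.2)) :
    Function.Bijective (fpaInd (fun t => MonoidAlgebra.single (τ t) (1 : ℤ))
      (MonoidAlgebra.mapDomainRingHom ℤ H.subtype).toAddMonoidHom) := by
  classical
  let Φ : (T →₀ MonoidAlgebra ℤ H) ≃+ MonoidAlgebra ℤ G :=
    (Finsupp.mapRange.addEquiv MonoidAlgebra.coeffAddEquiv).trans
      ((Finsupp.curryAddEquiv (α := T) (β := H) (M := ℤ)).symm.trans
        ((Finsupp.domCongr (Equiv.ofBijective _ hτ)).trans MonoidAlgebra.coeffAddEquiv.symm))
  have : fpaInd (fun t => MonoidAlgebra.single (τ t) (1 : ℤ))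
      (MonoidAlgebra.mapDomainRingHom ℤ H.subtype).toAddMonoidHom = Φ.toAddMonoidHom := by
    refine Finsupp.addHom_ext' fun t => MonoidAlgebra.addMonoidHom_ext fun h a => ?_
    change fpaInd _ _ (Finsupp.single t (MonoidAlgebra.single h a)) =
      Φ (Finsupp.single t (MonoidAlgebra.single h a))
    rw [fpaInd_single]
    change MonoidAlgebra.single (τ t) (1 : ℤ) *
      MonoidAlgebra.mapDomain H.subtype (MonoidAlgebra.single h a) = _
    rw [MonoidAlgebra.mapDomain_single, MonoidAlgebra.single_mul_single, one_mul]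
    simp [Φ]
  rw [this]
  exact Φ.bijective

/-- Transitive permutation modules. -/
theorem fpa_perm_trans {G X : Type} [Group G] [MulAction G X] (x₀ : X)
    (htrans : ∀ x, ∃ g : G, g • x₀ = x) (H : Subgroup G) (hH : ∀ g, g ∈ H ↔ g • x₀ = x₀)
    {n : ℕ} (h : FPn H n) : FP (MonoidAlgebra ℤ G) n (FpaPerm G X) := by
  choose τ hτ using htrans
  have hb : Function.Bijective (fun p : X × H => τ p.1 * p.2) := by
    constructor
    · rintro ⟨x, a⟩ ⟨y, b⟩ hxy
      have h1 : τ x * a = τ y * b := hxy
      have h2 := congrArg (fun g : G => g • x₀) h1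
      simp only [mul_smul, (hH _).1 a.2, (hH _).1 b.2, hτ] at h2
      subst h2
      exact Prod.ext rfl (Subtype.ext (mul_left_cancel h1))
    · intro g
      refine ⟨(g • x₀, ⟨(τ (g • x₀))⁻¹ * g, (hH _).2 ?_⟩), by simp⟩
      rw [mul_smul, inv_smul_eq_iff, hτ]
  let ι : Triv H →+ FpaPerm G X :=
    (fpaOf G X).toAddMonoidHom.comp ((Finsupp.singleAddHom x₀).comp
      (fpaTriv H).symm.toAddMonoidHom)
  have hι : ∀ m, ι m = fpaOf G X (Finsupp.single x₀ ((fpaTriv H).symm m)) := fun _ => rfl
  refine fpa_ind (MonoidAlgebra.mapDomainRingHom ℤ H.subtype) _ (fpa_ind_ring H τ hb) n _ _ ι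
    (fpa_semilinear _ _ fun g m => ?_) ?_ h
  · rw [fpa_triv_smul]
    change _ = MonoidAlgebra.mapDomain H.subtype (MonoidAlgebra.single g (1 : ℤ)) • ι m
    rw [MonoidAlgebra.mapDomain_single, hι, fpa_smul, chAct, Finsupp.mapDomain_single]
    congr 2
    exact ((hH _).1 g.2).symm
  · let Φ : (X →₀ Triv H) ≃+ FpaPerm G X :=
      (Finsupp.mapRange.addEquiv (fpaTriv H).symm).trans (fpaOf G X)
    have : fpaInd (fun t => MonoidAlgebra.single (τ t) (1 : ℤ)) ι = Φ.toAddMonoidHom := by
      refine Finsupp.addHom_ext fun t m => ?_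
      rw [fpaInd_single, hι, fpa_smul, chAct, Finsupp.mapDomain_single, hτ]
      simp [Φ]
    rw [this]
    exact Φ.bijective

theorem fpa_chAct_apply {G X : Type} [Group G] [MulAction G X] (g : G) (c : X →₀ ℤ) (x : X) :
    chAct g c x = c (g⁻¹ • x) := by
  have := Finsupp.mapDomain_apply (MulAction.injective g) c (g⁻¹ • x)
  rw [smul_inv_smul] at this
  exact this

/-- Permutation modules with finitely many orbits. -/
theorem fpa_perm {G X : Type} [Group G] [MulAction G X]
    [Finite (MulAction.orbitRel.Quotient G X)] {n : ℕ}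
    (h : ∀ x : X, FPn (MulAction.stabilizer G x) n) :
    FP (MonoidAlgebra ℤ G) n (FpaPerm G X) := by
  classical
  have h1 : FP (MonoidAlgebra ℤ G) n
      (∀ o : MulAction.orbitRel.Quotient G X, FpaPerm G (MulAction.orbit G o.out)) := by
    refine fpa_pi _ _ fun o => ?_
    refine fpa_perm_trans (⟨o.out, MulAction.mem_orbit_self _⟩ : MulAction.orbit G o.out) ?_
      (MulAction.stabilizer G o.out) ?_ (h _)
    · rintro ⟨x, g, rfl⟩
      exact ⟨g, rfl⟩
    · intro g
      rw [MulAction.mem_stabilizer_iff, Subtype.ext_iff]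
      rfl
  let f : FpaPerm G X →+
      (∀ o : MulAction.orbitRel.Quotient G X, FpaPerm G (MulAction.orbit G o.out)) :=
    AddMonoidHom.pi fun o => (fpaOf G _).toAddMonoidHom.comp
      ((Finsupp.subtypeDomainAddMonoidHom (p := fun x => x ∈ MulAction.orbit G o.out)).comp
        (fpaOf G X).symm.toAddMonoidHom)
  have hf : ∀ c o y, (fpaOf G _).symm (f c o) y = (fpaOf G X).symm c y.1 := fun _ _ _ => rfl
  have hmem : ∀ (x : X) (o : MulAction.orbitRel.Quotient G X),
      x ∈ MulAction.orbit G o.out ↔ Quotient.mk'' x = o := by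
    intro x o
    rw [← MulAction.orbitRel.Quotient.mem_orbit,
      MulAction.orbitRel.Quotient.orbit_eq_orbit_out _ Quotient.out_eq']
  let F := fpaLin (G := G) f (fun g m => by
    funext o
    apply (fpaOf G _).symm.injective
    ext y
    rw [hf, Pi.smul_apply, fpa_symm_smul, fpa_symm_smul, fpa_chAct_apply, fpa_chAct_apply, hf]
    rfl)
  have hF : Function.Bijective F := by
    constructor
    · rw [injective_iff_map_eq_zero]
      intro c hc
      apply (fpaOf G X).symm.injective
      ext x
      have h2 := hf c (Quotient.mk'' x) ⟨x, (hmem _ _).2 rfl⟩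
      have h3 : f c = 0 := hc
      rw [h3] at h2
      exact h2.symm
    · intro y
      haveI := Fintype.ofFinite (MulAction.orbitRel.Quotient G X)
      let c : X →₀ ℤ := ∑ o, Finsupp.mapDomain Subtype.val ((fpaOf G _).symm (y o))
      refine ⟨fpaOf G X c, ?_⟩
      funext o
      apply (fpaOf G _).symm.injective
      ext z
      refine (hf (fpaOf G X c) o z).trans ?_
      rw [AddEquiv.symm_apply_apply, Finsupp.finsetSum_apply, Finset.sum_eq_single o]
      · exact Finsupp.mapDomain_apply Subtype.val_injective _ z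
      · intro o' _ ho'
        refine Finsupp.mapDomain_of_notMem_range _ _ ?_
        rintro ⟨w, hw⟩
        apply ho'
        rw [← (hmem _ _).1 w.2, hw]
        exact (hmem _ _).1 z.2
      · intro h0
        exact absurd (Finset.mem_univ o) h0
  exact fpa_of_equiv (LinearEquiv.ofBijective F hF).symm h1

theorem fpa_fpn_subsingleton (H : Type) [Group H] [Subsingleton H] (n : ℕ) : FPn H n := by
  let f : MonoidAlgebra ℤ H →ₗ[MonoidAlgebra ℤ H] Triv H :=
    LinearMap.toSpanSingleton _ _ (fpaTriv H 1)
  have hf : ∀ a : ℤ, f (MonoidAlgebra.single 1 a) = fpaTriv H a := by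
    intro a
    rw [LinearMap.toSpanSingleton_apply, Representation.single_smul]
    change a • (1 : ℤ) = a
    simp
  have hb : Function.Bijective f := by
    constructor
    · rw [injective_iff_map_eq_zero]
      intro r hr
      have h1 : r = MonoidAlgebra.single 1 (r.coeff 1) := by
        ext g
        rw [Subsingleton.elim g 1]
        simp
      rw [h1, hf] at hr
      rw [h1, (fpaTriv H).map_eq_zero_iff.1 hr]
      simp
    · intro m
      exact ⟨_, (hf _).trans ((fpaTriv H).apply_symm_apply m)⟩
  exact fpa_of_equiv ((LinearEquiv.funUnique (Fin 1) _ _).trans (LinearEquiv.ofBijective f hb))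
    (fpa_free n 1)

/-- Change of groups along a homomorphism with `FP∞` kernel and image of finite index. -/
theorem fpa_fpn_iff {K G : Type} [Group K] [Group G] (f : K →* G) [f.range.FiniteIndex]
    (hker : FPinf f.ker) (n : ℕ) : FPn K n ↔ FPn G n := by
  let φ := MonoidAlgebra.mapDomainRingHom ℤ f
  letI : Module (MonoidAlgebra ℤ K) (MonoidAlgebra ℤ G) := Module.compHom _ φ
  letI : Module (MonoidAlgebra ℤ K) (Triv G) := Module.compHom _ φ
  haveI : IsScalarTower (MonoidAlgebra ℤ K) (MonoidAlgebra ℤ G) (MonoidAlgebra ℤ G) :=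
    ⟨fun r s m => mul_assoc (φ r) s m⟩
  haveI : IsScalarTower (MonoidAlgebra ℤ K) (MonoidAlgebra ℤ G) (Triv G) :=
    ⟨fun r s m => mul_smul (φ r) s m⟩
  have hφ : ∀ k : K, φ (MonoidAlgebra.single k (1 : ℤ)) = MonoidAlgebra.single (f k) 1 :=
    fun k => MonoidAlgebra.mapDomain_single
  letI : MulAction K G := MulAction.compHom G f
  have hsm : ∀ (k : K) (g : G), k • g = f k * g := fun _ _ => rfl
  have hS : ∀ n, FP (MonoidAlgebra ℤ K) n (MonoidAlgebra ℤ G) := by
    intro n
    haveI : Finite (MulAction.orbitRel.Quotient K G) := by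
      refine Finite.of_surjective (fun q : G ⧸ f.range => (Quotient.mk'' q.out⁻¹ :
        MulAction.orbitRel.Quotient K G)) ?_
      intro o
      obtain ⟨g, rfl⟩ := Quotient.mk''_surjective o
      refine ⟨(g⁻¹ : G), Quotient.sound' ?_⟩
      obtain ⟨⟨_, k, rfl⟩, hk⟩ := QuotientGroup.mk_out_eq_mul f.range g⁻¹
      change _ ∈ MulAction.orbit K g
      refine ⟨k⁻¹, ?_⟩
      rw [hk]
      change f k⁻¹ * g = _
      simp
    have h1 : FP (MonoidAlgebra ℤ K) n (FpaPerm K G) := by
      refine fpa_perm fun g => ?_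
      have : MulAction.stabilizer K g = f.ker := by
        ext k
        rw [MulAction.mem_stabilizer_iff, hsm, MonoidHom.mem_ker, mul_eq_right]
      rw [this]
      exact hker n
    let e : FpaPerm K G ≃+ MonoidAlgebra ℤ G :=
      (fpaOf K G).symm.trans MonoidAlgebra.coeffAddEquiv.symm
    let F := fpaLin (G := K) e.toAddMonoidHom (fun k m => by
      obtain ⟨c, rfl⟩ := (fpaOf K G).surjective m
      rw [fpa_smul]
      change MonoidAlgebra.ofCoeff (chAct k c) =
        φ (MonoidAlgebra.single k (1 : ℤ)) * MonoidAlgebra.ofCoeff c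
      rw [hφ]
      ext g
      rw [MonoidAlgebra.coeff_ofCoeff, fpa_chAct_apply, MonoidAlgebra.coeff_single_mul_apply,
        one_mul, hsm, map_inv])
    exact fpa_of_equiv (LinearEquiv.ofBijective F e.bijective) h1
  let e : Triv K ≃+ Triv G := (fpaTriv K).symm.trans (fpaTriv G)
  let F := fpaLin (G := K) e.toAddMonoidHom (fun k m => by
    rw [fpa_triv_smul]
    change _ = φ (MonoidAlgebra.single k (1 : ℤ)) • e m
    rw [hφ, fpa_triv_smul]
    rfl)
  let E := LinearEquiv.ofBijective F e.bijective
  exact ⟨fun h => (fpa_change hS n _).1 (fpa_of_equiv E h),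
    fun h => fpa_of_equiv E.symm ((fpa_change hS n _).2 h)⟩

theorem fpa_fpn_inj {K G : Type} [Group K] [Group G] (f : K →* G) (hf : Function.Injective f)
    [f.range.FiniteIndex] (n : ℕ) : FPn K n ↔ FPn G n := by
  refine fpa_fpn_iff f (fun m => ?_) n
  rw [(MonoidHom.ker_eq_bot_iff f).2 hf]
  exact fpa_fpn_subsingleton _ m

theorem fpa_fpn_equiv {G H : Type} [Group G] [Group H] (e : G ≃* H) {n : ℕ} (h : FPn G n) :
    FPn H n := by
  haveI : e.toMonoidHom.range.FiniteIndex := by
    rw [MonoidHom.range_eq_top.2 e.surjective]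
    infer_instance
  exact (fpa_fpn_inj e.toMonoidHom e.injective n).1 h

theorem fpa_fpn_finiteIndex {G : Type} [Group G] (K : Subgroup G) [K.FiniteIndex] (n : ℕ) :
    FPn K n ↔ FPn G n := by
  haveI : K.subtype.range.FiniteIndex := by
    rw [Subgroup.range_subtype]
    infer_instance
  exact fpa_fpn_inj K.subtype K.subtype_injective n

theorem fpa_fpinf_prod {G H : Type} [Group G] [Group H] (hG : FPinf G) (hH : FPinf H) :
    FPinf (G × H) := by
  intro n
  haveI : (MonoidHom.fst G H).range.FiniteIndex := by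
    rw [MonoidHom.range_eq_top.2 Prod.fst_surjective]
    infer_instance
  refine (fpa_fpn_iff (MonoidHom.fst G H) (fun m => ?_) n).2 (hG n)
  let e : H ≃* (MonoidHom.fst G H).ker :=
    { toFun := fun h => ⟨(1, h), rfl⟩
      invFun := fun p => p.1.2
      left_inv := fun _ => rfl
      right_inv := fun p => Subtype.ext (Prod.ext p.2.symm rfl)
      map_mul' := fun _ _ => Subtype.ext (Prod.ext (one_mul _).symm rfl) }
  exact fpa_fpn_equiv e (hH m)

theorem fpa_fpinf_pi (ι : Type) [Finite ι] : ∀ (G : ι → Type) [∀ i, Group (G i)],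
    (∀ i, FPinf (G i)) → FPinf (∀ i, G i) := by
  induction ι using Finite.induction_empty_option with
  | of_equiv e ih =>
    intro G _ h n
    let E : (∀ b, G b) ≃* (∀ a, G (e a)) :=
      { toEquiv := (Equiv.piCongrLeft G e).symm
        map_mul' := fun _ _ => rfl }
    exact fpa_fpn_equiv E.symm (ih _ (fun i => h (e i)) n)
  | h_empty =>
    intro G _ _ n
    exact fpa_fpn_subsingleton _ n
  | h_option ih =>
    intro G _ h n
    let E : (∀ b, G b) ≃* (G none × ∀ a, G (some a)) :=
      { toEquiv := Equiv.piOptionEquivProd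
        map_mul' := fun _ _ => rfl }
    exact fpa_fpn_equiv E.symm (fpa_fpinf_prod (h none) (ih _ (fun i => h (some i))) n)

end Crest.Agent.R185
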