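import Crest.Agent.R185.FPAlgB

/-!
# Row 185: complexes of permutation modules and resolutions
-/

set_option autoImplicit false
set_option linter.style.haveILetI false

namespace Crest.Agent.R185

/-- An equivariant map of chains as a map of permutation modules. -/
noncomputable def fpaMap {G X Y : Type} [Group G] [MulAction G X] [MulAction G Y]
    (d : (X →₀ ℤ) →+ (Y →₀ ℤ)) (hd : ∀ (g : G) c, d (chAct g c) = chAct g (d c)) :
    FpaPerm G X →ₗ[MonoidAlgebra ℤ G] FpaPerm G Y :=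
  fpaLin ((fpaOf G Y).toAddMonoidHom.comp (d.comp (fpaOf G X).symm.toAddMonoidHom)) (fun g m => by
    change fpaOf G Y (d ((fpaOf G X).symm (_ • m))) = _ • fpaOf G Y (d ((fpaOf G X).symm m))
    rw [fpa_symm_smul, hd, fpa_smul])

/-- An invariant augmentation as a map to the trivial module. -/
noncomputable def fpaAug {G X : Type} [Group G] [MulAction G X]
    (ε : (X →₀ ℤ) →+ ℤ) (hε : ∀ (g : G) c, ε (chAct g c) = ε c) :
    FpaPerm G X →ₗ[MonoidAlgebra ℤ G] Triv G :=
  fpaLin ((fpaTriv G).toAddMonoidHom.comp (ε.comp (fpaOf G X).symm.toAddMonoidHom)) (fun g m => by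
    change fpaTriv G (ε ((fpaOf G X).symm (_ • m))) = _ • fpaTriv G (ε ((fpaOf G X).symm m))
    rw [fpa_symm_smul, hε, fpa_triv_smul])

/-- A map of permutation modules as a map of chains. -/
noncomputable def fpaUn {G X Y : Type} [Group G] [MulAction G X] [MulAction G Y]
    (D : FpaPerm G X →ₗ[MonoidAlgebra ℤ G] FpaPerm G Y) : (X →₀ ℤ) →+ (Y →₀ ℤ) :=
  (fpaOf G Y).symm.toAddMonoidHom.comp (D.toAddMonoidHom.comp (fpaOf G X).toAddMonoidHom)

theorem fpaUn_equiv {G X Y : Type} [Group G] [MulAction G X] [MulAction G Y]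
    (D : FpaPerm G X →ₗ[MonoidAlgebra ℤ G] FpaPerm G Y) (g : G) (c : X →₀ ℤ) :
    fpaUn D (chAct g c) = chAct g (fpaUn D c) := by
  change (fpaOf G Y).symm (D (fpaOf G X (chAct g c))) =
    chAct g ((fpaOf G Y).symm (D (fpaOf G X c)))
  rw [← fpa_smul, map_smul, fpa_symm_smul]

theorem fpa_ker_eq_range {R : Type} [Ring R] {A B C : Type} [AddCommGroup A] [Module R A]
    [AddCommGroup B] [Module R B] [AddCommGroup C] [Module R C] (f : A →ₗ[R] B) (g : B →ₗ[R] C)
    (hfg : ∀ b, g b = 0 ↔ b ∈ Set.range f) : LinearMap.ker g = LinearMap.range f := by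
  ext b
  rw [LinearMap.mem_ker, hfg b]
  rfl

theorem fpa_ker_of_range {R : Type} [Ring R] {A B : Type} [AddCommGroup A] [Module R A]
    [AddCommGroup B] [Module R B] (f : A →ₗ[R] B) (hA : ∀ n, FP R n A)
    (hf : ∀ n, FP R n (LinearMap.range f)) (n : ℕ) : FP R n (LinearMap.ker f) := by
  rw [← LinearMap.ker_rangeRestrict]
  exact fpa_ker f.rangeRestrict f.surjective_rangeRestrict (hf _) (hA n)

/-- The free `G`-set on `J`. -/
def FpaFree (G J : Type) : Type := G × J

instance (G J : Type) [Group G] : MulAction G (FpaFree G J) where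
  smul g x := (g * x.1, x.2)
  one_smul x := Prod.ext (one_mul x.1) rfl
  mul_smul g h x := Prod.ext (mul_assoc g h x.1) rfl

theorem fpa_free_perm (G J : Type) [Group G] [Finite J] (n : ℕ) :
    FP (MonoidAlgebra ℤ G) n (FpaPerm G (FpaFree G J)) := by
  haveI : Finite (MulAction.orbitRel.Quotient G (FpaFree G J)) := by
    refine Finite.of_surjective (fun j : J => (Quotient.mk'' ((1, j) : G × J) :
      MulAction.orbitRel.Quotient G (FpaFree G J))) ?_
    intro o
    obtain ⟨⟨g, j⟩, rfl⟩ := Quotient.mk''_surjective o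
    refine ⟨j, Quotient.sound' ?_⟩
    exact ⟨g⁻¹, Prod.ext (inv_mul_cancel g) rfl⟩
  refine fpa_perm fun x => ?_
  have : MulAction.stabilizer G x = ⊥ := by
    rw [eq_bot_iff]
    intro g hg
    have h0 : g • x = x := MulAction.mem_stabilizer_iff.1 hg
    have h1 : g * x.1 = x.1 := congrArg Prod.fst h0
    exact mul_eq_right.1 h1
  rw [this]
  exact fpa_fpn_subsingleton _ n

theorem fpa_free_surj (G : Type) [Group G] (k : ℕ) :
    ∃ p : FpaPerm G (FpaFree G (Fin k)) →ₗ[MonoidAlgebra ℤ G] (Fin k → MonoidAlgebra ℤ G),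
      Function.Surjective p := by
  let q : (FpaFree G (Fin k) →₀ ℤ) →+ (Fin k → MonoidAlgebra ℤ G) :=
    Finsupp.liftAddHom fun x : G × Fin k =>
      (AddMonoidHom.single (fun _ : Fin k => MonoidAlgebra ℤ G) x.2).comp
        (MonoidAlgebra.singleAddHom x.1)
  have hq : ∀ (x : FpaFree G (Fin k)) (a : ℤ),
      q (Finsupp.single x a) = Pi.single x.2 (MonoidAlgebra.single x.1 a) := fun x a =>
    Finsupp.liftAddHom_apply_single _ _ _
  refine ⟨fpaLin (q.comp (fpaOf G _).symm.toAddMonoidHom) (fun g m => ?_), ?_⟩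
  · change q ((fpaOf G _).symm (_ • m)) = _ • q ((fpaOf G _).symm m)
    rw [fpa_symm_smul]
    generalize (fpaOf G _).symm m = c
    induction c using Finsupp.induction_linear with
    | zero => simp
    | add a b ha hb => rw [chAct, Finsupp.mapDomain_add, map_add, ha, hb, map_add, smul_add]
    | single x a =>
      rw [chAct, Finsupp.mapDomain_single, hq, hq, ← Pi.single_smul, smul_eq_mul,
        MonoidAlgebra.single_mul_single, one_mul]
      rfl
  · have h1 : Function.Surjective q := by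
      rw [← AddMonoidHom.range_eq_top, eq_top_iff]
      intro y _
      rw [← Finset.univ_sum_single y]
      refine sum_mem fun i _ => ?_
      generalize y i = r
      induction r using MonoidAlgebra.induction_linear with
      | zero => simp
      | add a b ha hb => rw [Pi.single_add]; exact add_mem ha hb
      | single g a => exact ⟨_, hq (g, i) a⟩
    exact h1.comp (fpaOf G _).symm.surjective

theorem fpa_step {G : Type} [Group G] {V : Type} [AddCommGroup V] [Module (MonoidAlgebra ℤ G) V]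
    (N : Submodule (MonoidAlgebra ℤ G) V) (hN : ∀ n, FP (MonoidAlgebra ℤ G) n N) :
    ∃ (k : ℕ) (d : FpaPerm G (FpaFree G (Fin k)) →ₗ[MonoidAlgebra ℤ G] V),
      LinearMap.range d = N ∧ ∀ n, FP (MonoidAlgebra ℤ G) n (LinearMap.ker d) := by
  obtain ⟨k, π, hπ, -⟩ := fpa_succ.1 (hN 1)
  obtain ⟨p, hp⟩ := fpa_free_surj G k
  have h1 : LinearMap.range (N.subtype ∘ₗ (π ∘ₗ p)) = N := by
    have h0 : Function.Surjective (π ∘ₗ p) := hπ.comp hp
    rw [LinearMap.range_comp, LinearMap.range_eq_top.2 h0, Submodule.map_top,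
      Submodule.range_subtype]
  refine ⟨k, N.subtype ∘ₗ (π ∘ₗ p), h1, fpa_ker_of_range _ (fpa_free_perm G _) fun n => ?_⟩
  rw [h1]
  exact hN n

theorem fpa_resolution {G : Type} [Group G] {V : Type} [AddCommGroup V]
    [Module (MonoidAlgebra ℤ G) V]
    (N : Submodule (MonoidAlgebra ℤ G) V) (hN : ∀ n, FP (MonoidAlgebra ℤ G) n N) :
    ∃ (k : ℕ → ℕ) (d₀ : FpaPerm G (FpaFree G (Fin (k 0))) →ₗ[MonoidAlgebra ℤ G] V)
      (d : ∀ n, FpaPerm G (FpaFree G (Fin (k (n + 1)))) →ₗ[MonoidAlgebra ℤ G]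
        FpaPerm G (FpaFree G (Fin (k n)))),
      LinearMap.range d₀ = N ∧ LinearMap.range (d 0) = LinearMap.ker d₀ ∧
        ∀ n, LinearMap.range (d (n + 1)) = LinearMap.ker (d n) := by
  obtain ⟨a, d₀, h₀, hK₀⟩ := fpa_step N hN
  choose b dd hr hK using fun (a : ℕ)
    (M : Submodule (MonoidAlgebra ℤ G) (FpaPerm G (FpaFree G (Fin a))))
    (hM : ∀ n, FP (MonoidAlgebra ℤ G) n M) => fpa_step M hM
  let s : ℕ → Σ a : ℕ, {M : Submodule (MonoidAlgebra ℤ G) (FpaPerm G (FpaFree G (Fin a))) //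
      ∀ n, FP (MonoidAlgebra ℤ G) n M} := fun n =>
    Nat.rec ⟨a, LinearMap.ker d₀, hK₀⟩
      (fun _ p => ⟨b p.1 p.2.1 p.2.2, LinearMap.ker (dd p.1 p.2.1 p.2.2), hK p.1 p.2.1 p.2.2⟩) n
  exact ⟨fun n => (s n).1, d₀, fun n => dd (s n).1 (s n).2.1 (s n).2.2, h₀, hr _ _ _,
    fun n => hr _ _ _⟩

end Crest.Agent.R185
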