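import Mathlib

/-!
# Row 185: homological finiteness, definitions

`FP R n M`: there is an exact sequence `R^{k_{n-1}} → … → R^{k_0} → M → 0` (so `FP R 1 M` is
"finitely generated", `FP R 2 M` "finitely presented").  `FPn G n`, `FPinf G` are the same for the
trivial module `ℤ` over `ℤ[G]`.
-/

set_option autoImplicit false

namespace Crest.Agent.R185

/-- `FP R n M`: `M` has a partial resolution of length `n` by finitely generated free modules. -/
def FP (R : Type) [Ring R] : ℕ → ∀ (M : Type) [AddCommGroup M] [Module R M], Prop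
  | 0, _, _, _ => True
  | n + 1, M, _, _ => ∃ (k : ℕ) (π : (Fin k → R) →ₗ[R] M),
      Function.Surjective π ∧ FP R n (LinearMap.ker π)

theorem FP_anchor : type_of% @FP.eq_def := @FP.eq_def
theorem FP_anchor1 : type_of% @FP.eq_1 := @FP.eq_1
theorem FP_anchor2 : type_of% @FP.eq_2 := @FP.eq_2

/-- The trivial `ℤ[G]`-module `ℤ`. -/
abbrev Triv (G : Type) [Group G] : Type := (Representation.trivial ℤ G ℤ).asModule

/-- The trivial module has a finitely generated free partial resolution of length `n`. -/
def FPn (G : Type) [Group G] (n : ℕ) : Prop := FP (MonoidAlgebra ℤ G) n (Triv G)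

/-- Type `FP∞`. -/
def FPinf (G : Type) [Group G] : Prop := ∀ n, FPn G n

/-- The action of `g` on chains `X →₀ ℤ` of a `G`-set. -/
noncomputable abbrev chAct {G X : Type} [Group G] [MulAction G X] (g : G) (c : X →₀ ℤ) : X →₀ ℤ :=
  Finsupp.mapDomain (fun x => g • x) c

/-- The killing gadget for a homomorphism `θ`: nine homomorphisms indexed by a `3 × 3` grid,
commuting along rows and columns, `θ` commuting with row `0`, and an element `r` which
conjugates the diagonal of row `0` to (diagonal of row `0`) times `θ` and centralises the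
diagonals of the other five lines. -/
structure Gadget {A A' : Type} [Group A] [Group A'] (θ : A →* A') where
  e : Fin 3 → Fin 3 → A →* A'
  r : A'
  comm_row : ∀ i j j', j ≠ j' → ∀ x y, Commute (e i j x) (e i j' y)
  comm_col : ∀ i i' j, i ≠ i' → ∀ x y, Commute (e i j x) (e i' j y)
  comm_zero : ∀ j x y, Commute (θ x) (e 0 j y)
  r_row0 : ∀ x, r * (e 0 0 x * e 0 1 x * e 0 2 x) * r⁻¹ = e 0 0 x * e 0 1 x * e 0 2 x * θ x
  r_row : ∀ i, i ≠ 0 → ∀ x, Commute r (e i 0 x * e i 1 x * e i 2 x)
  r_col : ∀ j x, Commute r (e 0 j x * e 1 j x * e 2 j x)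

/-- Gadgets can be composed with homomorphisms on both sides. -/
def Gadget.comp {A₀ A A' A₁ : Type} [Group A₀] [Group A] [Group A'] [Group A₁] {θ : A →* A'}
    (g : Gadget θ) (f : A₀ →* A) (h : A' →* A₁) : Gadget (h.comp (θ.comp f)) where
  e i j := h.comp ((g.e i j).comp f)
  r := h g.r
  comm_row i j j' hj x y := (g.comm_row i j j' hj (f x) (f y)).map h
  comm_col i i' j hi x y := (g.comm_col i i' j hi (f x) (f y)).map h
  comm_zero j x y := (g.comm_zero j (f x) (f y)).map h
  r_row0 x := by
    have := congrArg h (g.r_row0 (f x))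
    simpa [map_mul, map_inv] using this
  r_row i hi x := by
    have := (g.r_row i hi (f x)).map h
    simpa [map_mul] using this
  r_col j x := by
    have := (g.r_col j (f x)).map h
    simpa [map_mul] using this

end Crest.Agent.R185
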