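import Crest.Agent.R185.HNNAux

/-!
# Row 185: normal forms in multiple HNN extensions
-/

set_option autoImplicit false

namespace Crest.Agent.R185

namespace Links
variable {Γ κ Ω : Type} [Group Γ] [MulAction Γ Ω] {D : HD Γ κ} (Λ : Links D Ω)

theorem j_injective : Function.Injective Λ.j := fun x _ h =>
  Option.some.inj (Λ.pt?_of_eq (l := []) ((Λ.red_iff [] x).2 trivial) ((one_smul _ _).trans h))

/-- Britton's lemma for points. -/
theorem red_not_mem {l : List (Γ × κ × Bool)} {x : Ω} (hl : l ≠ []) (h : Λ.Red l x) (y : Ω) :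
    D.prod l • Λ.j x ≠ Λ.j y := fun e => by
  have := Λ.pt?_of_eq h e
  cases l with
  | nil => exact hl rfl
  | cons p l => cases this

theorem exists_red (g : D.MH) (x : Ω) :
    ∃ l x', Λ.Red l x' ∧ g • Λ.j x = D.prod l • Λ.j x' := by
  obtain ⟨l, γ, rfl⟩ := D.exists_prod g
  obtain ⟨l', x', e⟩ := HW.exists_mk (Λ.app l (.pt (γ • x)))
  refine ⟨l', x', (Λ.red_iff _ _).2 (e ▸ Λ.redW_app l trivial), ?_⟩
  rw [← ev_mk, ← e, ev_app, mul_smul, ← j_smul]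
  rfl

/-- Bounded normal forms for the sum norm. -/
theorem bnf_sum {ν : Γ → ℕ} (hν : IsSN ν)
    (he : ∀ k b f, ν (D.a k (!b) f) ≤ ν (D.a k b f) + 2) (μ : Ω → ℕ)
    (hμ : ∀ γ x, μ (γ • x) ≤ ν γ + μ x)
    (hL : ∀ k x y, Λ.L k x y → μ y ≤ μ x + 1 ∧ μ x ≤ μ y + 1) (g : D.MH) (x : Ω) :
    ∃ l x', Λ.Red l x' ∧ g • Λ.j x = D.prod l • Λ.j x' ∧
      (∀ p ∈ l, ν p.1 ≤ D.nu ν g + μ x) ∧ μ x' ≤ D.nu ν g + μ x := by
  obtain ⟨l, γ, rfl, hg⟩ := D.exists_nu ν g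
  obtain ⟨l', x', e⟩ := HW.exists_mk (Λ.app l (.pt (γ • x)))
  have h1 := Λ.pot_app hν he hμ hL l (.pt (γ • x))
  have h2 := hμ γ x
  have h3 := HW.le_pot_mk ν μ l' x'
  rw [e, HW.pot] at h1
  refine ⟨l', x', (Λ.red_iff _ _).2 (e ▸ Λ.redW_app l trivial), ?_, fun p hp => ?_, by omega⟩
  · rw [← ev_mk, ← e, ev_app, mul_smul, ← j_smul]
    rfl
  · have := h3.1 p hp
    omega

end Links

theorem HD.exists_dnu {Γ κ : Type} [Group Γ] (D : HD Γ κ) (ν : Γ → ℕ) (g : D.MH) :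
    ∃ l γ, g = D.cprod l * D.of γ ∧
      (∀ p ∈ l, ν p.1 ≤ D.dnu ν g ∧ ν (γ⁻¹ * p.1) ≤ D.dnu ν g) ∧ ν γ ≤ D.dnu ν g := by
  obtain ⟨l, γ, h⟩ := D.exists_cprod g
  refine Nat.sInf_mem (s := {n | ∃ (l : List (Γ × κ × Bool)) (γ : Γ), g = D.cprod l * D.of γ ∧
    (∀ p ∈ l, ν p.1 ≤ n ∧ ν (γ⁻¹ * p.1) ≤ n) ∧ ν γ ≤ n})
    ⟨(l.map fun p => ν p.1 + ν (γ⁻¹ * p.1)).sum + ν γ, l, γ, h, fun p hp => ?_, by omega⟩
  have := List.le_sum_of_mem (List.mem_map_of_mem (f := fun p => ν p.1 + ν (γ⁻¹ * p.1)) hp)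
  omega

/-- Bounded normal forms for the depth norm. -/
theorem Links.bnf_depth {Γ κ Ω : Type} [Group Γ] [MulAction Γ Ω] {E : κ → Subgroup Γ}
    (Λ : Links (HD.central E) Ω) {ν : Γ → ℕ} (hν : IsSN ν) (n : ℕ) (Good : Ω → Prop)
    (hG : ∀ l q x y, Good x → ν q ≤ n → Λ.L' l (q⁻¹ • x) y → Good (q • y))
    (g : (HD.central E).MH) (hg : (HD.central E).dnu ν g ≤ n) (x : Ω)
    (hx : ∀ γ, ν γ ≤ n → Good (γ • x)) :
    ∃ l q x', Λ.Red l (q⁻¹ • x') ∧ g • Λ.j x = (HD.central E).prod l • Λ.j (q⁻¹ • x') ∧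
      (∀ p ∈ l, ν p.1 ≤ 2 * n) ∧ ν q ≤ n ∧ Good x' ∧ (l = [] → q = 1) := by
  obtain ⟨c, γ, e, h1, h2⟩ := (HD.central E).exists_dnu ν g
  obtain ⟨c', x', g1, g2, g3, g4⟩ := Λ.exists_cw hG c (fun p hp => (h1 p hp).1.trans hg) (γ • x)
    (hx γ (h2.trans hg))
  obtain ⟨l, q, k1, k2, k3, k4⟩ := HW.cw_eq_mk hν c' g3 x' 1 (by rw [hν.one]; omega)
  rw [inv_one, HW.hm_one] at k1
  refine ⟨l, q, x', (Λ.red_iff _ _).2 (k1 ▸ g1), ?_, k2, k3, g4, k4⟩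
  rw [← ev_mk, ← k1, ← g2, ev_cw, e, mul_smul, j_smul]

namespace HD
variable {Γ κ : Type} [Group Γ] (D : HD Γ κ)

theorem of_injective : Function.Injective D.of := fun γ γ' h =>
  D.noLinks.j_injective (by rw [D.noLinks_j γ, D.noLinks_j γ', h])

/-- Britton's lemma. -/
theorem britton {l : List (Γ × κ × Bool)} (hl : l ≠ []) (h : D.NoPinch l) (γ γ' : Γ) :
    D.prod l * D.of γ ≠ D.of γ' := fun e =>
  D.noLinks.red_not_mem hl ((D.noLinks_red l γ).2 h) γ'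
    (by rw [D.noLinks_j γ, D.noLinks_j γ', ← mul_smul, e])

theorem exists_noPinch (g : D.MH) : ∃ l γ, D.NoPinch l ∧ g = D.prod l * D.of γ := by
  obtain ⟨l, γ, h1, h2⟩ := D.noLinks.exists_red g 1
  exact ⟨l, γ, h1.1, D.noLinks_eq h2⟩

theorem nu_mul_le {ν : Γ → ℕ} (hν : IsSN ν) (g g' : D.MH) :
    D.nu ν (g * g') ≤ D.nu ν g + D.nu ν g' := by
  obtain ⟨l, γ, rfl, h⟩ := D.exists_nu ν g
  obtain ⟨l', γ', rfl, h'⟩ := D.exists_nu ν g'
  obtain ⟨l'', γ'', e, h''⟩ := D.of_mul_prod γ l' γ'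
  have h1 := D.nu_le ν (l ++ l'') γ''
  have h2 := h'' ν hν
  have e' : D.prod (l ++ l'') = D.prod l * D.prod l'' := by simp [prod]
  rw [e', mul_assoc, ← e, ← mul_assoc, List.map_append, List.sum_append] at h1
  omega

theorem nu_of_le {ν : Γ → ℕ} (γ : Γ) : D.nu ν (D.of γ) ≤ ν γ := by
  simpa using D.nu_le ν [] γ

theorem nu_T_le {ν : Γ → ℕ} (hν : IsSN ν) (l : κ × Bool) : D.nu ν (D.T l) ≤ 1 := by
  simpa [hν.one] using D.nu_le ν [(1, l)] 1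

theorem nu_t_le {ν : Γ → ℕ} (hν : IsSN ν) (k : κ) : D.nu ν (D.t k) ≤ 1 := D.nu_T_le hν (k, true)

theorem isSN_nu {ν : Γ → ℕ} (hν : IsSN ν) : IsSN (D.nu ν) := by
  have hinv : ∀ g, D.nu ν g⁻¹ ≤ D.nu ν g := fun g => by
    obtain ⟨l, γ, rfl, h⟩ := D.exists_nu ν g
    rw [h]
    clear h
    induction l with
    | nil => simpa [hν.inv] using D.nu_of_le (ν := ν) γ⁻¹
    | cons p l ih =>
      obtain ⟨q, k, b⟩ := p
      have e : (D.prod ((q, k, b) :: l) * D.of γ)⁻¹ =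
          (D.prod l * D.of γ)⁻¹ * (D.T (k, !b) * D.of q⁻¹) := by
        rw [prod_cons, T_not, map_inv]; group
      have h1 := D.nu_mul_le hν (D.prod l * D.of γ)⁻¹ (D.T (k, !b) * D.of q⁻¹)
      have h2 := D.nu_mul_le hν (D.T (k, !b)) (D.of q⁻¹)
      have h3 := D.nu_T_le hν (k, !b)
      have h4 := D.nu_of_le (ν := ν) q⁻¹
      rw [hν.inv] at h4
      rw [e, List.map_cons, List.sum_cons]
      simp only
      omega
  refine ⟨?_, D.nu_mul_le hν, fun g => le_antisymm (hinv g) (by simpa using hinv g⁻¹)⟩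
  simpa [hν.one] using D.nu_of_le (ν := ν) 1

theorem bnf {ν : Γ → ℕ} (hν : IsSN ν) (he : ∀ k b f, ν (D.a k (!b) f) ≤ ν (D.a k b f) + 2)
    (g : D.MH) : ∃ l γ, D.NoPinch l ∧ g = D.prod l * D.of γ ∧
      (∀ p ∈ l, ν p.1 ≤ D.nu ν g) ∧ ν γ ≤ D.nu ν g := by
  obtain ⟨l, γ, h1, h2, h3, h4⟩ := D.noLinks.bnf_sum hν he ν hν.mul (fun _ _ _ h => h.elim) g 1
  rw [hν.one, add_zero] at h3 h4
  exact ⟨l, γ, h1.1, D.noLinks_eq h2, h3, h4⟩

theorem nu_of {ν : Γ → ℕ} (hν : IsSN ν) (he : ∀ k b f, ν (D.a k (!b) f) ≤ ν (D.a k b f) + 2)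
    (γ : Γ) : D.nu ν (D.of γ) = ν γ := by
  refine le_antisymm (D.nu_of_le γ) ?_
  obtain ⟨l, γ', h1, h2, -, h4⟩ := D.bnf hν he (D.of γ)
  obtain rfl : l = [] := by
    by_contra hl
    exact D.britton hl h1 γ' γ h2.symm
  rw [prod_nil, one_mul] at h2
  rwa [← D.of_injective h2] at h4

theorem dnu_le {ν : Γ → ℕ} {n : ℕ} (l : List (Γ × κ × Bool)) (γ : Γ)
    (h : ∀ p ∈ l, ν p.1 ≤ n ∧ ν (γ⁻¹ * p.1) ≤ n) (hγ : ν γ ≤ n) :
    D.dnu ν ((l.map fun p => D.of p.1 * D.T p.2 * (D.of p.1)⁻¹).prod * D.of γ) ≤ n :=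
  Nat.sInf_le ⟨l, γ, rfl, h, hγ⟩

theorem dnu_le_two {ν : Γ → ℕ} (hν : IsSN ν) {n : ℕ} (l : List (Γ × κ × Bool)) (γ : Γ)
    (h : ∀ p ∈ l, ν p.1 ≤ n) (hγ : ν γ ≤ n) :
    D.dnu ν ((l.map fun p => D.of p.1 * D.T p.2 * (D.of p.1)⁻¹).prod * D.of γ) ≤ 2 * n := by
  refine D.dnu_le l γ (fun p hp => ?_) (by omega)
  have h1 := h p hp
  have h2 := hν.mul γ⁻¹ p.1
  rw [hν.inv] at h2
  omega

theorem dnu_of_le {ν : Γ → ℕ} (γ : Γ) : D.dnu ν (D.of γ) ≤ ν γ := by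
  simpa using D.dnu_le (ν := ν) [] γ (by simp) le_rfl

theorem dnu_conj_T_le {ν : Γ → ℕ} (hν : IsSN ν) (q : Γ) (l : κ × Bool) :
    D.dnu ν (D.of q * D.T l * (D.of q)⁻¹) ≤ ν q := by
  simpa using D.dnu_le (ν := ν) (n := ν q) [(q, l)] 1 (by simp) (by simp [hν.one])

theorem isSN_dnu {ν : Γ → ℕ} (hν : IsSN ν) : IsSN (D.dnu ν) := by
  have hinv : ∀ g, D.dnu ν g⁻¹ ≤ D.dnu ν g := fun g => by
    obtain ⟨l, γ, e, h1, h2⟩ := D.exists_dnu ν g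
    have e' : g⁻¹ = D.cprod ((l.map fun p => (p.1, p.2.1, !p.2.2)).reverse.map
        fun p => (γ⁻¹ * p.1, p.2)) * D.of γ⁻¹ := by
      rw [cprod_conj, cprod_inv, e, map_inv]; group
    rw [e']
    refine D.dnu_le _ _ (fun p hp => ?_) (by rwa [hν.inv])
    simp only [List.mem_map, List.mem_reverse] at hp
    obtain ⟨_, ⟨p', hp', rfl⟩, rfl⟩ := hp
    simpa using (h1 p' hp').symm
  refine ⟨?_, fun g g' => ?_, fun g => le_antisymm (hinv g) (by simpa using hinv g⁻¹)⟩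
  · simpa [hν.one] using D.dnu_of_le (ν := ν) 1
  · obtain ⟨l, γ, e, h1, h2⟩ := D.exists_dnu ν g
    obtain ⟨l', γ', e', h1', h2'⟩ := D.exists_dnu ν g'
    have e'' : g * g' = D.cprod (l ++ l'.map fun p => (γ * p.1, p.2)) * D.of (γ * γ') := by
      rw [cprod_append, cprod_conj, map_mul]
      conv_lhs => rw [e, e']
      group
    rw [e'']
    refine D.dnu_le _ _ (fun p hp => ?_) ((hν.mul _ _).trans (add_le_add h2 h2'))
    rcases List.mem_append.1 hp with hp | hp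
    · have g1 := h1 p hp
      have g2 := hν.mul γ'⁻¹ (γ⁻¹ * p.1)
      rw [hν.inv] at g2
      rw [mul_inv_rev, mul_assoc]
      omega
    · obtain ⟨p', hp', rfl⟩ := List.mem_map.1 hp
      have g1 := h1' p' hp'
      have g2 := hν.mul γ p'.1
      simp only [mul_inv_rev, mul_assoc, inv_mul_cancel_left]
      omega

theorem dnu_of {E : κ → Subgroup Γ} {ν : Γ → ℕ} (γ : Γ) :
    (central E).dnu ν ((central E).of γ) = ν γ := by
  refine le_antisymm ((central E).dnu_of_le γ) ?_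
  obtain ⟨l, γ', e, -, h⟩ := (central E).exists_dnu ν ((central E).of γ)
  let r : (central E).MH →* Γ := (central E).lift (MonoidHom.id Γ) (fun _ => 1) fun k f => by
    simp [central]
  have hT : ∀ s, r ((central E).T s) = 1 := by
    rintro ⟨k, _ | _⟩ <;> simp [r]
  have hc : ∀ l, r ((central E).cprod l) = 1 := fun l => by
    induction l with
    | nil => simp
    | cons p l ih => simp [hT, ih]
  have := congrArg r e
  rw [map_mul, hc, one_mul] at this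
  obtain rfl : γ = γ' := this
  exact h

variable {K : Subgroup Γ} {fix : Set κ}

theorem of_mem_Kt (h : D.Fixes K fix) (γ : Γ) : D.of γ ∈ D.Kt K fix ↔ γ ∈ K := by
  rw [← D.cosLinks_stab h, ← D.cosLinks_j h, (D.cosLinks h).j_injective.eq_iff, eq_comm,
    QuotientGroup.eq, inv_one, one_mul]

/-- Britton's lemma modulo `Kt`. -/
theorem britton_K (h : D.Fixes K fix) {l : List (Γ × κ × Bool)} {γ : Γ} (hl : l ≠ [])
    (hr : D.RedK K fix l γ) (γ' : Γ) : (D.of γ')⁻¹ * (D.prod l * D.of γ) ∉ D.Kt K fix := by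
  intro hm
  refine (D.cosLinks h).red_not_mem hl ((D.cosLinks_red h l γ).2 hr) (γ' : Γ ⧸ K) ?_
  rw [D.cosLinks_j h γ, ← mul_smul, ← one_smul D.MH ((D.cosLinks h).j (γ' : Γ ⧸ K)),
    cosLinks_eq, one_mul]
  exact hm

theorem exists_redK (h : D.Fixes K fix) (g : D.MH) :
    ∃ l γ, D.RedK K fix l γ ∧ (D.prod l * D.of γ)⁻¹ * g ∈ D.Kt K fix := by
  obtain ⟨l, x, h1, h2⟩ := (D.cosLinks h).exists_red g ((1 : Γ) : Γ ⧸ K)
  induction x using QuotientGroup.induction_on with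
  | H γ => exact ⟨l, γ, (D.cosLinks_red h l γ).1 h1, (D.cosLinks_eq h).1 h2⟩

/-- Bounded normal forms modulo `Kt`. -/
theorem bnf_K (h : D.Fixes K fix) {ν : Γ → ℕ} (hν : IsSN ν)
    (he : ∀ k b f, ν (D.a k (!b) f) ≤ ν (D.a k b f) + 2)
    (hK : ∀ k ∈ fix, ∀ b f γ, γ⁻¹ * D.a k b f ∈ K →
      ∃ γ', γ'⁻¹ * D.a k (!b) f ∈ K ∧ ν γ' ≤ ν γ + 1) (g : D.MH) :
    ∃ l γ, D.RedK K fix l γ ∧ (D.prod l * D.of γ)⁻¹ * g ∈ D.Kt K fix ∧
      (∀ p ∈ l, ν p.1 ≤ D.nu ν g) ∧ ν γ ≤ D.nu ν g := by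
  let μ : Γ ⧸ K → ℕ := fun x => sInf {n | ∃ γ : Γ, (γ : Γ ⧸ K) = x ∧ ν γ = n}
  have h1 : ∀ γ : Γ, μ γ ≤ ν γ := fun γ => Nat.sInf_le ⟨γ, rfl, rfl⟩
  have h2 : ∀ x, ∃ γ : Γ, (γ : Γ ⧸ K) = x ∧ ν γ = μ x := fun x => by
    induction x using QuotientGroup.induction_on with
    | H γ => exact Nat.sInf_mem (s := {n | ∃ γ' : Γ, (γ' : Γ ⧸ K) = γ ∧ ν γ' = n}) ⟨_, γ, rfl, rfl⟩
  have h3 : ∀ k ∈ fix, ∀ b f, μ (D.a k (!b) f : Γ) ≤ μ (D.a k b f : Γ) + 1 := fun k hk b f => by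
    obtain ⟨γ, e, hγ⟩ := h2 (D.a k b f : Γ)
    obtain ⟨γ', e', hγ'⟩ := hK k hk b f γ (QuotientGroup.eq.1 e)
    rw [← QuotientGroup.eq.2 e', ← hγ]
    exact (h1 γ').trans hγ'
  obtain ⟨l, x, g1, g2, g3, g4⟩ := (D.cosLinks h).bnf_sum hν he μ (fun γ x => by
      obtain ⟨γ', rfl, e⟩ := h2 x
      rw [← e]
      exact (h1 (γ * γ')).trans (hν.mul _ _)) (by
      rintro k _ _ ⟨hk, f, rfl, rfl⟩
      exact ⟨h3 k hk true f, h3 k hk false f⟩) g ((1 : Γ) : Γ ⧸ K)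
  have h4 : μ ((1 : Γ) : Γ ⧸ K) = 0 := Nat.eq_zero_of_le_zero ((h1 1).trans hν.one.le)
  rw [h4, add_zero] at g3 g4
  obtain ⟨γ, rfl, e⟩ := h2 x
  exact ⟨l, γ, (D.cosLinks_red h l γ).1 g1, (D.cosLinks_eq h).1 g2, g3, e ▸ g4⟩

end HD

/-- Presentation of an HNN extension. -/
theorem pres_hnn {ι κ : Type} (X : MG ι) (D : HD X.G κ) {T : Set (Word ι)} (hT : Pres X T)
    (gw : κ → Set (Word ι × Word ι))
    (h₁ : ∀ k, ∀ p ∈ gw k, ∃ f, X.ev p.1 = D.a k true f ∧ X.ev p.2 = D.a k false f)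
    (h₂ : ∀ k, Subgroup.closure {f | ∃ p ∈ gw k, X.ev p.1 = D.a k true f} = ⊤) :
    Pres (X.hnn D) (ren Sum.inl '' T ∪ {r | ∃ k, ∃ p ∈ gw k, r = [(Sum.inr k, true)] ++
      ren Sum.inl p.1 ++ [(Sum.inr k, false)] ++ (ren Sum.inl p.2).inv}) := by
  constructor
  · rintro _ (⟨r, hr, rfl⟩ | ⟨k, p, hp, rfl⟩)
    · rw [X.hnn_ev_inl D, hT.1 r hr]
      exact map_one D.of
    · obtain ⟨f, e₁, e₂⟩ := h₁ k p hp
      have g1 := X.hnn_ev_inl D p.1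
      have g2 := X.hnn_ev_inl D p.2
      rw [MG.ev] at g1 g2
      rw [MG.ev, evW_append, evW_append, evW_append, evW_inv, evW_true, evW_false, g1, g2, e₁, e₂,
        mul_inv_eq_one]
      exact D.t_conj k f
  · intro Z _ z hz w hw
    obtain ⟨φ, hφ⟩ := HNNAux_exists_hom X (fun i => z (Sum.inl i))
      (hT.2 Z _ fun r hr => by rw [← evW_ren]; exact hz _ (Or.inl ⟨r, hr, rfl⟩))
    have hc : ∀ k f, z (Sum.inr k) * φ (D.a k true f) * (z (Sum.inr k))⁻¹ = φ (D.a k false f) := by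
      intro k f
      have := MonoidHom.eq_of_eqOn_dense (h₂ k)
        (f := (MulAut.conj (z (Sum.inr k))).toMonoidHom.comp (φ.comp (D.a k true)))
        (g := φ.comp (D.a k false)) (by
          rintro f ⟨p, hp, e⟩
          obtain ⟨f', e₁, e₂⟩ := h₁ k p hp
          obtain rfl : f = f' := D.inj k true (e.symm.trans e₁)
          have := hz _ (Or.inr ⟨k, p, hp, rfl⟩)
          rw [evW_append, evW_append, evW_append, evW_inv, evW_true, evW_false, evW_ren, evW_ren,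
            ← hφ, ← hφ, e₁, e₂, mul_inv_eq_one] at this
          exact this)
      exact DFunLike.congr_fun this f
    have hg : z = fun i => D.lift φ (fun k => z (Sum.inr k)) hc ((X.hnn D).gen i) := by
      funext i
      rcases i with i | k
      · have := hφ [(i, true)]
        rw [MG.ev, evW_true, evW_true] at this
        exact this.symm
      · exact (D.lift_t φ (fun k => z (Sum.inr k)) hc k).symm
    have := map_evW (D.lift φ (fun k => z (Sum.inr k)) hc) (X.hnn D).gen w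
    rw [← hg] at this
    rw [← this]
    exact (congrArg _ hw).trans (map_one _)

end Crest.Agent.R185
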