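import Crest.Agent.R185.KillCone

/-!
# Row 185, killing gadget: ascending HNN extensions
-/

set_option autoImplicit false

namespace Crest.Agent.R185
namespace Kill

open Finsupp

variable {H A : Type} [Group H] [Group A]

theorem exists_beta (ι : A →* H) (hι : Function.Injective ι) (t : H) (θ : A →* A)
    (hθ : ∀ a, ι (θ a) = t * ι a * t⁻¹) {N : ℕ} (hN : Null N θ) :
    ∃ T : Set H, T.Finite ∧ T ⊆ Set.range ι ∧ ∃ β : Ch H →+ Ch H,
      (∀ g c, β (tr g c) = tr g (β c)) ∧
      (∀ k, k ≤ N → ∀ c ∈ C (Set.range ι) k, β c ∈ C T k ∧ bd (β c) = β (bd c)) ∧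
      β (single [] 1) = single [] 1 ∧ ∀ h, β (single [h] 1) = single [h * t⁻¹] 1 := by
  obtain ⟨T, hT, ψ, hψ, H', h0, h1⟩ := hN
  obtain ⟨ρ, hρ⟩ := hι.hasLeftInverse
  set β : Ch H →+ Ch H := lift fun l => tr (l.headD 1 * t⁻¹)
    (mp ι (ψ (single (l.map fun x => ρ ((l.headD 1)⁻¹ * x)) 1))) with hβ
  have hβs : ∀ l : List H, β (single l 1) = tr (l.headD 1 * t⁻¹)
      (mp ι (ψ (single (l.map fun x => ρ ((l.headD 1)⁻¹ * x)) 1))) := fun l => by
    rw [hβ, lift_sg]
  have hβ0 : β (single [] 1) = single [] 1 := by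
    rw [hβs, List.map_nil, h0]; simp
  have heq : ∀ g c, β (tr g c) = tr g (β c) := fun g c => by
    have : β.comp (tr g) = (tr g).comp β := hom_ext fun l => by
      simp only [AddMonoidHom.comp_apply]
      cases l with
      | nil => rw [mp_sg, List.map_nil, hβ0, mp_sg, List.map_nil]
      | cons a l =>
        rw [mp_sg, hβs, hβs, tr_tr]
        simp [Function.comp_def, mul_assoc]
    exact DFunLike.congr_fun this c
  have hβι : ∀ c, β (mp ι c) = tr t⁻¹ (mp ι (ψ c)) := fun c => by
    have : β.comp (mp ι) = (tr t⁻¹).comp ((mp ι).comp ψ) := hom_ext fun l => by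
      simp only [AddMonoidHom.comp_apply]
      cases l with
      | nil => rw [mp_sg, List.map_nil, hβ0, h0]; simp
      | cons a l =>
        have e : (((a :: l).map ι).map fun x => ρ ((((a :: l).map ι).headD 1)⁻¹ * x)) =
            (a :: l).map fun x => a⁻¹ * x := by
          rw [List.map_map]
          refine List.map_congr_left fun x _ => ?_
          simp only [Function.comp_apply, List.map_cons, List.headD_cons]
          rw [← map_inv, ← map_mul, hρ]
        rw [mp_sg, hβs, e, ← mp_sg (fun x => a⁻¹ * x), hψ, mp_tr, tr_tr, hθ]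
        simp [mul_assoc]
    exact DFunLike.congr_fun this c
  have hdec : ∀ l : List H, Small (Set.range ι) l → ∃ (h : H) (x : List A),
      x.length = l.length ∧ single l 1 = tr h (mp ι (single x 1)) := by
    intro l hl
    refine ⟨l.headD 1, l.map fun x => ρ ((l.headD 1)⁻¹ * x), by simp, ?_⟩
    rw [mp_sg, mp_sg, List.map_map, List.map_map]
    congr 1
    symm
    cases l with
    | nil => rfl
    | cons a l =>
      conv_rhs => rw [← List.map_id (a :: l)]
      refine List.map_congr_left fun x hx => ?_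
      obtain ⟨y, hy⟩ := hl a (by simp) x hx
      simp only [Function.comp_apply, List.headD_cons, id]
      rw [← hy, hρ, hy, mul_inv_cancel_left]
  refine ⟨ι '' T, hT.image _, Set.image_subset_range _ _, β, heq, fun k hk c hc => ⟨?_, ?_⟩, hβ0,
    fun h => ?_⟩
  · refine On.map β (fun l hl => ?_) hc
    obtain ⟨h, x, hx, e⟩ := hdec l hl.2
    rw [e, heq, hβι, ← hl.1, ← hx]
    exact C.tr _ (C.tr _ (C.mp ι (H' x (by omega)).1))
  · refine On.ext (bd.comp β) (β.comp bd) (fun l hl => ?_) hc
    obtain ⟨h, x, hx, e⟩ := hdec l hl.2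
    simp only [AddMonoidHom.comp_apply]
    rw [e, heq, hβι, bd_mp, bd_mp, bd_mp, bd_mp, bd_mp, heq, hβι, (H' x (by omega)).2]
  · rw [hβs]
    have : ρ 1 = 1 := by rw [← map_one ι, hρ]
    simp [this, h1]

theorem fpn_hnn (ι : A →* H) (hι : Function.Injective ι) (t : H) (θ : A →* A)
    (hθ : ∀ a, ι (θ a) = t * ι a * t⁻¹) (χ : H →* Multiplicative ℤ) (hχt : 0 < (χ t).toAdd)
    (hχA : ∀ a, χ (ι a) = 1) (hgen : Subgroup.closure (Set.range ι ∪ {t}) = ⊤)
    (hfg : Group.FG A) {n : ℕ} (hN : Null (n + 2) θ) : FPn H n := by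
  obtain ⟨T₀, hT₀, hT₀R, β, hβ, hβC, hβ0, hβ1⟩ := exists_beta ι hι t θ hθ hN
  obtain ⟨S, hS, hSf⟩ := Group.fg_iff.1 hfg
  set T : Set H := insert 1 (T₀ ∪ ι '' (S ∪ S⁻¹)) with hT
  have hTf : T.Finite := (hT₀.union ((hSf.union hSf.inv).image _)).insert _
  have hTR : T ⊆ Set.range ι := by
    rintro x (rfl | hx | hx)
    exacts [⟨1, map_one ι⟩, hT₀R hx, Set.image_subset_range _ _ hx]
  have hβT : ∀ k, k ≤ n + 2 → ∀ c ∈ C (Set.range ι) k, β c ∈ C T k := fun k hk c hc =>
    C.mono (fun x hx => Or.inr (Or.inl hx)) (hβC k hk c hc).1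
  -- coset representatives
  set rep : H → H := fun h => (QuotientGroup.mk h : H ⧸ ι.range).out with hrep
  have rep1 : ∀ h, (rep h)⁻¹ * h ∈ Set.range ι := fun h =>
    QuotientGroup.eq.1 (QuotientGroup.out_eq' (QuotientGroup.mk h : H ⧸ ι.range))
  have rep2 : ∀ h h', h⁻¹ * h' ∈ Set.range ι → rep h = rep h' := fun h h' hh =>
    congrArg Quotient.out (QuotientGroup.eq.2 hh : (QuotientGroup.mk h : H ⧸ ι.range) = _)
  set co : Ch H →+ Ch H := lift fun l => single (rep (l.headD 1) :: l) 1 with hco
  have hcos : ∀ l : List H, co (single l 1) = single (rep (l.headD 1) :: l) 1 := fun l => by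
    rw [hco, lift_sg]
  have hcoC : ∀ k, ∀ c ∈ C (Set.range ι) (k + 1), co c ∈ C (Set.range ι) (k + 2) := by
    intro k c hc
    refine On.map co (fun l hl => ?_) hc
    rw [hcos]
    refine C.sg' (by simp [hl.1]) ?_
    cases l with
    | nil => simp at hl
    | cons a l =>
      have key : ∀ b ∈ rep a :: a :: l, (rep a)⁻¹ * b ∈ ι.range := by
        intro b hb
        rcases List.mem_cons.1 hb with rfl | hb
        · rw [inv_mul_cancel]; exact one_mem _
        · have := mul_mem (show _ ∈ ι.range from rep1 a)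
            (show _ ∈ ι.range from hl.2 a (by simp) b hb)
          simpa [mul_assoc] using this
      intro b hb b' hb'
      have := mul_mem (inv_mem (key b hb)) (key b' hb')
      simpa [mul_assoc] using this
  have hco2 : ∀ k, ∀ c ∈ C (Set.range ι) (k + 2), bd (co c) = c - co (bd c) := by
    intro k c hc
    refine On.ext (bd.comp co) (AddMonoidHom.id _ - co.comp bd) (fun l hl => ?_) hc
    simp only [AddMonoidHom.comp_apply, AddMonoidHom.sub_apply, AddMonoidHom.id_apply]
    rw [hcos, bd_cons]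
    congr 1
    refine On.ext (cn _) co (fun l' hl' => ?_) (bd_sg_mem l)
    rw [hcos, cn_sg]
    cases l with
    | nil => simp at hl
    | cons a l =>
      cases l' with
      | nil => have := hl.1; have := hl'.2; simp only [List.length_nil] at this; omega
      | cons b l' =>
        simp only [List.headD_cons]
        rw [rep2 a b (hl.2 a (by simp) b (hl'.1.subset (by simp)))]
  have hco1 : ∀ c ∈ C (Set.range ι) 1, bd (co c) = c - mp rep c := by
    intro c hc
    refine On.ext (bd.comp co) (AddMonoidHom.id _ - mp rep) (fun l hl => ?_) hc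
    obtain ⟨a, rfl⟩ := List.length_eq_one_iff.1 hl.1
    simp [hcos, bd_two]
  have hχrep : ∀ h, χ (rep h) = χ h := fun h => by
    obtain ⟨a, ha⟩ := rep1 h
    have := hχA a
    rw [ha, map_mul, map_inv, inv_mul_eq_one] at this
    exact this
  have fill1 : ∀ x ∈ C (Set.range ι) 2, ∀ y ∈ C (Set.range ι) 1, bd x + y - β y = 0 →
      bd (co y) = y := by
    intro x hx y hy h
    have e1 : mp rep (bd x) = 0 := by
      refine On.ext ((mp rep).comp bd) 0 (fun l hl => ?_) hx
      obtain ⟨a, b, rfl⟩ := List.length_eq_two.1 hl.1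
      simp [bd_two, rep2 a b (hl.2 a (by simp) b (by simp))]
    have e2 : mp rep (β y) = mp (fun h => rep (h * t⁻¹)) (mp rep y) := by
      refine On.ext ((mp rep).comp β) ((mp fun h => rep (h * t⁻¹)).comp (mp rep))
        (fun l hl => ?_) hy
      obtain ⟨a, rfl⟩ := List.length_eq_one_iff.1 hl.1
      simp only [AddMonoidHom.comp_apply, hβ1, mp_sg, List.map_cons, List.map_nil]
      obtain ⟨b, hb⟩ := rep1 a
      rw [rep2 (rep a * t⁻¹) (a * t⁻¹) ⟨θ b, by rw [hθ, hb]; simp [mul_assoc]⟩]
    have e3 := congrArg (mp rep) h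
    rw [map_sub, map_add, e1, e2, zero_add, map_zero, sub_eq_zero] at e3
    have e4 : mp rep y ∈ On fun l : List H => l.length = 1 := by
      refine On.map (mp rep) (fun l hl => ?_) hy
      rw [mp_sg]
      exact sg_mem (p := fun l : List H => l.length = 1) (by simp [hl.1]) _
    have e5 : mp rep y = 0 := by
      refine eq_zero_of_shift (List.map fun h => rep (h * t⁻¹))
        (fun l => (χ (l.headD 1)).toAdd) _ e3 fun l hl => ?_
      obtain ⟨a, rfl⟩ := List.length_eq_one_iff.1 (e4 l hl)
      simp only [List.map_cons, List.headD_cons, hχrep, map_mul, map_inv, toAdd_mul, toAdd_inv]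
      omega
    rw [hco1 y hy, e5, sub_zero]
  refine fpn_of_cone T hTf (Or.inl rfl) β n hβ (fun k hk c hc =>
    ⟨hβT k (by omega) c (C.mono hTR hc), (hβC k (by omega) c (C.mono hTR hc)).2⟩) hβ0 ?_ ?_
  · -- exactness in degree zero
    have hpt : ∀ h : H, single [h] 1 ∈ C T 1 := fun h => C.sg' rfl (by simp [Small, hT])
    let R : AddSubgroup (Ch H) :=
      { carrier := {x | ∃ u ∈ C T 2, ∃ v ∈ C T 1, bd u + v - β v = x}
        zero_mem' := ⟨0, zero_mem _, 0, zero_mem _, by simp⟩
        add_mem' := by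
          rintro _ _ ⟨u, hu, v, hv, rfl⟩ ⟨u', hu', v', hv', rfl⟩
          exact ⟨u + u', add_mem hu hu', v + v', add_mem hv hv', by
            simp only [map_add]; abel⟩
        neg_mem' := by
          rintro _ ⟨u, hu, v, hv, rfl⟩
          exact ⟨-u, neg_mem hu, -v, neg_mem hv, by simp only [map_neg]; abel⟩ }
    have hRt : ∀ g, ∀ x ∈ R, tr g x ∈ R := by
      rintro g _ ⟨u, hu, v, hv, rfl⟩
      exact ⟨tr g u, C.tr g hu, tr g v, C.tr g hv, by rw [bd_mp, hβ, map_sub, map_add]⟩
    let K : Subgroup H :=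
      { carrier := {g | single [g] 1 - single [1] 1 ∈ R}
        one_mem' := by simp [zero_mem]
        mul_mem' := by
          intro g g' hg hg'
          have := add_mem (hRt g _ hg') hg
          simpa using this
        inv_mem' := by
          intro g hg
          have := neg_mem (hRt g⁻¹ _ hg)
          simpa using this }
    have hK : K = ⊤ := by
      rw [eq_top_iff, ← hgen, Subgroup.closure_le]
      rintro x (⟨a, rfl⟩ | rfl)
      · have : K.comap ι = ⊤ := by
          rw [eq_top_iff, ← hS, Subgroup.closure_le]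
          intro s hs
          refine ⟨single [1, ι s] 1, C.sg' rfl ?_, 0, zero_mem _, by simp [bd_two]⟩
          intro a ha b hb
          simp only [List.mem_cons, List.not_mem_nil, or_false] at ha hb
          rcases ha with rfl | rfl <;> rcases hb with rfl | rfl
          · exact Or.inl (by simp)
          · exact Or.inr (Or.inr ⟨s, Or.inl hs, by simp⟩)
          · exact Or.inr (Or.inr ⟨s⁻¹, Or.inr (by simpa using hs), by simp⟩)
          · exact Or.inl (by simp)
        exact (this ▸ Subgroup.mem_top a : a ∈ K.comap ι)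
      · exact ⟨0, zero_mem _, single [x] 1, hpt x, by simp [hβ1]⟩
    intro x hx h0
    have h1 : x - cn 1 (bd x) ∈ R := by
      refine On.map (AddMonoidHom.id _ - (cn 1).comp bd) (fun l hl => ?_) hx
      obtain ⟨a, rfl⟩ := List.length_eq_one_iff.1 hl.1
      have h2 : a ∈ K := hK ▸ Subgroup.mem_top a
      have h3 : single [a] 1 - single [1] 1 ∈ R := h2
      simpa [bd_one] using h3
    rw [h0, map_zero, sub_zero] at h1
    exact h1
  · intro i hi x hx y hy h h'
    have hx' := C.mono hTR hx
    have hy' := C.mono hTR hy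
    have hw : bd (co y) = y := by
      cases i with
      | zero => exact fill1 x hx' y hy' h
      | succ i =>
        rw [C.aug (C.bd hy), zero_smul] at h'
        rw [hco2 i y hy', ← h', map_zero, sub_zero]
    have hwC := hcoC i y hy'
    have hβw := hβT (i + 2) (by omega) _ hwC
    have hz : co y + x - β (co y) ∈ C (Set.range ι) (i + 2) :=
      sub_mem (add_mem hwC hx') (C.mono hTR hβw)
    have hz0 : bd (co y + x - β (co y)) = 0 := by
      rw [map_sub, map_add, (hβC (i + 2) (by omega) _ hwC).2, hw, ← h]; abel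
    have hw' := hco2 i _ hz
    rw [hz0, map_zero, sub_zero] at hw'
    have hw'C := hcoC (i + 1) _ hz
    refine ⟨β (co (co y + x - β (co y))), hβT (i + 3) (by omega) _ hw'C, x - β (co y),
      sub_mem hx hβw, ?_, ?_⟩
    · rw [(hβC (i + 3) (by omega) _ hw'C).2, hw']
      simp only [map_sub, map_add]
      abel
    · rw [map_sub, (hβC (i + 2) (by omega) _ hwC).2, hw, ← sub_eq_zero, ← neg_eq_zero, ← h]
      abel

theorem finiteIndex_pow (B : Subgroup H) (t : H) (hθ : ∀ a ∈ B, t * a * t⁻¹ ∈ B)
    (hgen : Subgroup.closure ((B : Set H) ∪ {t}) = ⊤) {M : ℕ} (hM : 0 < M) :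
    (Subgroup.closure ((B : Set H) ∪ {t ^ M})).FiniteIndex := by
  set K := Subgroup.closure ((B : Set H) ∪ {t ^ M}) with hK
  have hB : ∀ a ∈ B, a ∈ K := fun a ha => Subgroup.subset_closure (Or.inl ha)
  have ht : t ^ M ∈ K := Subgroup.subset_closure (Or.inr rfl)
  have hp : ∀ (p : ℕ), ∀ a ∈ B, t ^ p * a * (t ^ p)⁻¹ ∈ B := by
    intro p a ha
    induction p with
    | zero => simpa using ha
    | succ p ih =>
      have := hθ _ ih
      simpa [pow_succ', mul_assoc] using this
  have key : ∀ g : H, ∃ (p : ℕ), t ^ p * g ∈ K := by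
    intro g
    have hg : g ∈ Subgroup.closure ((B : Set H) ∪ {t}) := hgen ▸ Subgroup.mem_top g
    have stepB : ∀ a ∈ B, ∀ x : H, (∃ p : ℕ, t ^ p * x ∈ K) → ∃ p : ℕ, t ^ p * (a * x) ∈ K := by
      rintro a ha x ⟨p, hx⟩
      refine ⟨p, ?_⟩
      have := mul_mem (hB _ (hp p a ha)) hx
      simpa [mul_assoc] using this
    induction hg using Subgroup.closure_induction_left with
    | one => exact ⟨0, by simp⟩
    | mul_left x hx y _ ih =>
      rcases hx with hx | rfl
      · exact stepB x hx y ih
      · obtain ⟨p, hp'⟩ := ih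
        obtain ⟨M', rfl⟩ : ∃ M', M = M' + 1 := ⟨M - 1, by omega⟩
        cases p with
        | zero =>
          refine ⟨M', ?_⟩
          have := mul_mem ht hp'
          simpa [pow_succ, mul_assoc] using this
        | succ p => exact ⟨p, by simpa [pow_succ, mul_assoc] using hp'⟩
    | inv_mul_cancel x hx y _ ih =>
      rcases hx with hx | rfl
      · exact stepB x⁻¹ (inv_mem hx) y ih
      · obtain ⟨p, hp'⟩ := ih
        exact ⟨p + 1, by simpa [pow_succ, mul_assoc] using hp'⟩
  have : Finite (H ⧸ K) := by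
    refine Finite.of_surjective (fun r : Fin M => (QuotientGroup.mk (t ^ (r : ℕ))⁻¹ : H ⧸ K))
      fun q => ?_
    obtain ⟨g, rfl⟩ := QuotientGroup.mk_surjective q
    obtain ⟨p, hp'⟩ := key g
    refine ⟨⟨p % M, Nat.mod_lt _ hM⟩, QuotientGroup.eq.2 ?_⟩
    have := mul_mem (inv_mem (pow_mem ht (p / M))) hp'
    rw [← pow_mul, ← Nat.div_add_mod p M, pow_add] at this
    simpa [mul_assoc, Nat.add_mul_div_left, Nat.div_add_mod] using this
  exact Subgroup.finiteIndex_of_finite_quotient

end Kill
end Crest.Agent.R185
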