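import Crest.Agent.R185.FPAlg
import Crest.Agent.R185.KillHNN

/-!
# Row 185: ascending HNN extensions with a killing gadget are of type `FP∞`
-/

set_option autoImplicit false

namespace Crest.Agent.R185

theorem fpinf_of_gadget {H : Type} [Group H] (A : Subgroup H) (t : H) (θ : A →* A)
    (hθ : ∀ a : A, ((θ a : A) : H) = t * a * t⁻¹) (χ : H →* Multiplicative ℤ)
    (hχt : χ t = Multiplicative.ofAdd 1) (hχA : ∀ a ∈ A, χ a = 1)
    (hgen : Subgroup.closure ((A : Set H) ∪ {t}) = ⊤) (hfg : A.FG) (g : Gadget θ) :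
    FPinf H := by
  intro n
  have hfg' : Group.FG A := (Group.fg_iff_subgroup_fg A).2 hfg
  set η : Monoid.End A := θ with hη
  obtain ⟨M, hM, hN⟩ := Kill.exists_null hfg' (θ := η) g (n + 1)
  have hηp : ∀ (m : ℕ) (a : A), (((η ^ m : Monoid.End A) a : A) : H) = t ^ m * a * (t ^ m)⁻¹ := by
    intro m a
    induction m with
    | zero => simp
    | succ m ih =>
      rw [pow_succ']
      change ((θ ((η ^ m : Monoid.End A) a) : A) : H) = _
      rw [hθ, ih, pow_succ']
      simp [mul_assoc]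
  have hfi := Kill.finiteIndex_pow A t (fun a ha => by rw [← hθ ⟨a, ha⟩]; exact (θ _).2) hgen hM
  set K := Subgroup.closure ((A : Set H) ∪ {t ^ M}) with hK
  have hAK : A ≤ K := fun a ha => Subgroup.subset_closure (Or.inl ha)
  have ht : t ^ M ∈ K := Subgroup.subset_closure (Or.inr rfl)
  refine FPn.of_finiteIndex K (Kill.fpn_hnn (Subgroup.inclusion hAK)
    (Subgroup.inclusion_injective hAK) ⟨t ^ M, ht⟩ (η ^ M : Monoid.End A)
    (fun a => Subtype.ext (hηp M a)) (χ.comp K.subtype) ?_ (fun a => hχA a a.2) ?_ hfg' hN)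
  · simp [hχt, hM]
  · rw [← Subgroup.closure_preimage_eq_top ((A : Set H) ∪ {t ^ M})]
    congr 1
    ext x
    constructor
    · rintro (⟨a, rfl⟩ | rfl)
      · exact Or.inl a.2
      · exact Or.inr rfl
    · rintro (hx | hx)
      · exact Or.inl ⟨⟨x, hx⟩, rfl⟩
      · exact Or.inr (Subtype.ext hx)

end Crest.Agent.R185
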