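import Crest.Agent.R185.PosetHomAux

/-!
# Row 185: homology of posets 
-/

set_option autoImplicit false

namespace Crest.Agent.R185

variable {P : Type} [Preorder P]

theorem bd_bd (c : List P →₀ ℤ) : bd (bd c) = 0 := by
  exact PH.bd_bd c

theorem bd_mem {A : Set P} {k : ℕ} {c : List P →₀ ℤ} (hc : c ∈ Chn A (k + 1)) :
    bd c ∈ Chn A k := by
  exact PH.bd_mem hc

theorem Acyc.mono {A : Set P} {m n : ℕ} (h : Acyc A n) (hmn : m ≤ n) : Acyc A m :=
  fun k hk => h k (hk.trans hmn)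

/-- Transport along order embeddings. -/
theorem acyc_image {P' : Type} [Preorder P'] (e : P → P') {A : Set P}
    (he : ∀ a ∈ A, ∀ b ∈ A, e a ≤ e b ↔ a ≤ b) (hi : Set.InjOn e A) (n : ℕ) :
    Acyc (e '' A) n ↔ Acyc A n := by
  have hmono : MonotoneOn e A := fun a ha b hb h => (he a ha b hb).2 h
  have aux : ∀ [Nonempty P], (Acyc (e '' A) n ↔ Acyc A n) := by
    intro _
    have h1 : ∀ a ∈ A, Function.invFunOn e A (e a) = a := hi.leftInvOn_invFunOn
    have h2 : MonotoneOn (Function.invFunOn e A) (e '' A) := by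
      rintro _ ⟨a, ha, rfl⟩ _ ⟨b, hb, rfl⟩ h
      rw [h1 a ha, h1 b hb]
      exact (he a ha b hb).1 h
    have h3 : ∀ a ∈ e '' A, Function.invFunOn e A a ∈ A := by
      rintro _ ⟨a, ha, rfl⟩
      rwa [h1 a ha]
    refine ⟨PH.acyc_transfer hmono h2 (fun a ha => ⟨a, ha, rfl⟩) h3 h1,
      PH.acyc_transfer h2 hmono h3 (fun a ha => ⟨a, ha, rfl⟩) ?_⟩
    rintro _ ⟨a, ha, rfl⟩
    rw [h1 a ha]
  constructor
  · intro h
    obtain ⟨_, a, _, _⟩ := PH.nonempty h
    have : Nonempty P := ⟨a⟩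
    exact aux.1 h
  · intro h
    obtain ⟨a, _⟩ := PH.nonempty h
    have : Nonempty P := ⟨a⟩
    exact aux.2 h

theorem hsurj_image {P' : Type} [Preorder P'] (e : P → P') {A B : Set P} (hAB : A ⊆ B)
    (he : ∀ a ∈ B, ∀ b ∈ B, e a ≤ e b ↔ a ≤ b) (hi : Set.InjOn e B) (n : ℕ) :
    HSurj (e '' A) (e '' B) n ↔ HSurj A B n := by
  rcases isEmpty_or_nonempty P with hP | hP
  · have : A = B := Subsingleton.elim _ _
    subst this
    exact ⟨fun _ k _ z hz _ => ⟨0, zero_mem _, by simpa using hz⟩,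
      fun _ k _ z hz _ => ⟨0, zero_mem _, by simpa using hz⟩⟩
  have hmono : MonotoneOn e B := fun a ha b hb h => (he a ha b hb).2 h
  have h1 : ∀ a ∈ B, Function.invFunOn e B (e a) = a := hi.leftInvOn_invFunOn
  have h2 : MonotoneOn (Function.invFunOn e B) (e '' B) := by
    rintro _ ⟨a, ha, rfl⟩ _ ⟨b, hb, rfl⟩ h
    rw [h1 a ha, h1 b hb]
    exact (he a ha b hb).1 h
  have h3 : ∀ a ∈ e '' B, Function.invFunOn e B a ∈ B := by
    rintro _ ⟨a, ha, rfl⟩
    rwa [h1 a ha]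
  refine ⟨PH.hsurj_transfer hmono h2 (Set.image_mono hAB) (fun a ha => Set.mem_image_of_mem e ha) h3 ?_ h1,
    PH.hsurj_transfer h2 hmono hAB h3 (fun a ha => Set.mem_image_of_mem e ha)
      (fun a ha => Set.mem_image_of_mem e ha) ?_⟩
  · rintro _ ⟨a, ha, rfl⟩
    rwa [h1 a (hAB ha)]
  · rintro _ ⟨a, ha, rfl⟩
    rw [h1 a ha]

/-- Prism operator, downward version: cycles in `A` are homologous in `B` to cycles in `A'`. -/
theorem homologous_of_le {A A' B : Set P} (f : P → P) (hf : MonotoneOn f A) (hAB : A ⊆ B)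
    (hA' : A' ⊆ B) (hfA : ∀ a ∈ A, f a ∈ A' ∧ f a ≤ a) {k : ℕ} {z : List P →₀ ℤ}
    (hz : z ∈ Chn A k) (h0 : bd z = 0) :
    ∃ y ∈ Chn B (k + 1), z - bd y = Finsupp.mapDomain (List.map f) z := by
  obtain ⟨y, hy, e⟩ := PH.prism (B := B) (g := id) hf monotoneOn_id (fun a ha => (hfA a ha).2)
    (fun a ha => hA' (hfA a ha).1) hAB hz h0
  refine ⟨y, hy, ?_⟩
  rw [e, PH.mp_id, ← PH.mp_apply, sub_sub_cancel]

/-- Prism operator, upward version. -/
theorem homologous_of_ge {A A' B : Set P} (f : P → P) (hf : MonotoneOn f A) (hAB : A ⊆ B)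
    (hA' : A' ⊆ B) (hfA : ∀ a ∈ A, f a ∈ A' ∧ a ≤ f a) {k : ℕ} {z : List P →₀ ℤ}
    (hz : z ∈ Chn A k) (h0 : bd z = 0) :
    ∃ y ∈ Chn B (k + 1), z - bd y = Finsupp.mapDomain (List.map f) z := by
  obtain ⟨y, hy, e⟩ := PH.prism (B := B) (f := id) monotoneOn_id hf (fun a ha => (hfA a ha).2)
    hAB (fun a ha => hA' (hfA a ha).1) hz h0
  refine ⟨-y, neg_mem hy, ?_⟩
  rw [map_neg, e, PH.mp_id, ← PH.mp_apply]
  abel

/-- If `A ⊆ B` contracts inside `B` along `a ≥ f a ≤ m`, cycles of `A` bound in `B`. -/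
theorem bounds_of_zigzag {A B : Set P} (f : P → P) (m : P) (hf : MonotoneOn f A) (hAB : A ⊆ B)
    (hm : m ∈ B) (hfA : ∀ a ∈ A, f a ∈ B ∧ f a ≤ a ∧ f a ≤ m) {k : ℕ} {z : List P →₀ ℤ}
    (hz : z ∈ Chn A k) (h0 : bd z = 0) : ∃ y ∈ Chn B (k + 1), bd y = z := by
  exact PH.bounds_of_zigzag f m hf hAB hm hfA hz h0

theorem Conical.acyc {A : Set P} (h : Conical A) (n : ℕ) : Acyc A n := by
  exact PH.conical_acyc h n

/-- A downward retraction onto an acyclic subset. -/
theorem Acyc.of_retract_le {A A' : Set P} (f : P → P) (hf : MonotoneOn f A) (hA' : A' ⊆ A)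
    (hfA : ∀ a ∈ A, f a ∈ A' ∧ f a ≤ a) {n : ℕ} (h : Acyc A' n) : Acyc A n := by
  intro k hk z hz h0
  obtain ⟨y, hy, e⟩ := homologous_of_le f hf subset_rfl hA' hfA hz h0
  rw [← PH.mp_apply] at e
  obtain ⟨y', hy', e'⟩ := h k hk _ (PH.mp_mem hf (fun a ha => (hfA a ha).1) hz)
    (by rw [PH.bd_mp, h0, map_zero])
  exact ⟨y + y', add_mem hy (PH.chn_mono hA' hy'), by rw [map_add, e', ← e]; abel⟩

/-- An upward retraction onto an acyclic subset. -/
theorem Acyc.of_retract_ge {A A' : Set P} (f : P → P) (hf : MonotoneOn f A) (hA' : A' ⊆ A)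
    (hfA : ∀ a ∈ A, f a ∈ A' ∧ a ≤ f a) {n : ℕ} (h : Acyc A' n) : Acyc A n := by
  intro k hk z hz h0
  obtain ⟨y, hy, e⟩ := homologous_of_ge f hf subset_rfl hA' hfA hz h0
  rw [← PH.mp_apply] at e
  obtain ⟨y', hy', e'⟩ := h k hk _ (PH.mp_mem hf (fun a ha => (hfA a ha).1) hz)
    (by rw [PH.bd_mp, h0, map_zero])
  exact ⟨y + y', add_mem hy (PH.chn_mono hA' hy'), by rw [map_add, e', ← e]; abel⟩

theorem HSurj.trans {A B C : Set P} {n : ℕ} (hBC : B ⊆ C) (h₁ : HSurj A B n) (h₂ : HSurj B C n) :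
    HSurj A C n := by
  intro k hk z hz h0
  obtain ⟨y, hy, e⟩ := h₂ k hk z hz h0
  obtain ⟨y', hy', e'⟩ := h₁ k hk _ e (by rw [map_sub, h0, bd_bd, sub_self])
  refine ⟨y + y', add_mem hy (PH.chn_mono hBC hy'), ?_⟩
  rwa [map_add, ← sub_sub]

theorem Acyc.of_hsurj {A B : Set P} {n : ℕ} (hAB : A ⊆ B) (h₁ : Acyc A n) (h₂ : HSurj A B n) :
    Acyc B n := by
  intro k hk z hz h0
  obtain ⟨y, hy, e⟩ := h₂ k hk z hz h0
  obtain ⟨y', hy', e'⟩ := h₁ k hk _ e (by rw [map_sub, h0, bd_bd, sub_self])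
  exact ⟨y + y', add_mem hy (PH.chn_mono hAB hy'), by rw [map_add, e']; abel⟩

theorem Step.hsurj {A B : Set P} {n : ℕ} (h : Step A B n) : HSurj A B (n + 1) := by
  intro k hk z hz h0
  rcases k with _ | k
  · exact ⟨0, zero_mem _, by simpa using PH.chn_zero hz⟩
  · exact PH.step_key h (by omega) hz (by rw [h0]; exact zero_mem _)

theorem Step.hinj {A B : Set P} {n : ℕ} (h : Step A B n) {k : ℕ} (hk : k ≤ n)
    {z : List P →₀ ℤ} (hz : z ∈ Chn A k) {y : List P →₀ ℤ} (hy : y ∈ Chn B (k + 1))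
    (e : bd y = z) : ∃ y' ∈ Chn A (k + 1), bd y' = z := by
  obtain ⟨w, _, hw⟩ := PH.step_key h hk hy (by rw [e]; exact hz)
  exact ⟨_, hw, by rw [map_sub, bd_bd, sub_zero, e]⟩

/-- Weak join lemma: `(A ∪ {a}) × (A' ∪ {a'})` minus `(a, a')`, where `a`, `a'` are new greatest
elements and `A` has a strictly monotone rank function, is as acyclic as `A'`. -/
theorem acyc_join {P' : Type} [PartialOrder P'] {P₁ : Type} [PartialOrder P₁] {A : Set P₁}
    {A' : Set P'} {a : P₁} {a' : P'} (ha : ∀ x ∈ A, x < a) (ha' : ∀ x ∈ A', x < a')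
    (rk : P₁ → ℕ) (hrk : StrictMonoOn rk A) {n : ℕ} (h : Acyc A' n) :
    Acyc ((insert a A ×ˢ insert a' A') \ {(a, a')}) n := by
  have key : ∀ (r : ℕ) (A : Set P₁) (a : P₁), (∀ x ∈ A, x < a) → StrictMonoOn rk A →
      Acyc {p : P₁ × P' | (p.1 ∈ insert a A ∧ p.2 ∈ A') ∨ (p.1 ∈ A ∧ rk p.1 < r ∧ p.2 = a')} n := by
    intro r
    induction r with
    | zero =>
      intro A a ha _
      refine Acyc.of_retract_ge (A' := (fun x => (a, x)) '' A') (fun p => (a, p.2))
        (fun p _ q _ hpq => Prod.mk_le_mk.2 ⟨le_rfl, hpq.2⟩) ?_ ?_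
        ((acyc_image _ (fun x _ y _ => by simp) (fun x _ y _ hxy => by simpa using hxy) n).2 h)
      · rintro _ ⟨x, hx, rfl⟩
        exact Or.inl ⟨Set.mem_insert _ _, hx⟩
      · rintro p (⟨h1, h2⟩ | ⟨_, h1, _⟩)
        · refine ⟨⟨p.2, h2, rfl⟩, ?_, le_rfl⟩
          rcases h1 with h1 | h1
          · exact h1.le
          · exact (ha _ h1).le
        · omega
    | succ r ih =>
      intro A a ha hrk
      have hsub : {p : P₁ × P' | (p.1 ∈ insert a A ∧ p.2 ∈ A') ∨ (p.1 ∈ A ∧ rk p.1 < r ∧ p.2 = a')} ⊆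
          {p : P₁ × P' | (p.1 ∈ insert a A ∧ p.2 ∈ A') ∨ (p.1 ∈ A ∧ rk p.1 < r + 1 ∧ p.2 = a')} := by
        rintro p (h1 | ⟨h1, h2, h3⟩)
        · exact Or.inl h1
        · exact Or.inr ⟨h1, by omega, h3⟩
      have hna' : a' ∉ A' := fun h1 => lt_irrefl _ (ha' _ h1)
      refine Acyc.of_hsurj hsub (ih A a ha hrk) fun k hk => Step.hsurj (n := n) ?_ k (by omega)
      refine ⟨hsub, {u : P₁ // u ∈ A ∧ rk u = r}, fun u => {(u.1, a')},
        fun u => {p | p.1 ∈ A ∧ p.1 ≤ u.1 ∧ p.2 ∈ insert a' A'}, ?_, ?_, ?_, ?_, ?_, ?_⟩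
      · rintro p (h1 | ⟨h1, h2, h3⟩) hp
        · exact absurd (Or.inl h1) hp
        · refine ⟨⟨p.1, h1, ?_⟩, Prod.ext rfl h3⟩
          by_contra hne
          exact hp (Or.inr ⟨h1, by omega, h3⟩)
      · rintro ⟨u, hu, hur⟩
        refine ⟨?_, ?_, ?_, ?_⟩
        · rintro _ rfl
          exact ⟨hu, le_rfl, Set.mem_insert _ _⟩
        · rintro p ⟨h1, h2, h3 | h3⟩
          · have := hrk.monotoneOn h1 hu h2
            exact Or.inr ⟨h1, by omega, h3⟩
          · exact Or.inl ⟨Set.mem_insert_of_mem _ h1, h3⟩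
        · rw [Set.disjoint_singleton_left]
          rintro (⟨_, h1⟩ | ⟨_, h1, _⟩)
          · exact hna' h1
          · simp only at h1; omega
        · rintro p ⟨h1, h2, h3 | h3⟩
          · rcases h2.lt_or_eq with h4 | h4
            · have := hrk h1 hu h4
              exact Or.inl (Or.inr ⟨h1, by omega, h3⟩)
            · exact Or.inr (Prod.ext h4 h3)
          · exact Or.inl (Or.inl ⟨Set.mem_insert_of_mem _ h1, h3⟩)
      · rintro ⟨u, hu, hur⟩ ⟨v, hv, hvr⟩ _ rfl _ rfl hle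
        refine Subtype.ext ?_
        rcases hle.1.lt_or_eq with h4 | h4
        · have := hrk hu hv h4
          omega
        · exact h4
      · rintro ⟨u, hu, hur⟩ _ rfl p hp (hle | hle)
        · rcases hp with ⟨_, h2⟩ | ⟨h1, h2, h3⟩
          · exact absurd hle.2 (ha' _ h2).not_ge
          · refine ⟨h1, ?_, Or.inl h3⟩
            rcases hle.1.lt_or_eq with h4 | h4
            · have := hrk hu h1 h4
              omega
            · exact h4.ge
        · rcases hp with ⟨h1 | h1, h2⟩ | ⟨h1, h2, h3⟩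
          · have h4 : p.1 ≤ u := hle.1
            rw [h1] at h4
            exact absurd h4 (ha u hu).not_ge
          · exact ⟨h1, hle.1, Or.inr h2⟩
          · exact ⟨h1, hle.1, Or.inl h3⟩
      · rintro ⟨u, hu, hur⟩
        refine ⟨id, (u, a'), ⟨hu, le_rfl, Set.mem_insert _ _⟩, monotoneOn_id, fun p hp =>
          ⟨hp, le_rfl, hp.2.1, ?_⟩⟩
        rcases hp.2.2 with h1 | h1
        · exact h1.le
        · exact (ha' _ h1).le
      · rintro ⟨u, hu, hur⟩
        have := ih (A ∩ Set.Iio u) u (fun x hx => hx.2) (hrk.mono Set.inter_subset_left)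
        convert this using 1
        ext p
        constructor
        · rintro ⟨⟨h1, h2, h3⟩, ⟨_, h4⟩ | ⟨_, h4, h5⟩⟩
          · refine Or.inl ⟨?_, h4⟩
            rcases h2.lt_or_eq with h5 | h5
            · exact Or.inr ⟨h1, h5⟩
            · exact Or.inl h5
          · refine Or.inr ⟨⟨h1, ?_⟩, h4, h5⟩
            rcases h2.lt_or_eq with h6 | h6
            · exact h6
            · simp only at h6
              rw [h6] at h4
              omega
        · rintro (⟨h1 | h1, h2⟩ | ⟨h1, h2, h3⟩)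
          · exact ⟨⟨h1 ▸ hu, h1.le, Or.inr h2⟩, Or.inl ⟨Or.inr (h1 ▸ hu), h2⟩⟩
          · exact ⟨⟨h1.1, h1.2.le, Or.inr h2⟩, Or.inl ⟨Or.inr h1.1, h2⟩⟩
          · exact ⟨⟨h1.1, h1.2.le, Or.inl h3⟩, Or.inr ⟨h1.1, h2, h3⟩⟩
  intro k hk z hz h0
  classical
  obtain ⟨y, hy, e⟩ := key (z.support.sup (fun l => l.toFinset.sup (fun p => rk p.1)) + 1) A a ha hrk
    k hk z (fun l hl => ⟨(hz l hl).1, (hz l hl).2.1, fun p hp => by
      obtain ⟨⟨h1, h2⟩, h3⟩ := (hz l hl).2.2 p hp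
      rcases h2 with h2 | h2
      · rcases h1 with h1 | h1
        · exact absurd (Prod.ext h1 h2) h3
        · refine Or.inr ⟨h1, Nat.lt_succ_of_le ?_, h2⟩
          exact le_trans (Finset.le_sup (f := fun p : P₁ × P' => rk p.1) (List.mem_toFinset.2 hp))
            (Finset.le_sup (f := fun l : List (P₁ × P') => l.toFinset.sup (fun p => rk p.1)) hl)
      · exact Or.inl ⟨h1, h2⟩⟩) h0
  refine ⟨y, PH.chn_mono ?_ hy, e⟩
  rintro p (⟨h1, h2⟩ | ⟨h1, _, h3⟩)
  · refine ⟨⟨h1, Or.inr h2⟩, fun h4 => ?_⟩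
    rw [Set.mem_singleton_iff.1 h4] at h2
    exact lt_irrefl _ (ha' _ h2)
  · refine ⟨⟨Or.inr h1, Or.inl h3⟩, fun h4 => ?_⟩
    rw [Set.mem_singleton_iff.1 h4] at h1
    exact lt_irrefl _ (ha _ h1)

/-- The proper part of a Boolean lattice. -/
theorem acyc_boolean (T : Type) [DecidableEq T] [Fintype T] {n : ℕ}
    (hn : n + 2 ≤ Fintype.card T) :
    Acyc {F : Finset T | F.Nonempty ∧ F ≠ Finset.univ} n := by
  have key : ∀ (n : ℕ) (U : Finset T), n + 2 ≤ U.card →
      Acyc {F : Finset T | F.Nonempty ∧ F ⊂ U} n := by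
    have base : ∀ (U : Finset T) (s : T), s ∈ U → 2 ≤ U.card → ∀ n,
        Acyc {F : Finset T | (F.Nonempty ∧ F ⊂ U) ∧ F ≠ U.erase s} n := by
      intro U s hs hU n
      have hmem : ∀ F : Finset T, F ⊂ U → F ≠ U.erase s → insert s F ⊂ U := by
        intro F h1 h2
        refine ⟨Finset.insert_subset hs h1.1, fun h3 => ?_⟩
        by_cases h4 : s ∈ F
        · rw [Finset.insert_eq_of_mem h4] at h3
          exact h1.2 h3
        · refine h2 (Finset.Subset.antisymm ?_ ?_)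
          · exact Finset.subset_erase.2 ⟨h1.1, h4⟩
          · exact Finset.subset_insert_iff.1 h3
      refine Acyc.of_retract_ge (A' := {F : Finset T | s ∈ F ∧ F ⊂ U}) (insert s)
        (fun F _ G _ h => Finset.insert_subset_insert s h) ?_ ?_ (Conical.acyc ?_ n)
      · rintro F ⟨h1, h2⟩
        refine ⟨⟨⟨s, h1⟩, h2⟩, ?_⟩
        rintro rfl
        exact Finset.notMem_erase s U h1
      · rintro F ⟨⟨_, h2⟩, h3⟩
        exact ⟨⟨Finset.mem_insert_self _ _, hmem F h2 h3⟩, Finset.subset_insert _ _⟩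
      · have h1 : ({s} : Finset T) ⊂ U := by
          refine ⟨Finset.singleton_subset_iff.2 hs, fun h => ?_⟩
          have := Finset.card_le_card h
          rw [Finset.card_singleton] at this
          omega
        exact ⟨fun _ => {s}, {s}, ⟨Finset.mem_singleton_self _, h1⟩, monotoneOn_const,
          fun F hF => ⟨⟨Finset.mem_singleton_self _, h1⟩, Finset.singleton_subset_iff.2 hF.1,
            le_rfl⟩⟩
    intro n
    induction n with
    | zero =>
      intro U hU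
      obtain ⟨s, hs⟩ : U.Nonempty := Finset.card_pos.1 (by omega)
      refine Acyc.of_hsurj (fun F hF => hF.1) (base U s hs hU 0) fun k hk z hz _ => ?_
      obtain rfl : k = 0 := by omega
      exact ⟨0, zero_mem _, by simpa using PH.chn_zero hz⟩
    | succ n ih =>
      intro U hU
      obtain ⟨s, hs⟩ : U.Nonempty := Finset.card_pos.1 (by omega)
      have hc : (U.erase s).card = U.card - 1 := Finset.card_erase_of_mem hs
      have hne : (U.erase s).Nonempty := Finset.card_pos.1 (by omega)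
      refine Acyc.of_hsurj (fun F hF => hF.1) (base U s hs (by omega) _) (Step.hsurj ?_)
      refine ⟨fun F hF => hF.1, Unit, fun _ => {U.erase s},
        fun _ => {F | F.Nonempty ∧ F ⊆ U.erase s}, ?_, ?_, ?_, ?_, ?_, ?_⟩
      · intro F hF hF'
        refine ⟨(), ?_⟩
        by_contra h
        exact hF' ⟨hF, h⟩
      · intro _
        refine ⟨?_, ?_, ?_, ?_⟩
        · rintro _ rfl
          exact ⟨hne, subset_rfl⟩
        · rintro F ⟨h1, h2⟩
          exact ⟨h1, lt_of_le_of_lt h2 (Finset.erase_ssubset hs)⟩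
        · rw [Set.disjoint_singleton_left]
          exact fun h => h.2 rfl
        · rintro F ⟨h1, h2⟩
          by_cases h3 : F = U.erase s
          · exact Or.inr h3
          · exact Or.inl ⟨⟨h1, lt_of_le_of_lt h2 (Finset.erase_ssubset hs)⟩, h3⟩
      · intro _ _ _ _ _ _ _
        rfl
      · rintro _ _ rfl F ⟨h1, h2⟩ (h | h)
        · refine ⟨h1, Finset.subset_erase.2 ⟨h2.1, fun h3 => h2.2 ?_⟩⟩
          intro x hx
          by_cases h4 : x = s
          · rwa [h4]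
          · exact h (Finset.mem_erase.2 ⟨h4, hx⟩)
        · exact ⟨h1, h⟩
      · intro _
        exact ⟨id, U.erase s, ⟨hne, subset_rfl⟩, monotoneOn_id, fun F hF => ⟨hF, le_rfl, hF.2⟩⟩
      · intro _
        convert ih (U.erase s) (by omega) using 1
        ext F
        constructor
        · rintro ⟨⟨h1, h2⟩, _, h3⟩
          exact ⟨h1, lt_of_le_of_ne h2 h3⟩
        · rintro ⟨h1, h2⟩
          exact ⟨⟨h1, h2.1⟩, ⟨h1, h2.trans (Finset.erase_ssubset hs)⟩, h2.ne⟩
  convert key n Finset.univ (by simpa using hn) using 3 with F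
  rw [Finset.ssubset_univ_iff]

/-- Connectedness. -/
theorem Acyc.const {A : Set P} (h : Acyc A 1) {Z : Type} (t : P → Z)
    (ht : ∀ a ∈ A, ∀ b ∈ A, a ≤ b → t a = t b) : ∀ a ∈ A, ∀ b ∈ A, t a = t b := by
  intro a ha b hb
  have h1 : ∀ x ∈ A, Finsupp.single [x] (1 : ℤ) ∈ Chn A 1 := fun x hx =>
    PH.single_mem ⟨rfl, List.pairwise_singleton _ _, by simpa using hx⟩ 1
  obtain ⟨y, hy, e⟩ := h 1 le_rfl _ (sub_mem (h1 a ha) (h1 b hb)) (by simp [PH.bdL_cons'])
  have h2 : PH.mp t (bd y) = 0 :=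
    PH.map_eq ((PH.mp t).comp bd) 0 (p := IsChn A 2) (fun l hl => by
      obtain ⟨x, x', rfl⟩ := List.length_eq_two.1 hl.1
      have h3 : t x = t x' := ht x (hl.2.2 x (by simp)) x' (hl.2.2 x' (by simp))
        (by simpa using hl.2.1)
      simp [PH.bdL_cons', h3]) hy
  rw [e, map_sub, PH.mp_single, PH.mp_single, sub_eq_zero] at h2
  simpa using Finsupp.single_left_injective one_ne_zero h2

theorem Acyc.nonempty {A : Set P} {n : ℕ} (h : Acyc A n) : A.Nonempty := by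
  exact PH.nonempty h

end Crest.Agent.R185
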