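import Crest.Agent.R185.SVQBasic
import Crest.Agent.R185.PosetHom

/-!
# Row 185: stars and links in the filtration of a descending link
-/

set_option autoImplicit false

namespace Crest.Agent.R185

namespace ExpSys
variable {Ch Pt : Type} [DecidableEq Ch] {E : ExpSys Ch Pt}

variable (E) in
/-- The open interval between a chart and an expansion. -/
def Iv (c : Ch) (B : E.PV) : Set E.PV := {u | E.sing c ≤ u ∧ u ≠ E.sing c ∧ u ≤ B ∧ u ≠ B}

theorem acyc_Iv {c : Ch} {B : E.PV} (h : E.Exp c B.s) {n : ℕ} (hn : 2 ^ (n + 2) ≤ B.s.card) :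
    Acyc (E.Iv c B) n := by
  classical
  obtain ⟨T, _, _, gr, h0, h1, h2, h3, h4⟩ := E.core c B.s h
  let G : Finset T → E.PV := fun F => ⟨gr F, E.exp_disj c _ (h1 F).1⟩
  have g2 : ∀ F F', F ⊆ F' ↔ G F ≤ G F' := h2
  have g3 : G Finset.univ ≤ B := h3
  have g4 : ∀ u : E.PV, E.sing c ≤ u → u ≠ E.sing c → u ≤ B →
      ∃ F₀ : Finset T, F₀.Nonempty ∧ ∀ F, F ⊆ F₀ ↔ G F ≤ u := fun u a b d =>
    h4 u.s (sing_le_iff.1 a) (fun e => b (PV.ext e)) d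
  have gc : ∀ F, (G F).s.card = 2 ^ F.card := fun F => (h1 F).2
  have g0 : ∀ F, E.sing c ≤ G F := fun F => sing_le_iff.2 (h1 F).1
  have hB : B ≠ E.sing c := by
    intro e
    rw [e] at hn
    have : 1 < 2 ^ (n + 2) := Nat.one_lt_two_pow (by omega)
    simp [sing] at hn
  choose! F0 hF1 hF2 using g4
  have hA' : Acyc {u | ∃ F : Finset T, F.Nonempty ∧ G F = u ∧ u ≠ B} n := by
    by_cases hU : G Finset.univ = B
    · have hT : n + 2 ≤ Fintype.card T := by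
        rw [← hU, gc, Finset.card_univ] at hn
        exact (Nat.pow_le_pow_iff_right (by norm_num)).1 hn
      have hinj : Function.Injective G := fun F F' e =>
        Finset.Subset.antisymm ((g2 _ _).2 e.le) ((g2 _ _).2 e.ge)
      have := (acyc_image G (A := {F : Finset T | F.Nonempty ∧ F ≠ Finset.univ})
        (fun a _ b _ => (g2 a b).symm) hinj.injOn n).2 (acyc_boolean T hT)
      convert this using 1
      ext u
      constructor
      · rintro ⟨F, hF, rfl, hne⟩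
        exact ⟨F, ⟨hF, fun e => hne (e ▸ hU)⟩, rfl⟩
      · rintro ⟨F, ⟨hF, hne⟩, rfl⟩
        exact ⟨F, hF, rfl, fun e => hne (hinj (e.trans hU.symm))⟩
    · refine Conical.acyc ?_ n
      refine ⟨id, G Finset.univ, ?_, fun _ _ _ _ h => h, ?_⟩
      · exact ⟨Finset.univ, (hF1 B (sing_le_iff.2 h) hB le_rfl).mono (Finset.subset_univ _),
          rfl, hU⟩
      · rintro u ⟨F, hF, rfl, hne⟩
        exact ⟨⟨F, hF, rfl, hne⟩, le_rfl, (g2 _ _).1 (Finset.subset_univ _)⟩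
  refine Acyc.of_retract_le (fun u => G (F0 u)) ?_ ?_ ?_ hA'
  · rintro u ⟨a1, a2, a3, -⟩ u' ⟨b1, b2, b3, -⟩ huu
    exact (g2 _ _).1 ((hF2 u' b1 b2 b3 _).2 (((hF2 u a1 a2 a3 _).1 subset_rfl).trans huu))
  · rintro u ⟨F, hF, rfl, hne⟩
    refine ⟨g0 F, fun e => ?_, ((g2 _ _).1 (Finset.subset_univ _)).trans g3, hne⟩
    have := gc F
    rw [e] at this
    have h5 : 1 < 2 ^ F.card := Nat.one_lt_two_pow hF.card_pos.ne'
    simp [sing] at this
    omega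
  · rintro u ⟨a1, a2, a3, a4⟩
    have h5 : G (F0 u) ≤ u := (hF2 u a1 a2 a3 _).1 subset_rfl
    exact ⟨⟨F0 u, hF1 u a1 a2 a3, rfl, fun e => a4 (le_antisymm a3 (e ▸ h5))⟩, h5⟩

variable (E) in
/-- The star of the chart `c` in the descending link of `v`. -/
def St (v : E.PV) (c : Ch) : Set E.PV := {w | w ∈ E.Q v ∧ E.Exp c (w.blk c)}

theorem ins_mem_St {v w : E.PV} {c : Ch} (hc : c ∉ v.s) (hw : w ≤ v)
    (h : E.Exp c (w.blk c)) : w.ins c ∈ E.St v c :=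
  ⟨⟨(PV.ins_le h).trans hw, fun e => hc (e ▸ PV.self_mem_ins c w)⟩,
    PV.exp_of_mem (PV.self_mem_ins c w)⟩

theorem conical_St {v : E.PV} {c : Ch} (h : E.Exp c (v.blk c)) (hc : c ∉ v.s) :
    Conical (E.St v c) :=
  ⟨fun w => w.ins c, v.ins c, ins_mem_St hc le_rfl h,
    fun _ ha _ _ hab => PV.ins_mono (PV.sat_of_exp ha.2) hab,
    fun _ ha => ⟨ins_mem_St hc ha.1.1 ha.2, PV.ins_le ha.2,
      PV.ins_mono (PV.sat_of_exp ha.2) ha.1.1⟩⟩

variable (E) in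
/-- The link of the chart `c` in the descending link of `v`. -/
def Lk (v : E.PV) (c : Ch) : Set E.PV := {w | w ∈ E.St v c ∧ c ∉ w.s}

theorem Lk_spec {v : E.PV} {c : Ch} (h : E.Exp c (v.blk c)) (hc : c ∉ v.s) (u w : E.PV) :
    (∃ z ∈ E.Lk v c, z.res (E.supp c) = u ∧ z.res (E.supp c)ᶜ = w) ↔
      u ∈ insert (v.res (E.supp c)) (E.Iv c (v.res (E.supp c))) ∧
      w ∈ insert (v.res (E.supp c)ᶜ) (E.Q (v.res (E.supp c)ᶜ)) ∧
      ¬(u = v.res (E.supp c) ∧ w = v.res (E.supp c)ᶜ) := by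
  have hv := PV.sat_of_exp h
  constructor
  · rintro ⟨z, ⟨⟨⟨z1, z2⟩, z3⟩, z4⟩, rfl, rfl⟩
    have hz := PV.sat_of_exp z3
    refine ⟨?_, ?_, ?_⟩
    · by_cases e : z.res (E.supp c) = v.res (E.supp c)
      · exact Or.inl e
      · refine Or.inr ⟨sing_le_iff.2 z3, fun e' => z4 ?_, PV.res_mono hz z1, e⟩
        have : c ∈ (z.res (E.supp c)).s := by rw [e']; simp [sing]
        exact (PV.mem_res.1 this).1
    · by_cases e : z.res (E.supp c)ᶜ = v.res (E.supp c)ᶜ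
      · exact Or.inl e
      · exact Or.inr ⟨PV.res_mono hz.compl z1, e⟩
    · rintro ⟨e1, e2⟩
      exact z2 (le_antisymm z1 (PV.le_of_res hv hz e1.ge e2.ge))
  · rintro ⟨hu, hw, hne⟩
    have u1 : u ≤ v.res (E.supp c) := hu.elim le_of_eq fun h => h.2.2.1
    have u2 : E.sing c ≤ u := hu.elim (fun e => e ▸ sing_le_iff.2 h) fun h => h.1
    have u3 : u ≠ E.sing c := by
      refine hu.elim (fun e e' => hc ?_) fun h => h.2.1
      have : c ∈ (v.res (E.supp c)).s := by rw [← e, e']; simp [sing]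
      exact (PV.mem_res.1 this).1
    have w1 : w ≤ v.res (E.supp c)ᶜ := hw.elim le_of_eq fun h => h.1
    obtain ⟨z, hz, rfl, rfl⟩ := PV.exists_glue u w (E.supp c) (PV.sub_of_le_res u1)
      (PV.sub_of_le_res w1)
    refine ⟨z, ⟨⟨⟨PV.le_of_res hz hv u1 w1, ?_⟩, sing_le_iff.1 u2⟩, fun hcz => ?_⟩, rfl, rfl⟩
    · rintro rfl
      exact hne ⟨rfl, rfl⟩
    · exact u3 (PV.res_of_mem hcz)

theorem Lk_le_iff {v : E.PV} {c : Ch} {a b : E.PV} (ha : a ∈ E.Lk v c) (hb : b ∈ E.Lk v c) :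
    (a.res (E.supp c) ≤ b.res (E.supp c) ∧ a.res (E.supp c)ᶜ ≤ b.res (E.supp c)ᶜ) ↔ a ≤ b :=
  ⟨fun h => PV.le_of_res (PV.sat_of_exp ha.1.2) (PV.sat_of_exp hb.1.2) h.1 h.2,
    fun h => ⟨PV.res_mono (PV.sat_of_exp ha.1.2) h, PV.res_mono (PV.sat_of_exp ha.1.2).compl h⟩⟩

theorem svq_strictMonoOn (A : Set E.PV) : StrictMonoOn (fun w : E.PV => w.s.card) A :=
  fun _ _ _ _ h => svq_card_lt h.le h.ne

theorem acyc_Lk_of_Q {v : E.PV} {c : Ch} (h : E.Exp c (v.blk c)) (hc : c ∉ v.s) {n : ℕ}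
    (hQ : Acyc (E.Q (v.res (E.supp c)ᶜ)) n) : Acyc (E.Lk v c) n := by
  refine (acyc_image (fun z : E.PV => (z.res (E.supp c), z.res (E.supp c)ᶜ))
    (fun a ha b hb => Lk_le_iff ha hb) (fun a ha b hb e => ?_) n).1 ?_
  · obtain ⟨e1, e2⟩ := Prod.ext_iff.1 e
    exact le_antisymm ((Lk_le_iff ha hb).1 ⟨le_of_eq e1, le_of_eq e2⟩)
      ((Lk_le_iff hb ha).1 ⟨ge_of_eq e1, ge_of_eq e2⟩)
  · have := acyc_join (A := E.Iv c (v.res (E.supp c))) (A' := E.Q (v.res (E.supp c)ᶜ))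
      (a := v.res (E.supp c)) (a' := v.res (E.supp c)ᶜ)
      (fun x hx => lt_of_le_of_ne hx.2.2.1 hx.2.2.2) (fun x hx => lt_of_le_of_ne hx.1 hx.2)
      _ (svq_strictMonoOn _) hQ
    convert this using 1
    ext ⟨u, w⟩
    have := Lk_spec h hc u w
    simp only [Set.mem_image, Prod.mk.injEq, Set.mem_sdiff, Set.mem_prod, Set.mem_singleton_iff]
    rw [and_assoc]
    exact this

theorem acyc_Lk_of_Iv {v : E.PV} {c : Ch} (h : E.Exp c (v.blk c)) (hc : c ∉ v.s) {n : ℕ}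
    (hI : Acyc (E.Iv c (v.res (E.supp c))) n) : Acyc (E.Lk v c) n := by
  refine (acyc_image (fun z : E.PV => (z.res (E.supp c)ᶜ, z.res (E.supp c)))
    (fun a ha b hb => and_comm.trans (Lk_le_iff ha hb)) (fun a ha b hb e => ?_) n).1 ?_
  · obtain ⟨e2, e1⟩ := Prod.ext_iff.1 e
    exact le_antisymm ((Lk_le_iff ha hb).1 ⟨le_of_eq e1, le_of_eq e2⟩)
      ((Lk_le_iff hb ha).1 ⟨ge_of_eq e1, ge_of_eq e2⟩)
  · have := acyc_join (A' := E.Iv c (v.res (E.supp c))) (A := E.Q (v.res (E.supp c)ᶜ))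
      (a' := v.res (E.supp c)) (a := v.res (E.supp c)ᶜ)
      (fun x hx => lt_of_le_of_ne hx.1 hx.2) (fun x hx => lt_of_le_of_ne hx.2.2.1 hx.2.2.2)
      _ (svq_strictMonoOn _) hI
    convert this using 1
    ext ⟨w, u⟩
    have := Lk_spec h hc u w
    simp only [Set.mem_image, Prod.mk.injEq, Set.mem_sdiff, Set.mem_prod, Set.mem_singleton_iff]
    constructor
    · rintro ⟨z, hz, e1, e2⟩
      obtain ⟨a1, a2, a3⟩ := this.1 ⟨z, hz, e2, e1⟩
      exact ⟨⟨a2, a1⟩, fun e => a3 e.symm⟩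
    · rintro ⟨⟨a2, a1⟩, a3⟩
      obtain ⟨z, hz, e1, e2⟩ := this.2 ⟨a1, a2, fun e => a3 e.symm⟩
      exact ⟨z, hz, e2, e1⟩

variable (E) in
/-- The filtration of the descending link by the size of the block containing `x`. -/
def Qm (v : E.PV) (x : Ch) (m : ℕ) : Set E.PV :=
  {w | w ∈ E.Q v ∧ ∃ b ∈ w.s, E.supp x ⊆ E.supp b ∧ (v.blk b).card ≤ m}

theorem Qm_one {v : E.PV} {x : Ch} (hx : x ∈ v.s) :
    E.Qm v x 1 = {w | w ∈ E.Q v ∧ x ∈ w.s} := by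
  ext w
  constructor
  · rintro ⟨hw, b, hb, hs, hc⟩
    refine ⟨hw, ?_⟩
    have h1 : x ∈ v.blk b := PV.mem_res.2 ⟨hx, hs⟩
    have h2 : v.blk b = {x} :=
      (Finset.eq_of_subset_of_card_le (by simpa using h1) (by simpa using hc)).symm
    have h3 := (svq_le_iff.1 hw.1).1 b hb
    rw [h2] at h3
    rwa [E.exp_single _ _ h3]
  · rintro ⟨hw, h⟩
    exact ⟨hw, x, h, le_rfl, by rw [PV.blk_self hx]; simp⟩

theorem Qm_top {v : E.PV} {x : Ch} (hx : x ∈ v.s) : E.Qm v x v.s.card = E.Q v := by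
  ext w
  refine ⟨And.left, fun hw => ⟨hw, ?_⟩⟩
  obtain ⟨b, hb, hs⟩ := (svq_le_iff.1 hw.1).2 x hx
  exact ⟨b, hb, hs, Finset.card_le_card fun a ha => (PV.mem_res.1 ha).1⟩

theorem Qm_mono {v : E.PV} {x : Ch} {m m' : ℕ} (h : m ≤ m') : E.Qm v x m ⊆ E.Qm v x m' := by
  rintro w ⟨hw, b, hb, hs, hc⟩
  exact ⟨hw, b, hb, hs, hc.trans h⟩

theorem Qm_step {v : E.PV} {x : Ch} (hx : x ∈ v.s) {m n : ℕ} (hm : 1 ≤ m)
    (hL : ∀ c, E.Exp c (v.blk c) → c ∉ v.s → (v.blk c).card = m + 1 → Acyc (E.Lk v c) n) :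
    Step (E.Qm v x m) (E.Qm v x (m + 1)) n := by
  let I := {c : Ch // E.supp x ⊆ E.supp c ∧ E.Exp c (v.blk c) ∧ (v.blk c).card = m + 1}
  have hcv : ∀ i : I, i.1 ∉ v.s := by
    intro i hi
    have := i.2.2.2
    rw [PV.blk_self hi] at this
    simp at this
    omega
  -- the chart of an element of the star which contains `x`
  have key : ∀ i : I, ∀ w ∈ E.St v i.1, ∃ b ∈ w.s, E.supp x ⊆ E.supp b ∧
      E.supp b ⊆ E.supp i.1 := by
    intro i w hw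
    obtain ⟨b, hb, hs⟩ := (svq_le_iff.1 hw.1.1).2 x hx
    refine ⟨b, hb, hs, (PV.sat_of_exp hw.2 b hb).resolve_right fun h' => ?_⟩
    exact svq_not_sub_both i.2.1 (hs.trans h')
  have hsub : ∀ {b c : Ch}, E.supp b ⊆ E.supp c → (v.blk b).card ≤ (v.blk c).card := by
    intro b c hs
    refine Finset.card_le_card fun a ha => ?_
    obtain ⟨h2, h3⟩ := PV.mem_res.1 ha
    exact PV.mem_res.2 ⟨h2, h3.trans hs⟩
  have hdisj : ∀ i : I, ∀ w : E.PV, i.1 ∈ w.s → w ∉ E.Qm v x m := by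
    rintro i w hi ⟨-, b, hb, hs, hc⟩
    rw [w.eq_of_sub hb hi hs i.2.1, i.2.2.2] at hc
    omega
  have hcases : ∀ i : I, ∀ w ∈ E.St v i.1, w ∈ E.Qm v x m ∨ i.1 ∈ w.s := by
    intro i w hw
    obtain ⟨b, hb, h1, h2⟩ := key i w hw
    by_cases hc : (v.blk b).card ≤ m
    · exact Or.inl ⟨hw.1, b, hb, h1, hc⟩
    · right
      rw [← PV.eq_of_blk_card hw.1.1 hb hw.2 h2 (by rw [i.2.2.2]; omega)]
      exact hb
  refine ⟨Qm_mono (Nat.le_succ m), I, fun i => {w | w ∈ E.Q v ∧ i.1 ∈ w.s},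
    fun i => E.St v i.1, ?_, fun i => ⟨?_, ?_, ?_, ?_⟩, ?_, ?_,
    fun i => conical_St i.2.2.1 (hcv i), fun i => ?_⟩
  · rintro w ⟨hw, b, hb, hs, hc⟩ hn
    refine ⟨⟨b, hs, (svq_le_iff.1 hw.1).1 b hb, ?_⟩, hw, hb⟩
    by_contra hne
    exact hn ⟨hw, b, hb, hs, by omega⟩
  · exact fun w hw => ⟨hw.1, PV.exp_of_mem hw.2⟩
  · intro w hw
    obtain ⟨b, hb, h1, h2⟩ := key i w hw
    exact ⟨hw.1, b, hb, h1, (hsub h2).trans i.2.2.2.le⟩
  · exact Set.disjoint_left.2 fun w hw => hdisj i w hw.2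
  · exact fun w hw => (hcases i w hw).imp_right fun h => ⟨hw.1, h⟩
  · intro i j a ha b hb hab
    have h1 : b ∈ E.St v i.1 := ⟨hb.1, PV.exp_mono (PV.exp_of_mem ha.2) hab⟩
    have h2 := (hcases i b h1).resolve_left (hdisj j b hb.2)
    exact Subtype.ext (b.eq_of_sub h2 hb.2 i.2.1 j.2.1)
  · rintro i a ha b ⟨hb, d, hd, hs, hc⟩ (hab | hba)
    · exact ⟨hb, PV.exp_mono (PV.exp_of_mem ha.2) hab⟩
    · obtain ⟨d', hd', hs'⟩ := (svq_le_iff.1 hba).2 i.1 ha.2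
      obtain rfl : d = d' := b.eq_of_sub hd hd' hs (i.2.1.trans hs')
      have : i.1 = d := PV.eq_of_blk_card ha.1.1 ha.2 ((svq_le_iff.1 hba).1 d hd) hs'
        (by rw [i.2.2.2]; exact hc)
      exact ⟨hb, PV.exp_of_mem (this ▸ hd)⟩
  · convert hL i.1 i.2.2.1 (hcv i) i.2.2.2 using 1
    ext w
    exact ⟨fun h => ⟨h.1, fun h' => hdisj i w h' h.2⟩,
      fun h => ⟨h.1, (hcases i w h.1).resolve_right h.2⟩⟩

/-- All the steps of the filtration, given the inductive hypothesis. -/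
theorem Qm_step' {n μ : ℕ} (ih : ∀ v : E.PV, μ ≤ v.s.card → Acyc (E.Q v) n) {v : E.PV}
    (hv : μ + 2 ^ (n + 2) ≤ v.s.card) {x : Ch} (hx : x ∈ v.s) {m : ℕ} (hm : 1 ≤ m) :
    Step (E.Qm v x m) (E.Qm v x (m + 1)) n := by
  refine Qm_step hx hm fun c h1 h2 h3 => ?_
  by_cases hb : 2 ^ (n + 2) ≤ m + 1
  · exact acyc_Lk_of_Iv h1 h2 (acyc_Iv h1 (hb.trans h3.ge))
  · refine acyc_Lk_of_Q h1 h2 (ih _ ?_)
    have := PV.card_res (PV.sat_of_exp h1)
    change (v.res (E.supp c)).s.card = m + 1 at h3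
    omega

end ExpSys

end Crest.Agent.R185
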