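import Crest.Agent.R185.PosetPi
import Crest.Agent.R185.SVQLink

/-!
# Row 185: descending links in expansion systems
-/

set_option autoImplicit false

namespace Crest.Agent.R185

theorem svq_chn_mono {P : Type} [Preorder P] {A B : Set P} (h : A ⊆ B) {k : ℕ}
    {z : List P →₀ ℤ} (hz : z ∈ Chn A k) : z ∈ Chn B k :=
  fun l hl => ⟨(hz l hl).1, (hz l hl).2.1, fun a ha => h ((hz l hl).2.2 a ha)⟩

theorem svq_hsurj_refl {P : Type} [Preorder P] (A : Set P) (n : ℕ) : HSurj A A n :=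
  fun _ _ z hz _ => ⟨0, zero_mem _, by simpa using hz⟩

namespace ExpSys
variable {Ch Pt : Type} [DecidableEq Ch] {E : ExpSys Ch Pt}

theorem svq_hsurj {n μ : ℕ} (ih : ∀ v : E.PV, μ ≤ v.s.card → Acyc (E.Q v) n) {v : E.PV}
    (hv : μ + 2 ^ (n + 2) ≤ v.s.card) {x : Ch} (hx : x ∈ v.s) :
    HSurj {w | w ∈ E.Q v ∧ x ∈ w.s} (E.Q v) (n + 1) := by
  have h : ∀ m, 1 ≤ m → HSurj (E.Qm v x 1) (E.Qm v x m) (n + 1) := by
    intro m hm
    induction m, hm using Nat.le_induction with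
    | base => exact svq_hsurj_refl _ _
    | succ m hm ih' => exact ih'.trans (Qm_mono (Nat.le_succ m)) (Qm_step' ih hv hx hm).hsurj
  have := h v.s.card (Finset.card_pos.2 ⟨x, hx⟩)
  rwa [Qm_one hx, Qm_top hx] at this

theorem svq_trivial {μ : ℕ} (ih : ∀ v : E.PV, μ ≤ v.s.card → Acyc (E.Q v) 1) {v : E.PV}
    (hv : μ + 2 ^ (1 + 2) ≤ v.s.card) {x : Ch} (hx : x ∈ v.s) {Z : Type} [Group Z]
    {c : E.PV → E.PV → Z} (hc : Flat (E.Q v) c) (h1 : Trivial {w | w ∈ E.Q v ∧ x ∈ w.s} c) :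
    Trivial (E.Q v) c := by
  have h : ∀ m, 1 ≤ m → Trivial (E.Qm v x m) c := by
    intro m hm
    induction m, hm using Nat.le_induction with
    | base => rwa [Qm_one hx]
    | succ m hm ih' =>
      exact (Qm_step' ih hv hx hm).trivial
        (fun a ha b hb d hd => hc a ha.1 b hb.1 d hd.1) ih'
  have := h v.s.card (Finset.card_pos.2 ⟨x, hx⟩)
  rwa [Qm_top hx] at this

theorem svq_card_res {v : E.PV} {x : Ch} (hx : x ∈ v.s) :
    v.s.card = (v.res (E.supp x)ᶜ).s.card + 1 := by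
  have := PV.card_res (PV.sat_of_exp (PV.exp_of_mem hx))
  rw [PV.res_of_mem hx] at this
  simp only [sing, Finset.card_singleton] at this
  omega

theorem svq_sat_of_le_res {v w : E.PV} {X : Set Pt} (h : w ≤ v.res Xᶜ) : w.Sat X :=
  fun a ha => Or.inr (PV.sub_of_le_res h a ha)

theorem svq_res_ins {v w : E.PV} {x : Ch} (h : w ≤ v.res (E.supp x)ᶜ) :
    (w.ins x).res (E.supp x)ᶜ = w := by
  rw [PV.res_ins, PV.res_eq_self (PV.sub_of_le_res h)]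

theorem svq_ins_mem {v w : E.PV} {x : Ch} (hx : x ∈ v.s) (h : w ∈ E.Q (v.res (E.supp x)ᶜ)) :
    w.ins x ∈ E.Q v := by
  refine ⟨?_, fun e => h.2 ?_⟩
  · have := PV.ins_mono (svq_sat_of_le_res h.1) h.1
    rwa [PV.ins_res hx] at this
  · rw [← e, svq_res_ins h.1]

theorem svq_res_mem {v w : E.PV} {x : Ch} (hx : x ∈ v.s) (h : w ∈ E.Q v) (hw : x ∈ w.s) :
    w.res (E.supp x)ᶜ ∈ E.Q (v.res (E.supp x)ᶜ) := by
  refine ⟨PV.res_mono (PV.sat_of_exp (PV.exp_of_mem hw)).compl h.1, fun e => h.2 ?_⟩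
  rw [← PV.ins_res hw, e, PV.ins_res hx]

theorem svq_ins_le_iff {v a b : E.PV} {x : Ch} (ha : a ≤ v.res (E.supp x)ᶜ)
    (hb : b ≤ v.res (E.supp x)ᶜ) : a.ins x ≤ b.ins x ↔ a ≤ b := by
  refine ⟨fun h => ?_, PV.ins_mono (svq_sat_of_le_res ha)⟩
  have := PV.res_mono (PV.sat_ins x a).compl h
  rwa [svq_res_ins ha, svq_res_ins hb] at this

theorem svq_ins_image {v : E.PV} {x : Ch} (hx : x ∈ v.s) :
    PV.ins x '' E.Q (v.res (E.supp x)ᶜ) = {w | w ∈ E.Q v ∧ x ∈ w.s} := by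
  ext w
  constructor
  · rintro ⟨w, hw, rfl⟩
    exact ⟨svq_ins_mem hx hw, PV.self_mem_ins x w⟩
  · rintro ⟨h1, h2⟩
    exact ⟨_, svq_res_mem hx h1 h2, PV.ins_res h2⟩

/-- Merging two charts. -/
theorem svq_merge {v : E.PV} {x y : Ch} (hx : x ∈ v.s) (hy : y ∈ (v.res (E.supp x)ᶜ).s) :
    ∃ c, c ∉ v.s ∧ ∀ w : E.PV, x ∈ w.s → y ∈ w.s → E.Exp c (w.blk c) := by
  obtain ⟨hy1, hy2⟩ := PV.mem_res.1 hy
  obtain ⟨c, hc⟩ := E.merge x y
    (Set.disjoint_of_subset_right hy2 disjoint_compl_right)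
  have hx' : E.supp x ⊆ E.supp c := svq_sub hc (by simp)
  have hy' : E.supp y ⊆ E.supp c := svq_sub hc (by simp)
  refine ⟨c, fun h => ?_, fun w h1 h2 => ?_⟩
  · obtain rfl : c = x := v.eq_of_sub h hx hx' le_rfl
    exact svq_not_sub_both hy' hy2
  · have : w.blk c = {x, y} := by
      ext a
      rw [PV.mem_res]
      constructor
      · rintro ⟨ha, hs⟩
        obtain ⟨p, hp⟩ := E.supp_ne a
        obtain ⟨b, hb, hp'⟩ := svq_cover hc (hs hp)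
        have hb' : b ∈ w.s := by
          simp only [Finset.mem_insert, Finset.mem_singleton] at hb
          rcases hb with rfl | rfl <;> assumption
        rw [w.eq_of_mem ha hb' hp hp']
        exact hb
      · intro ha
        simp only [Finset.mem_insert, Finset.mem_singleton] at ha
        rcases ha with rfl | rfl
        exacts [⟨h1, hx'⟩, ⟨h2, hy'⟩]
    rw [this]
    exact hc

theorem svq_two {v : E.PV} (hv : 2 ≤ v.s.card) :
    ∃ x ∈ v.s, ∃ y, y ∈ (v.res (E.supp x)ᶜ).s := by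
  obtain ⟨x, hx⟩ := Finset.card_pos.1 (show 0 < v.s.card by omega)
  have := svq_card_res hx
  obtain ⟨y, hy⟩ := Finset.card_pos.1 (show 0 < (v.res (E.supp x)ᶜ).s.card by omega)
  exact ⟨x, hx, y, hy⟩

theorem svq_acyc_zero {v : E.PV} (hv : 2 ≤ v.s.card) : Acyc (E.Q v) 0 := by
  obtain ⟨x, hx, y, hy⟩ := svq_two hv
  obtain ⟨c, hc, hc'⟩ := svq_merge hx hy
  intro k hk z hz h0
  obtain rfl : k = 0 := by omega
  have hz' : z ∈ Chn (E.St v c) 0 := fun l hl =>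
    ⟨(hz l hl).1, (hz l hl).2.1, by simp [List.length_eq_zero_iff.1 (hz l hl).1]⟩
  obtain ⟨y', h1, h2⟩ := (conical_St (hc' v hx (PV.mem_res.1 hy).1) hc).acyc 0 0 le_rfl z hz' h0
  exact ⟨y', svq_chn_mono (fun _ h => h.1) h1, h2⟩

theorem svq_acyc_succ {n μ : ℕ} (ih : ∀ v : E.PV, μ ≤ v.s.card → Acyc (E.Q v) n) {v : E.PV}
    (hv : μ + 2 ^ (n + 2) + 2 ≤ v.s.card) : Acyc (E.Q v) (n + 1) := by
  obtain ⟨x, hx, y, hy⟩ := svq_two (v := v) (le_trans (Nat.le_add_left _ _) hv)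
  obtain ⟨c, hc, hc'⟩ := svq_merge hx hy
  have h1 := svq_hsurj ih (v := v) (by omega) hx
  have h2 := svq_hsurj ih (v := v.res (E.supp x)ᶜ) (by have := svq_card_res hx; omega) hy
  have h3 := (hsurj_image (PV.ins x) (fun _ h => h.1)
    (fun a ha b hb => svq_ins_le_iff ha.1 hb.1)
    (fun a ha b hb e => le_antisymm ((svq_ins_le_iff ha.1 hb.1).1 e.le)
      ((svq_ins_le_iff hb.1 ha.1).1 e.ge)) (n + 1)).2 h2
  rw [svq_ins_image hx] at h3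
  have h4 := h3.trans (fun _ h => h.1) h1
  intro k hk z hz h0
  obtain ⟨y₁, hy₁, hz₁⟩ := h4 k hk z hz h0
  have hz₂ : z - bd y₁ ∈ Chn (E.St v c) k := by
    refine svq_chn_mono ?_ hz₁
    rintro _ ⟨w, ⟨hw1, hw2⟩, rfl⟩
    exact ⟨svq_ins_mem hx hw1, hc' _ (PV.self_mem_ins x w)
      (PV.mem_ins.2 (Or.inr ⟨hw2, (PV.mem_res.1 hy).2⟩))⟩
  obtain ⟨y₂, hy₂, e⟩ := (conical_St (hc' v hx (PV.mem_res.1 hy).1) hc).acyc k k le_rfl _ hz₂
    (by rw [map_sub, h0, bd_bd, sub_zero])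
  refine ⟨y₁ + y₂, add_mem hy₁ (svq_chn_mono (fun _ h => h.1) hy₂), ?_⟩
  rw [map_add, e]
  abel

theorem svq_sconn {μ : ℕ} (ih : ∀ v : E.PV, μ ≤ v.s.card → Acyc (E.Q v) 1) {v : E.PV}
    (hv : μ + 2 ^ (1 + 2) + 2 ≤ v.s.card) : SConn (E.Q v) := by
  obtain ⟨x, hx, y, hy⟩ := svq_two (v := v) (by omega)
  obtain ⟨c, hc, hc'⟩ := svq_merge hx hy
  intro Z _ κ hκ
  have hv' := hc' v hx (PV.mem_res.1 hy).1
  obtain ⟨t, ht⟩ : Trivial (E.St v c) κ :=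
    trivial_of_zigzag hκ (PV.ins c) (v.ins c)
      (fun _ ha _ _ hab => PV.ins_mono (PV.sat_of_exp ha.2) hab) (fun _ h => h.1)
      (ins_mem_St hc le_rfl hv').1 fun _ ha => ⟨(ins_mem_St hc ha.1.1 ha.2).1, PV.ins_le ha.2,
        PV.ins_mono (PV.sat_of_exp ha.2) ha.1.1⟩
  obtain ⟨t', ht'⟩ : Trivial (E.Q (v.res (E.supp x)ᶜ)) fun a b => κ (a.ins x) (b.ins x) := by
    refine svq_trivial ih (by have := svq_card_res hx; omega) hy ?_ ⟨fun a => t (a.ins x), ?_⟩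
    · intro a ha b hb d hd hab hbd
      exact hκ _ (svq_ins_mem hx ha) _ (svq_ins_mem hx hb) _ (svq_ins_mem hx hd)
        ((svq_ins_le_iff ha.1 hb.1).2 hab) ((svq_ins_le_iff hb.1 hd.1).2 hbd)
    · have hm : ∀ w ∈ E.Q (v.res (E.supp x)ᶜ), y ∈ w.s → w.ins x ∈ E.St v c := fun w h1 h2 =>
        ⟨svq_ins_mem hx h1, hc' _ (PV.self_mem_ins x w)
          (PV.mem_ins.2 (Or.inr ⟨h2, (PV.mem_res.1 hy).2⟩))⟩
      intro a ha b hb hab
      exact ht _ (hm a ha.1 ha.2) _ (hm b hb.1 hb.2) ((svq_ins_le_iff ha.1.1 hb.1.1).2 hab)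
  refine svq_trivial ih (by omega) hx hκ ⟨fun a => t' (a.res (E.supp x)ᶜ), ?_⟩
  intro a ha b hb hab
  have := ht' _ (svq_res_mem hx ha.1 ha.2) _ (svq_res_mem hx hb.1 hb.2)
    (PV.res_mono (PV.sat_of_exp (PV.exp_of_mem ha.2)).compl hab)
  simpa only [PV.ins_res ha.2, PV.ins_res hb.2] using this

theorem Vert_mono {m m' : ℕ} (h : m ≤ m') : E.Vert m ⊆ E.Vert m' :=
  fun _ hv => ⟨hv.1, hv.2.trans h⟩

theorem svq_card_new {k : ℕ} {v : E.PV} (h1 : v ∈ E.Vert (k + 1)) (h2 : v ∉ E.Vert k) :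
    v.s.card = k + 1 :=
  le_antisymm h1.2 (by
    by_contra h
    exact h2 ⟨h1.1, by omega⟩)

theorem svq_link {k : ℕ} {v : E.PV} (h1 : v ∈ E.Vert (k + 1)) (h2 : v ∉ E.Vert k) :
    {a | a ∈ E.Vert k ∧ a ≤ v} = E.Q v := by
  ext a
  constructor
  · rintro ⟨h3, h4⟩
    exact ⟨h4, fun e => h2 (e ▸ h3)⟩
  · rintro ⟨h3, h4⟩
    have := svq_card_lt h3 h4
    have := h1.2
    exact ⟨⟨(svq_union_eq h3).trans h1.1, by omega⟩, h3⟩

theorem svq_max {k : ℕ} {v : E.PV} (h1 : v ∈ E.Vert (k + 1)) (h2 : v ∉ E.Vert k)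
    {b : E.PV} (hb : b ∈ E.Vert (k + 1)) (h : v ≤ b) : b = v :=
  (svq_eq_of_card h (by rw [svq_card_new h1 h2]; exact hb.2)).symm

theorem Vert_step {n μ : ℕ} (ih : ∀ v : E.PV, μ ≤ v.s.card → Acyc (E.Q v) n) {k : ℕ}
    (hk : μ ≤ k + 1) : Step (E.Vert k) (E.Vert (k + 1)) n := by
  refine ⟨Vert_mono (Nat.le_succ k), {v : E.PV // v ∈ E.Vert (k + 1) ∧ v ∉ E.Vert k},
    fun i => {i.1}, fun i => {a | a ≤ i.1}, fun b h1 h2 => ⟨⟨b, h1, h2⟩, rfl⟩,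
    fun i => ⟨?_, ?_, ?_, ?_⟩, ?_, ?_, fun i => ?_, fun i => ?_⟩
  · rintro a rfl
    exact le_refl i.1
  · exact fun a ha => ⟨(svq_union_eq ha).trans i.2.1.1, (svq_card_le ha).trans i.2.1.2⟩
  · exact Set.disjoint_singleton_left.2 i.2.2
  · intro a ha
    by_cases e : a = i.1
    · exact Or.inr e
    · have : a ∈ E.Q i.1 := ⟨ha, e⟩
      rw [← svq_link i.2.1 i.2.2] at this
      exact Or.inl this.1
  · rintro i j a rfl b rfl h
    exact Subtype.ext (svq_max i.2.1 i.2.2 j.2.1 h).symm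
  · rintro i a rfl b hb (h | h)
    · exact (svq_max i.2.1 i.2.2 hb h).le
    · exact h
  · exact ⟨id, i.1, le_refl i.1, fun _ _ _ _ h => h, fun a ha => ⟨ha, le_rfl, ha⟩⟩
  · have := ih i.1 (by rw [svq_card_new i.2.1 i.2.2]; exact hk)
    rw [← svq_link i.2.1 i.2.2] at this
    convert this using 1
    ext a
    exact and_comm

theorem Vert_acyc {n μ : ℕ} (ih : ∀ v : E.PV, μ ≤ v.s.card → Acyc (E.Q v) n)
    (hdir : ∀ m, ∀ v ∈ E.Vert m, ∀ w ∈ E.Vert m, ∃ m', ∃ u ∈ E.Vert m', v ≤ u ∧ w ≤ u)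
    {m : ℕ} (hm : μ ≤ m) (hne : (E.Vert m).Nonempty) : Acyc (E.Vert m) n := by
  classical
  have hub : ∀ F : Finset E.PV, (∀ a ∈ F, a ∈ E.Vert m) →
      ∃ m', m ≤ m' ∧ ∃ u ∈ E.Vert m', ∀ a ∈ F, a ≤ u := by
    intro F
    induction F using Finset.induction_on with
    | empty => exact fun _ => ⟨m, le_rfl, hne.some, hne.some_mem, by simp⟩
    | insert a F _ ih' =>
      intro h
      obtain ⟨m', h1, u, hu, h2⟩ := ih' fun b hb => h b (Finset.mem_insert_of_mem hb)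
      obtain ⟨m'', u', hu', h3, h4⟩ :=
        hdir m' a (Vert_mono h1 (h a (Finset.mem_insert_self _ _))) u hu
      refine ⟨max m m'', le_max_left _ _, u', Vert_mono (le_max_right _ _) hu', fun b hb => ?_⟩
      rcases Finset.mem_insert.1 hb with rfl | hb
      exacts [h3, (h2 b hb).trans h4]
  intro k hk z hz h0
  obtain ⟨m', h1, u, hu, h2⟩ := hub (z.support.biUnion List.toFinset) (by
    intro a ha
    obtain ⟨l, hl, ha⟩ := Finset.mem_biUnion.1 ha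
    exact (hz l hl).2.2 a (List.mem_toFinset.1 ha))
  have h3 : ∃ y ∈ Chn (E.Vert m') (k + 1), bd y = z := by
    refine bounds_of_zigzag (A := {a | a ∈ E.Vert m ∧ a ≤ u}) id u (fun _ _ _ _ h => h)
      (fun a ha => Vert_mono h1 ha.1) hu (fun a ha => ⟨Vert_mono h1 ha.1, le_rfl, ha.2⟩) ?_ h0
    intro l hl
    exact ⟨(hz l hl).1, (hz l hl).2.1, fun a ha => ⟨(hz l hl).2.2 a ha,
      h2 a (Finset.mem_biUnion.2 ⟨l, hl, List.mem_toFinset.2 ha⟩)⟩⟩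
  clear h2 hu
  induction m', h1 using Nat.le_induction with
  | base => exact h3
  | succ j hj ih' =>
    obtain ⟨y, hy, e⟩ := h3
    exact ih' ((Vert_step ih (k := j) (by omega)).hinj hk (svq_chn_mono (Vert_mono hj) hz) hy e)

theorem Vert_sconn {μ : ℕ} (ih : ∀ v : E.PV, μ ≤ v.s.card → SConn (E.Q v))
    (hdir : ∀ m, ∀ v ∈ E.Vert m, ∀ w ∈ E.Vert m, ∃ m', ∃ u ∈ E.Vert m', v ≤ u ∧ w ≤ u)
    {m : ℕ} (hm : μ ≤ m) : SConn (E.Vert m) := by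
  intro Z _ κ hκ
  have hext : ∀ j, ∀ c : {c : E.PV → E.PV → Z // Flat (E.Vert (m + j)) c},
      ∃ c' : {c : E.PV → E.PV → Z // Flat (E.Vert (m + (j + 1))) c},
        ∀ a ∈ E.Vert (m + j), ∀ b ∈ E.Vert (m + j), c'.1 a b = c.1 a b := by
    intro j c
    obtain ⟨c', h1, h2⟩ := Flat.extend (A := E.Vert (m + j)) (B := E.Vert (m + j + 1))
      (Vert_mono (Nat.le_succ _)) (fun v h1 h2 b hb h => svq_max h1 h2 hb h)
      (fun v h1 h2 => by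
        rw [svq_link h1 h2]
        exact ih v (by rw [svq_card_new h1 h2]; omega)) c.2
    exact ⟨⟨c', h1⟩, h2⟩
  choose nx hnx using hext
  let sq : ∀ j, {c : E.PV → E.PV → Z // Flat (E.Vert (m + j)) c} := fun j =>
    Nat.rec (motive := fun j => {c : E.PV → E.PV → Z // Flat (E.Vert (m + j)) c})
      ⟨κ, hκ⟩ nx j
  have hsq : ∀ j j', j ≤ j' → ∀ a ∈ E.Vert (m + j), ∀ b ∈ E.Vert (m + j),
      (sq j').1 a b = (sq j).1 a b := by
    intro j j' h a ha b hb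
    induction j', h using Nat.le_induction with
    | base => rfl
    | succ j' h ih' =>
      rw [← ih']
      exact hnx j' (sq j') a (Vert_mono (by omega) ha) b (Vert_mono (by omega) hb)
  let κ' : E.PV → E.PV → Z := fun a b => (sq (a.s.card + b.s.card)).1 a b
  have hκ' : ∀ j, ∀ a ∈ E.Vert (m + j), ∀ b ∈ E.Vert (m + j), κ' a b = (sq j).1 a b := by
    intro j a ha b hb
    rw [← hsq j (j + (a.s.card + b.s.card)) (by omega) a ha b hb]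
    exact (hsq _ _ (by omega) a ⟨ha.1, by omega⟩ b ⟨hb.1, by omega⟩).symm
  obtain ⟨t, ht⟩ : Trivial {v : E.PV | ⋃ b ∈ v.s, E.supp b = Set.univ} κ' := by
    refine sconn_of_directed (fun a ha b hb => ?_) Z κ' fun a ha b hb d hd hab hbd => ?_
    · obtain ⟨m', u, hu, h⟩ := hdir (a.s.card + b.s.card) a ⟨ha, by omega⟩ b ⟨hb, by omega⟩
      exact ⟨u, hu.1, h⟩
    · have h1 : a ∈ E.Vert (m + (a.s.card + b.s.card + d.s.card)) := ⟨ha, by omega⟩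
      have h2 : b ∈ E.Vert (m + (a.s.card + b.s.card + d.s.card)) := ⟨hb, by omega⟩
      have h3 : d ∈ E.Vert (m + (a.s.card + b.s.card + d.s.card)) := ⟨hd, by omega⟩
      rw [hκ' _ a h1 d h3, hκ' _ b h2 d h3, hκ' _ a h1 b h2]
      exact (sq _).2 a h1 b h2 d h3 hab hbd
  exact ⟨t, fun a ha b hb hab => (hκ' 0 a ha b hb).symm.trans (ht a ha.1 b hb.1 hab)⟩

end ExpSys

theorem Q_acyc (n : ℕ) : ∃ μ : ℕ, ∀ {Ch Pt : Type} [DecidableEq Ch] (E : ExpSys Ch Pt) (v : E.PV),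
    μ ≤ v.s.card → Acyc (E.Q v) n := by
  induction n with
  | zero => exact ⟨2, fun _ _ hv => ExpSys.svq_acyc_zero hv⟩
  | succ n ih =>
    obtain ⟨μ, h⟩ := ih
    exact ⟨μ + 2 ^ (n + 2) + 2, fun E _ hv => ExpSys.svq_acyc_succ (h E) hv⟩

theorem Q_sconn : ∃ μ : ℕ, ∀ {Ch Pt : Type} [DecidableEq Ch] (E : ExpSys Ch Pt) (v : E.PV),
    μ ≤ v.s.card → SConn (E.Q v) := by
  obtain ⟨μ, h⟩ := Q_acyc 1
  exact ⟨μ + 2 ^ (1 + 2) + 2, fun E _ hv => ExpSys.svq_sconn (h E) hv⟩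

theorem vert_acyc {Ch Pt : Type} [DecidableEq Ch] (E : ExpSys Ch Pt)
    (hne : ∃ m, (E.Vert m).Nonempty)
    (hdir : ∀ m, ∀ v ∈ E.Vert m, ∀ w ∈ E.Vert m, ∃ m', ∃ u ∈ E.Vert m', v ≤ u ∧ w ≤ u) (n : ℕ) :
    ∃ m, Acyc (E.Vert m) n := by
  obtain ⟨μ, h⟩ := Q_acyc n
  obtain ⟨m, hm⟩ := hne
  exact ⟨max μ m, ExpSys.Vert_acyc (h E) hdir (le_max_left _ _)
    (hm.mono (ExpSys.Vert_mono (le_max_right _ _)))⟩

theorem vert_sconn {Ch Pt : Type} [DecidableEq Ch] (E : ExpSys Ch Pt)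
    (hne : ∃ m, (E.Vert m).Nonempty)
    (hdir : ∀ m, ∀ v ∈ E.Vert m, ∀ w ∈ E.Vert m, ∃ m', ∃ u ∈ E.Vert m', v ≤ u ∧ w ≤ u) :
    ∃ m, Acyc (E.Vert m) 1 ∧ SConn (E.Vert m) := by
  obtain ⟨μ, h⟩ := Q_acyc 1
  obtain ⟨μ', h'⟩ := Q_sconn
  obtain ⟨m, hm⟩ := hne
  exact ⟨μ + μ' + m, ExpSys.Vert_acyc (h E) hdir (by omega)
    (hm.mono (ExpSys.Vert_mono (by omega))), ExpSys.Vert_sconn (h' E) hdir (by omega)⟩

end Crest.Agent.R185
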