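import Crest.Agent.R185.SVPoset
import Crest.Agent.R185.SVQ

/-!
# Row 185: finiteness properties of twisted Brin–Thompson groups
-/

set_option autoImplicit false

namespace Crest.Agent.R185

theorem SV_fp (G S : Type) [Group G] [MulAction G S] [Nonempty S]
    (hG : Group.IsFinitelyPresented G)
    (horb : ∀ n, Finite (MulAction.orbitRel.Quotient G (Fin n → S)))
    (hst : ∀ F : Finset S, (fixingSubgroup G (F : Set S)).FG) :
    Group.IsFinitelyPresented (SV G S) := by
  obtain ⟨Sy⟩ := exists_svSys G S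
  let _ := Sy.dec
  let _ := Sy.act
  obtain ⟨m, hac, hsc⟩ := vert_sconn Sy.E ⟨1, Sy.ne⟩ Sy.dir
  refine brown_fp (Sy.E.Vert m) Sy.mono (Sy.inv m) hac hsc (Sy.fin horb m 3) ?_ ?_
  · intro v hv
    obtain ⟨N, n, hN, hI, ⟨e⟩⟩ := Sy.stabV m v hv
    have h1 : Group.IsFinitelyPresented (Fin n → G) := fp_pi fun _ => hG
    refine fp_of_extension N (Group.IsFinitelyPresented.equiv e.symm) ?_
    infer_instance
  · intro a ha b hb hab
    have hl : IsChn (Sy.E.Vert m) (1 + 1) [a, b] := by
      refine ⟨rfl, by simpa using hab, ?_⟩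
      intro c hc
      simp only [List.mem_cons, List.not_mem_nil, or_false] at hc
      rcases hc with rfl | rfl <;> assumption
    obtain ⟨N, n, F, hI, ⟨e⟩⟩ := Sy.stabC m 1 _ hl
    have h1 : ∀ i, Group.FG (fixingSubgroup G (F i : Set S)) := fun i =>
      (Group.fg_iff_subgroup_fg _).2 (hst (F i))
    have h2 : Group.FG (∀ i, fixingSubgroup G (F i : Set S)) := inferInstance
    have h3 : Group.FG N := Group.fg_of_surjective (f := e.symm.toMonoidHom) e.symm.surjective
    have h4 := fg_of_finiteIndex N ((Group.fg_iff_subgroup_fg _).1 h3)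
    have h5 := (Group.fg_iff_subgroup_fg _).1 h4
    have h6 : (⨅ x ∈ [a, b], MulAction.stabilizer (SV G S) x : Subgroup (SV G S)) =
        MulAction.stabilizer (SV G S) a ⊓ MulAction.stabilizer (SV G S) b := by
      ext g
      simp [Subgroup.mem_iInf]
    rwa [h6] at h5

theorem SV_fpinf (G S : Type) [Group G] [MulAction G S] [Nonempty S]
    (horb : ∀ n, Finite (MulAction.orbitRel.Quotient G (Fin n → S)))
    (hst : ∀ F : Finset S, FPinf (fixingSubgroup G (F : Set S))) : FPinf (SV G S) := by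
  obtain ⟨Sy⟩ := exists_svSys G S
  let _ := Sy.dec
  let _ := Sy.act
  intro n
  obtain ⟨m, hac⟩ := vert_acyc Sy.E ⟨1, Sy.ne⟩ Sy.dir (n + 1)
  refine brown_fpn (Sy.E.Vert m) Sy.mono (Sy.inv m) n hac (Sy.fin horb m) ?_
  intro k l hl
  obtain ⟨N, r, F, hI, ⟨e⟩⟩ := Sy.stabC m k l hl
  exact FPn.of_finiteIndex N (FPn.of_equiv e.symm (FPinf.pi (fun i => hst (F i)) n))

end Crest.Agent.R185
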