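import Crest.Agent.R185.SVBasic

/-!
# Row 185: simplicity of twisted Brin–Thompson groups
-/

set_option autoImplicit false

namespace Crest.Agent.R185

open Set

variable {G S : Type} [Group G] [MulAction G S]

namespace Simp

/-- Evaluation of an element of `SV`. -/
abbrev ev (σ : SV G S) (x : Cube S × G) : Cube S × G := (σ : Equiv.Perm (Cube S × G)) x

theorem ev_mul (σ τ : SV G S) (x : Cube S × G) : ev (σ * τ) x = ev σ (ev τ x) := rfl

theorem ev_ext {σ τ : SV G S} (h : ∀ x, ev σ x = ev τ x) : σ = τ :=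
  Subtype.ext (Equiv.ext h)

theorem ev_inj (σ : SV G S) : Function.Injective (ev σ) := (σ : Equiv.Perm (Cube S × G)).injective

theorem ev_inv_ev (σ : SV G S) (x : Cube S × G) : ev σ⁻¹ (ev σ x) = x := by
  rw [← ev_mul, inv_mul_cancel]; rfl

theorem ev_ev_inv (σ : SV G S) (x : Cube S × G) : ev σ (ev σ⁻¹ x) = x := by
  rw [← ev_mul, mul_inv_cancel]; rfl

theorem locStd (σ : SV G S) : LocStd (ev σ) := σ.2

/-- The embedding of a brick. -/
def bemb (G : Type) (β : Brick S) : Cube S × G ↪ Cube S × G :=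
  ⟨Prod.map β.pre id, β.pre_injective.prodMap Function.injective_id⟩

omit [Group G] [MulAction G S] in
theorem notMem_bemb {β : Brick S} {x : Cube S × G} (h : x.1 ∉ range β.pre) :
    x ∉ range (bemb G β) := by
  rintro ⟨z, rfl⟩
  exact h ⟨z.1, rfl⟩

/-- Transport of `SV` into a brick. -/
noncomputable def iota (β : Brick S) : SV G S →* SV G S :=
  MonoidHom.codRestrict ((Equiv.Perm.viaEmbeddingHom (bemb G β)).comp (SV G S).subtype) _ (by
    intro σ y
    by_cases hy : y ∈ range β.pre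
    · obtain ⟨z, rfl⟩ := hy
      obtain ⟨γ, γ', g, ⟨w, rfl⟩, h⟩ := σ.2 z
      refine ⟨β.append γ, β.append γ', g, ⟨w, β.append_pre _ _⟩, fun v k => ?_⟩
      have := Equiv.Perm.viaEmbedding_apply σ.1 (bemb G β) (γ.pre v, k)
      rw [h] at this
      rw [Brick.append_pre, Brick.append_pre]
      exact this
    · obtain ⟨γ, h1, h2⟩ := exists_brick_subset β.isClopen.compl.isOpen hy
      refine ⟨γ, γ, 1, h1, fun v k => ?_⟩
      rw [tw_one, one_mul]
      exact Equiv.Perm.viaEmbedding_apply_of_notMem σ.1 (bemb G β) _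
        (notMem_bemb (h2 ⟨v, rfl⟩)))

theorem iota_pre (β : Brick S) (σ : SV G S) (y : Cube S) (h : G) :
    ev (iota β σ) (β.pre y, h) = (β.pre (ev σ (y, h)).1, (ev σ (y, h)).2) :=
  Equiv.Perm.viaEmbedding_apply σ.1 (bemb G β) (y, h)

theorem iota_of_notMem (β : Brick S) (σ : SV G S) {x : Cube S × G} (h : x.1 ∉ range β.pre) :
    ev (iota β σ) x = x :=
  Equiv.Perm.viaEmbedding_apply_of_notMem σ.1 (bemb G β) _ (notMem_bemb h)

theorem iota_iota (β γ : Brick S) (σ : SV G S) : iota β (iota γ σ) = iota (β.append γ) σ := by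
  refine ev_ext fun ⟨y, h⟩ => ?_
  by_cases hy : y ∈ range β.pre
  · obtain ⟨z, rfl⟩ := hy
    by_cases hz : z ∈ range γ.pre
    · obtain ⟨w, rfl⟩ := hz
      rw [iota_pre, iota_pre, ← Brick.append_pre, ← Brick.append_pre, iota_pre]
    · rw [iota_pre, iota_of_notMem γ σ (x := (z, h)) hz, iota_of_notMem]
      rintro ⟨w, hw⟩
      rw [Brick.append_pre] at hw
      exact hz ⟨w, β.pre_injective hw⟩
  · rw [iota_of_notMem β _ (x := (y, h)) hy, iota_of_notMem]
    exact fun h' => hy (β.range_append_subset γ h')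

theorem iota_nil (σ : SV G S) : iota (Brick.nil S) σ = σ :=
  ev_ext fun ⟨y, h⟩ => iota_pre (Brick.nil S) σ y h

omit [Group G] [MulAction G S] in
theorem isClopen_image (β : Brick S) {U : Set (Cube S)} (hU : IsClopen U) :
    IsClopen (β.pre '' U) := by
  have : β.pre '' U = range β.pre ∩ β.unpre ⁻¹' U := by
    ext y
    constructor
    · rintro ⟨z, hz, rfl⟩
      exact ⟨⟨z, rfl⟩, by simpa using hz⟩
    · rintro ⟨⟨z, rfl⟩, hz⟩
      exact ⟨z, by simpa using hz, rfl⟩
  rw [this]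
  exact β.isClopen.inter (hU.preimage β.continuous_unpre)

/-- Transports into different bricks are conjugate. -/
theorem exists_conj [Nonempty S] (δ δ' : Brick S) {U : Set (Cube S)} (hU : IsClopen U)
    (h : δ.pre '' U ≠ univ) (h' : δ'.pre '' U ≠ univ) :
    ∃ ρ : SV G S, ∀ a : SV G S, (∀ x : Cube S × G, x.1 ∉ U → ev a x = x) →
      iota δ' a = ρ * iota δ a * ρ⁻¹ := by
  obtain ⟨ρ, hρ⟩ := exists_extend (G := G) (isClopen_image δ hU) h
    (σ := Prod.map (δ'.pre ∘ δ.unpre) id)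
    (by
      rintro _ ⟨z, -, rfl⟩
      exact ⟨δ, δ', 1, ⟨z, rfl⟩, fun y k => by simp⟩)
    (by
      rintro ⟨_, k⟩ ⟨⟨z, -, rfl⟩, -⟩ ⟨_, k'⟩ ⟨⟨z', -, rfl⟩, -⟩ e
      simp only [Prod.map_apply, Function.comp_apply, Brick.unpre_pre, id_eq, Prod.mk.injEq] at e
      rw [δ'.pre_injective e.1, e.2])
    (by
      intro e
      refine h' (eq_univ_of_forall fun y => ?_)
      obtain ⟨⟨_, k⟩, ⟨⟨z, hz, rfl⟩, -⟩, e'⟩ := e.symm ▸ mem_univ (y, (1 : G))
      exact ⟨z, hz, by simpa using congrArg Prod.fst e'⟩)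
  have hρ' : ∀ z ∈ U, ∀ k, ev ρ (δ.pre z, k) = (δ'.pre z, k) := fun z hz k => by
    simpa using hρ (δ.pre z, k) ⟨⟨z, hz, rfl⟩, trivial⟩
  refine ⟨ρ, fun a ha => ?_⟩
  have hfix : ∀ (ε : Brick S) (x : Cube S × G), x.1 ∉ ε.pre '' U → ev (iota ε a) x = x := by
    rintro ε ⟨y, k⟩ hx
    by_cases hy : y ∈ range ε.pre
    · obtain ⟨z, rfl⟩ := hy
      rw [iota_pre, ha (z, k) fun hz => hx ⟨z, hz, rfl⟩]
    · exact iota_of_notMem ε a hy
  rw [eq_mul_inv_iff_mul_eq]
  refine ev_ext fun ⟨y, k⟩ => ?_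
  rw [ev_mul, ev_mul]
  by_cases hy : y ∈ δ.pre '' U
  · obtain ⟨z, hz, rfl⟩ := hy
    rw [hρ' z hz, iota_pre, iota_pre, hρ']
    by_contra hn
    have := ev_inj a (ha _ hn)
    exact hn (by rw [this]; exact hz)
  · rw [hfix δ (y, k) hy, hfix]
    rintro ⟨z, hz, e⟩
    have : ev ρ (δ.pre z, (ev ρ (y, k)).2) = ev ρ (y, k) := by rw [hρ' z hz, e]
    exact hy ⟨z, hz, congrArg Prod.fst (ev_inj ρ this)⟩

/-- Elements which commute with pushing a bit on the coordinate `s`. -/
def Free (s : S) (σ : SV G S) : Prop :=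
  ∀ b y h, ev σ ((halfB s b).pre y, h) = ((halfB s b).pre (ev σ (y, h)).1, (ev σ (y, h)).2)

theorem Free.halve {s : S} {σ : SV G S} (hσ : Free s σ) :
    σ = iota (halfB s false) σ * iota (halfB s true) σ := by
  refine ev_ext fun ⟨y, h⟩ => ?_
  rw [ev_mul]
  cases hy : y s 0
  · obtain ⟨z, rfl⟩ := mem_halfB.2 hy
    rw [iota_of_notMem (halfB s true) σ (by dsimp only; rw [mem_halfB, hy]; simp), iota_pre, hσ]
  · obtain ⟨z, rfl⟩ := mem_halfB.2 hy
    rw [iota_pre, iota_of_notMem, hσ]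
    dsimp only
    rw [mem_halfB, mem_halfB.1 ⟨_, rfl⟩]
    simp

theorem free_incl {s : S} {g : G} (hg : g • s = s) : Free s (SV.incl G S g) := by
  intro b y h
  have : (halfB s b).tw g = halfB s b := by
    ext1; funext t
    by_cases ht : t = s
    · subst ht
      change (halfB t b).p (g⁻¹ • t) = _
      rw [inv_smul_eq_iff.2 hg.symm]
    · change (halfB s b).p (g⁻¹ • t) = _
      rw [halfB_ne ht, halfB_ne]
      intro e
      exact ht (by rw [← hg, ← e, smul_inv_smul])
  change (tw g ((halfB s b).pre y), g * h) = ((halfB s b).pre (tw g y), g * h)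
  rw [tw_pre, this]

omit [Group G] [MulAction G S] in
theorem halfB_comm {s : S} {β : Brick S} (h : β.p s = []) (b : Bool) (y : Cube S) :
    (halfB s b).pre (β.pre y) = β.pre ((halfB s b).pre y) := by
  funext t
  by_cases ht : t = s
  · subst ht; simp [Brick.pre, h]
  · simp [Brick.pre, halfB_ne ht]

theorem exists_free [Infinite S] {σ : SV G S} (hσ : ∀ x, (ev σ x).2 = x.2) : ∃ s, Free s σ := by
  choose f f' g hf hstd using locStd σ
  obtain ⟨T, -, hT⟩ := exists_finite_cover isClosed_univ f fun y _ => hf y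
  have hfin : (⋃ t ∈ T, ({s | (f t).p s ≠ []} ∪ {s | (f' t).p s ≠ []})).Finite :=
    T.finite_toSet.biUnion fun t _ => (f t).fin.union (f' t).fin
  obtain ⟨s, hs⟩ := hfin.exists_notMem
  simp only [mem_iUnion, mem_union, mem_ofPred_eq, not_exists, not_or, not_not] at hs
  refine ⟨s, fun b y h => ?_⟩
  obtain ⟨t, ht, z, rfl⟩ := hT y (mem_univ _)
  have hg : g t = 1 := by
    have := hσ ((f t).pre z, 1)
    rw [hstd] at this
    simpa using this
  rw [halfB_comm (hs t ht).1, hstd, hstd, halfB_comm (hs t ht).2, hg, tw_one, tw_one]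

theorem mem_of_stab [Infinite S]
    (h₂ : ∀ a b a' b' : S, a ≠ b → a' ≠ b' → ∃ g : G, g • a = a' ∧ g • b = b') (K : Subgroup G)
    (hK : ∀ (g : G) (s : S), g • s = s → g ∈ K) (g : G) : g ∈ K := by
  obtain ⟨a⟩ := (inferInstance : Nonempty S)
  obtain ⟨c, hc⟩ := ((finite_singleton a).insert (g • a)).exists_notMem
  simp only [mem_insert_iff, mem_singleton_iff, not_or] at hc
  obtain ⟨k, h1, h2⟩ := h₂ a c (g • a) c (Ne.symm hc.2) (Ne.symm hc.1)
  have := K.mul_mem (hK k c h2) (hK (k⁻¹ * g) a (by rw [mul_smul, inv_smul_eq_iff, h1]))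
  simpa using this

omit [Group G] [MulAction G S] in
theorem append_ne_univ {β : Brick S} (h : range β.pre ≠ univ) (γ : Brick S) :
    range (β.append γ).pre ≠ univ := fun e =>
  h (univ_subset_iff.1 (e ▸ β.range_append_subset γ))

/-- A homomorphism with commutative image kills everything supported in a proper brick. -/
theorem kill [Infinite S]
    (h₂ : ∀ a b a' b' : S, a ≠ b → a' ≠ b' → ∃ g : G, g • a = a' ∧ g • b = b')
    {Q : Type} [Group Q] (ψ : SV G S →* Q) (hψ : ∀ a b, ψ a * ψ b = ψ b * ψ a)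
    (σ : SV G S) {γ : Brick S} (hγ : range γ.pre ≠ univ) : ψ (iota γ σ) = 1 := by
  let R : Subgroup (SV G S) := ⨅ γ : {γ : Brick S // range γ.pre ≠ univ}, (ψ.comp (iota γ.1)).ker
  have hR : ∀ σ, σ ∈ R ↔ ∀ γ : Brick S, range γ.pre ≠ univ → ψ (iota γ σ) = 1 := fun σ => by
    simp [R, Subgroup.mem_iInf, MonoidHom.mem_ker]
  have hiota : ∀ δ, ∀ σ ∈ R, iota δ σ ∈ R := fun δ σ hσ => (hR _).2 fun γ hγ => by
    rw [iota_iota]; exact (hR _).1 hσ _ (append_ne_univ hγ _)
  have hfree : ∀ s σ, Free s σ → σ ∈ R := fun s σ hσ => (hR _).2 fun γ hγ => by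
    have h1 : ∀ δ, ψ (iota (γ.append δ) σ) = ψ (iota γ σ) := fun δ => by
      obtain ⟨ρ, hρ⟩ := exists_conj (G := G) γ (γ.append δ) isClopen_univ
        (by rwa [image_univ]) (by rw [image_univ]; exact append_ne_univ hγ δ)
      rw [hρ σ (fun x hx => absurd (mem_univ _) hx), map_mul, map_mul, hψ ρ, map_inv,
        mul_inv_cancel_right]
    have h2 := congrArg (fun a => ψ (iota γ a)) hσ.halve
    simp only [map_mul, iota_iota, h1] at h2
    exact (left_eq_mul.1 h2)
  have hincl : ∀ g, SV.incl G S g ∈ R :=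
    mem_of_stab h₂ (R.comap (SV.incl G S)) fun g s hg => hfree s _ (free_incl hg)
  obtain ⟨F, d, hF⟩ := (locStd σ).exists_grid
  obtain ⟨t, ht, -, hσt⟩ := clopen_induction F d
    (P := fun U => ∃ t ∈ R, (∀ x : Cube S × G, x.1 ∉ U → ev t x = x) ∧
      ∀ x : Cube S × G, x.1 ∈ U → (ev σ (ev t x)).2 = x.2)
    ⟨1, R.one_mem, fun _ _ => rfl, fun _ h => absurd h (notMem_empty _)⟩
    (fun β U hβ _ hd ⟨t, ht, h1, h2⟩ => by
      obtain ⟨β', g, hstd⟩ := hF β hβ
      refine ⟨t * iota β (SV.incl G S g⁻¹), R.mul_mem ht (hiota _ _ (hincl _)), fun x hx => ?_,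
        fun x hx => ?_⟩
      · rw [mem_union, not_or] at hx
        rw [ev_mul, iota_of_notMem _ _ hx.1, h1 x hx.2]
      · rcases hx with ⟨z, hz⟩ | hx
        · obtain ⟨y, k⟩ := x
          obtain rfl : β.pre z = y := hz
          rw [ev_mul, iota_pre, h1 _ (hd.notMem_of_mem_left ⟨_, rfl⟩), hstd]
          exact mul_inv_cancel_left g k
        · rw [ev_mul, iota_of_notMem _ _ (hd.notMem_of_mem_right hx), h2 x hx])
    isClopen_univ
  obtain ⟨s, hs⟩ := exists_free (σ := σ * t) fun x => hσt x (mem_univ _)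
  exact (hR σ).1 ((R.mul_mem_cancel_right ht).1 (hfree s _ hs)) γ hγ

omit [Group G] [MulAction G S] in
theorem append_halfB_apply (β : Brick S) (s : S) (δ : Brick S) (hδ : δ.p s ≠ []) :
    ∃ b, ∀ y ∈ range (β.append δ).pre, y s 0 = b := by
  have h : 0 < ((β.append δ).p s).length := by
    change 0 < (β.p s ++ δ.p s).length
    rw [List.length_append]
    have := List.length_pos_iff.2 hδ
    omega
  exact ⟨_, fun y hy => Brick.mem_range.1 hy s 0 h⟩

/-- `SV` is generated by the elements with proper support. -/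
theorem mem_of_supp [Nontrivial S] (K : Subgroup (SV G S))
    (hK : ∀ U : Set (Cube S), IsClopen U → U ≠ univ → ∀ a : SV G S,
      (∀ x : Cube S × G, x.1 ∉ U → ev a x = x) → a ∈ K) (σ : SV G S) : σ ∈ K := by
  classical
  obtain ⟨s, t, hst⟩ := exists_pair_ne S
  obtain ⟨β₀, β₀', g, -, h₀⟩ := locStd σ fun _ _ => false
  let δ := (halfB s false).append (halfB (g⁻¹ • t) false)
  have hstd := h₀.refine δ
  obtain ⟨b, hb⟩ := append_halfB_apply β₀ s δ (by simp [δ, Brick.append, halfB_self])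
  obtain ⟨c, hc⟩ := append_halfB_apply β₀' t (δ.tw g)
    (by simp [δ, Brick.append, Brick.tw, halfB_self])
  set β := β₀.append δ
  set β' := β₀'.append (δ.tw g)
  let D : Set (Cube S) := range (halfB s !b).pre ∩ range (halfB t !c).pre
  have hD : IsClopen D := (Brick.isClopen _).inter (Brick.isClopen _)
  have hmD : ∀ y, y ∈ D ↔ y s 0 = !b ∧ y t 0 = !c := fun y => by
    simp only [D, mem_inter_iff, mem_halfB]
  have hβD : ∀ y ∈ range β.pre, y ∉ D := fun y hy h => by
    have := ((hmD y).1 h).1; rw [hb y hy] at this; simp at this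
  have hβD' : ∀ y ∈ range β'.pre, y ∉ D := fun y hy h => by
    have := ((hmD y).1 h).2; rw [hc y hy] at this; simp at this
  let pt : Bool → Bool → Cube S := fun u v r _ => if r = s then u else v
  have hpts : ∀ u v, pt u v s 0 = u := fun u v => by simp [pt]
  have hptt : ∀ u v, pt u v t 0 = v := fun u v => by simp [pt, hst.symm]
  let m : Cube S × G → Cube S × G := fun x => if x.1 ∈ D then x else ev σ x
  have hm1 : ∀ x : Cube S × G, x.1 ∈ D → m x = x := fun x hx => if_pos hx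
  have hm2 : ∀ y k, m (β.pre y, k) = (β'.pre (tw g y), g * k) := fun y k => by
    rw [← hstd]; exact if_neg (hβD _ ⟨y, rfl⟩)
  obtain ⟨τ, hτ⟩ := exists_extend (G := G) (U := range β.pre ∪ D) (β.isClopen.union hD)
    (by
      intro e
      rcases (e.symm ▸ mem_univ (pt (!b) c) : pt (!b) c ∈ range β.pre ∪ D) with h | h
      · have := hb _ h; rw [hpts] at this; simp at this
      · have := ((hmD _).1 h).2; rw [hptt] at this; simp at this)
    (σ := m)
    (by
      rintro y (hy | hy)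
      · exact ⟨β, β', g, hy, hm2⟩
      · obtain ⟨γ, h1, h2⟩ := exists_brick_subset hD.isOpen hy
        exact ⟨γ, γ, 1, h1, fun v k => by rw [hm1 _ (h2 ⟨v, rfl⟩)]; simp⟩)
    (by
      rintro ⟨y, k⟩ ⟨⟨z, rfl⟩ | hy, -⟩ ⟨y', k'⟩ ⟨⟨z', rfl⟩ | hy', -⟩ e
      · rw [hm2, hm2, ← hstd, ← hstd] at e
        exact ev_inj σ e
      · rw [hm2, hm1 _ hy'] at e
        exact absurd hy' (hβD' _ ⟨_, congrArg Prod.fst e⟩)
      · rw [hm2, hm1 _ hy] at e
        exact absurd hy (hβD' _ ⟨_, (congrArg Prod.fst e).symm⟩)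
      · rwa [hm1 _ hy, hm1 _ hy'] at e)
    (by
      intro e
      obtain ⟨⟨y, k⟩, ⟨⟨z, rfl⟩ | hy, -⟩, e'⟩ := e.symm ▸ mem_univ (pt b (!c), (1 : G))
      · rw [hm2] at e'
        have := hc (pt b (!c)) ⟨_, congrArg Prod.fst e'⟩
        rw [hptt] at this; simp at this
      · rw [hm1 _ hy] at e'
        obtain rfl : y = pt b (!c) := congrArg Prod.fst e'
        have := ((hmD (pt b (!c))).1 hy).1; rw [hpts] at this; simp at this)
  have h1 : τ ∈ K := hK Dᶜ hD.compl
    (compl_ne_univ.2 ⟨pt (!b) (!c), (hmD _).2 ⟨hpts _ _, hptt _ _⟩⟩) τ fun x hx => by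
      rw [notMem_compl_iff] at hx
      exact (hτ x ⟨Or.inr hx, trivial⟩).trans (hm1 x hx)
  have h2 : τ⁻¹ * σ ∈ K := hK (range β.pre)ᶜ β.isClopen.compl
    (compl_ne_univ.2 (range_nonempty _)) _ fun ⟨y, k⟩ hx => by
      obtain ⟨z, rfl⟩ := notMem_compl_iff.1 hx
      have : ev τ (β.pre z, k) = ev σ (β.pre z, k) :=
        (hτ _ ⟨Or.inl ⟨z, rfl⟩, trivial⟩).trans (by rw [hm2, hstd])
      rw [ev_mul, ← this, ev_inv_ev]
  simpa using K.mul_mem h1 h2

/-- A nontrivial element displaces a brick. -/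
theorem exists_displace [FaithfulSMul G S] {σ : SV G S} (hσ : σ ≠ 1) :
    ∃ β : Brick S, ∀ x : Cube S × G, x.1 ∈ range β.pre → (ev σ x).1 ∉ range β.pre := by
  have h1 : ∃ (β β' : Brick S) (g : G) (z : Cube S), StdOn (ev σ) β β' g ∧
      β'.pre (tw g z) ≠ β.pre z := by
    by_contra hn
    push Not at hn
    refine hσ (ev_ext fun ⟨y, k⟩ => ?_)
    obtain ⟨β, β', g, ⟨z, rfl⟩, h⟩ := locStd σ y
    have hg : g⁻¹ = 1 := by
      refine eq_of_smul_eq_smul (α := S) fun s => ?_
      classical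
      by_contra hs
      rw [one_smul] at hs
      have e1 := congrFun (hn β β' g (fun _ _ => false) h) s
      have e2 := congrFun (hn β β' g (Function.update (fun _ _ => false) s fun _ => true) h) s
      simp only [Brick.pre, tw, Function.update_of_ne hs, Function.update_self] at e1 e2
      have := congrFun (pre_injective _ (e1.symm.trans e2)) 0
      simp at this
    rw [h, hn β β' g z h, inv_eq_one.1 hg, one_mul]
    rfl
  obtain ⟨β, β', g, z, hstd, hne⟩ := h1
  obtain ⟨s, hs⟩ := Function.ne_iff.1 hne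
  obtain ⟨i, hi⟩ := Function.ne_iff.1 hs
  have hc1 : Continuous fun w : Cube S => β.pre w s i :=
    (continuous_apply i).comp ((continuous_apply s).comp β.continuous_pre)
  have hc2 : Continuous fun w : Cube S => β'.pre (tw g w) s i :=
    (continuous_apply i).comp ((continuous_apply s).comp (β'.continuous_pre.comp
      (continuous_pi fun s => continuous_apply _)))
  obtain ⟨γ, -, hγ⟩ := exists_brick_subset
    (((isOpen_discrete {β.pre z s i}).preimage hc1).inter
      ((isOpen_discrete {β'.pre (tw g z) s i}).preimage hc2)) (y := z) ⟨rfl, rfl⟩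
  refine ⟨β.append γ, ?_⟩
  rintro ⟨_, k⟩ ⟨v, rfl⟩ ⟨w, hw⟩
  rw [Brick.append_pre, Brick.append_pre, hstd] at hw
  have e1 : β.pre (γ.pre w) s i = β.pre z s i := (hγ ⟨w, rfl⟩).1
  have e2 : β'.pre (tw g (γ.pre v)) s i = β'.pre (tw g z) s i := (hγ ⟨v, rfl⟩).2
  exact hi (by rw [← e1, ← e2, hw])

end Simp

open Simp in
theorem SV_simple (G S : Type) [Group G] [MulAction G S] [Infinite S] [FaithfulSMul G S]
    (h₂ : ∀ a b a' b' : S, a ≠ b → a' ≠ b' → ∃ g : G, g • a = a' ∧ g • b = b') :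
    IsSimpleGroup (SV G S) := by
  obtain ⟨s, t, hst⟩ := exists_pair_ne S
  have : Nontrivial G := by
    obtain ⟨g, hg, -⟩ := h₂ s t t s hst hst.symm
    exact ⟨g, 1, by rintro rfl; exact hst (by simpa using hg)⟩
  have : Nontrivial (SV G S) := SV.incl_injective.nontrivial
  refine ⟨fun N hN => ?_⟩
  by_cases hbot : N = ⊥
  · exact Or.inl hbot
  refine Or.inr ?_
  obtain ⟨⟨σ, hσN⟩, hσ⟩ := Subgroup.ne_bot_iff_exists_ne_one.1 hbot
  obtain ⟨β, hβ⟩ := exists_displace (σ := σ) fun h => hσ (Subtype.ext h)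
  have hσ1 : QuotientGroup.mk' N σ = 1 := (QuotientGroup.eq_one_iff σ).2 hσN
  have hcomm : ∀ a b : SV G S,
      (σ * iota β a * σ⁻¹) * iota β b = iota β b * (σ * iota β a * σ⁻¹) := by
    intro a b
    refine Subtype.ext (Equiv.Perm.Disjoint.commute fun x => ?_).eq
    by_cases hx : x.1 ∈ range β.pre
    · left
      change ev σ (ev (iota β a) (ev σ⁻¹ x)) = x
      rw [iota_of_notMem, ev_ev_inv]
      intro h
      have := hβ _ h
      rw [ev_ev_inv] at this
      exact this hx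
    · exact Or.inr (iota_of_notMem β b hx)
  have hhalf : range (halfB s false).pre ≠ univ := fun e => by
    have : (fun _ _ => true : Cube S) ∈ range (halfB s false).pre := e ▸ mem_univ _
    rw [mem_halfB] at this
    simp at this
  have hker : ∀ a : SV G S, iota (β.append (halfB s false)) a ∈ N := fun a => by
    have := kill h₂ ((QuotientGroup.mk' N).comp (iota β)) (fun a b => by
      have := congrArg (QuotientGroup.mk' N) (hcomm a b)
      simpa only [map_mul, map_inv, hσ1, one_mul, inv_one, mul_one, MonoidHom.comp_apply]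
        using this) a hhalf
    rw [MonoidHom.comp_apply, iota_iota] at this
    exact (QuotientGroup.eq_one_iff _).1 this
  refine (Subgroup.eq_top_iff' N).2 (mem_of_supp N fun U hU hne a ha => ?_)
  have hβne : range β.pre ≠ univ := fun e =>
    hβ (fun _ _ => false, 1) (e ▸ mem_univ _) (e ▸ mem_univ _)
  obtain ⟨ρ, hρ⟩ := exists_conj (G := G) (β.append (halfB s false)) (Brick.nil S) hU
    (fun e => append_ne_univ hβne _ (univ_subset_iff.1 (e ▸ image_subset_range _ _)))
    (by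
      have : (Brick.nil S).pre = id := rfl
      rwa [this, image_id])
  rw [← iota_nil a, hρ a ha]
  exact hN.conj_mem _ (hker a) ρ

end Crest.Agent.R185
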