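import Crest.Agent.R185.Pkg
import Crest.Agent.R185.HNN
import Crest.Agent.R185.PresLib
import Crest.Agent.R185.Kill
import Crest.Agent.R185.SVFin
import Crest.Agent.R185.SVSimple

/-!
# Row 185: the ascending HNN extension and its action
-/

set_option autoImplicit false

namespace Crest.Agent.R185

namespace Asc

variable {ι : Type} (D : FinalData ι)

/-- The data of the ascending HNN extension. -/
def hd : HD D.A.G Unit where
  F _ := D.A.G
  a _ b := bif b then MonoidHom.id _ else D.θ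
  inj _ b := by
    cases b
    · exact D.θ_inj
    · exact fun _ _ h => h

/-- The ascending HNN extension. -/
abbrev H : Type := (hd D).MH

/-- The base group. -/
abbrev o : D.A.G →* H D := (hd D).of

/-- The stable letter. -/
abbrev t : H D := (hd D).t ()

theorem o_inj : Function.Injective (o D) := (hd D).of_injective

theorem t_conj (a : D.A.G) : t D * o D a * (t D)⁻¹ = o D (D.θ a) := (hd D).t_conj () a

theorem t_mul (a : D.A.G) : t D * o D a = o D (D.θ a) * t D := by
  rw [← t_conj]; group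

theorem pow_conj (n : ℕ) (a : D.A.G) :
    t D ^ n * o D a * (t D ^ n)⁻¹ = o D (D.θ^[n] a) := by
  induction n with
  | zero => simp
  | succ n ih =>
    rw [Function.iterate_succ_apply', ← t_conj, ← ih, pow_succ']
    group

theorem closure_top : Subgroup.closure (Set.range (o D) ∪ {t D}) = ⊤ := by
  have := (hd D).closure_eq_top
  rwa [show Set.range (hd D).t = {t D} from by
    ext x; constructor
    · rintro ⟨⟨⟩, rfl⟩; rfl
    · rintro rfl; exact ⟨(), rfl⟩] at this

/-- Normal form `t⁻ⁱ a tʲ`. -/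
theorem nf (g : H D) : ∃ (i j : ℕ) (a : D.A.G), g = (t D ^ i)⁻¹ * o D a * t D ^ j := by
  have hg : g ∈ Subgroup.closure (Set.range (o D) ∪ {t D}) := by
    rw [closure_top]; trivial
  induction hg using Subgroup.closure_induction with
  | mem x hx =>
    rcases hx with ⟨a, rfl⟩ | rfl
    · exact ⟨0, 0, a, by simp⟩
    · exact ⟨0, 1, 1, by simp⟩
  | one => exact ⟨0, 0, 1, by simp⟩
  | mul x y _ _ hx hy =>
    obtain ⟨i, j, a, rfl⟩ := hx
    obtain ⟨k, l, b, rfl⟩ := hy
    refine ⟨i + k, j + l, D.θ^[k] a * D.θ^[j] b, ?_⟩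
    rw [map_mul, ← pow_conj, ← pow_conj]
    group
  | inv x _ hx =>
    obtain ⟨i, j, a, rfl⟩ := hx
    exact ⟨j, i, a⁻¹, by rw [map_inv]; group⟩

/-- The exponent sum of `t`. -/
def χ : H D →* Multiplicative ℤ :=
  (hd D).lift 1 (fun _ => Multiplicative.ofAdd 1) (fun _ _ => by simp)

theorem χ_t : χ D (t D) = Multiplicative.ofAdd 1 := (hd D).lift_t _ _ _ _

theorem χ_o (a : D.A.G) : χ D (o D a) = 1 := rfl

theorem χ_nf {i j : ℕ} {a : D.A.G} (h : χ D ((t D ^ i)⁻¹ * o D a * t D ^ j) = 1) : i = j := by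
  rw [map_mul, map_mul, map_inv, map_pow, map_pow, χ_t, χ_o, mul_one, inv_mul_eq_one] at h
  have := congrArg Multiplicative.toAdd h
  simpa using this

theorem fp [Finite ι] : Group.IsFinitelyPresented (H D) := by
  have h := pres_hnn D.A (hd D) (pres_rel D.A) (fun _ => {p | ∃ i, p = ([(i, true)], D.σ i)})
    (by
      rintro k _ ⟨i, rfl⟩
      exact ⟨D.A.gen i, evW_true _ _, (D.θ_gen i).symm⟩)
    (by
      intro k
      rw [eq_top_iff]
      intro g _
      have hg : g ∈ Subgroup.closure (Set.range D.A.gen) :=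
        (mem_closure_range_iff _ _).2 (D.A.surj g)
      refine Subgroup.closure_mono ?_ hg
      rintro _ ⟨i, rfl⟩
      exact ⟨_, ⟨i, rfl⟩, evW_true _ _⟩)
  have h' : Pres (D.A.hnn (hd D)) (ren Sum.inl '' D.R ∪ Set.range fun i =>
      [(Sum.inr (), true)] ++ ren Sum.inl [(i, true)] ++ [(Sum.inr (), false)] ++
        (ren Sum.inl (D.σ i)).inv) := by
    refine h.of_imp ?_ ?_
    · rintro _ (⟨r, hr, rfl⟩ | ⟨i, rfl⟩)
      · exact h.1 _ (Or.inl ⟨r, D.R_rel r hr, rfl⟩)
      · exact h.1 _ (Or.inr ⟨(), _, ⟨i, rfl⟩, rfl⟩)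
    · rintro Z _ z hz _ (⟨r, hr, rfl⟩ | ⟨⟨⟩, _, ⟨i, rfl⟩, rfl⟩)
      · rw [evW_ren]
        refine D.min Z _ (fun r hr => ?_) (fun w hw => ?_) r hr
        · rw [← evW_ren]; exact hz _ (Or.inl ⟨r, hr, rfl⟩)
        · have e : (fun i => evW (fun i => z (Sum.inl i)) (D.σ i)) =
              fun i => (MulAut.conj (z (Sum.inr ()))).toMonoidHom (z (Sum.inl i)) := by
            funext i
            have := hz _ (Or.inr ⟨i, rfl⟩)
            rw [evW_append, evW_append, evW_append, evW_inv, evW_true, evW_false, evW_ren,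
              evW_ren, evW_true, mul_inv_eq_one] at this
            exact this.symm
          rw [evW_subst, e, ← map_evW, hw, map_one]
      · exact hz _ (Or.inr ⟨i, rfl⟩)
  exact h'.fp ((D.R_fin.image _).union (Set.finite_range _))

theorem fpinf [Finite ι] : FPinf (H D) := by
  let e : D.A.G ≃* (o D).range := MonoidHom.ofInjective (o_inj D)
  refine fpinf_of_gadget (o D).range (t D)
    (e.toMonoidHom.comp (D.θ.comp e.symm.toMonoidHom)) ?_ (χ D) (χ_t D) ?_ ?_ ?_
    (D.gad.comp e.symm.toMonoidHom e.toMonoidHom)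
  · intro a
    obtain ⟨a, rfl⟩ := e.surjective a
    simp only [MulEquiv.toMonoidHom_eq_coe, MonoidHom.coe_comp, MonoidHom.coe_coe,
      Function.comp_apply, MulEquiv.symm_apply_apply]
    exact (t_conj D a).symm
  · rintro _ ⟨a, rfl⟩
    exact χ_o D a
  · exact closure_top D
  · have : Group.FG D.A.G := by
      refine Group.fg_iff.2 ⟨Set.range D.A.gen, ?_, Set.finite_range _⟩
      rw [eq_top_iff]
      intro g _
      exact (mem_closure_range_iff _ _).2 (D.A.surj g)
    rw [← Group.fg_iff_subgroup_fg]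
    exact Group.fg_of_surjective (f := e.toMonoidHom) e.surjective

variable {D} (E : ActData D)

/-- The point stabiliser. -/
def Kt : Subgroup (H D) := (hd D).Kt E.K Set.univ

theorem o_mem_Kt (a : D.A.G) : o D a ∈ Kt E ↔ a ∈ E.K :=
  (hd D).of_mem_Kt (fun _ _ f => (E.K_θ f).symm) a

theorem t_mem_Kt : t D ∈ Kt E := Subgroup.subset_closure (Or.inr ⟨(), trivial, rfl⟩)

/-- The set acted upon. -/
abbrev S : Type := H D ⧸ Kt E

/-- The points coming from the base group. -/
def p (a : D.A.G) : S E := (o D a : H D)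

theorem p_eq {a b : D.A.G} : p E a = p E b ↔ a⁻¹ * b ∈ E.K := by
  rw [p, p, QuotientGroup.eq, ← map_inv, ← map_mul, o_mem_Kt]

theorem o_smul (a b : D.A.G) : o D a • p E b = p E (a * b) := by
  rw [p, p, map_mul]; rfl

theorem t_smul (a : D.A.G) : t D • p E a = p E (D.θ a) := by
  change ((t D * o D a : H D) : S E) = _
  rw [t_mul, p, eq_comm, QuotientGroup.eq]
  simpa using t_mem_Kt E

theorem pow_smul (n : ℕ) (a : D.A.G) : t D ^ n • p E a = p E (D.θ^[n] a) := by
  induction n with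
  | zero => simp
  | succ n ih => rw [pow_succ', mul_smul, ih, t_smul, Function.iterate_succ_apply']

theorem fix_iff {a b : D.A.G} : o D a • p E b = p E b ↔ b⁻¹ * a * b ∈ E.K := by
  rw [o_smul, eq_comm, p_eq, mul_assoc]

theorem exists_pow (s : S E) : ∃ m : ℕ, ∀ m' ≥ m, ∃ c, t D ^ m' • s = p E c := by
  induction s using QuotientGroup.induction_on with
  | H g =>
    obtain ⟨i, j, a, rfl⟩ := nf D g
    refine ⟨i, fun m' hm' => ⟨D.θ^[m' - i] a, ?_⟩⟩
    obtain ⟨k, rfl⟩ := Nat.exists_eq_add_of_le hm'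
    rw [Nat.add_sub_cancel_left, ← pow_smul]
    change ((t D ^ (i + k) * ((t D ^ i)⁻¹ * o D a * t D ^ j) : H D) : S E) =
      ((t D ^ k * o D a : H D) : S E)
    rw [eq_comm, QuotientGroup.eq]
    have : (t D ^ k * o D a)⁻¹ * (t D ^ (i + k) * ((t D ^ i)⁻¹ * o D a * t D ^ j)) = t D ^ j := by
      group
    rw [this]
    exact pow_mem (t_mem_Kt E) j

theorem exists_pow_fin {n : ℕ} (s : Fin n → S E) :
    ∃ (m : ℕ) (c : Fin n → D.A.G), ∀ i, t D ^ m • s i = p E (c i) := by
  choose m hm using fun i => exists_pow E (s i)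
  choose c hc using fun i => hm i (Finset.univ.sup m) (Finset.le_sup (Finset.mem_univ i))
  exact ⟨_, c, hc⟩

/-- The base tuples. -/
noncomputable def r (n : ℕ) : Fin n → D.A.G := (E.trans n).choose

theorem r_θ (n : ℕ) (a : D.A.G) (i : Fin n) : (r E n i)⁻¹ * D.θ a * r E n i ∈ E.K :=
  (E.trans n).choose_spec.1 a i

theorem r_ne (n : ℕ) (i j : Fin n) (h : i ≠ j) : (r E n i)⁻¹ * r E n j ∉ E.K :=
  (E.trans n).choose_spec.2.1 i j h

theorem r_trans (n : ℕ) (c : Fin n → D.A.G) (hc : ∀ i j, i ≠ j → (c i)⁻¹ * c j ∉ E.K) :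
    ∃ h : D.A.G, (∀ i, (r E n i)⁻¹ * (h * D.θ (c i)) ∈ E.K) ∧
      ∀ a, (∀ i, (c i)⁻¹ * a * c i ∈ E.K) → Commute h (D.θ a) :=
  (E.trans n).choose_spec.2.2 c hc

theorem y_inj (n : ℕ) : Function.Injective fun i => p E (r E n i) := fun i j h => by
  by_contra hij
  exact r_ne E n i j hij ((p_eq E).1 h)

theorem to_base {n : ℕ} (s : Fin n → S E) (hs : Function.Injective s) :
    ∃ g : H D, ∀ i, g • s i = p E (r E n i) := by
  obtain ⟨m, c, hc⟩ := exists_pow_fin E s
  obtain ⟨h, hh, -⟩ := r_trans E n c fun i j hij hm => by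
    have := (p_eq E).2 hm
    rw [← hc, ← hc] at this
    exact hij (hs (MulAction.injective _ this))
  refine ⟨o D h * t D * t D ^ m, fun i => ?_⟩
  rw [mul_smul, mul_smul, hc, t_smul, o_smul, eq_comm, p_eq]
  exact hh i

/-- High transitivity. -/
theorem ht {α : Type} [Finite α] (s s' : α → S E) (hs : Function.Injective s)
    (hs' : Function.Injective s') : ∃ g : H D, ∀ i, g • s i = s' i := by
  obtain ⟨n, ⟨e⟩⟩ := Finite.exists_equiv_fin α
  obtain ⟨g, hg⟩ := to_base E (s ∘ e.symm) (hs.comp e.symm.injective)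
  obtain ⟨g', hg'⟩ := to_base E (s' ∘ e.symm) (hs'.comp e.symm.injective)
  refine ⟨g'⁻¹ * g, fun i => ?_⟩
  have h1 := hg (e i)
  have h2 := hg' (e i)
  simp only [Function.comp_apply, Equiv.symm_apply_apply] at h1 h2
  rw [mul_smul, h1, ← h2, inv_smul_smul]

theorem infinite : Infinite (S E) := by
  refine not_finite_iff_infinite.1 fun h => ?_
  have := Nat.card_le_card_of_injective _ (y_inj E (Nat.card (S E) + 1))
  simp at this

theorem orbits (n : ℕ) : Finite (MulAction.orbitRel.Quotient (H D) (Fin n → S E)) := by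
  let f : MulAction.orbitRel.Quotient (H D) (Fin n → S E) → Fin n → Fin n → Prop :=
    Quotient.lift (fun x i j => x i = x j) (by
      rintro x y ⟨g, rfl⟩
      funext i j
      exact propext (MulAction.injective g).eq_iff)
  refine Finite.of_injective f fun x y hxy => ?_
  induction x using Quotient.inductionOn with
  | h x =>
    induction y using Quotient.inductionOn with
    | h y =>
      have h : ∀ i j, x i = x j ↔ y i = y j := fun i j => Eq.to_iff (congrFun (congrFun hxy i) j)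
      obtain ⟨g, hg⟩ := ht E (α := Quotient (Setoid.ker y))
        (Quotient.lift y fun _ _ h => h) (Quotient.lift x fun i j hij => (h i j).2 hij)
        (by
          rintro ⟨i⟩ ⟨j⟩ hij
          exact Quotient.sound hij)
        (by
          rintro ⟨i⟩ ⟨j⟩ hij
          exact Quotient.sound ((h i j).1 hij))
      exact Quotient.sound ⟨g, funext fun i => hg (Quotient.mk _ i)⟩

/-- The pointwise stabiliser of a base tuple is the image of an injective endomorphism. -/
theorem stab_base (n : ℕ) : ∃ ψ : H D →* H D, Function.Injective ψ ∧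
    ∀ g, g ∈ ψ.range ↔ ∀ i, g • p E (r E n i) = p E (r E n i) := by
  obtain ⟨h, hh, hc⟩ := r_trans E n (r E n) (r_ne E n)
  have key : ∀ b, (∀ i, (r E n i)⁻¹ * b * r E n i ∈ E.K) →
      o D h * t D * o D b * (o D h * t D)⁻¹ = o D (D.θ b) := fun b hb => by
    have e : o D h * t D * o D b * (o D h * t D)⁻¹ =
        o D h * (t D * o D b * (t D)⁻¹) * (o D h)⁻¹ := by group
    rw [e, t_conj, ← map_mul, (hc b hb).eq, map_mul, mul_inv_cancel_right]
  let ψ : H D →* H D := (hd D).lift ((o D).comp D.θ) (fun _ => o D h * t D)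
    (fun _ f => key (D.θ f) (r_θ E n f))
  have ψo : ∀ a, ψ (o D a) = o D (D.θ a) := fun _ => rfl
  have ψt : ψ (t D) = o D h * t D := (hd D).lift_t _ _ _ _
  have hfix : ∀ i, (o D h * t D) • p E (r E n i) = p E (r E n i) := fun i => by
    rw [mul_smul, t_smul, o_smul, eq_comm, p_eq]
    exact hh i
  have hχ : (χ D).comp ψ = χ D := (hd D).hom_ext (fun _ => rfl) fun ⟨⟩ => by
    change χ D (ψ (t D)) = χ D (t D)
    rw [ψt, map_mul, χ_o, one_mul]
  have hpow : ∀ k : ℕ, ∃ c, (o D h * t D) ^ k = o D c * t D ^ k := fun k => by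
    induction k with
    | zero => exact ⟨1, by simp⟩
    | succ k ih =>
      obtain ⟨c, hc⟩ := ih
      refine ⟨h * D.θ c, ?_⟩
      rw [pow_succ', hc, map_mul, ← t_conj, pow_succ']
      group
  let St : Subgroup (H D) := ⨅ i, MulAction.stabilizer (H D) (p E (r E n i))
  have hSt : ∀ g, g ∈ St ↔ ∀ i, g • p E (r E n i) = p E (r E n i) := fun g => by
    simp only [St, Subgroup.mem_iInf, MulAction.mem_stabilizer_iff]
  have ht' : o D h * t D ∈ St := (hSt _).2 hfix
  refine ⟨ψ, (injective_iff_map_eq_one ψ).2 fun g hg => ?_, fun g => ?_⟩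
  · obtain ⟨i, j, a, rfl⟩ := nf D g
    obtain rfl : i = j := χ_nf D (by rw [← hχ, MonoidHom.comp_apply, hg, map_one])
    rw [map_mul, map_mul, map_inv, ψo, mul_assoc, inv_mul_eq_one, eq_comm, mul_eq_right,
      ← map_one (o D), (o_inj D).eq_iff, ← map_one D.θ, D.θ_inj.eq_iff] at hg
    simp [hg]
  · rw [← hSt]
    constructor
    · rintro ⟨g, rfl⟩
      obtain ⟨i, j, a, rfl⟩ := nf D g
      rw [map_mul, map_mul, map_inv, map_pow, map_pow, ψo, ψt]
      exact mul_mem (mul_mem (inv_mem (pow_mem ht' i))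
        ((hSt _).2 fun k => (fix_iff E).2 (r_θ E n a k))) (pow_mem ht' j)
    · intro hg
      obtain ⟨i, j, a, rfl⟩ := nf D g
      obtain ⟨c, hc⟩ := hpow i
      obtain ⟨c', hc'⟩ := hpow j
      have e : (t D ^ i)⁻¹ * o D a * t D ^ j =
          ((o D h * t D) ^ i)⁻¹ * o D (c * a * c'⁻¹) * (o D h * t D) ^ j := by
        rw [hc, hc', map_mul, map_mul, map_inv]; group
      have hb : o D (c * a * c'⁻¹) ∈ St := by
        rw [e] at hg
        exact (mul_mem_cancel_left (inv_mem (pow_mem ht' i))).1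
          ((mul_mem_cancel_right (pow_mem ht' j)).1 hg)
      have hk := key _ fun k => (fix_iff E).1 ((hSt _).1 hb k)
      refine ⟨(t D ^ (i + 1))⁻¹ * o D (c * a * c'⁻¹) * t D ^ (j + 1), ?_⟩
      rw [e, map_mul, map_mul, map_inv, map_pow, map_pow, ψo, ψt, ← hk]
      generalize o D h * t D = u
      group

theorem stab (F : Finset (S E)) : Nonempty (H D ≃* fixingSubgroup (H D) (F : Set (S E))) := by
  obtain ⟨n, ⟨e⟩⟩ := Finite.exists_equiv_fin F
  obtain ⟨g, hg⟩ := to_base E (fun i => (e.symm i : S E))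
    (Subtype.val_injective.comp e.symm.injective)
  obtain ⟨ψ, h1, h2⟩ := stab_base E n
  let φ : H D →* H D := (MulAut.conj g⁻¹).toMonoidHom.comp ψ
  have hφ : Function.Injective φ := (MulAut.conj g⁻¹).injective.comp h1
  have hr : φ.range = fixingSubgroup (H D) (F : Set (S E)) := by
    ext x
    have : x ∈ φ.range ↔ g * x * g⁻¹ ∈ ψ.range := by
      constructor
      · rintro ⟨y, rfl⟩
        exact ⟨y, by simp [φ, mul_assoc]⟩
      · rintro ⟨y, hy⟩
        exact ⟨y, by simp [φ, hy, mul_assoc]⟩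
    rw [this, h2, mem_fixingSubgroup_iff]
    constructor
    · intro h s hs
      have := h (e ⟨s, hs⟩)
      rw [← hg, mul_smul, mul_smul, inv_smul_smul] at this
      simpa using MulAction.injective g this
    · intro h i
      rw [← hg, mul_smul, mul_smul, inv_smul_smul, h _ (e.symm i).2]
  exact ⟨(MonoidHom.ofInjective hφ).trans (MulEquiv.subgroupCongr hr)⟩

theorem faithful_aux {i j : ℕ} {a : D.A.G} (hij : i ≤ j)
    (h : ∀ s : S E, ((t D ^ i)⁻¹ * o D a * t D ^ j) • s = s) : i = j ∧ a = 1 := by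
  obtain ⟨m, rfl⟩ := Nat.exists_eq_add_of_le hij
  have h' : ∀ s : S E, (o D a * t D ^ m) • s = s := fun s => by
    have e : o D a * t D ^ m =
        t D ^ i * ((t D ^ i)⁻¹ * o D a * t D ^ (i + m)) * (t D ^ i)⁻¹ := by group
    rw [e, mul_smul, mul_smul, h, smul_inv_smul]
  rcases m with _ | m
  · refine ⟨rfl, ?_⟩
    by_contra ha
    obtain ⟨γ, hγ⟩ := E.faith a ha
    refine hγ ((fix_iff E).1 ?_)
    have := h' ((t D)⁻¹ • p E γ)
    rw [pow_zero, mul_one] at this
    rw [← t_conj, mul_smul, mul_smul, this, smul_inv_smul]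
  · exfalso
    have hp : ∀ k, p E (r E 2 k) = p E 1 := fun k => by
      have h1 := h' (p E (a * r E 2 k))
      have h2 : p E (r E 2 k) = p E (D.θ (D.θ^[m] (a * r E 2 k))) := by
        rw [mul_smul, pow_smul, ← o_smul, Function.iterate_succ_apply'] at h1
        exact (MulAction.injective _ h1).symm
      have h3 := (fix_iff E).2 (r_θ E 2 (D.θ^[m] (a * r E 2 k))⁻¹ k)
      rw [← h3, h2, o_smul, map_inv, inv_mul_cancel]
    exact absurd (y_inj E 2 ((hp 0).trans (hp 1).symm)) (by decide)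

theorem faithful : FaithfulSMul (H D) (S E) := by
  refine ⟨fun {g₁ g₂} h => ?_⟩
  have h' : ∀ s : S E, (g₂⁻¹ * g₁) • s = s := fun s => by rw [mul_smul, h, inv_smul_smul]
  rw [eq_comm, ← inv_mul_eq_one]
  generalize g₂⁻¹ * g₁ = g at h'
  obtain ⟨i, j, a, rfl⟩ := nf D g
  rcases le_total i j with hij | hij
  · obtain ⟨rfl, rfl⟩ := faithful_aux E hij h'
    simp
  · obtain ⟨rfl, ha⟩ := faithful_aux E (a := a⁻¹) hij fun s => by
      have e : (t D ^ j)⁻¹ * o D a⁻¹ * t D ^ i = ((t D ^ i)⁻¹ * o D a * t D ^ j)⁻¹ := by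
        rw [map_inv]; group
      rw [e, inv_smul_eq_iff, h']
    rw [inv_eq_one] at ha
    simp [ha]

end Asc

theorem final_fp {ι : Type} [Finite ι] (D : FinalData ι) :
    ∃ (H : Type) (_ : Group H) (f : D.A.G →* H),
      Group.IsFinitelyPresented H ∧ FPinf H ∧ Function.Injective f :=
  ⟨Asc.H D, inferInstance, Asc.o D, Asc.fp D, Asc.fpinf D, Asc.o_inj D⟩

theorem final_simple {ι : Type} [Finite ι] (D : FinalData ι) (E : ActData D) :
    ∃ (H : Type) (_ : Group H) (f : D.A.G →* H),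
      Group.IsFinitelyPresented H ∧ FPinf H ∧ IsSimpleGroup H ∧ Function.Injective f := by
  have := Asc.infinite E
  have := Asc.faithful E
  refine ⟨SV (Asc.H D) (Asc.S E), inferInstance, (SV.incl _ _).comp (Asc.o D),
    SV_fp _ _ (Asc.fp D) (Asc.orbits E) fun F => ?_, SV_fpinf _ _ (Asc.orbits E) fun F n => ?_,
    SV_simple _ _ fun a b a' b' h h' => ?_, SV.incl_injective.comp (Asc.o_inj D)⟩
  · obtain ⟨e⟩ := Asc.stab E F
    have := fg_of_fp (Asc.fp D)
    rw [← Group.fg_iff_subgroup_fg]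
    exact Group.fg_of_surjective (f := e.toMonoidHom) e.surjective
  · obtain ⟨e⟩ := Asc.stab E F
    exact (Asc.fpinf D n).of_equiv e
  · obtain ⟨g, hg⟩ := Asc.ht E (fun x : Bool => bif x then a else b)
      (fun x : Bool => bif x then a' else b')
      (by rintro (_ | _) (_ | _) hx <;> simp_all [eq_comm])
      (by rintro (_ | _) (_ | _) hx <;> simp_all [eq_comm])
    exact ⟨g, hg true, hg false⟩

end Crest.Agent.R185
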