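import Crest.Agent.R185.HNN
import Crest.Agent.R185.CertLib

/-!
# Row 185: certificates in HNN extensions
-/

set_option autoImplicit false

namespace Crest.Agent.R185

variable {𝒞 : Ctx} {ι κ : Type} [Primcodable ι] [Primcodable κ] [Finite κ]

namespace HC

/-- consecutive pairs of a list. -/
def pairs {β : Type} (l : List β) : List (β × β) :=
  List.recOn l [] fun a l IH => (l.head?.map fun b => (a, b)).toList ++ IH

theorem pairs_cons {β : Type} (a : β) (l : List β) :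
    pairs (a :: l) = (l.head?.map fun b => (a, b)).toList ++ pairs l := rfl

theorem isChain_iff {β : Type} (R : β → β → Prop) (l : List β) :
    l.IsChain R ↔ ∀ b ∈ pairs l, R b.1 b.2 := by
  induction l with
  | nil => simp [pairs]
  | cons a l ih =>
    rw [pairs_cons]
    cases l with
    | nil => simp [pairs]
    | cons b l => simp [List.isChain_cons_cons, ih]

theorem mem_pairs {β : Type} {l : List β} {b : β × β} (h : b ∈ pairs l) : b.2 ∈ l := by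
  have := (isChain_iff (fun _ y => y ∈ l) l).1
    (List.Pairwise.isChain (List.pairwise_of_forall_mem_list fun _ _ _ h => h))
  exact this b h

theorem primrec_pairs {β : Type} [Primcodable β] : Primrec (pairs : List β → List (β × β)) :=
  Primrec.list_rec (f := fun l : List β => l) (g := fun _ => ([] : List (β × β)))
    (h := fun _ (x : β × List β × List (β × β)) =>
      (x.2.1.head?.map fun b => (x.1, b)).toList ++ x.2.2) Primrec.id (Primrec.const _)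
    (Primrec.list_append.comp
      (Primrec.optionToList.comp (Primrec.option_map
        (Primrec.list_head?.comp (Primrec.fst.comp (Primrec.snd.comp Primrec.snd)))
        ((Primrec.fst.comp (Primrec.snd.comp Primrec.fst)).pair Primrec.snd).to₂))
      (Primrec.snd.comp (Primrec.snd.comp Primrec.snd))).to₂

theorem primrec_last {β : Type} [Primcodable β] :
    Primrec fun l : List β => l.getLast?.toList :=
  (Primrec.optionToList.comp (Primrec.list_head?.comp Primrec.list_reverse)).of_eq fun l => by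
    rw [List.head?_reverse]

/-- evaluation of syllables. -/
def evL (X : MG ι) (L : List (Word ι × κ × Bool)) : List (X.G × κ × Bool) :=
  L.map fun p => (X.ev p.1, p.2)

/-- the word assembled from syllables. -/
def asm (L : List (Word ι × κ × Bool)) : Word (ι ⊕ κ) :=
  L.flatMap fun p => ren Sum.inl p.1 ++ [(Sum.inr p.2.1, p.2.2)]

omit [Finite κ] in
theorem primrec_asm : Primrec (asm : List (Word ι × κ × Bool) → Word (ι ⊕ κ)) :=
  Primrec.list_flatMap Primrec.id (Primrec.list_append.comp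
    ((primrec_ren Primrec.sumInl).comp (Primrec.fst.comp Primrec.snd))
    (Primrec.list_cons.comp
      ((Primrec.sumInr.comp (Primrec.fst.comp (Primrec.snd.comp Primrec.snd))).pair
        (Primrec.snd.comp (Primrec.snd.comp Primrec.snd))) (Primrec.const []))).to₂

omit [Primcodable ι] [Primcodable κ] [Finite κ] in
theorem ev_asm (X : MG ι) (D : HD X.G κ) (L : List (Word ι × κ × Bool)) :
    evW (G := D.MH) (X.hnn D).gen (asm L) = D.prod (evL X L) := by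
  induction L with
  | nil => exact evW_nil _
  | cons p L ih =>
    have h1 : asm (p :: L) = ren Sum.inl p.1 ++ [(Sum.inr p.2.1, p.2.2)] ++ asm L := by
      simp [asm]
    have h2 : evL X (p :: L) = (X.ev p.1, p.2) :: evL X L := rfl
    have h3 : evW (G := D.MH) (X.hnn D).gen (ren Sum.inl p.1) = D.of (X.ev p.1) :=
      X.hnn_ev_inl D p.1
    have h4 : evW (G := D.MH) (X.hnn D).gen [(Sum.inr p.2.1, p.2.2)] = D.T p.2 := by
      rcases p with ⟨w, k, _ | _⟩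
      · exact evW_false _ _
      · exact evW_true _ _
    rw [h1, h2, evW_append, evW_append, ih, h3, h4, HD.prod_cons]

omit [Primcodable ι] [Primcodable κ] [Finite κ] in
theorem exists_evL (X : MG ι) (l : List (X.G × κ × Bool)) : ∃ L, evL X L = l := by
  induction l with
  | nil => exact ⟨[], rfl⟩
  | cons p l ih =>
    obtain ⟨L, rfl⟩ := ih
    obtain ⟨w, hw⟩ := X.surj p.1
    exact ⟨(w, p.2) :: L, by rw [evL, List.map_cons, MG.ev, hw]; rfl⟩

/-- the maximum of the sizes of the syllables. -/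
def sz {G : Type} (ν : G → ℕ) (l : List (G × κ × Bool)) : ℕ := (l.map fun p => ν p.1).foldr max 0

omit [Primcodable κ] [Finite κ] in
theorem sz_le {G : Type} (ν : G → ℕ) (l : List (G × κ × Bool)) (n : ℕ) :
    sz ν l ≤ n ↔ ∀ p ∈ l, ν p.1 ≤ n := by
  induction l with
  | nil => simp [sz]
  | cons p l ih =>
    have : sz ν (p :: l) = max (ν p.1) (sz ν l) := rfl
    rw [this, max_le_iff, ih]
    simp

theorem cert_noPinch (X : 𝒞.Ω → MG ι) (D : ∀ ω, HD (X ω).G κ) (ν : ∀ ω, (X ω).G → ℕ)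
    (hE : ∀ l, Cert 𝒞 (fun ω w => (X ω).ev w ∉ (D ω).E l) fun ω w => ν ω ((X ω).ev w)) :
    Cert 𝒞 (fun ω L => (D ω).NoPinch (evL (X ω) L)) fun ω L => sz (ν ω) (evL (X ω) L) := by
  have h1 : Cert 𝒞 (fun _ (x : List (Word ι × κ × Bool) × (Word ι × κ × Bool) × (Word ι × κ × Bool)) =>
      ¬ x.2.2.2 = (x.2.1.2.1, !x.2.1.2.2)) fun _ _ => 0 :=
    Cert.of_re (re_of_primrecPred (PrimrecPred.not (Primrec.eq.comp
      (Primrec.snd.comp (Primrec.snd.comp Primrec.snd))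
      ((Primrec.fst.comp (Primrec.snd.comp (Primrec.fst.comp Primrec.snd))).pair
        (Primrec.not.comp (Primrec.snd.comp (Primrec.snd.comp (Primrec.fst.comp Primrec.snd)))))))) _
  have h2 := (Cert.finite hE).comp
    (f := fun x : List (Word ι × κ × Bool) × (Word ι × κ × Bool) × (Word ι × κ × Bool) =>
      (x.2.1.2, x.2.2.1))
    ((Primrec.snd.comp (Primrec.fst.comp Primrec.snd)).pair
      (Primrec.fst.comp (Primrec.snd.comp Primrec.snd))).to_comp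
  have h3 := (h1.or h2).forall_mem primrec_pairs.to_comp
    (ν' := fun ω L => sz (ν ω) (evL (X ω) L)) (fun ω L _ b hb => by
      simp only [Nat.zero_le, sup_of_le_right]
      exact (sz_le _ _ _).1 le_rfl (_, b.2.2) (List.mem_map_of_mem (mem_pairs hb)))
  have key : ∀ ω L, (D ω).NoPinch (evL (X ω) L) ↔ ∀ b ∈ pairs L,
      ¬ b.2.2 = (b.1.2.1, !b.1.2.2) ∨ (X ω).ev b.2.1 ∉ (D ω).E b.1.2 := by
    intro ω L
    rw [HD.NoPinch, evL, List.isChain_map, isChain_iff]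
    simp only [imp_iff_not_or]
  exact h3.congr (fun ω L h => (key ω L).2 h) fun ω L n _ hn h => ⟨(key ω L).1 h, hn⟩

theorem master {J : Type} [Primcodable J] [Finite J] (X : 𝒞.Ω → MG ι) (D : ∀ ω, HD (X ω).G κ)
    (ν : ∀ ω, (X ω).G → ℕ) (N : ∀ ω, (D ω).MH → ℕ) (last : ∀ ω, κ × Bool → J → (X ω).G → Prop)
    (fin : ∀ ω, J → (X ω).G → Prop) (r : J → Word (ι ⊕ κ)) (S P : ∀ ω, (D ω).MH → Prop)
    (hE : ∀ l, Cert 𝒞 (fun ω w => (X ω).ev w ∉ (D ω).E l) fun ω w => ν ω ((X ω).ev w))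
    (hlast : ∀ l i, Cert 𝒞 (fun ω w => last ω l i ((X ω).ev w)) fun ω w => ν ω ((X ω).ev w))
    (hfin : ∀ i, Cert 𝒞 (fun ω w => fin ω i ((X ω).ev w)) fun ω w => ν ω ((X ω).ev w))
    (hS : Cert 𝒞 (fun ω w => S ω (((X ω).hnn (D ω)).ev w)) fun _ _ => 0)
    (sound : ∀ ω g l i γ, S ω (((D ω).prod l * (D ω).of γ *
        (show (D ω).MH from ((X ω).hnn (D ω)).ev (r i)))⁻¹ * g) → (D ω).NoPinch l →
      (∀ p ∈ l.getLast?, last ω p.2 i γ) → (l ≠ [] ∨ fin ω i γ) → P ω g)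
    (compl : ∀ ω g, P ω g → ∃ l i γ, S ω (((D ω).prod l * (D ω).of γ *
        (show (D ω).MH from ((X ω).hnn (D ω)).ev (r i)))⁻¹ * g) ∧ (D ω).NoPinch l ∧
      (∀ p ∈ l.getLast?, last ω p.2 i γ) ∧ (l ≠ [] ∨ fin ω i γ) ∧
      (∀ p ∈ l, ν ω p.1 ≤ N ω g) ∧ ν ω γ ≤ N ω g) :
    Cert 𝒞 (fun ω w => P ω (((X ω).hnn (D ω)).ev w)) fun ω w => N ω (((X ω).hnn (D ω)).ev w) := by
  have pL : Primrec fun x : Word (ι ⊕ κ) × List (Word ι × κ × Bool) × J × Word ι => x.2.1 :=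
    Primrec.fst.comp Primrec.snd
  have pJ : Primrec fun x : Word (ι ⊕ κ) × List (Word ι × κ × Bool) × J × Word ι => x.2.2.1 :=
    Primrec.fst.comp (Primrec.snd.comp Primrec.snd)
  have pv : Primrec fun x : Word (ι ⊕ κ) × List (Word ι × κ × Bool) × J × Word ι => x.2.2.2 :=
    Primrec.snd.comp (Primrec.snd.comp Primrec.snd)
  have h1 := hS.comp (f := fun x : Word (ι ⊕ κ) × List (Word ι × κ × Bool) × J × Word ι =>
      Word.inv (asm x.2.1 ++ ren Sum.inl x.2.2.2 ++ r x.2.2.1) ++ x.1)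
    (Primrec.list_append.comp (primrec_inv.comp (Primrec.list_append.comp
      (Primrec.list_append.comp (primrec_asm.comp pL) ((primrec_ren Primrec.sumInl).comp pv))
      ((Primrec.dom_finite r).comp pJ))) Primrec.fst).to_comp
  have h2 := (cert_noPinch X D ν hE).comp pL.to_comp
  have h3 := ((Cert.finite (κ := (κ × Bool) × J) fun k => hlast k.1 k.2).comp
    (f := fun y : (Word (ι ⊕ κ) × List (Word ι × κ × Bool) × J × Word ι) × (Word ι × κ × Bool) =>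
      ((y.2.2, y.1.2.2.1), y.1.2.2.2))
    (((Primrec.snd.comp Primrec.snd).pair (pJ.comp Primrec.fst)).pair
      (pv.comp Primrec.fst)).to_comp).forall_mem (primrec_last.comp pL).to_comp
      (ν' := fun ω x => ν ω ((X ω).ev x.2.2.2)) (fun _ _ _ _ _ => le_rfl)
  have h4 : Cert 𝒞 (fun _ (x : Word (ι ⊕ κ) × List (Word ι × κ × Bool) × J × Word ι) =>
      ¬ x.2.1 = []) fun _ _ => 0 :=
    Cert.of_re (re_of_primrecPred (PrimrecPred.not (Primrec.eq.comp pL (Primrec.const [])))) _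
  have h5 := (Cert.finite hfin).comp
    (f := fun x : Word (ι ⊕ κ) × List (Word ι × κ × Bool) × J × Word ι => x.2.2)
    (Primrec.snd.comp Primrec.snd).to_comp
  have e1 : ∀ ω w L i v, (show (D ω).MH from ((X ω).hnn (D ω)).ev
      (Word.inv (asm L ++ ren Sum.inl v ++ r i) ++ w)) =
      ((D ω).prod (evL (X ω) L) * (D ω).of ((X ω).ev v) *
        (show (D ω).MH from ((X ω).hnn (D ω)).ev (r i)))⁻¹ *
        (show (D ω).MH from ((X ω).hnn (D ω)).ev w) := by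
    intro ω w L i v
    have h3 : evW (G := (D ω).MH) ((X ω).hnn (D ω)).gen (ren Sum.inl v) = (D ω).of ((X ω).ev v) :=
      (X ω).hnn_ev_inl (D ω) v
    change evW (G := (D ω).MH) ((X ω).hnn (D ω)).gen _ = _
    rw [evW_append, evW_inv, evW_append, evW_append, ev_asm, h3]
    rfl
  have e2 : ∀ ω (L : List (Word ι × κ × Bool)) i γ,
      (∀ p ∈ (evL (X ω) L).getLast?, last ω p.2 i γ) ↔
        ∀ p ∈ L.getLast?.toList, last ω p.2 i γ := by
    intro ω L i γ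
    rw [evL, List.getLast?_map]
    cases L.getLast? <;> simp
  have e3 : ∀ ω (L : List (Word ι × κ × Bool)), evL (X ω) L ≠ [] ↔ ¬ L = [] := by
    intro ω L
    simp [evL]
  refine Cert.guess (h1.and (h2.and (h3.and (h4.or h5)))) ?_ ?_
  · rintro ω w ⟨L, i, v⟩ ⟨a1, a2, a3, a4⟩
    refine sound ω _ (evL (X ω) L) i ((X ω).ev v) ?_ a2 ((e2 ω L i _).2 a3)
      (a4.imp (e3 ω L).2 id)
    rw [← e1]
    exact a1
  · intro ω w n _ hn hP
    obtain ⟨l, i, γ, a1, a2, a3, a4, a5, a6⟩ := compl ω _ hP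
    obtain ⟨L, rfl⟩ := exists_evL (X ω) l
    obtain ⟨v, rfl⟩ := (X ω).surj γ
    refine ⟨(L, i, v), ⟨?_, a2, (e2 ω L i _).1 a3, a4.imp (e3 ω L).1 id⟩, ?_⟩
    · have := e1 ω w L i v
      simp only at this ⊢
      rw [this]
      exact a1
    · have a7 := (sz_le _ _ _).2 fun p hp => (a5 p hp).trans hn
      have a8 := a6.trans hn
      simp only [max_le_iff]
      exact ⟨Nat.zero_le _, a7, a8, Nat.zero_le _, a8⟩

omit [Finite κ] in
theorem cert_true {α : Type} [Primcodable α] {P : 𝒞.Ω → α → Prop} (h : ∀ ω a, P ω a)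
    (ν : 𝒞.Ω → α → ℕ) : Cert 𝒞 P ν :=
  (Cert.of_re (p := fun _ => True) (re_of_primrecPred (PrimrecPred.of_eq
    (Primrec.eq.comp (Primrec.const ()) (Primrec.const ())) fun _ => by simp)) ν).congr
    (fun ω a _ => h ω a) fun _ _ _ _ hn _ => ⟨trivial, hn⟩

end HC

/-- Certificates for "the point `w • o` is not in `𝒳`" in a free extension.  Points of the
original action are named as `γ • o i`; `r i` is a word moving `o i₀` to `o i`. -/
theorem cert_links {ιo : Type} [Primcodable ιo] [Finite ιo] (X : 𝒞.Ω → MG ι)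
    (D : ∀ ω, HD (X ω).G κ) (Pt : 𝒞.Ω → Type) [∀ ω, MulAction (X ω).G (Pt ω)]
    (Λ : ∀ ω, Links (D ω) (Pt ω)) (o : ∀ ω, ιo → Pt ω) (i₀ : ιo) (r : ιo → Word (ι ⊕ κ))
    (hr : ∀ ω i, (show (D ω).MH from ((X ω).hnn (D ω)).ev (r i)) • (Λ ω).j (o ω i₀) =
      (Λ ω).j (o ω i))
    (𝒳 : ∀ ω, Set (Pt ω)) (ν : ∀ ω, (X ω).G → ℕ) (N : ∀ ω, (D ω).MH → ℕ)
    (bnf : ∀ ω g, ∃ l i γ, (Λ ω).Red l (γ • o ω i) ∧
      g • (Λ ω).j (o ω i₀) = (D ω).prod l • (Λ ω).j (γ • o ω i) ∧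
      (∀ p ∈ l, ν ω p.1 ≤ N ω g) ∧ ν ω γ ≤ N ω g)
    (hE : ∀ l, Cert 𝒞 (fun ω w => (X ω).ev w ∉ (D ω).E l) fun ω w => ν ω ((X ω).ev w))
    (hdom : ∀ l i, Cert 𝒞 (fun ω w => (X ω).ev w • o ω i ∉ (Λ ω).dom l)
      fun ω w => ν ω ((X ω).ev w))
    (hX : ∀ i, Cert 𝒞 (fun ω w => (X ω).ev w • o ω i ∉ 𝒳 ω) fun ω w => ν ω ((X ω).ev w))
    (hst : Cert 𝒞 (fun ω w => (show (D ω).MH from ((X ω).hnn (D ω)).ev w) • (Λ ω).j (o ω i₀) =
      (Λ ω).j (o ω i₀)) fun _ _ => 0) :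
    Cert 𝒞 (fun ω w => (show (D ω).MH from ((X ω).hnn (D ω)).ev w) • (Λ ω).j (o ω i₀) ∉
      (Λ ω).j '' 𝒳 ω) fun ω w => N ω (((X ω).hnn (D ω)).ev w) := by
  have key : ∀ ω (g : (D ω).MH) l i γ, (((D ω).prod l * (D ω).of γ *
      (show (D ω).MH from ((X ω).hnn (D ω)).ev (r i)))⁻¹ * g) • (Λ ω).j (o ω i₀) =
        (Λ ω).j (o ω i₀) ↔ g • (Λ ω).j (o ω i₀) = (D ω).prod l • (Λ ω).j (γ • o ω i) := by
    intro ω g l i γ
    rw [mul_smul, inv_smul_eq_iff, mul_smul, hr, mul_smul, Links.j_smul]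
  refine HC.master X D ν N (fun ω l i γ => γ • o ω i ∉ (Λ ω).dom l)
    (fun ω i γ => γ • o ω i ∉ 𝒳 ω) r (fun ω g => g • (Λ ω).j (o ω i₀) = (Λ ω).j (o ω i₀))
    (fun ω g => g • (Λ ω).j (o ω i₀) ∉ (Λ ω).j '' 𝒳 ω) hE hdom hX hst ?_ ?_
  · rintro ω g l i γ h1 h2 h3 h4 ⟨x, hx, e⟩
    rw [(key ω g l i γ).1 h1] at e
    by_cases hl : l = []
    · subst hl
      rw [HD.prod_nil, one_smul] at e
      exact h4.resolve_left (by simp) ((Λ ω).j_injective e ▸ hx)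
    · exact (Λ ω).red_not_mem hl ⟨h2, h3⟩ x e.symm
  · intro ω g hg
    obtain ⟨l, i, γ, h1, h2, h3, h4⟩ := bnf ω g
    refine ⟨l, i, γ, (key ω g l i γ).2 h2, h1.1, h1.2, ?_, h3, h4⟩
    by_cases hl : l = []
    · subst hl
      refine Or.inr fun hx => hg ⟨_, hx, ?_⟩
      rw [h2, HD.prod_nil, one_smul]
    · exact Or.inl hl

/-- Certificates for "not in `of '' 𝒳`". -/
theorem cert_hnn (X : 𝒞.Ω → MG ι) (D : ∀ ω, HD (X ω).G κ) (𝒳 : ∀ ω, Set (X ω).G)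
    (ν : ∀ ω, (X ω).G → ℕ) (N : ∀ ω, (D ω).MH → ℕ)
    (bnf : ∀ ω g, ∃ l γ, (D ω).NoPinch l ∧ g = (D ω).prod l * (D ω).of γ ∧
      (∀ p ∈ l, ν ω p.1 ≤ N ω g) ∧ ν ω γ ≤ N ω g)
    (hE : ∀ l, Cert 𝒞 (fun ω w => (X ω).ev w ∉ (D ω).E l) fun ω w => ν ω ((X ω).ev w))
    (hX : Cert 𝒞 (fun ω w => (X ω).ev w ∉ 𝒳 ω) fun ω w => ν ω ((X ω).ev w))
    (heq : Cert 𝒞 (fun ω w => ((X ω).hnn (D ω)).ev w = 1) fun _ _ => 0) :
    Cert 𝒞 (fun ω w => ((X ω).hnn (D ω)).ev w ∉ (D ω).of '' 𝒳 ω)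
      fun ω w => N ω (((X ω).hnn (D ω)).ev w) := by
  have e0 : ∀ ω, (show (D ω).MH from ((X ω).hnn (D ω)).ev []) = 1 := fun ω => evW_nil _
  refine HC.master (J := Unit) X D ν N (fun _ _ _ _ => True) (fun ω _ γ => γ ∉ 𝒳 ω) (fun _ => [])
    (fun _ g => g = 1) (fun ω g => g ∉ (D ω).of '' 𝒳 ω) hE
    (fun _ _ => HC.cert_true (fun _ _ => trivial) _) (fun _ => hX) heq ?_ ?_
  · rintro ω g l _ γ h1 h2 - h4 ⟨x, hx, e⟩
    rw [e0, mul_one, inv_mul_eq_one] at h1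
    rw [← h1] at e
    by_cases hl : l = []
    · subst hl
      rw [HD.prod_nil, one_mul] at e
      exact h4.resolve_left (by simp) ((D ω).of_injective e ▸ hx)
    · exact (D ω).britton hl h2 γ x e.symm
  · intro ω g hg
    obtain ⟨l, γ, h1, h2, h3, h4⟩ := bnf ω g
    refine ⟨l, (), γ, by rw [e0, mul_one, inv_mul_eq_one, h2], h1, fun _ _ => trivial, ?_, h3, h4⟩
    by_cases hl : l = []
    · subst hl
      refine Or.inr fun hx => hg ⟨_, hx, ?_⟩
      rw [h2, HD.prod_nil, one_mul]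
    · exact Or.inl hl

/-- Certificates for "not in `of '' 𝒳 * Kt`". -/
theorem cert_hnn_K (X : 𝒞.Ω → MG ι) (D : ∀ ω, HD (X ω).G κ) (K : ∀ ω, Subgroup (X ω).G)
    (fix : Set κ) (hfix : ∀ ω, (D ω).Fixes (K ω) fix) (𝒳 : ∀ ω, Set (X ω).G)
    (ν : ∀ ω, (X ω).G → ℕ) (N : ∀ ω, (D ω).MH → ℕ)
    (bnf : ∀ ω g, ∃ l γ, (D ω).RedK (K ω) fix l γ ∧
      ((D ω).prod l * (D ω).of γ)⁻¹ * g ∈ (D ω).Kt (K ω) fix ∧
      (∀ p ∈ l, ν ω p.1 ≤ N ω g) ∧ ν ω γ ≤ N ω g)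
    (hE : ∀ l, Cert 𝒞 (fun ω w => (X ω).ev w ∉ (D ω).E l) fun ω w => ν ω ((X ω).ev w))
    (hEK : ∀ l : κ × Bool, l.1 ∈ fix →
      Cert 𝒞 (fun ω w => ∀ e ∈ (D ω).E l, e⁻¹ * (X ω).ev w ∉ K ω) fun ω w => ν ω ((X ω).ev w))
    (hX : Cert 𝒞 (fun ω w => ∀ x ∈ 𝒳 ω, x⁻¹ * (X ω).ev w ∉ K ω) fun ω w => ν ω ((X ω).ev w))
    (hmem : Cert 𝒞 (fun ω w => ((X ω).hnn (D ω)).ev w ∈ (D ω).Kt (K ω) fix) fun _ _ => 0) :
    Cert 𝒞 (fun ω w => ∀ x ∈ 𝒳 ω,
        ((D ω).of x)⁻¹ * (show (D ω).MH from ((X ω).hnn (D ω)).ev w) ∉ (D ω).Kt (K ω) fix)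
      fun ω w => N ω (((X ω).hnn (D ω)).ev w) := by
  have e0 : ∀ ω, (show (D ω).MH from ((X ω).hnn (D ω)).ev []) = 1 := fun ω => evW_nil _
  refine HC.master (J := Unit) X D ν N
    (fun ω l _ γ => l.1 ∈ fix → ∀ e ∈ (D ω).E l, e⁻¹ * γ ∉ K ω)
    (fun ω _ γ => ∀ x ∈ 𝒳 ω, x⁻¹ * γ ∉ K ω) (fun _ => [])
    (fun ω g => g ∈ (D ω).Kt (K ω) fix)
    (fun ω g => ∀ x ∈ 𝒳 ω, ((D ω).of x)⁻¹ * g ∉ (D ω).Kt (K ω) fix) hE
    (fun l _ => ?_) (fun _ => hX) hmem ?_ ?_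
  · by_cases hl : l.1 ∈ fix
    · exact (hEK l hl).congr (fun _ _ h _ => h) fun _ _ _ _ hn h => ⟨h hl, hn⟩
    · exact HC.cert_true (fun _ _ h => absurd h hl) _
  · intro ω g l _ γ h1 h2 h3 h4 x hx e
    rw [e0, mul_one] at h1
    have e' : ((D ω).of x)⁻¹ * ((D ω).prod l * (D ω).of γ) ∈ (D ω).Kt (K ω) fix := by
      have := mul_mem e (inv_mem h1)
      simpa [mul_assoc] using this
    by_cases hl : l = []
    · subst hl
      rw [HD.prod_nil, one_mul, ← map_inv, ← map_mul, (D ω).of_mem_Kt (hfix ω)] at e'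
      exact h4.resolve_left (by simp) x hx e'
    · exact (D ω).britton_K (hfix ω) hl ⟨h2, h3⟩ x e'
  · intro ω g hg
    obtain ⟨l, γ, h1, h2, h3, h4⟩ := bnf ω g
    refine ⟨l, (), γ, by rwa [e0, mul_one], h1.1, h1.2, ?_, h3, h4⟩
    by_cases hl : l = []
    · subst hl
      refine Or.inr fun x hx e => hg x hx ?_
      rw [← (D ω).of_mem_Kt (hfix ω), map_mul, map_inv] at e
      rw [HD.prod_nil, one_mul] at h2
      have := mul_mem e h2
      simpa [mul_assoc] using this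
    · exact Or.inl hl

end Crest.Agent.R185
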