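import Crest.Agent.R185.GadPile
import Crest.Agent.R185.PresLib
import Crest.Agent.R185.HNNCert

/-!
# Row 185: graph products of copies of a marked group, marked by cliques
-/

set_option autoImplicit false
set_option linter.unusedSectionVars false

namespace Crest.Agent.R185

namespace GP

open Monoid

/-- A graph with a family of cliques which contains the vertices. -/
structure Cq (V Q : Type) where
  G : SimpleGraph V
  cl : Q → List V
  hcl : ∀ q, (cl q).Pairwise G.Adj
  vq : V → Q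
  hvq : ∀ v, cl (vq v) = [v]

theorem commute_evW {ι ι' Z : Type} [Group Z] {x : ι → Z} {y : ι' → Z}
    (h : ∀ i j, Commute (x i) (y j)) (v : Word ι) (w : Word ι') : Commute (evW x v) (evW y w) := by
  have h1 : ∀ (a : Z), (∀ j, Commute a (y j)) → Commute a (evW y w) := by
    intro a ha
    induction w with
    | nil => simp
    | cons b w ih =>
      rw [evW_cons]
      refine Commute.mul_right ?_ ih
      rcases b with ⟨j, _ | _⟩
      · exact (ha j).inv_right
      · exact ha j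
  induction v with
  | nil => simp
  | cons b v ih =>
    rw [evW_cons]
    refine Commute.mul_left ?_ ih
    rcases b with ⟨i, _ | _⟩
    · exact (h1 _ (h i)).inv_left
    · exact h1 _ (h i)

theorem evW_mul {ι Z : Type} [Group Z] {x y : ι → Z} (h : ∀ i j, Commute (x i) (y j))
    (w : Word ι) : evW (fun i => x i * y i) w = evW x w * evW y w := by
  induction w with
  | nil => simp
  | cons b w ih =>
    rw [evW_cons, evW_cons, evW_cons, ih]
    have h1 : ∀ j, Commute (evW x w) (y j) := fun j => by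
      simpa using commute_evW h w [(j, true)]
    rcases b with ⟨i, _ | _⟩
    · simp only [cond_false]
      rw [mul_inv_rev, (h i i).inv_inv.eq.symm, mul_assoc, mul_assoc, ← mul_assoc (y i)⁻¹,
        ← mul_assoc (evW x w), (h1 i).inv_right.eq]
    · simp only [cond_true]
      rw [mul_assoc, mul_assoc, ← mul_assoc (y i), ← mul_assoc (evW x w), (h1 i).eq]

theorem evW_map_true {α ι Z : Type} [Group Z] (z : ι → Z) (f : α → ι) (l : List α) :
    evW z (l.map fun a => (f a, true)) = (l.map fun a => z (f a)).prod := by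
  induction l with
  | nil => simp
  | cons a l ih => rw [List.map_cons, evW_cons, ih]; rfl

/-- The free product of copies of a marked group. -/
def CP {ι : Type} (X : MG ι) (J : Type) : MG (J × ι) where
  G := CoprodI fun _ : J => X.G
  gen x := CoprodI.of (M := fun _ : J => X.G) (i := x.1) (X.gen x.2)
  surj g := by
    induction g using CoprodI.induction_on with
    | one => exact ⟨[], evW_nil _⟩
    | of l c =>
      obtain ⟨w, rfl⟩ := X.surj c
      exact ⟨ren (fun i => (l, i)) w, by rw [evW_ren, map_evW]⟩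
    | mul x y hx hy =>
      obtain ⟨v, rfl⟩ := hx
      obtain ⟨w, rfl⟩ := hy
      exact ⟨v ++ w, evW_append _ _ _⟩

theorem CP_wn_of {ι : Type} (X : MG ι) {J : Type} (l : J) (c : X.G) :
    (CP X J).wn (CoprodI.of (M := fun _ : J => X.G) (i := l) c) ≤ X.wn c := by
  obtain ⟨w, rfl, hw⟩ := X.exists_wn c
  have := (CP X J).wn_le (ren (fun i => (l, i)) w)
  rw [MG.ev, evW_ren] at this
  rw [← hw, MG.ev, map_evW]
  rw [show (ren (fun i => (l, i)) w).length = w.length by simp [ren]] at this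
  exact this

namespace Cq

variable {V Q ι : Type} [Fintype V] (Γ : Cq V Q)

/-- the relators which do not depend on the group. -/
def T₀ (ι : Type) : Set (Word (Q × ι)) :=
  {r | ∃ v w i i', Γ.G.Adj v w ∧ r = comm [((Γ.vq v, i), true)] [((Γ.vq w, i'), true)]} ∪
    {r | ∃ q i, r = [((q, i), false)] ++ (Γ.cl q).map fun v => ((Γ.vq v, i), true)}

theorem T₀_finite [Finite Q] [Finite ι] : (Γ.T₀ ι).Finite := by
  refine Set.Finite.union ?_ ?_
  · refine (Set.finite_range fun x : V × V × ι × ι =>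
      comm [((Γ.vq x.1, x.2.2.1), true)] [((Γ.vq x.2.1, x.2.2.2), true)]).subset ?_
    rintro _ ⟨v, w, i, i', -, rfl⟩
    exact ⟨(v, w, i, i'), rfl⟩
  · refine (Set.finite_range fun x : Q × ι =>
      [((x.1, x.2), false)] ++ (Γ.cl x.1).map fun v => ((Γ.vq v, x.2), true)).subset ?_
    rintro _ ⟨q, i, rfl⟩
    exact ⟨(q, i), rfl⟩

variable (X : MG ι)

/-- the relators of the graph product. -/
def T : Set (Word (Q × ι)) := Γ.T₀ ι ∪ {r | ∃ v, ∃ s ∈ X.rel, r = ren (fun i => (Γ.vq v, i)) s}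

/-- the graph product. -/
def Y : MG (Q × ι) := MG.ofRel (Γ.T X)

theorem pres_Y : Pres (Γ.Y X) (Γ.T X) := pres_ofRel _

theorem exists_e (v : V) : ∃ f : X.G →* (Γ.Y X).G,
    ∀ w, f (X.ev w) = evW (fun i => (Γ.Y X).gen (Γ.vq v, i)) w :=
  X.exists_hom _ fun w hw => by
    rw [← evW_ren (Γ.Y X).gen (fun i => (Γ.vq v, i))]
    exact (Γ.pres_Y X).1 _ (Or.inr ⟨v, w, hw, rfl⟩)

/-- the vertex groups. -/
noncomputable def e (v : V) : X.G →* (Γ.Y X).G := (Γ.exists_e X v).choose

theorem e_ev (v : V) (w : Word ι) :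
    Γ.e X v (X.ev w) = evW (fun i => (Γ.Y X).gen (Γ.vq v, i)) w := (Γ.exists_e X v).choose_spec w

theorem e_gen (v : V) (i : ι) : Γ.e X v (X.gen i) = (Γ.Y X).gen (Γ.vq v, i) := by
  simpa using Γ.e_ev X v [(i, true)]

theorem e_comm (v w : V) (h : Γ.G.Adj v w) (c d : X.G) : Commute (Γ.e X v c) (Γ.e X w d) := by
  obtain ⟨a, rfl⟩ := X.surj c
  obtain ⟨b, rfl⟩ := X.surj d
  rw [e_ev, e_ev]
  refine commute_evW (fun i j => ?_) a b
  have := (Γ.pres_Y X).1 _ (Or.inl (Or.inl ⟨v, w, i, j, h, rfl⟩))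
  rwa [MG.ev, evW_comm_eq_one, evW_true, evW_true] at this

/-- the diagonal of a clique. -/
noncomputable def z (q : Q) : X.G →* (Γ.Y X).G where
  toFun c := ((Γ.cl q).map fun v => Γ.e X v c).prod
  map_one' := by simp
  map_mul' c d := by
    have := Γ.hcl q
    generalize Γ.cl q = l at this
    induction l with
    | nil => simp
    | cons v l ih =>
      obtain ⟨h1, h2⟩ := List.pairwise_cons.1 this
      have h3 : Commute (Γ.e X v d) (l.map fun w => Γ.e X w c).prod := by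
        refine Commute.list_prod_right _ _ fun x hx => ?_
        obtain ⟨w, hw, rfl⟩ := List.mem_map.1 hx
        exact Γ.e_comm X v w (h1 w hw) d c
      simp only [List.map_cons, List.prod_cons]
      rw [ih h2, map_mul, mul_assoc, mul_assoc, ← mul_assoc (Γ.e X v d), h3.eq, mul_assoc]

theorem z_apply (q : Q) (c : X.G) : Γ.z X q c = ((Γ.cl q).map fun v => Γ.e X v c).prod := rfl

theorem z_vq (v : V) (c : X.G) : Γ.z X (Γ.vq v) c = Γ.e X v c := by
  simp [z_apply, Γ.hvq]

theorem z_gen (q : Q) (i : ι) : Γ.z X q (X.gen i) = (Γ.Y X).gen (q, i) := by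
  have := (Γ.pres_Y X).1 _ (Or.inl (Or.inr ⟨q, i, rfl⟩))
  rw [MG.ev, evW_append, evW_false, inv_mul_eq_one,
    evW_map_true (Γ.Y X).gen (fun v => (Γ.vq v, i))] at this
  rw [this, z_apply]
  simp only [e_gen]

theorem exists_φ : ∃ φ : (Γ.Y X).G →* Equiv.Perm (VP Γ.G X.wn),
    ∀ v c, φ (Γ.e X v c) = A (fun _ => X.eq_one_of_wn) v c := by
  obtain ⟨φ, hφ⟩ := (Γ.Y X).exists_hom (fun x : Q × ι => ((Γ.cl x.1).map fun v =>
    A (G := Γ.G) (fun _ => X.eq_one_of_wn) v (X.gen x.2)).prod) ((Γ.pres_Y X).2 _ _ (by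
      rintro r ((⟨v, w, i, i', h, rfl⟩ | ⟨q, i, rfl⟩) | ⟨v, s, hs, rfl⟩)
      · rw [evW_comm_eq_one, evW_true, evW_true]
        simpa [Γ.hvq] using A_comm _ h _ _
      · rw [evW_append, evW_false, inv_mul_eq_one, evW_map_true _ (fun v => (Γ.vq v, i))]
        simp [Γ.hvq]
      · rw [evW_ren]
        simp only [Γ.hvq, List.map_cons, List.map_nil, List.prod_cons, List.prod_nil, mul_one]
        rw [← map_evW, show evW X.gen s = 1 from hs, map_one]))
  refine ⟨φ, fun v c => ?_⟩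
  obtain ⟨w, rfl⟩ := X.surj c
  rw [e_ev, ← evW_ren (Γ.Y X).gen (fun i => (Γ.vq v, i)), hφ, evW_ren, map_evW]
  simp [Γ.hvq]

/-- the action on pilings. -/
noncomputable def φ : (Γ.Y X).G →* Equiv.Perm (VP Γ.G X.wn) := (Γ.exists_φ X).choose

theorem φ_e (v : V) (c : X.G) : Γ.φ X (Γ.e X v c) = A (fun _ => X.eq_one_of_wn) v c :=
  (Γ.exists_φ X).choose_spec v c

theorem φ_z (q : Q) (c : X.G) : Γ.φ X (Γ.z X q c) =
    ((Γ.cl q).map fun v => A (fun _ => X.eq_one_of_wn) v c).prod := by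
  rw [z_apply, map_list_prod, List.map_map]
  congr 2
  funext v
  exact Γ.φ_e X v c

theorem ev_cons (x : (Q × ι) × Bool) (w : Word (Q × ι)) : ∃ c, X.wn c ≤ 1 ∧
    (Γ.Y X).ev (x :: w) = Γ.z X x.1.1 c * (Γ.Y X).ev w := by
  rw [MG.ev, evW_cons]
  rcases x with ⟨⟨q, i⟩, _ | _⟩
  · exact ⟨(X.gen i)⁻¹, by rw [X.isSN_wn.inv]; exact X.wn_gen i, by rw [map_inv, z_gen]; rfl⟩
  · exact ⟨X.gen i, X.wn_gen i, by rw [z_gen]; rfl⟩

theorem ht_le_wn (y : (Γ.Y X).G) : ht (Γ.φ X y VP.empty).1 ≤ (Γ.Y X).wn y := by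
  obtain ⟨w, rfl, hw⟩ := (Γ.Y X).exists_wn y
  rw [← hw]
  clear hw
  induction w with
  | nil =>
    rw [MG.ev, evW_nil, map_one]
    exact ht_le fun _ => le_rfl
  | cons x w ih =>
    obtain ⟨c, h1, h2⟩ := Γ.ev_cons X x w
    rw [h2, map_mul, Equiv.Perm.mul_apply, φ_z, List.length_cons]
    refine (ht_clique_le X.isSN_wn _ (Γ.hcl _) c _).trans ?_
    omega

theorem φ_prodL (L : List (V × X.G)) :
    (Γ.φ X (prodL (Γ.e X) L) VP.empty).1 = pile Γ.G X.wn L := by
  induction L with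
  | nil => rw [prodL, List.map_nil, List.prod_nil, map_one]; rfl
  | cons x L ih => rw [prodL_cons, map_mul, Equiv.Perm.mul_apply, φ_e, A_apply, ih, pile_cons]

theorem exists_red (y : (Γ.Y X).G) : ∃ L, Red Γ.G X.wn L ∧ prodL (Γ.e X) L = y := by
  obtain ⟨w, rfl⟩ := (Γ.Y X).surj y
  induction w with
  | nil => exact ⟨[], trivial, (evW_nil _).symm⟩
  | cons x w ih =>
    obtain ⟨c, -, h2⟩ := Γ.ev_cons X x w
    rw [MG.ev, MG.ev] at h2
    rw [h2, z_apply]
    generalize Γ.cl x.1.1 = l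
    induction l with
    | nil => simpa using ih
    | cons v l ih' =>
      obtain ⟨L, h3, h4⟩ := ih'
      obtain ⟨L', h5, -, h6⟩ := step (fun _ => X.eq_one_of_wn) (Γ.e_comm X) h3 v c
      exact ⟨L', h5, by rw [h6, h4, List.map_cons, List.prod_cons, mul_assoc]⟩

theorem ne_one_of_red {L : List (V × X.G)} (h : Red Γ.G X.wn L) (hL : L ≠ []) :
    prodL (Γ.e X) L ≠ 1 := by
  intro h1
  have := Γ.φ_prodL X L
  rw [h1, map_one] at this
  exact pile_ne_empty h hL this.symm

theorem wn_le_of_red {L : List (V × X.G)} (h : Red Γ.G X.wn L) :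
    ∀ x ∈ L, X.wn x.2 ≤ (Γ.Y X).wn (prodL (Γ.e X) L) := fun x hx =>
  (wn_le_ht h x hx).trans (by rw [← φ_prodL]; exact Γ.ht_le_wn X _)

theorem wn_le_e (v : V) (c : X.G) : X.wn c ≤ (Γ.Y X).wn (Γ.e X v c) := by
  by_cases hc : c = 1
  · rw [hc, X.isSN_wn.one]; exact Nat.zero_le _
  · have := Γ.wn_le_of_red X (L := [(v, c)]) ⟨hc, fun h => h.1 rfl, trivial⟩ (v, c)
      List.mem_cons_self
    simpa [prodL] using this

/-- the map from the free product defined by a family of cliques. -/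
noncomputable def lf {J : Type} (q : J → Q) : (CP X J).G →* (Γ.Y X).G :=
  CoprodI.lift (M := fun _ : J => X.G) fun l => Γ.z X (q l)

theorem lf_of {J : Type} (q : J → Q) (l : J) (c : X.G) :
    Γ.lf X q (CoprodI.of (M := fun _ : J => X.G) (i := l) c) = Γ.z X (q l) c :=
  CoprodI.lift_of (M := fun _ : J => X.G) _ _

theorem lf_gen {J : Type} (q : J → Q) (x : J × ι) :
    Γ.lf X q ((CP X J).gen x) = (Γ.Y X).gen (q x.1, x.2) :=
  (Γ.lf_of X q x.1 _).trans (Γ.z_gen X _ _)

theorem lf_ev {J : Type} (q : J → Q) (u : Word (J × ι)) :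
    Γ.lf X q ((CP X J).ev u) = (Γ.Y X).ev (ren (fun x => (q x.1, x.2)) u) := by
  rw [MG.ev, MG.ev, map_evW, evW_ren]
  congr 1
  funext x
  exact Γ.lf_gen X q x

theorem wn_lf {J : Type} {q : J → Q} (hI : Indep Γ.G fun l => Γ.cl (q l)) (f : (CP X J).G) :
    (Γ.Y X).wn (Γ.lf X q f) = (CP X J).wn f := by
  classical
  refine le_antisymm ?_ ?_
  · obtain ⟨u, rfl, hu⟩ := (CP X J).exists_wn f
    rw [lf_ev, ← hu]
    simpa [ren] using (Γ.Y X).wn_le (ren (fun x => (q x.1, x.2)) u)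
  · have key : ∀ w : CoprodI.Word fun _ : J => X.G, ∃ S, (CP X J).wn w.prod ≤ S ∧
        Good Γ.G (fun l => Γ.cl (q l)) (Γ.φ X (Γ.lf X q w.prod) VP.empty).1 S w.fstIdx := by
      intro w
      induction w using CoprodI.Word.consRecOn with
      | empty =>
        refine ⟨0, (CP X J).isSN_wn.one.le, ?_⟩
        have : Γ.lf X q (CoprodI.Word.empty (M := fun _ : J => X.G)).prod = 1 := map_one _
        rw [this, map_one]
        exact good_empty _
      | cons l b w h1 h2 ih =>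
        obtain ⟨S, h3, h4⟩ := ih
        refine ⟨X.wn b + S, ?_, ?_⟩
        · rw [CoprodI.Word.prod_cons]
          exact ((CP X J).isSN_wn.mul _ _).trans (Nat.add_le_add (CP_wn_of X l b) h3)
        · have : Γ.lf X q (CoprodI.Word.cons (M := fun _ : J => X.G) (i := l) b w h1 h2).prod =
              Γ.z X (q l) b * Γ.lf X q w.prod := by
            rw [CoprodI.Word.prod_cons, ← lf_of]
            exact map_mul _ _ _
          rw [this, map_mul, Equiv.Perm.mul_apply, φ_z, CoprodI.Word.fstIdx_cons]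
          exact good_step _ (fun l => Γ.hcl _) hI h4 h1 h2
    obtain ⟨w, rfl⟩ := (CoprodI.Word.equiv (M := fun _ : J => X.G)).symm.surjective f
    obtain ⟨S, h1, h2⟩ := key w
    exact h1.trans (h2.2.2.trans (Γ.ht_le_wn X _))

theorem lf_injective {J : Type} {q : J → Q} (hI : Indep Γ.G fun l => Γ.cl (q l)) :
    Function.Injective (Γ.lf X q) := by
  rw [injective_iff_map_eq_one]
  intro f hf
  apply (CP X J).eq_one_of_wn
  rw [← Γ.wn_lf X hI, hf, (Γ.Y X).isSN_wn.one]

/-! ### Certificates -/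

section Cert

variable {𝒞 : Ctx} [Primcodable V] [Primcodable Q] [Primcodable ι] [Finite ι]

/-- the word assembled from syllables. -/
def asm (L : List (V × Word ι)) : Word (Q × ι) :=
  L.flatMap fun x => ren (fun i => (Γ.vq x.1, i)) x.2

theorem primrec_asm : Primrec (Γ.asm : List (V × Word ι) → Word (Q × ι)) :=
  Primrec.list_flatMap Primrec.id (Primrec.list_map (Primrec.snd.comp Primrec.snd)
    ((((Primrec.dom_finite Γ.vq).comp (Primrec.fst.comp (Primrec.snd.comp Primrec.fst))).pair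
      (Primrec.fst.comp Primrec.snd)).pair (Primrec.snd.comp Primrec.snd)).to₂).to₂

theorem ev_asm (L : List (V × Word ι)) :
    (Γ.Y X).ev (Γ.asm L) = prodL (Γ.e X) (L.map fun x => (x.1, X.ev x.2)) := by
  induction L with
  | nil => exact evW_nil _
  | cons x L ih =>
    have : Γ.asm (x :: L) = ren (fun i => (Γ.vq x.1, i)) x.2 ++ Γ.asm L := by simp [asm]
    rw [this, MG.ev, evW_append, List.map_cons, prodL_cons, ← ih, e_ev, evW_ren]

theorem primrec_run : Primrec fun x : List V × V => run Γ.G x.2 x.1 :=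
  Primrec.list_foldr (h := fun (x : List V × V) (y : V × Bool × Bool) => aut Γ.G x.2 y.1 y.2)
    Primrec.fst (Primrec.const (false, true))
    ((Primrec.dom_finite fun y : V × V × Bool × Bool => aut Γ.G y.1 y.2.1 y.2.2).comp
      ((Primrec.snd.comp Primrec.fst).pair Primrec.snd)).to₂

theorem cert_ne (X : 𝒞.Ω → MG ι)
    (hne : Cert 𝒞 (fun ω w => (X ω).ev w ≠ 1) fun ω w => (X ω).wn ((X ω).ev w))
    (heq : Cert 𝒞 (fun ω w => (Γ.Y (X ω)).ev w = 1) fun _ _ => 0) :
    Cert 𝒞 (fun ω w => (Γ.Y (X ω)).ev w ≠ 1) fun ω w => (Γ.Y (X ω)).wn ((Γ.Y (X ω)).ev w) := by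
  classical
  have h1 := (cert_eq₂ _ heq).comp
    (f := fun x : Word (Q × ι) × List (V × Word ι) => (x.1, Γ.asm x.2))
    (Primrec.fst.pair (Γ.primrec_asm.comp Primrec.snd)).to_comp
  have h2 : Cert 𝒞 (fun _ (x : Word (Q × ι) × List (V × Word ι)) => ¬ x.2 = [] ∧
      ∀ v ∈ (Finset.univ : Finset V).toList, (run Γ.G v (x.2.map Prod.fst)).2 = true)
      fun _ _ => 0 := by
    refine Cert.of_re (re_and (re_of_primrecPred (PrimrecPred.not
      (Primrec.eq.comp Primrec.snd (Primrec.const [])))) ?_) _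
    refine re_forall_mem (p := fun y : (Word (Q × ι) × List (V × Word ι)) × V =>
      (run Γ.G y.2 (y.1.2.map Prod.fst)).2 = true) (re_of_primrecPred ?_) (Computable.const _)
    exact Primrec.eq.comp (Primrec.snd.comp (Γ.primrec_run.comp
      ((Primrec.list_map (Primrec.snd.comp Primrec.fst) (Primrec.fst.comp Primrec.snd).to₂).pair
        Primrec.snd))) (Primrec.const true)
  have h3 := (hne.comp (f := fun y : (Word (Q × ι) × List (V × Word ι)) × (V × Word ι) => y.2.2)
    (Primrec.snd.comp Primrec.snd).to_comp).forall_mem Primrec.snd.to_comp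
      (ν' := fun ω x => (x.2.map fun y => (X ω).wn ((X ω).ev y.2)).foldr max 0)
      (fun ω x _ b hb => List.le_max_of_le (List.mem_map_of_mem hb) le_rfl)
  have key : ∀ ω (L : List (V × Word ι)),
      Red Γ.G (X ω).wn (L.map fun x => (x.1, (X ω).ev x.2)) ↔ (∀ x ∈ L, (X ω).ev x.2 ≠ 1) ∧
        ∀ v ∈ (Finset.univ : Finset V).toList, (run Γ.G v (L.map Prod.fst)).2 = true := by
    intro ω L
    rw [red_iff fun _ => (X ω).eq_one_of_wn, List.map_map]
    simp only [List.forall_mem_map, Finset.mem_toList, Finset.mem_univ, forall_true_left]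
    rfl
  refine Cert.guess (h1.and (h2.and h3)) ?_ ?_
  · rintro ω w L ⟨a1, ⟨a2, a3⟩, a4⟩
    simp only at a1
    rw [a1, ev_asm]
    exact Γ.ne_one_of_red _ ((key ω L).2 ⟨a4, a3⟩) (by simpa using a2)
  · intro ω w n _ hn hw
    obtain ⟨L', a1, a2⟩ := Γ.exists_red (X ω) ((Γ.Y (X ω)).ev w)
    obtain ⟨L, rfl⟩ : ∃ L : List (V × Word ι), L.map (fun x => (x.1, (X ω).ev x.2)) = L' := by
      refine List.map_surjective_iff.2 (fun x => ?_) L'
      obtain ⟨u, hu⟩ := (X ω).surj x.2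
      exact ⟨(x.1, u), Prod.ext rfl hu⟩
    refine ⟨L, ⟨by rw [ev_asm, a2], ⟨?_, ((key ω L).1 a1).2⟩, ((key ω L).1 a1).1⟩, ?_⟩
    · rintro rfl
      exact hw a2.symm
    · simp only [Nat.zero_le, sup_of_le_right]
      refine List.max_le_of_forall_le _ _ fun m hm => ?_
      obtain ⟨x, hx, rfl⟩ := List.mem_map.1 hm
      have := Γ.wn_le_of_red _ a1 _ (List.mem_map_of_mem hx)
      rw [a2] at this
      exact this.trans hn

theorem cert_range {J : Type} [Primcodable J] [Finite J] {q : J → Q}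
    (hI : Indep Γ.G fun l => Γ.cl (q l)) (X : 𝒞.Ω → MG ι)
    (hne : Cert 𝒞 (fun ω w => (X ω).ev w ≠ 1) fun ω w => (X ω).wn ((X ω).ev w))
    (heq : Cert 𝒞 (fun ω w => (Γ.Y (X ω)).ev w = 1) fun _ _ => 0) :
    Cert 𝒞 (fun ω w => (Γ.Y (X ω)).ev w ∉ (Γ.lf (X ω) q).range)
      fun ω w => 2 * (Γ.Y (X ω)).wn ((Γ.Y (X ω)).ev w) := by
  obtain ⟨g, hg, hg'⟩ := exists_allWords (ι := J × ι)
  have h1 := ((Γ.cert_ne X hne heq).comp
    (f := fun y : (Word (Q × ι) × Word (Q × ι)) × Word (J × ι) =>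
      Word.inv y.1.2 ++ ren (fun x => (q x.1, x.2)) y.2)
    (Primrec.list_append.comp (primrec_inv.comp (Primrec.snd.comp Primrec.fst))
      ((primrec_ren (Primrec.dom_finite _)).comp Primrec.snd)).to_comp).forall_mem
    (g := fun x => g x.2.length) (hg.comp (Primrec.list_length.comp Primrec.snd)).to_comp
    (ν' := fun _ x => 2 * x.2.length) (fun ω x _ u hu => by
      refine ((Γ.Y (X ω)).wn_le _).trans ?_
      have := (hg' _ _).1 hu
      simp only [List.length_append, FreeGroup.invRev_length, ren, List.length_map]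
      omega)
  refine Cert.guess ((cert_eq₂ _ heq).and h1) ?_ ?_
  · rintro ω w w' ⟨a1, a2⟩ ⟨f, hf⟩
    simp only at a1
    obtain ⟨u, rfl, hu⟩ := (CP (X ω) J).exists_wn f
    refine a2 u ((hg' _ _).2 ?_) ?_
    · rw [hu, ← Γ.wn_lf _ hI, hf, a1]
      exact (Γ.Y (X ω)).wn_le _
    · rw [lf_ev, a1] at hf
      simp only [MG.ev, evW_append, evW_inv] at hf ⊢
      rw [hf, inv_mul_cancel]
  · intro ω w n _ hn hw
    obtain ⟨w', a1, a2⟩ := (Γ.Y (X ω)).exists_wn ((Γ.Y (X ω)).ev w)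
    refine ⟨w', ⟨a1.symm, fun u _ h => hw ⟨(CP (X ω) J).ev u, ?_⟩⟩, ?_⟩
    · rw [lf_ev, ← a1]
      simp only [MG.ev, evW_append, evW_inv] at h ⊢
      exact (inv_mul_eq_one.1 h).symm
    · simp only [Nat.zero_le, sup_of_le_right]
      omega

end Cert

end Cq

end GP

end Crest.Agent.R185
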