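import Crest.Agent.R185.Pkg
import Crest.Agent.R185.GadProd

/-!
# Row 185: the extension carrying the killing gadget
-/

set_option autoImplicit false

namespace Crest.Agent.R185

namespace GP

open Monoid

/-- the vertices: a `3 × 3` grid and one more vertex. -/
abbrev Vx : Type := Option (Fin 3 × Fin 3)
/-- the lines of the grid: rows `(false, i)` and columns `(true, j)`. -/
abbrev Ln : Type := Bool × Fin 3
/-- the cliques used as generators. -/
abbrev Qx : Type := Vx ⊕ (Fin 3 × Fin 3) ⊕ (Bool × Ln)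

/-- adjacency. -/
def adjb : Vx → Vx → Bool
  | none, none => false
  | none, some x => x.1 == 0
  | some x, none => x.1 == 0
  | some x, some y => xor (x.1 == y.1) (x.2 == y.2)

/-- the rook graph with one more vertex joined to row `0`. -/
def rook : SimpleGraph Vx where
  Adj v w := adjb v w = true
  symm := ⟨by decide⟩
  loopless := ⟨by decide⟩

instance : DecidableRel rook.Adj := fun v w => inferInstanceAs (Decidable (adjb v w = true))

/-- the parent of a grid vertex. -/
def par (x : Fin 3 × Fin 3) : Vx := if x.1 = 0 then none else some (0, x.2)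

/-- the lines, in two versions. -/
def line (b : Bool) (l : Ln) : List Vx :=
  if l.1 then [some (0, l.2), some (1, l.2), some (2, l.2)]
  else [some (l.2, 0), some (l.2, 1), some (l.2, 2)] ++ if b = false ∧ l.2 = 0 then [none] else []

/-- the cliques. -/
def clx : Qx → List Vx
  | Sum.inl v => [v]
  | Sum.inr (Sum.inl x) => [par x, some x]
  | Sum.inr (Sum.inr y) => line y.1 y.2

/-- the graph with its cliques. -/
def Γx : Cq Vx Qx where
  G := rook
  cl := clx
  hcl := by decide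
  vq := Sum.inl
  hvq _ := rfl

/-- the index sets of the edge groups. -/
def Jx : Vx → Type
  | none => Ln
  | some _ => Unit

instance (k : Vx) : Finite (Jx k) := by
  cases k
  · exact inferInstanceAs (Finite Ln)
  · exact inferInstanceAs (Finite Unit)

/-- the cliques of the edge groups. -/
def qq : ∀ k : Vx, Bool → Jx k → Qx
  | none, b, l => Sum.inr (Sum.inr (b, l))
  | some x, true, _ => Sum.inl (par x)
  | some x, false, _ => Sum.inr (Sum.inl x)

set_option synthInstance.maxSize 2000 in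
theorem indep_line (b : Bool) : Indep rook (line b) := by
  have h1 : ∀ (b : Bool) (o : Option Ln) (l : Ln), o ≠ some l →
      ∃ v ∈ line b l, v ∉ o.elim [] (line b) := by decide +kernel
  have h2 : ∀ (b : Bool) (o : Option Ln) (l : Ln), o ≠ some l → ∀ u, u ∉ line b l →
      (∃ v ∈ line b l, v ∉ o.elim [] (line b) ∧ adjb u v = false) ∨
        (u ∉ o.elim [] (line b) ∧ ∀ v ∈ line b l, adjb u v = true) := by decide +kernel
  have h3 : ∀ (b : Bool) (o : Option Ln) (l l₂ : Ln), o ≠ some l → l₂ ≠ l →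
      ∀ v ∈ line b l₂, v ∉ line b l →
        ∃ u ∈ line b l, u ∉ o.elim [] (line b) ∧ adjb v u = false := by decide +kernel
  intro o l h
  refine ⟨h1 b o l h, fun u hu => ?_, fun l₂ h' v hv hv' => ?_⟩
  · simpa only [rook, Bool.not_eq_true] using h2 b o l h u hu
  · simpa only [rook, Bool.not_eq_true] using h3 b o l l₂ h h' v hv hv'

theorem indep_unit {V : Type} (G : SimpleGraph V) {l : List V} (hl : l ≠ []) :
    Indep G fun _ : Unit => l := by
  rintro (_ | _) _ ho
  · refine ⟨?_, fun u _ => ?_, fun _ h => absurd rfl h⟩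
    · obtain ⟨v, hv⟩ := List.exists_mem_of_ne_nil l hl
      exact ⟨v, hv, by simp⟩
    · by_cases h : ∀ v ∈ l, G.Adj u v
      · exact Or.inr ⟨by simp, h⟩
      · push Not at h
        obtain ⟨v, h1, h2⟩ := h
        exact Or.inl ⟨v, h1, by simp, h2⟩
  · exact absurd rfl ho

theorem indep_qq (k : Vx) (b : Bool) : Indep Γx.G fun l => Γx.cl (qq k b l) := by
  rcases k with _ | x
  · exact indep_line b
  · cases b
    · exact indep_unit _ (l := [par x, some x]) (by simp)
    · exact indep_unit _ (l := [par x]) (by simp)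

variable {ι : Type}

/-- the HNN data. -/
noncomputable def Dx (X : MG ι) : HD (Γx.Y X).G Vx where
  F k := (CP X (Jx k)).G
  a k b := Γx.lf X (qq k b)
  inj k b := Γx.lf_injective X (indep_qq k b)

theorem Dx_he (X : MG ι) (k : Vx) (b : Bool) (f : (Dx X).F k) :
    (Γx.Y X).wn ((Dx X).a k (!b) f) ≤ (Γx.Y X).wn ((Dx X).a k b f) + 2 := by
  have h1 := Γx.wn_lf X (indep_qq k b) f
  have h2 := Γx.wn_lf X (indep_qq k (!b)) f
  exact h2.le.trans (h1.ge.trans (Nat.le_add_right _ _))

theorem nu_le (X : MG ι) (g : (Dx X).MH) :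
    (Dx X).nu (Γx.Y X).wn g ≤ ((Γx.Y X).hnn (Dx X)).wn g := by
  refine IsSN.le_wn ((Γx.Y X).hnn (Dx X)) ((Dx X).isSN_nu (Γx.Y X).isSN_wn) ?_ g
  rintro (i | k)
  · exact ((Dx X).nu_of_le _).trans ((Γx.Y X).wn_gen i)
  · exact (Dx X).nu_t_le (Γx.Y X).isSN_wn k

/-- generators of the edge groups. -/
def gw (ι : Type) (k : Vx) : Set (Word (Qx × ι) × Word (Qx × ι)) :=
  {p | ∃ l i, p = ([((qq k true l, i), true)], [((qq k false l, i), true)])}

/-- the finitely many new relators. -/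
def Rx (ι : Type) : Set (Word ((Qx × ι) ⊕ Vx)) :=
  ren Sum.inl '' Γx.T₀ ι ∪ {r | ∃ k, ∃ p ∈ gw ι k, r = [(Sum.inr k, true)] ++
    ren Sum.inl p.1 ++ [(Sum.inr k, false)] ++ (ren Sum.inl p.2).inv}

theorem Rx_finite [Finite ι] : (Rx ι).Finite := by
  refine (Γx.T₀_finite.image _).union ?_
  refine (Set.finite_range fun x : (Σ k, Jx k) × ι => ([(Sum.inr x.1.1, true)] ++
    ren Sum.inl [((qq x.1.1 true x.1.2, x.2), true)] ++ [(Sum.inr x.1.1, false)] ++
      (ren Sum.inl [((qq x.1.1 false x.1.2, x.2), true)]).inv : Word ((Qx × ι) ⊕ Vx))).subset ?_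
  rintro _ ⟨k, _, ⟨l, i, rfl⟩, rfl⟩
  exact ⟨(⟨k, l⟩, i), rfl⟩

/-- the images of the generators. -/
def σx (i : ι) : Word ((Qx × ι) ⊕ Vx) := [(Sum.inl (Sum.inl none, i), true)]

theorem pres_P (X : MG ι) : Pres ((Γx.Y X).hnn (Dx X)) (Rx ι ∪ subst σx '' X.rel) := by
  have h := pres_hnn (Γx.Y X) (Dx X) (Γx.pres_Y X) (gw ι) (by
      rintro k _ ⟨l, i, rfl⟩
      exact ⟨(CP X (Jx k)).gen (l, i), (evW_true _ _).trans (Γx.lf_gen X (qq k true) (l, i)).symm,
        (evW_true _ _).trans (Γx.lf_gen X (qq k false) (l, i)).symm⟩) (by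
      intro k
      rw [eq_top_iff]
      intro f _
      refine Subgroup.closure_mono ?_ ((mem_closure_range_iff (CP X (Jx k)).gen f).2
        ((CP X (Jx k)).surj f))
      rintro _ ⟨⟨l, i⟩, rfl⟩
      exact ⟨_, ⟨l, i, rfl⟩, (evW_true _ _).trans (Γx.lf_gen X (qq k true) (l, i)).symm⟩)
  have hσ : ∀ {Z : Type} [Group Z] (z : (Qx × ι) ⊕ Vx → Z) (s : Word ι),
      evW z (subst σx s) = evW (fun i => z (Sum.inl (Sum.inl none, i))) s := by
    intro Z _ z s
    rw [evW_subst]
    simp [σx]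
  have hρ : ∀ {Z : Type} [Group Z] (z : (Qx × ι) ⊕ Vx → Z) (v : Vx) (s : Word ι),
      evW z (ren Sum.inl (ren (fun i => (Γx.vq v, i)) s)) =
        evW (fun i => z (Sum.inl (Sum.inl v, i))) s := by
    intro Z _ z v s
    rw [evW_ren, evW_ren]
    rfl
  refine h.of_imp ?_ ?_
  · rintro r ((⟨r, hr, rfl⟩ | hr) | ⟨s, hs, rfl⟩)
    · exact h.1 _ (Or.inl ⟨r, Or.inl hr, rfl⟩)
    · exact h.1 _ (Or.inr hr)
    · rw [MG.ev, hσ, ← hρ]
      exact h.1 _ (Or.inl ⟨_, Or.inr ⟨none, s, hs, rfl⟩, rfl⟩)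
  · intro Z _ z hz
    have key : ∀ s ∈ X.rel, ∀ x : Fin 3 × Fin 3,
        evW (fun i => z (Sum.inl (Sum.inl (par x), i))) s = 1 →
        evW (fun i => z (Sum.inl (Sum.inl (some x), i))) s = 1 := by
      intro s _ x hx
      have h1 : ∀ i j, Commute (z (Sum.inl (Sum.inl (par x), i)))
          (z (Sum.inl (Sum.inl (some x), j))) := by
        intro i j
        have h2 : rook.Adj (par x) (some x) :=
          (by decide : ∀ x : Fin 3 × Fin 3, rook.Adj (par x) (some x)) x
        have := hz _ (Or.inl (Or.inl ⟨_, Or.inl ⟨par x, some x, i, j, h2, rfl⟩, rfl⟩))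
        rwa [evW_ren, evW_comm_eq_one, evW_true, evW_true] at this
      have h2 : ∀ i, z (Sum.inl (Sum.inr (Sum.inl x), i)) =
          z (Sum.inl (Sum.inl (par x), i)) * z (Sum.inl (Sum.inl (some x), i)) := by
        intro i
        have := hz _ (Or.inl (Or.inl ⟨_, Or.inr ⟨Sum.inr (Sum.inl x), i, rfl⟩, rfl⟩))
        rw [evW_ren, evW_append, evW_false, inv_mul_eq_one,
          evW_map_true _ (fun v => (Γx.vq v, i))] at this
        rw [this]
        simp [Γx, clx]
      have h3 : ∀ i, MulAut.conj (z (Sum.inr (some x))) (z (Sum.inl (Sum.inl (par x), i))) =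
          z (Sum.inl (Sum.inl (par x), i)) * z (Sum.inl (Sum.inl (some x), i)) := by
        intro i
        have := hz _ (Or.inl (Or.inr ⟨some x, _, ⟨(), i, rfl⟩, rfl⟩))
        simp only [evW_append, evW_inv, evW_ren, evW_true, evW_false, mul_inv_eq_one] at this
        rw [← h2]
        exact this
      have h4 := map_evW (MulAut.conj (z (Sum.inr (some x)))).toMonoidHom
        (fun i => z (Sum.inl (Sum.inl (par x), i))) s
      simp only [MulEquiv.toMonoidHom_eq_coe, MonoidHom.coe_coe, h3] at h4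
      rw [evW_mul h1, hx, map_one, one_mul] at h4
      exact h4.symm
    rintro r (⟨r, hr | ⟨v, s, hs, rfl⟩, rfl⟩ | hr)
    · exact hz _ (Or.inl (Or.inl ⟨r, hr, rfl⟩))
    · rw [hρ]
      have h0 : evW (fun i => z (Sum.inl (Sum.inl none, i))) s = 1 := by
        rw [← hσ]
        exact hz _ (Or.inr ⟨s, hs, rfl⟩)
      rcases v with _ | ⟨i, j⟩
      · exact h0
      · refine key s hs _ ?_
        by_cases hi : i = 0
        · rw [par, if_pos hi]
          exact h0
        · rw [par, if_neg hi]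
          exact key s hs (0, j) h0
    · exact hz _ (Or.inl (Or.inr hr))

theorem range_e_none (X : MG ι) (y : (Γx.Y X).G) :
    y ∈ (Γx.e X none).range ↔ y ∈ (Γx.lf X fun _ : Unit => Sum.inl none).range := by
  constructor
  · rintro ⟨c, rfl⟩
    exact ⟨_, (Γx.lf_of X _ () c).trans (Γx.z_vq X none c)⟩
  · rintro ⟨f, rfl⟩
    induction f using CoprodI.induction_on with
    | one => exact ⟨1, (map_one _).trans (map_one _).symm⟩
    | of l c => exact ⟨c, ((Γx.lf_of X _ l c).trans (Γx.z_vq X none c)).symm⟩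
    | mul x y hx hy =>
      have := mul_mem hx hy
      rwa [← map_mul] at this

theorem r_line (X : MG ι) (l : Ln) (c : X.G) :
    (Dx X).t none * (Dx X).of (((line true l).map fun v => Γx.e X v c).prod) * ((Dx X).t none)⁻¹ =
      (Dx X).of (((line false l).map fun v => Γx.e X v c).prod) := by
  have := (Dx X).t_conj none (CoprodI.of (M := fun _ : Ln => X.G) (i := l) c)
  have h1 : ∀ b, (Dx X).a none b (CoprodI.of (M := fun _ : Ln => X.G) (i := l) c) =
      ((line b l).map fun v => Γx.e X v c).prod := fun b => Γx.lf_of X (qq none b) l c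
  rwa [h1, h1] at this

/-- the gadget. -/
noncomputable def gadget (X : MG ι) : Gadget ((Dx X).of.comp (Γx.e X none)) where
  e i j := (Dx X).of.comp (Γx.e X (some (i, j)))
  r := (Dx X).t none
  comm_row i j j' h x y :=
    (Γx.e_comm X (some (i, j)) (some (i, j')) (by
      change rook.Adj _ _
      revert i j j'; decide) x y).map (Dx X).of
  comm_col i i' j h x y :=
    (Γx.e_comm X (some (i, j)) (some (i', j)) (by
      change rook.Adj _ _
      revert i i' j; decide) x y).map (Dx X).of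
  comm_zero j x y := (Γx.e_comm X none (some (0, j)) rfl x y).map (Dx X).of
  r_row0 x := by
    simpa [line, mul_assoc] using r_line X (false, 0) x
  r_row i hi x := by
    have := r_line X (false, i) x
    rw [mul_inv_eq_iff_eq_mul] at this
    simpa [line, hi, mul_assoc, Commute, SemiconjBy] using this
  r_col j x := by
    have := r_line X (true, j) x
    rw [mul_inv_eq_iff_eq_mul] at this
    simpa [line, mul_assoc, Commute, SemiconjBy] using this

theorem noncomm (X : MG ι) {x : X.G} (hx : x ≠ 1) :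
    ¬ Commute (Γx.e X none x) (Γx.e X (some (1, 1)) x) := by
  intro h
  have hx' : x⁻¹ ≠ 1 := inv_ne_one.2 hx
  have a1 : ¬ Γx.G.Adj none (some (1, 1)) := by change ¬ rook.Adj _ _; decide
  have a2 : ¬ Γx.G.Adj (some (1, 1)) none := fun h => a1 h.symm
  have h0 : ¬ Exp Γx.G (pile Γx.G X.wn []) (some (1, 1)) := fun h => h.1 rfl
  have h1 := not_exp_act (wn := X.wn) h0 hx' (u := none) (by simp) a1
  have h2 := not_exp_act (wn := X.wn) h1 hx' (u := some (1, 1)) (by simp) a2
  have h3 := not_exp_act (wn := X.wn) h2 hx (u := none) (by simp) a1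
  refine Γx.ne_one_of_red X (L := [(none, x), (some (1, 1), x), (none, x⁻¹), (some (1, 1), x⁻¹)])
    ⟨hx, h3, hx, h2, hx', h1, hx', h0, trivial⟩ (by simp) ?_
  simp only [prodL, List.map_cons, List.map_nil, List.prod_cons, List.prod_nil, map_inv, mul_one]
  rw [← mul_assoc, h.eq]
  group

theorem cert_eq_ext {𝒞 : Ctx} {ι ι' : Type} [Primcodable ι] [Primcodable ι'] [Finite ι]
    (X : 𝒞.Ω → MG ι) (Y : 𝒞.Ω → MG ι') (R : List (Word ι')) (σ : ι → Word ι')
    (h : ∀ ω, Pres (Y ω) ({r | r ∈ R} ∪ subst σ '' (X ω).rel))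
    (heq : Cert 𝒞 (fun ω w => (X ω).ev w = 1) fun _ _ => 0) :
    Cert 𝒞 (fun ω w => (Y ω).ev w = 1) fun _ _ => 0 := by
  refine cert_eq_of_pres Y _ h ?_
  have h1 : Cert 𝒞 (fun _ (r : Word ι') => r ∈ R) fun _ _ => 0 :=
    Cert.of_re (re_of_primrecPred (cl_primrecRel_mem.comp Primrec.id (Primrec.const R))) _
  have h2 : Cert 𝒞 (fun ω (r : Word ι') => r ∈ subst σ '' (X ω).rel) fun _ _ => 0 := by
    refine Cert.guess ((heq.comp Primrec.snd.to_comp).and (Cert.of_re
      (p := fun x : Word ι' × Word ι => subst σ x.2 = x.1) (re_of_primrecPred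
        (Primrec.eq.comp ((primrec_subst σ).comp Primrec.snd) Primrec.fst)) fun _ _ => 0)) ?_ ?_
    · rintro ω r s ⟨a1, a2⟩
      exact ⟨s, a1, a2⟩
    · rintro ω r n - - ⟨s, a1, a2⟩
      exact ⟨s, ⟨a1, a2⟩, Nat.zero_le _⟩
  exact (h1.or h2).congr (fun _ _ h => h) fun _ _ _ _ _ h => ⟨h, Nat.zero_le _⟩

theorem pres_P' [Finite ι] (X : MG ι) : Pres ((Γx.Y X).hnn (Dx X))
    ({r | r ∈ (Rx_finite (ι := ι)).toFinset.toList} ∪ subst σx '' X.rel) := by
  convert pres_P X using 2
  ext r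
  simp

theorem cert_P {𝒞 : Ctx} [Primcodable ι] [Finite ι] (X : 𝒞.Ω → MG ι)
    (heq : Cert 𝒞 (fun ω w => (X ω).ev w = 1) fun _ _ => 0)
    (hne : Cert 𝒞 (fun ω w => (X ω).ev w ≠ 1) fun ω w => (X ω).wn ((X ω).ev w)) :
    Cert 𝒞 (fun ω w => ((Γx.Y (X ω)).hnn (Dx (X ω))).ev w ∉
        ((Dx (X ω)).of.comp (Γx.e (X ω) none)).range)
      fun ω w => 2 * ((Γx.Y (X ω)).hnn (Dx (X ω))).wn (((Γx.Y (X ω)).hnn (Dx (X ω))).ev w) := by
  have hP := cert_eq_ext X (fun ω => (Γx.Y (X ω)).hnn (Dx (X ω))) _ σx (fun ω => pres_P' (X ω)) heq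
  have hY : Cert 𝒞 (fun ω w => (Γx.Y (X ω)).ev w = 1) fun _ _ => 0 := by
    have key : ∀ ω w, ((Γx.Y (X ω)).hnn (Dx (X ω))).ev (ren Sum.inl w) = 1 ↔
        (Γx.Y (X ω)).ev w = 1 := fun ω w => by
      rw [MG.hnn_ev_inl]
      exact map_eq_one_iff _ (Dx (X ω)).of_injective
    exact (hP.comp (primrec_ren Primrec.sumInl).to_comp).congr (fun ω w h => (key ω w).1 h)
      fun ω w _ _ hn h => ⟨(key ω w).2 h, hn⟩
  have := cert_hnn (fun ω => Γx.Y (X ω)) (fun ω => Dx (X ω))
    (fun ω => (Γx.lf (X ω) fun _ : Unit => Sum.inl none).range)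
    (fun ω y => 2 * (Γx.Y (X ω)).wn y) (fun ω g => 2 * ((Γx.Y (X ω)).hnn (Dx (X ω))).wn g)
    (fun ω g => by
      obtain ⟨l, γ, h1, h2, h3, h4⟩ := (Dx (X ω)).bnf (Γx.Y (X ω)).isSN_wn (Dx_he (X ω)) g
      exact ⟨l, γ, h1, h2, fun p hp => Nat.mul_le_mul_left 2 ((h3 p hp).trans (nu_le _ g)),
        Nat.mul_le_mul_left 2 (h4.trans (nu_le _ g))⟩)
    (by
      rintro ⟨_ | x, b⟩
      · exact Γx.cert_range (J := Ln) (indep_qq none b) X hne hY
      · exact Γx.cert_range (J := Unit) (indep_qq (some x) b) X hne hY)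
    (Γx.cert_range (J := Unit) (indep_unit _ (l := [none]) (by simp)) X hne hY) hP
  have key : ∀ ω (g : (Dx (X ω)).MH), g ∈ ((Dx (X ω)).of.comp (Γx.e (X ω) none)).range ↔
      g ∈ (Dx (X ω)).of '' (Γx.lf (X ω) fun _ : Unit => Sum.inl none).range := by
    intro ω g
    constructor
    · rintro ⟨c, rfl⟩
      exact ⟨_, (range_e_none _ _).1 ⟨c, rfl⟩, rfl⟩
    · rintro ⟨y, hy, rfl⟩
      obtain ⟨c, rfl⟩ := (range_e_none _ _).2 hy
      exact ⟨c, rfl⟩
  exact this.congr (fun ω w h h' => h ((key ω _).1 h'))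
    fun ω w _ _ hn h => ⟨fun h' => h ((key ω _).2 h'), hn⟩

end GP

open GP in
theorem exists_gad (ι : Type) [Primcodable ι] [Finite ι] :
    ∃ (ι' : Type) (_ : Primcodable ι') (_ : Finite ι') (κ : ℕ), Nonempty (GadPkg ι ι' κ) := by
  have hn : ∀ (X : MG ι) x, X.wn x ≤
      ((Γx.Y X).hnn (Dx X)).wn (((Dx X).of.comp (Γx.e X none)) x) := fun X x => by
    refine le_trans ?_ (nu_le X _)
    rw [MonoidHom.comp_apply, (Dx X).nu_of (Γx.Y X).isSN_wn (Dx_he X)]
    exact Γx.wn_le_e X none x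
  refine ⟨(Qx × ι) ⊕ Vx, inferInstance, inferInstance, 2, ⟨{
    obj := fun X => (Γx.Y X).hnn (Dx X)
    σ := σx
    R := (Rx_finite (ι := ι)).toFinset.toList
    f := fun X => (Dx X).of.comp (Γx.e X none)
    f_gen := fun X i => ?_
    inj := fun X => ?_
    norm := fun X x => by rw [one_mul]; exact hn X x
    pres := pres_P'
    cert := fun 𝒞 X heq hne => cert_P X heq (by simpa only [one_mul] using hne)
    gad := gadget
    noncentral := fun X x hx => ⟨(Dx X).of (Γx.e X (some (1, 1)) x), fun h =>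
      noncomm X hx (Commute.of_map (Dx X).of_injective h)⟩ }⟩⟩
  · exact (congrArg (Dx X).of (Γx.e_gen X none i)).trans
      (evW_true ((Γx.Y X).hnn (Dx X)).gen (Sum.inl (Sum.inl none, i))).symm
  · refine (injective_iff_map_eq_one _).2 fun x hx => X.eq_one_of_wn ?_
    have := hn X x
    have h1 : ((Γx.Y X).hnn (Dx X)).wn (((Dx X).of.comp (Γx.e X none)) x) = 0 :=
      (congrArg ((Γx.Y X).hnn (Dx X)).wn hx).trans ((Γx.Y X).hnn (Dx X)).isSN_wn.one
    omega

end Crest.Agent.R185
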