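import Crest.Agent.R185.Basic

/-!
# Row 185: pilings for graph products

A piling records, for every vertex, the list of beads with their heights.
-/

set_option autoImplicit false
set_option linter.unusedSectionVars false

namespace Crest.Agent.R185

namespace GP

open Classical

variable {V C : Type} [Fintype V] [Group C] (G : SimpleGraph V) (wn : C → ℕ)

/-- the height of the topmost bead of a pile. -/
def top : List (C × ℕ) → ℕ
  | [] => 0
  | x :: _ => x.2

/-- the label of the topmost bead of a pile. -/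
def lab : List (C × ℕ) → C
  | [] => 1
  | x :: _ => x.1

/-- the level at which a new bead at `v` comes to rest. -/
noncomputable def lev (v : V) (p : V → List (C × ℕ)) : ℕ :=
  Finset.univ.sup fun u => if G.Adj v u then 0 else top (p u)

/-- the topmost bead at `v` is exposed. -/
def Exp (p : V → List (C × ℕ)) (v : V) : Prop :=
  p v ≠ [] ∧ ∀ u, u ≠ v → ¬ G.Adj v u → top (p u) < top (p v)

/-- remove the exposed bead at `v`. -/
noncomputable def base (v : V) (p : V → List (C × ℕ)) : V → List (C × ℕ) :=
  if Exp G p v then Function.update p v (p v).tail else p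

/-- the exposed label at `v`. -/
noncomputable def cur (v : V) (p : V → List (C × ℕ)) : C := if Exp G p v then lab (p v) else 1

/-- put a bead on top. -/
noncomputable def pu (v : V) (c : C) (p : V → List (C × ℕ)) : V → List (C × ℕ) :=
  if c = 1 then p else Function.update p v ((c, lev G v p + wn c) :: p v)

/-- the action of the vertex group at `v`. -/
noncomputable def act (v : V) (c : C) (p : V → List (C × ℕ)) : V → List (C × ℕ) :=
  pu G wn v (c * cur G v p) (base G v p)

/-- the height of a piling. -/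
noncomputable def ht (p : V → List (C × ℕ)) : ℕ := Finset.univ.sup fun u => top (p u)

/-- agreement away from the neighbours of `v`. -/
def Agree (v : V) (p p' : V → List (C × ℕ)) : Prop := ∀ u, ¬ G.Adj v u → p u = p' u

variable {G wn}

theorem top_le_lev {v u : V} (h : ¬ G.Adj v u) (p : V → List (C × ℕ)) : top (p u) ≤ lev G v p := by
  have := Finset.le_sup (f := fun u => if G.Adj v u then 0 else top (p u)) (Finset.mem_univ u)
  simp only [h, if_false] at this
  exact this

theorem top_le_ht (p : V → List (C × ℕ)) (u : V) : top (p u) ≤ ht p :=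
  Finset.le_sup (f := fun u => top (p u)) (Finset.mem_univ u)

theorem ht_le {p : V → List (C × ℕ)} {n : ℕ} (h : ∀ u, top (p u) ≤ n) : ht p ≤ n :=
  Finset.sup_le fun u _ => h u

theorem lev_le_ht (v : V) (p : V → List (C × ℕ)) : lev G v p ≤ ht p :=
  Finset.sup_le fun u _ => by
    split_ifs
    · exact Nat.zero_le _
    · exact top_le_ht p u

theorem Agree.self {v : V} {p p' : V → List (C × ℕ)} (h : Agree G v p p') : p v = p' v :=
  h v G.irrefl

theorem Agree.lev {v : V} {p p' : V → List (C × ℕ)} (h : Agree G v p p') :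
    lev G v p = lev G v p' := by
  unfold GP.lev
  congr 1
  funext u
  split_ifs with h1
  · rfl
  · rw [h u h1]

theorem Agree.exp {v : V} {p p' : V → List (C × ℕ)} (h : Agree G v p p') :
    Exp G p v ↔ Exp G p' v := by
  unfold Exp
  rw [h.self]
  exact and_congr_right fun _ => forall_congr' fun u => forall_congr' fun _ =>
    forall_congr' fun h1 => by rw [h u h1]

theorem Agree.cur {v : V} {p p' : V → List (C × ℕ)} (h : Agree G v p p') :
    cur G v p = cur G v p' := by
  unfold GP.cur
  rw [h.self]
  simp only [h.exp]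

theorem Agree.base {v : V} {p p' : V → List (C × ℕ)} (h : Agree G v p p') :
    Agree G v (base G v p) (base G v p') := by
  intro u hu
  unfold GP.base
  by_cases h1 : Exp G p v
  · rw [if_pos h1, if_pos (h.exp.1 h1)]
    by_cases h2 : u = v
    · subst h2
      simp [h.self]
    · simp [h2, h u hu]
  · rw [if_neg h1, if_neg fun h2 => h1 (h.exp.2 h2)]
    exact h u hu

theorem Agree.act {v : V} {p p' : V → List (C × ℕ)} (h : Agree G v p p') (c : C) :
    act G wn v c p v = act G wn v c p' v := by
  unfold GP.act pu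
  rw [h.cur]
  split_ifs
  · exact h.base.self
  · simp [h.base.lev, h.base.self]

theorem act_ne {v u : V} (h : u ≠ v) (c : C) (p : V → List (C × ℕ)) : act G wn v c p u = p u := by
  unfold act pu base
  split_ifs <;> simp [h]

theorem agree_act {v w : V} (h : G.Adj v w) (c : C) (p : V → List (C × ℕ)) :
    Agree G v (act G wn w c p) p := fun _ hu => act_ne (by rintro rfl; exact hu h) c p

theorem act_comm {v w : V} (h : G.Adj v w) (c d : C) (p : V → List (C × ℕ)) :
    act G wn v c (act G wn w d p) = act G wn w d (act G wn v c p) := by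
  funext u
  by_cases h1 : u = v
  · subst h1
    rw [(agree_act h d p).act, act_ne h.ne]
  · by_cases h2 : u = w
    · subst h2
      rw [(agree_act h.symm c p).act, act_ne h1]
    · rw [act_ne h1, act_ne h2, act_ne h2, act_ne h1]

theorem act_of_not_exp {v : V} {p : V → List (C × ℕ)} (h : ¬ Exp G p v) (c : C) :
    act G wn v c p = pu G wn v c p := by
  unfold act cur base
  rw [if_neg h, if_neg h, mul_one]

theorem act_one {v : V} {p : V → List (C × ℕ)} (h : ¬ Exp G p v) : act G wn v 1 p = p := by
  rw [act_of_not_exp h, pu, if_pos rfl]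

theorem act_self {v : V} {p : V → List (C × ℕ)} (h : ¬ Exp G p v) {c : C} (hc : c ≠ 1) :
    act G wn v c p v = (c, lev G v p + wn c) :: p v := by
  rw [act_of_not_exp h, pu, if_neg hc, Function.update_self]

theorem top_act_self {v : V} {p : V → List (C × ℕ)} (h : ¬ Exp G p v) {c : C} (hc : c ≠ 1) :
    top (act G wn v c p v) = lev G v p + wn c := by
  rw [act_self h hc]; rfl

theorem exp_act (hpos : ∀ c, wn c = 0 → c = 1) {v : V} {p : V → List (C × ℕ)} (h : ¬ Exp G p v)
    {c : C} (hc : c ≠ 1) : Exp G (act G wn v c p) v := by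
  refine ⟨by rw [act_self h hc]; simp, fun u h1 h2 => ?_⟩
  rw [act_ne h1, top_act_self h hc]
  have := top_le_lev h2 p
  have : wn c ≠ 0 := fun h0 => hc (hpos c h0)
  omega

theorem not_exp_act {v u : V} {p : V → List (C × ℕ)} (h : ¬ Exp G p v) {c : C} (hc : c ≠ 1)
    (h1 : u ≠ v) (h2 : ¬ G.Adj u v) : ¬ Exp G (act G wn v c p) u := by
  intro h3
  have h4 := h3.2 v h1.symm h2
  rw [act_ne h1, top_act_self h hc] at h4
  have := top_le_lev (fun h5 => h2 h5.symm) p
  omega

theorem act_act (hpos : ∀ c, wn c = 0 → c = 1) {v : V} {p : V → List (C × ℕ)} (h : ¬ Exp G p v)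
    (c d : C) : act G wn v d (act G wn v c p) = act G wn v (d * c) p := by
  by_cases hc : c = 1
  · rw [hc, act_one h, mul_one]
  · have h1 := exp_act hpos h hc
    have h2 : cur G v (act G wn v c p) = c := by
      rw [cur, if_pos h1, act_self h hc]; rfl
    have h3 : base G v (act G wn v c p) = p := by
      rw [base, if_pos h1, act_self h hc]
      funext u
      by_cases h4 : u = v
      · subst h4; simp
      · rw [Function.update_of_ne h4, act_ne h4]
    rw [act_of_not_exp h (d * c), act, h2, h3]

variable (G wn)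

/-- the piling of a word. -/
noncomputable def pile (L : List (V × C)) : V → List (C × ℕ) :=
  L.foldr (fun x p => act G wn x.1 x.2 p) fun _ => []

/-- reduced words. -/
def Red : List (V × C) → Prop
  | [] => True
  | x :: L => x.2 ≠ 1 ∧ ¬ Exp G (pile G wn L) x.1 ∧ Red L

theorem Red_anchor : type_of% @Red.eq_def := @Red.eq_def

variable {G wn}

theorem pile_cons (x : V × C) (L : List (V × C)) :
    pile G wn (x :: L) = act G wn x.1 x.2 (pile G wn L) := rfl

theorem red_cons {x : V × C} {L : List (V × C)} :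
    Red G wn (x :: L) ↔ x.2 ≠ 1 ∧ ¬ Exp G (pile G wn L) x.1 ∧ Red G wn L := Iff.rfl

/-- the product of a word. -/
def prodL {Y : Type} [Group Y] (e : V → C →* Y) (L : List (V × C)) : Y :=
  (L.map fun x => e x.1 x.2).prod

theorem prodL_cons {Y : Type} [Group Y] (e : V → C →* Y) (x : V × C) (L : List (V × C)) :
    prodL e (x :: L) = e x.1 x.2 * prodL e L := rfl

theorem nf {Y : Type} [Group Y] {e : V → C →* Y}
    (hc : ∀ v w, G.Adj v w → ∀ c d, Commute (e v c) (e w d)) {L : List (V × C)} (h : Red G wn L)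
    (v : V) : ∃ c L', Red G wn L' ∧ ¬ Exp G (pile G wn L') v ∧
      pile G wn L = act G wn v c (pile G wn L') ∧ prodL e L = e v c * prodL e L' := by
  induction L with
  | nil =>
    have : ¬ Exp G (pile G wn ([] : List (V × C))) v := fun h => h.1 rfl
    exact ⟨1, [], trivial, this, (act_one this).symm, by simp⟩
  | cons x L ih =>
    obtain ⟨w, d⟩ := x
    obtain ⟨h1, h2, h3⟩ := h
    by_cases h4 : v = w
    · subst h4
      exact ⟨d, L, h3, h2, rfl, rfl⟩
    by_cases h5 : G.Adj v w
    · obtain ⟨c, L', a1, a2, a3, a4⟩ := ih h3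
      refine ⟨c, (w, d) :: L', ⟨h1, ?_, a1⟩, ?_, ?_, ?_⟩
      · rw [a3] at h2
        exact fun h6 => h2 ((agree_act h5.symm c _).exp.2 h6)
      · exact fun h6 => a2 ((agree_act h5 d _).exp.1 h6)
      · rw [pile_cons, pile_cons, a3, act_comm h5]
      · rw [prodL_cons, prodL_cons, a4, ← mul_assoc, ← mul_assoc, (hc v w h5 c d).eq]
    · have : ¬ Exp G (pile G wn ((w, d) :: L)) v := not_exp_act h2 h1 h4 h5
      exact ⟨1, (w, d) :: L, ⟨h1, h2, h3⟩, this, (act_one this).symm, by simp⟩

theorem nf' {L : List (V × C)} (h : Red G wn L) (v : V) : ∃ c L', Red G wn L' ∧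
    ¬ Exp G (pile G wn L') v ∧ pile G wn L = act G wn v c (pile G wn L') := by
  obtain ⟨c, L', h1, h2, h3, -⟩ := nf (Y := Unit) (e := fun _ => 1)
    (fun _ _ _ _ _ => Commute.all _ _) h v
  exact ⟨c, L', h1, h2, h3⟩

theorem step (hpos : ∀ c, wn c = 0 → c = 1) {Y : Type} [Group Y] {e : V → C →* Y}
    (hc : ∀ v w, G.Adj v w → ∀ c d, Commute (e v c) (e w d)) {L : List (V × C)} (h : Red G wn L)
    (v : V) (c : C) : ∃ L', Red G wn L' ∧ pile G wn L' = act G wn v c (pile G wn L) ∧
      prodL e L' = e v c * prodL e L := by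
  obtain ⟨c', L', h1, h2, h3, h4⟩ := nf hc h v
  rw [h3, h4, act_act hpos h2, ← mul_assoc, ← map_mul]
  by_cases h5 : c * c' = 1
  · exact ⟨L', h1, by rw [h5, act_one h2], by rw [h5, map_one, one_mul]⟩
  · exact ⟨(v, c * c') :: L', ⟨h5, h2, h1⟩, rfl, rfl⟩

variable (G wn) in
/-- valid pilings. -/
def VP : Type := {p : V → List (C × ℕ) // ∃ L, Red G wn L ∧ p = pile G wn L}

/-- the empty piling. -/
def VP.empty : VP G wn := ⟨fun _ => [], [], trivial, rfl⟩

/-- the action of a vertex group on valid pilings. -/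
noncomputable def A (hpos : ∀ c, wn c = 0 → c = 1) (v : V) : C →* Equiv.Perm (VP G wn) :=
  MonoidHom.toHomPerm
    { toFun := fun c p => ⟨act G wn v c p.1, by
        obtain ⟨L, h1, h2⟩ := p.2
        obtain ⟨L', h3, h4, -⟩ := step hpos (Y := Unit) (e := fun _ => 1)
          (fun _ _ _ _ _ => Commute.all _ _) h1 v c
        exact ⟨L', h3, by rw [h4, h2]⟩⟩
      map_one' := by
        funext p
        obtain ⟨p, L, h1, rfl⟩ := p
        obtain ⟨c, L', -, h3, h4⟩ := nf' h1 v
        refine Subtype.ext ?_
        change act G wn v 1 (pile G wn L) = pile G wn L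
        rw [h4, act_act hpos h3, one_mul]
      map_mul' := fun a b => by
        funext p
        obtain ⟨p, L, h1, rfl⟩ := p
        obtain ⟨c, L', -, h3, h4⟩ := nf' h1 v
        refine Subtype.ext ?_
        change act G wn v (a * b) (pile G wn L) = act G wn v a (act G wn v b (pile G wn L))
        rw [h4, act_act hpos h3, act_act hpos h3, act_act hpos h3, mul_assoc] }

theorem A_apply (hpos : ∀ c, wn c = 0 → c = 1) (v : V) (c : C) (p : VP G wn) :
    (A hpos v c p).1 = act G wn v c p.1 := rfl

theorem A_comm (hpos : ∀ c, wn c = 0 → c = 1) {v w : V} (h : G.Adj v w) (c d : C) :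
    Commute (A (G := G) hpos v c) (A hpos w d) :=
  Equiv.ext fun p => Subtype.ext (act_comm h c d p.1)

theorem top_act_le (hsn : IsSN wn) (hpos : ∀ c, wn c = 0 → c = 1) (p : VP G wn) (v : V) (c : C) :
    top (act G wn v c p.1 v) ≤ ht p.1 + wn c := by
  obtain ⟨p, L, h1, rfl⟩ := p
  obtain ⟨c', L', -, h3, h4⟩ := nf' h1 v
  have h5 : lev G v (pile G wn L') + wn c' ≤ ht (pile G wn L) := by
    by_cases h6 : c' = 1
    · rw [h4, h6, act_one h3, hsn.one]
      exact lev_le_ht _ _
    · rw [← top_act_self h3 h6, ← h4]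
      exact top_le_ht _ _
  change top (act G wn v c (pile G wn L) v) ≤ ht (pile G wn L) + wn c
  have h7 : act G wn v c (pile G wn L) = act G wn v (c * c') (pile G wn L') := by
    rw [h4, act_act hpos h3]
  rw [h7]
  by_cases h6 : c * c' = 1
  · rw [h6, act_one h3]
    have := top_le_lev (G.irrefl (v := v)) (pile G wn L')
    omega
  · rw [top_act_self h3 h6]
    have := hsn.mul c c'
    omega

/-- the action of a clique. -/
theorem clique_apply (hpos : ∀ c, wn c = 0 → c = 1) {q : List V} (hq : q.Pairwise G.Adj) (c : C)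
    (p : VP G wn) (u : V) : ((q.map fun v => A hpos v c).prod p).1 u =
      if u ∈ q then act G wn u c p.1 u else p.1 u := by
  induction q generalizing u with
  | nil => simp
  | cons v q ih =>
    obtain ⟨h1, h2⟩ := List.pairwise_cons.1 hq
    rw [List.map_cons, List.prod_cons, Equiv.Perm.mul_apply, A_apply]
    by_cases h3 : u = v
    · subst h3
      rw [if_pos List.mem_cons_self]
      refine Agree.act (fun w hw => ?_) c
      rw [ih h2, if_neg fun h4 => hw (h1 w h4)]
    · rw [act_ne h3, ih h2]
      simp [h3]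

theorem ht_clique_le (hsn : IsSN wn) (hpos : ∀ c, wn c = 0 → c = 1) {q : List V}
    (hq : q.Pairwise G.Adj) (c : C) (p : VP G wn) :
    ht ((q.map fun v => A hpos v c).prod p).1 ≤ ht p.1 + wn c := by
  refine ht_le fun u => ?_
  rw [clique_apply hpos hq]
  split_ifs
  · exact top_act_le hsn hpos p u c
  · exact (top_le_ht _ _).trans (Nat.le_add_right _ _)

theorem wn_le_ht {L : List (V × C)} (h : Red G wn L) : ∀ x ∈ L, wn x.2 ≤ ht (pile G wn L) := by
  induction L with
  | nil => simp
  | cons y L ih =>
    obtain ⟨h1, h2, h3⟩ := h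
    have h4 := top_act_self (wn := wn) h2 h1
    have h5 := top_le_ht (pile G wn (y :: L)) y.1
    rw [pile_cons, h4] at h5
    intro x hx
    rcases List.mem_cons.1 hx with rfl | hx
    · rw [pile_cons]; omega
    · refine (ih h3 x hx).trans (ht_le fun u => ?_)
      by_cases h6 : u = y.1
      · have := top_le_lev (G.irrefl (v := y.1)) (pile G wn L)
        rw [h6, pile_cons]; omega
      · rw [← act_ne (G := G) (wn := wn) h6 y.2 (pile G wn L)]
        exact top_le_ht (pile G wn (y :: L)) u

theorem pile_ne_empty {L : List (V × C)} (h : Red G wn L) (hL : L ≠ []) :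
    pile G wn L ≠ fun _ => [] := by
  obtain ⟨x, L, rfl⟩ := List.exists_cons_of_ne_nil hL
  intro h1
  have := congrFun h1 x.1
  rw [pile_cons, act_self h.2.1 h.1] at this
  simp at this

/-! ### A finite automaton recognising reduced words -/

variable (G) in
/-- one step of the automaton for the vertex `v`: (is `v` exposed, no violation so far). -/
noncomputable def aut (v w : V) (s : Bool × Bool) : Bool × Bool :=
  if w = v then (true, s.2 && !s.1) else if G.Adj v w then s else (false, s.2)

variable (G) in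
/-- the run of the automaton. -/
noncomputable def run (v : V) (l : List V) : Bool × Bool := l.foldr (aut G v) (false, true)

theorem red_iff_aux (hpos : ∀ c, wn c = 0 → c = 1) (L : List (V × C)) (h : ∀ x ∈ L, x.2 ≠ 1) :
    (Red G wn L ↔ ∀ v, (run G v (L.map Prod.fst)).2 = true) ∧
      (Red G wn L → ∀ v, Exp G (pile G wn L) v ↔ (run G v (L.map Prod.fst)).1 = true) := by
  induction L with
  | nil => exact ⟨⟨fun _ _ => rfl, fun _ => trivial⟩, fun _ v => ⟨fun h => (h.1 rfl).elim,
      fun h => by simp [run] at h⟩⟩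
  | cons x L ih =>
    obtain ⟨ih1, ih2⟩ := ih fun y hy => h y (List.mem_cons_of_mem _ hy)
    have hx := h x List.mem_cons_self
    have e : ∀ v, run G v ((x :: L).map Prod.fst) = aut G v x.1 (run G v (L.map Prod.fst)) :=
      fun v => rfl
    constructor
    · rw [red_cons]
      constructor
      · rintro ⟨-, h2, h3⟩ v
        rw [e, aut]
        split_ifs with h4 h5
        · subst h4
          have := (ih2 h3 x.1).not.1 h2
          simp [ih1.1 h3, this]
        · exact ih1.1 h3 v
        · exact ih1.1 h3 v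
      · intro h2
        have h3 : Red G wn L := ih1.2 fun v => by
          have := h2 v
          rw [e, aut] at this
          split_ifs at this
          · exact (Bool.and_eq_true_iff.1 this).1
          · exact this
          · exact this
        refine ⟨hx, fun h4 => ?_, h3⟩
        have := h2 x.1
        rw [e, aut, if_pos rfl, (ih2 h3 x.1).1 h4] at this
        simp at this
    · rintro ⟨-, h2, h3⟩ v
      rw [e, aut, pile_cons]
      split_ifs with h4 h5
      · subst h4
        exact iff_of_true (exp_act hpos h2 hx) rfl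
      · rw [(agree_act h5 _ _).exp]
        exact ih2 h3 v
      · exact iff_of_false (not_exp_act h2 hx (Ne.symm h4) h5) (by simp)

theorem red_iff (hpos : ∀ c, wn c = 0 → c = 1) (L : List (V × C)) :
    Red G wn L ↔ (∀ x ∈ L, x.2 ≠ 1) ∧ ∀ v, (run G v (L.map Prod.fst)).2 = true := by
  have h0 : ∀ L : List (V × C), Red G wn L → ∀ x ∈ L, x.2 ≠ 1 := by
    intro L
    induction L with
    | nil => simp
    | cons y L ih =>
      rintro ⟨h1, -, h3⟩ x hx
      rcases List.mem_cons.1 hx with rfl | hx
      · exact h1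
      · exact ih h3 x hx
  exact ⟨fun h => ⟨h0 L h, (red_iff_aux hpos L (h0 L h)).1.1 h⟩,
    fun h => (red_iff_aux hpos L h.1).1.2 h.2⟩

/-! ### Independent families of cliques -/

variable (G) in
/-- The combinatorial condition which makes the diagonals of a family of cliques generate a free
product. -/
def Indep {J : Type} (cl : J → List V) : Prop :=
  ∀ (o : Option J) (l : J), o ≠ some l → (∃ v ∈ cl l, v ∉ o.elim [] cl) ∧
    (∀ u, u ∉ cl l → (∃ v ∈ cl l, v ∉ o.elim [] cl ∧ ¬ G.Adj u v) ∨
      (u ∉ o.elim [] cl ∧ ∀ v ∈ cl l, G.Adj u v)) ∧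
    ∀ l₂, l₂ ≠ l → ∀ v ∈ cl l₂, v ∉ cl l → ∃ u ∈ cl l, u ∉ o.elim [] cl ∧ ¬ G.Adj v u

variable (G) in
/-- the invariant. -/
def Good {J : Type} (cl : J → List V) (p : V → List (C × ℕ)) (S : ℕ) (o : Option J) : Prop :=
  (∀ u, Exp G p u → u ∈ o.elim [] cl) ∧
    (∀ l, o ≠ some l → ∀ v ∈ cl l, v ∉ o.elim [] cl → S ≤ lev G v p) ∧ S ≤ ht p

theorem good_empty {J : Type} (cl : J → List V) :
    Good G cl (fun _ => ([] : List (C × ℕ))) 0 none :=
  ⟨fun _ h => (h.1 rfl).elim, fun _ _ _ _ _ => Nat.zero_le _, Nat.zero_le _⟩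

theorem good_step (hpos : ∀ c, wn c = 0 → c = 1) {J : Type} {cl : J → List V}
    (hcl : ∀ l, (cl l).Pairwise G.Adj) (hI : Indep G cl) {p : VP G wn} {S : ℕ} {o : Option J}
    (h : Good G cl p.1 S o) {l : J} (hl : o ≠ some l) {b : C} (hb : b ≠ 1) :
    Good G cl (((cl l).map fun v => A hpos v b).prod p).1 (wn b + S) (some l) := by
  obtain ⟨⟨v₀, a1, a2⟩, a3, a4⟩ := hI o l hl
  obtain ⟨h1, h2, h3⟩ := h
  set p' := (((cl l).map fun v => A hpos v b).prod p).1 with hp'
  have e1 : ∀ v ∈ cl l, v ∉ o.elim [] cl → top (p' v) = lev G v p.1 + wn b := by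
    intro v hv hv'
    rw [hp', clique_apply hpos (hcl l), if_pos hv, top_act_self (fun h4 => hv' (h1 v h4)) hb]
  have e2 : ∀ u, u ∉ cl l → p' u = p.1 u := by
    intro u hu
    rw [hp', clique_apply hpos (hcl l), if_neg hu]
  refine ⟨fun u hu => ?_, fun l₂ hl₂ v hv hv' => ?_, ?_⟩
  · by_contra hu'
    rcases a3 u hu' with ⟨v, b1, b2, b3⟩ | ⟨b1, b2⟩
    · have b4 := hu.2 v (by rintro rfl; exact hu' b1) b3
      rw [e1 v b1 b2, e2 u hu'] at b4
      have := top_le_lev (fun h5 => b3 h5.symm) p.1
      omega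
    · have b3 : Agree G u p' p.1 := fun w hw => e2 w fun h5 => hw (b2 w h5)
      exact b1 (h1 u (b3.exp.1 hu))
  · obtain ⟨u, b1, b2, b3⟩ := a4 l₂ (fun h5 => hl₂ (by rw [h5])) v hv hv'
    have b4 := top_le_lev b3 p'
    have b5 := h2 l hl u b1 b2
    rw [e1 u b1 b2] at b4
    omega
  · have b4 := top_le_ht p' v₀
    have b5 := h2 l hl v₀ a1 a2
    rw [e1 v₀ a1 a2] at b4
    omega

end GP

end Crest.Agent.R185
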