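import Crest.Agent.R185.HNNDef

/-!
# Row 185: reduced words for multiple HNN extensions with links (van der Waerden's trick)
-/

set_option autoImplicit false

namespace Crest.Agent.R185

/-- Words `γ₁ T₁ ⋯ γₙ Tₙ x`. -/
inductive HW (Γ κ Ω : Type) : Type
  | pt (x : Ω) : HW Γ κ Ω
  | cons (γ : Γ) (l : κ × Bool) (w : HW Γ κ Ω) : HW Γ κ Ω

namespace HW
variable {Γ κ Ω : Type}

/-- The word attached to a list and a point. -/
def mk : List (Γ × κ × Bool) → Ω → HW Γ κ Ω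
  | [], x => pt x
  | p :: l, x => cons p.1 p.2 (mk l x)

theorem mk_anchor : type_of% @mk.eq_def := @mk.eq_def

@[simp] theorem mk_nil (x : Ω) : mk ([] : List (Γ × κ × Bool)) x = pt x := rfl
@[simp] theorem mk_cons (p : Γ × κ × Bool) (l : List (Γ × κ × Bool)) (x : Ω) :
    mk (p :: l) x = cons p.1 p.2 (mk l x) := rfl

theorem exists_mk (w : HW Γ κ Ω) : ∃ l x, w = mk l x := by
  induction w with
  | pt x => exact ⟨[], x, rfl⟩
  | cons γ l w ih =>
    obtain ⟨l', x, rfl⟩ := ih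
    exact ⟨(γ, l) :: l', x, rfl⟩

/-- The potential. -/
def pot (ν : Γ → ℕ) (μ : Ω → ℕ) : HW Γ κ Ω → ℕ
  | pt x => μ x
  | cons γ _ w => ν γ + 1 + pot ν μ w

theorem pot_anchor : type_of% @pot.eq_def := @pot.eq_def

theorem pot_mk (ν : Γ → ℕ) (μ : Ω → ℕ) (l : List (Γ × κ × Bool)) (x : Ω) :
    pot ν μ (mk l x) = (l.map fun p => ν p.1 + 1).sum + μ x := by
  induction l with
  | nil => simp [pot]
  | cons p l ih => simp only [mk_cons, pot, ih, List.map_cons, List.sum_cons]; omega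

theorem le_pot_mk (ν : Γ → ℕ) (μ : Ω → ℕ) (l : List (Γ × κ × Bool)) (x : Ω) :
    (∀ p ∈ l, ν p.1 ≤ pot ν μ (mk l x)) ∧ μ x ≤ pot ν μ (mk l x) := by
  induction l with
  | nil => simp [pot]
  | cons p l ih =>
    simp only [mk_cons, pot, List.mem_cons]
    refine ⟨?_, by omega⟩
    rintro q (rfl | hq)
    · omega
    · have := ih.1 q hq; omega

/-- The end point of an empty word. -/
def pt? : HW Γ κ Ω → Option Ω
  | pt x => some x
  | cons _ _ _ => none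

variable [Group Γ] [MulAction Γ Ω]

/-- Multiplication of the head. -/
def hm (γ : Γ) : HW Γ κ Ω → HW Γ κ Ω
  | pt x => pt (γ • x)
  | cons γ' l w => cons (γ * γ') l w

@[simp] theorem hm_pt (γ : Γ) (x : Ω) : hm γ (pt x : HW Γ κ Ω) = pt (γ • x) := rfl
@[simp] theorem hm_cons (γ γ' : Γ) (l : κ × Bool) (w : HW Γ κ Ω) :
    hm γ (cons γ' l w) = cons (γ * γ') l w := rfl

@[simp] theorem hm_one (w : HW Γ κ Ω) : hm 1 w = w := by cases w <;> simp

theorem hm_hm (γ γ' : Γ) (w : HW Γ κ Ω) : hm γ (hm γ' w) = hm (γ * γ') w := by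
  cases w <;> simp [mul_smul, mul_assoc]

theorem pot_hm {ν : Γ → ℕ} (hν : IsSN ν) {μ : Ω → ℕ} (hμ : ∀ γ x, μ (γ • x) ≤ ν γ + μ x) (γ : Γ)
    (w : HW Γ κ Ω) : pot ν μ (hm γ w) ≤ ν γ + pot ν μ w := by
  cases w with
  | pt x => exact hμ γ x
  | cons γ' l w => have := hν.mul γ γ'; simp only [hm_cons, pot]; omega

end HW

namespace Links
open HW
variable {Γ κ Ω : Type} [Group Γ] [MulAction Γ Ω] {D : HD Γ κ} (Λ : Links D Ω)

theorem L'_not {k : κ} {b : Bool} {x y : Ω} : Λ.L' (k, !b) y x ↔ Λ.L' (k, b) x y := by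
  cases b <;> rfl

theorem L'_func {l : κ × Bool} {x y y' : Ω} (h : Λ.L' l x y) (h' : Λ.L' l x y') : y = y' := by
  rcases l with ⟨k, _ | _⟩
  · exact Λ.inj k _ _ _ h h'
  · exact Λ.func k _ _ _ h h'

theorem L'_equiv {k : κ} {b : Bool} {x y : Ω} (h : Λ.L' (k, b) x y) (f : D.F k) :
    Λ.L' (k, b) (D.a k b f • x) (D.a k (!b) f • y) := by
  cases b
  · exact Λ.equiv k _ _ f h
  · exact Λ.equiv k _ _ f h

/-- The letter `l` cancels against the head of the word. -/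
def Pin (l : κ × Bool) : HW Γ κ Ω → Prop
  | .pt x => x ∈ Λ.dom l
  | .cons γ l' _ => l' = (l.1, !l.2) ∧ γ ∈ D.E l

/-- Reduced words. -/
def RedW : HW Γ κ Ω → Prop
  | .pt _ => True
  | .cons _ l w => ¬ Λ.Pin l w ∧ RedW w

theorem RedW_anchor : type_of% @RedW.eq_def := @RedW.eq_def

theorem red_iff (l : List (Γ × κ × Bool)) (x : Ω) : Λ.Red l x ↔ Λ.RedW (HW.mk l x) := by
  induction l with
  | nil => simp [Red, HD.NoPinch, RedW]
  | cons p l ih =>
    rw [mk_cons, RedW, ← ih]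
    cases l with
    | nil => simp [Red, HD.NoPinch, Pin]
    | cons q l =>
      simp only [Red, HD.NoPinch, List.isChain_cons_cons, List.getLast?_cons_cons, mk_cons, Pin,
        not_and, and_assoc]

theorem redW_hm (γ : Γ) (w : HW Γ κ Ω) : Λ.RedW (hm γ w) ↔ Λ.RedW w := by
  cases w <;> rfl

theorem pin_hm {k : κ} {b : Bool} (f : D.F k) {w : HW Γ κ Ω} (h : Λ.Pin (k, b) w) :
    Λ.Pin (k, b) (hm (D.a k b f) w) := by
  cases w with
  | pt x =>
    obtain ⟨y, hy⟩ := h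
    exact ⟨_, Λ.L'_equiv hy f⟩
  | cons γ l w => exact ⟨h.1, mul_mem ⟨f, rfl⟩ h.2⟩

theorem pin_hm_iff {k : κ} {b : Bool} (f : D.F k) {w : HW Γ κ Ω} :
    Λ.Pin (k, b) (hm (D.a k b f) w) ↔ Λ.Pin (k, b) w := by
  refine ⟨fun h => ?_, Λ.pin_hm f⟩
  have := Λ.pin_hm f⁻¹ h
  rwa [hm_hm, ← map_mul, inv_mul_cancel, map_one, hm_one] at this

open Classical in
/-- The action of a signed letter on words. -/
noncomputable def Tact (l : κ × Bool) : HW Γ κ Ω → HW Γ κ Ω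
  | .pt x => if h : ∃ y, Λ.L' l x y then .pt h.choose else .cons 1 l (.pt x)
  | .cons γ l' w => if h : l' = (l.1, !l.2) ∧ ∃ f, D.a l.1 l.2 f = γ then
      hm (D.a l.1 (!l.2) h.2.choose) w else .cons 1 l (.cons γ l' w)

theorem Tact_link {l : κ × Bool} {x y : Ω} (h : Λ.L' l x y) : Λ.Tact l (.pt x) = .pt y := by
  have h' : ∃ y, Λ.L' l x y := ⟨y, h⟩
  rw [Tact, dif_pos h', Λ.L'_func h'.choose_spec h]

theorem Tact_pinch (k : κ) (b : Bool) (f : D.F k) (w : HW Γ κ Ω) :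
    Λ.Tact (k, b) (.cons (D.a k b f) (k, !b) w) = hm (D.a k (!b) f) w := by
  have h' : (k, !b) = ((k, b).1, !(k, b).2) ∧ ∃ f', D.a (k, b).1 (k, b).2 f' = D.a k b f :=
    ⟨rfl, f, rfl⟩
  rw [Tact, dif_pos h', D.inj _ _ h'.2.choose_spec]

theorem Tact_cons {l : κ × Bool} {w : HW Γ κ Ω} (h : ¬ Λ.Pin l w) : Λ.Tact l w = .cons 1 l w := by
  cases w with
  | pt x => exact dif_neg h
  | cons γ l' w => exact dif_neg h

theorem pin_cases (k : κ) (b : Bool) (w : HW Γ κ Ω) :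
    ¬ Λ.Pin (k, b) w ∨ (∃ x y, w = .pt x ∧ Λ.L' (k, b) x y) ∨
      ∃ f w', w = .cons (D.a k b f) (k, !b) w' := by
  by_cases h : Λ.Pin (k, b) w
  · refine Or.inr ?_
    cases w with
    | pt x => obtain ⟨y, hy⟩ := h; exact Or.inl ⟨x, y, rfl, hy⟩
    | cons γ l w => obtain ⟨rfl, f, rfl⟩ := h; exact Or.inr ⟨f, w, rfl⟩
  · exact Or.inl h

theorem redW_Tact (l : κ × Bool) {w : HW Γ κ Ω} (h : Λ.RedW w) : Λ.RedW (Λ.Tact l w) := by
  obtain ⟨k, b⟩ := l
  rcases Λ.pin_cases k b w with h' | ⟨x, y, rfl, h'⟩ | ⟨f, w', rfl⟩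
  · rw [Λ.Tact_cons h']; exact ⟨h', h⟩
  · rw [Λ.Tact_link h']; trivial
  · rw [Tact_pinch, redW_hm]; exact h.2

theorem pot_Tact {ν : Γ → ℕ} (hν : IsSN ν) (he : ∀ k b f, ν (D.a k (!b) f) ≤ ν (D.a k b f) + 2)
    {μ : Ω → ℕ} (hμ : ∀ γ x, μ (γ • x) ≤ ν γ + μ x)
    (hL : ∀ k x y, Λ.L k x y → μ y ≤ μ x + 1 ∧ μ x ≤ μ y + 1) (l : κ × Bool) (w : HW Γ κ Ω) :
    pot ν μ (Λ.Tact l w) ≤ 1 + pot ν μ w := by
  obtain ⟨k, b⟩ := l
  rcases Λ.pin_cases k b w with h' | ⟨x, y, rfl, h'⟩ | ⟨f, w', rfl⟩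
  · rw [Λ.Tact_cons h']; simp [pot, hν.one]
  · rw [Λ.Tact_link h']
    simp only [pot]
    cases b
    · have := (hL k _ _ h').2; omega
    · have := (hL k _ _ h').1; omega
  · rw [Tact_pinch]
    have h1 := pot_hm hν hμ (D.a k (!b) f) w'
    have h2 := he k b f
    simp only [pot]
    omega

/-- Evaluation of words in the free extension. -/
def ev : HW Γ κ Ω → Λ.X
  | .pt x => Λ.j x
  | .cons γ l w => (D.of γ * D.T l) • ev w

theorem ev_anchor : type_of% @ev.eq_def := @ev.eq_def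

theorem ev_mk (l : List (Γ × κ × Bool)) (x : Ω) : Λ.ev (HW.mk l x) = D.prod l • Λ.j x := by
  induction l with
  | nil => simp [ev]
  | cons p l ih => rw [mk_cons, ev, ih, HD.prod_cons, mul_smul (_ * _)]

theorem ev_hm (γ : Γ) (w : HW Γ κ Ω) : Λ.ev (hm γ w) = D.of γ • Λ.ev w := by
  cases w with
  | pt x => exact Λ.j_smul γ x
  | cons γ' l w => simp only [hm_cons, ev, map_mul, mul_smul]

theorem ev_Tact (l : κ × Bool) (w : HW Γ κ Ω) : Λ.ev (Λ.Tact l w) = D.T l • Λ.ev w := by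
  obtain ⟨k, b⟩ := l
  rcases Λ.pin_cases k b w with h' | ⟨x, y, rfl, h'⟩ | ⟨f, w', rfl⟩
  · rw [Λ.Tact_cons h', ev, map_one, one_mul]
  · rw [Λ.Tact_link h']; exact (Λ.j_link' h').symm
  · rw [Tact_pinch, ev_hm, ev, ← mul_smul, D.T_not, ← mul_assoc, D.T_conj]

/-- Sliding an element of an edge group through a stable letter. -/
inductive Sl (D : HD Γ κ) : HW Γ κ Ω → HW Γ κ Ω → Prop
  | head (γ : Γ) (k : κ) (b : Bool) (f : D.F k) (w : HW Γ κ Ω) :
      Sl D (.cons γ (k, b) (hm (D.a k b f) w)) (.cons (γ * D.a k (!b) f) (k, b) w)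
  | tail (γ : Γ) (l : κ × Bool) {w w' : HW Γ κ Ω} : Sl D w w' → Sl D (.cons γ l w) (.cons γ l w')

theorem Sl.hm {w w' : HW Γ κ Ω} (h : Sl D w w') (γ : Γ) : Sl D (hm γ w) (hm γ w') := by
  cases h with
  | head γ' k b f w => simp only [hm_cons, ← mul_assoc]; exact .head _ k b f w
  | tail γ' l h => exact .tail _ l h

theorem Sl.pt? {w w' : HW Γ κ Ω} (h : Sl D w w') : w.pt? = w'.pt? := by
  cases h <;> rfl

theorem Sl.pin {w w' : HW Γ κ Ω} (h : Sl D w w') (l : κ × Bool) : Λ.Pin l w ↔ Λ.Pin l w' := by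
  cases h with
  | head γ' k b f w =>
    obtain ⟨k', b'⟩ := l
    refine and_congr_right fun e => ?_
    obtain ⟨rfl, rfl⟩ := Prod.mk.inj e
    exact (mul_mem_cancel_right (show _ ∈ D.E (k, b') from ⟨f, by simp⟩)).symm
  | tail γ' l h => rfl

theorem Sl.tact {w w' : HW Γ κ Ω} (h : Sl D w w') (l : κ × Bool) :
    Λ.Tact l w = Λ.Tact l w' ∨ Sl D (Λ.Tact l w) (Λ.Tact l w') := by
  by_cases hp : Λ.Pin l w
  · obtain ⟨k', b'⟩ := l
    cases h with
    | head γ' k b f w =>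
      obtain ⟨e, f', rfl⟩ := hp
      obtain ⟨rfl, rfl⟩ := Prod.mk.inj e
      left
      simp only [Bool.not_not]
      rw [← map_mul, Tact_pinch, Tact_pinch, hm_hm, map_mul]
    | tail γ' l h =>
      obtain ⟨rfl, f', rfl⟩ := hp
      right
      simp only
      rw [Tact_pinch, Tact_pinch]
      exact h.hm _
  · rw [Λ.Tact_cons hp, Λ.Tact_cons fun h' => hp ((h.pin Λ l).2 h')]
    exact Or.inr (.tail _ _ h)

/-- Reduced words modulo sliding. -/
def NF : Type := Quot fun w w' : {w : HW Γ κ Ω // Λ.RedW w} => Sl D w.1 w'.1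

/-- The class of a reduced word. -/
def nf (w : HW Γ κ Ω) (h : Λ.RedW w) : Λ.NF := Quot.mk _ ⟨w, h⟩

theorem nf_congr {w w' : HW Γ κ Ω} {h : Λ.RedW w} {h' : Λ.RedW w'} (e : w = w' ∨ Sl D w w') :
    Λ.nf w h = Λ.nf w' h' := by
  rcases e with rfl | e
  · rfl
  · exact Quot.sound e

theorem nf_pt? {w w' : HW Γ κ Ω} {h : Λ.RedW w} {h' : Λ.RedW w'} (e : Λ.nf w h = Λ.nf w' h') :
    w.pt? = w'.pt? :=
  congrArg (Quot.lift (fun w : {w : HW Γ κ Ω // Λ.RedW w} => w.1.pt?) fun _ _ h => h.pt?) e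

/-- Action of the base group on normal forms. -/
def hmQ (γ : Γ) : Λ.NF → Λ.NF :=
  Quot.lift (fun w => Λ.nf (hm γ w.1) ((Λ.redW_hm γ _).2 w.2))
    fun _ _ h => Λ.nf_congr (Or.inr (h.hm γ))

/-- Action of the letters on normal forms. -/
noncomputable def TQ (l : κ × Bool) : Λ.NF → Λ.NF :=
  Quot.lift (fun w => Λ.nf (Λ.Tact l w.1) (Λ.redW_Tact l w.2)) fun _ _ h => Λ.nf_congr (h.tact Λ l)

theorem TQ_TQ (k : κ) (b : Bool) (q : Λ.NF) : Λ.TQ (k, !b) (Λ.TQ (k, b) q) = q := by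
  induction q using Quot.inductionOn with
  | h w =>
    obtain ⟨w, hw⟩ := w
    have key : Λ.Tact (k, !b) (Λ.Tact (k, b) w) = w ∨ Sl D (Λ.Tact (k, !b) (Λ.Tact (k, b) w)) w := by
      rcases Λ.pin_cases k b w with h' | ⟨x, y, rfl, h'⟩ | ⟨f, w', rfl⟩
      · have := Λ.Tact_pinch k (!b) 1 w
        rw [map_one, map_one, Bool.not_not, hm_one] at this
        rw [Λ.Tact_cons h', this]
        exact Or.inl rfl
      · rw [Λ.Tact_link h', Λ.Tact_link (Λ.L'_not.2 h')]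
        exact Or.inl rfl
      · rw [Tact_pinch, Λ.Tact_cons fun h => hw.1 ((Λ.pin_hm_iff f).1 h)]
        have := Sl.head (D := D) 1 k (!b) f w'
        rw [one_mul, Bool.not_not] at this
        exact Or.inr this
    exact Λ.nf_congr key

/-- The base group acts on normal forms. -/
def ofPerm : Γ →* Equiv.Perm Λ.NF where
  toFun γ :=
    { toFun := Λ.hmQ γ
      invFun := Λ.hmQ γ⁻¹
      left_inv := fun q => by
        induction q using Quot.inductionOn with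
        | h w => exact Λ.nf_congr (Or.inl (by rw [hm_hm, inv_mul_cancel, hm_one]))
      right_inv := fun q => by
        induction q using Quot.inductionOn with
        | h w => exact Λ.nf_congr (Or.inl (by rw [hm_hm, mul_inv_cancel, hm_one])) }
  map_one' := Equiv.ext fun q => by
    induction q using Quot.inductionOn with
    | h w => exact Λ.nf_congr (Or.inl (hm_one _))
  map_mul' γ γ' := Equiv.ext fun q => by
    induction q using Quot.inductionOn with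
    | h w => exact Λ.nf_congr (Or.inl (hm_hm _ _ _).symm)

/-- The letters act on normal forms. -/
noncomputable def tPerm (k : κ) : Equiv.Perm Λ.NF where
  toFun := Λ.TQ (k, true)
  invFun := Λ.TQ (k, false)
  left_inv := Λ.TQ_TQ k true
  right_inv := Λ.TQ_TQ k false

theorem tPerm_conj (k : κ) (f : D.F k) :
    Λ.tPerm k * Λ.ofPerm (D.a k true f) * (Λ.tPerm k)⁻¹ = Λ.ofPerm (D.a k false f) := by
  rw [mul_inv_eq_iff_eq_mul]
  refine Equiv.ext fun q => ?_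
  induction q using Quot.inductionOn with
  | h w =>
    obtain ⟨w, hw⟩ := w
    have key : Λ.Tact (k, true) (hm (D.a k true f) w) = hm (D.a k false f) (Λ.Tact (k, true) w) ∨
        Sl D (Λ.Tact (k, true) (hm (D.a k true f) w)) (hm (D.a k false f) (Λ.Tact (k, true) w)) := by
      rcases Λ.pin_cases k true w with h' | ⟨x, y, rfl, h'⟩ | ⟨f', w', rfl⟩
      · rw [Λ.Tact_cons h', Λ.Tact_cons fun h => h' ((Λ.pin_hm_iff f).1 h), hm_cons]
        have := Sl.head (D := D) 1 k true f w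
        rw [one_mul] at this
        rw [mul_one]
        exact Or.inr this
      · rw [hm_pt, Λ.Tact_link h', Λ.Tact_link (Λ.L'_equiv h' f)]
        exact Or.inl rfl
      · rw [hm_cons, ← map_mul, Tact_pinch, Tact_pinch, hm_hm, map_mul]
        exact Or.inl rfl
    exact Λ.nf_congr key

/-- The action of the HNN extension on normal forms. -/
noncomputable def nfHom : D.MH →* Equiv.Perm Λ.NF := D.lift Λ.ofPerm Λ.tPerm Λ.tPerm_conj

theorem nfHom_of (γ : Γ) (w : HW Γ κ Ω) (h : Λ.RedW w) :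
    Λ.nfHom (D.of γ) (Λ.nf w h) = Λ.nf (hm γ w) ((Λ.redW_hm γ _).2 h) := rfl

theorem nfHom_T (l : κ × Bool) (w : HW Γ κ Ω) (h : Λ.RedW w) :
    Λ.nfHom (D.T l) (Λ.nf w h) = Λ.nf (Λ.Tact l w) (Λ.redW_Tact l h) := by
  rcases l with ⟨k, _ | _⟩
  · rw [HD.T_false, map_inv, nfHom, HD.lift_t]; rfl
  · rw [HD.T_true, nfHom, HD.lift_t]; rfl

theorem nfHom_prod (l : List (Γ × κ × Bool)) (x : Ω) (h : Λ.RedW (HW.mk l x)) :
    Λ.nfHom (D.prod l) (Λ.nf (.pt x) trivial) = Λ.nf (HW.mk l x) h := by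
  induction l with
  | nil => simp
  | cons p l ih =>
    rw [HD.prod_cons, map_mul, map_mul, Equiv.Perm.mul_apply, Equiv.Perm.mul_apply, ih h.2, nfHom_T,
      nfHom_of]
    exact Λ.nf_congr (Or.inl (by rw [Λ.Tact_cons h.1, hm_cons, mul_one, mk_cons]))

theorem pt?_of_eq {l : List (Γ × κ × Bool)} {x y : Ω} (h : Λ.Red l x)
    (e : D.prod l • Λ.j x = Λ.j y) : (HW.mk l x).pt? = some y := by
  let _ : MulAction D.MH Λ.NF := MulAction.compHom Λ.NF Λ.nfHom
  have h1 : D.prod l • Λ.nf (.pt x) trivial = Λ.nf (.pt y) trivial :=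
    Λ.univ (fun x => Λ.nf (.pt x) trivial) (fun _ _ => rfl) (fun k x y hL => by
      change Λ.nfHom (D.T (k, true)) _ = _
      rw [nfHom_T]
      exact Λ.nf_congr (Or.inl (Λ.Tact_link hL))) e
  change Λ.nfHom _ _ = _ at h1
  rw [Λ.nfHom_prod l x ((Λ.red_iff l x).1 h)] at h1
  exact Λ.nf_pt? h1

/-- Applying a list of syllables to a word. -/
noncomputable def app (l : List (Γ × κ × Bool)) (w : HW Γ κ Ω) : HW Γ κ Ω :=
  l.foldr (fun p w => hm p.1 (Λ.Tact p.2 w)) w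

theorem app_cons (p : Γ × κ × Bool) (l : List (Γ × κ × Bool)) (w : HW Γ κ Ω) :
    Λ.app (p :: l) w = hm p.1 (Λ.Tact p.2 (Λ.app l w)) := rfl

theorem redW_app (l : List (Γ × κ × Bool)) {w : HW Γ κ Ω} (h : Λ.RedW w) : Λ.RedW (Λ.app l w) := by
  induction l with
  | nil => exact h
  | cons p l ih => rw [app_cons, redW_hm]; exact Λ.redW_Tact _ ih

theorem ev_app (l : List (Γ × κ × Bool)) (w : HW Γ κ Ω) :
    Λ.ev (Λ.app l w) = D.prod l • Λ.ev w := by
  induction l with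
  | nil => exact (one_smul _ _).symm
  | cons p l ih => rw [app_cons, ev_hm, ev_Tact, ih, HD.prod_cons, mul_smul, mul_smul]

theorem pot_app {ν : Γ → ℕ} (hν : IsSN ν) (he : ∀ k b f, ν (D.a k (!b) f) ≤ ν (D.a k b f) + 2)
    {μ : Ω → ℕ} (hμ : ∀ γ x, μ (γ • x) ≤ ν γ + μ x)
    (hL : ∀ k x y, Λ.L k x y → μ y ≤ μ x + 1 ∧ μ x ≤ μ y + 1) (l : List (Γ × κ × Bool))
    (w : HW Γ κ Ω) : pot ν μ (Λ.app l w) ≤ (l.map fun p => ν p.1 + 1).sum + pot ν μ w := by
  induction l with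
  | nil => simp [app]
  | cons p l ih =>
    have h1 := pot_hm hν hμ p.1 (Λ.Tact p.2 (Λ.app l w))
    have h2 := Λ.pot_Tact hν he hμ hL p.2 (Λ.app l w)
    rw [app_cons, List.map_cons, List.sum_cons]
    omega

end Links

namespace HD
variable {Γ κ : Type} [Group Γ] (D : HD Γ κ)

theorem of_mul_prod (γ : Γ) (l : List (Γ × κ × Bool)) (γ' : Γ) :
    ∃ l' γ'', D.of γ * (D.prod l * D.of γ') = D.prod l' * D.of γ'' ∧
      ∀ ν : Γ → ℕ, IsSN ν → (l'.map fun p => ν p.1 + 1).sum + ν γ'' ≤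
        ν γ + ((l.map fun p => ν p.1 + 1).sum + ν γ') := by
  cases l with
  | nil => exact ⟨[], γ * γ', by simp, fun ν hν => by simpa using hν.mul γ γ'⟩
  | cons p l =>
    refine ⟨(γ * p.1, p.2) :: l, γ', by simp [mul_assoc], fun ν hν => ?_⟩
    have := hν.mul γ p.1
    simp only [List.map_cons, List.sum_cons]
    omega

theorem exists_prod (g : D.MH) : ∃ l γ, g = D.prod l * D.of γ := by
  have hg : g ∈ Subgroup.closure (Set.range D.of ∪ Set.range D.t) := by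
    rw [D.closure_eq_top]; trivial
  have h1 : ∀ γ y, (∃ l γ, y = D.prod l * D.of γ) → ∃ l γ', D.of γ * y = D.prod l * D.of γ' := by
    rintro γ _ ⟨l, γ', rfl⟩
    obtain ⟨l', γ'', h, -⟩ := D.of_mul_prod γ l γ'
    exact ⟨l', γ'', h⟩
  have h2 : ∀ s y, (∃ l γ, y = D.prod l * D.of γ) → ∃ l γ', D.T s * y = D.prod l * D.of γ' := by
    rintro s _ ⟨l, γ', rfl⟩
    exact ⟨(1, s) :: l, γ', by simp [mul_assoc]⟩
  induction hg using Subgroup.closure_induction_left with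
  | one => exact ⟨[], 1, by simp⟩
  | mul_left x hx y _ ih =>
    rcases hx with ⟨γ, rfl⟩ | ⟨k, rfl⟩
    · exact h1 γ y ih
    · exact h2 (k, true) y ih
  | inv_mul_cancel x hx y _ ih =>
    rcases hx with ⟨γ, rfl⟩ | ⟨k, rfl⟩
    · rw [← map_inv]; exact h1 γ⁻¹ y ih
    · exact h2 (k, false) y ih

theorem nu_le (ν : Γ → ℕ) (l : List (Γ × κ × Bool)) (γ : Γ) :
    D.nu ν (D.prod l * D.of γ) ≤ (l.map fun p => ν p.1 + 1).sum + ν γ :=
  Nat.sInf_le ⟨l, γ, rfl, rfl⟩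

theorem exists_nu (ν : Γ → ℕ) (g : D.MH) :
    ∃ l γ, g = D.prod l * D.of γ ∧ D.nu ν g = (l.map fun p => ν p.1 + 1).sum + ν γ := by
  obtain ⟨l, γ, h⟩ := D.exists_prod g
  exact Nat.sInf_mem (s := {n | ∃ l γ, g = D.prod l * D.of γ ∧
    n = (l.map fun p => ν p.1 + 1).sum + ν γ}) ⟨_, l, γ, h, rfl⟩

/-- Products of conjugates of letters. -/
def cprod (l : List (Γ × κ × Bool)) : D.MH := (l.map fun p => D.of p.1 * D.T p.2 * (D.of p.1)⁻¹).prod

@[simp] theorem cprod_nil : D.cprod [] = 1 := rfl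
@[simp] theorem cprod_cons (p : Γ × κ × Bool) (l : List (Γ × κ × Bool)) :
    D.cprod (p :: l) = D.of p.1 * D.T p.2 * (D.of p.1)⁻¹ * D.cprod l := rfl

theorem cprod_append (l l' : List (Γ × κ × Bool)) : D.cprod (l ++ l') = D.cprod l * D.cprod l' := by
  simp [cprod]

theorem cprod_conj (γ : Γ) (l : List (Γ × κ × Bool)) :
    D.cprod (l.map fun p => (γ * p.1, p.2)) = D.of γ * D.cprod l * (D.of γ)⁻¹ := by
  induction l with
  | nil => simp
  | cons p l ih => simp only [List.map_cons, cprod_cons, ih, map_mul]; group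

theorem cprod_inv (l : List (Γ × κ × Bool)) :
    D.cprod (l.map fun p => (p.1, p.2.1, !p.2.2)).reverse = (D.cprod l)⁻¹ := by
  induction l with
  | nil => simp
  | cons p l ih =>
    simp only [List.map_cons, List.reverse_cons, cprod_append, cprod_cons, ih, cprod_nil, T_not]
    group

theorem exists_cprod (g : D.MH) : ∃ l γ, g = D.cprod l * D.of γ := by
  obtain ⟨l, γ, rfl⟩ := D.exists_prod g
  induction l with
  | nil => exact ⟨[], γ, rfl⟩
  | cons p l ih =>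
    obtain ⟨l', γ', h⟩ := ih
    refine ⟨p :: l'.map fun q => (p.1 * q.1, q.2), p.1 * γ', ?_⟩
    rw [prod_cons, mul_assoc, h, cprod_cons, cprod_conj, map_mul]
    group

/-- No links. -/
def noLinks : Links D Γ where
  L _ _ _ := False
  func _ _ _ _ h := h.elim
  inj _ _ _ _ h := h.elim
  equiv _ _ _ _ h := h

theorem noLinks_red (l : List (Γ × κ × Bool)) (γ : Γ) : D.noLinks.Red l γ ↔ D.NoPinch l := by
  refine ⟨fun h => h.1, fun h => ⟨h, ?_⟩⟩
  rintro ⟨_, _, _ | _⟩ _ ⟨_, h⟩ <;> exact h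

theorem noLinks_j (γ : Γ) : D.noLinks.j γ = D.of γ • D.noLinks.j 1 := by
  rw [← Links.j_smul, smul_eq_mul, mul_one]

theorem noLinks_eq {g g' : D.MH} {γ : Γ} (h : g • D.noLinks.j 1 = g' • D.noLinks.j γ) :
    g = g' * D.of γ := by
  rw [← inv_smul_eq_iff, ← mul_smul] at h
  have := D.noLinks.univ (Z := D.MH) D.of (fun γ x => map_mul _ γ x) (fun _ _ _ h => h.elim) h
  rw [map_one, smul_eq_mul, mul_one] at this
  rw [← this, mul_inv_cancel_left]

variable {K : Subgroup Γ} {fix : Set κ}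

/-- The links on cosets of `K`. -/
def cosLinks (h : D.Fixes K fix) : Links D (Γ ⧸ K) where
  L k x y := k ∈ fix ∧ ∃ f, x = (D.a k true f : Γ) ∧ y = (D.a k false f : Γ)
  func := by
    rintro k _ _ _ ⟨hk, f, rfl, rfl⟩ ⟨-, f', e, rfl⟩
    rw [QuotientGroup.eq, ← map_inv, ← map_mul] at e ⊢
    exact (h k hk _).1 e
  inj := by
    rintro k _ _ _ ⟨hk, f, rfl, rfl⟩ ⟨-, f', rfl, e⟩
    rw [QuotientGroup.eq, ← map_inv, ← map_mul] at e ⊢
    exact (h k hk _).2 e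
  equiv := by
    rintro k _ _ f' ⟨hk, f, rfl, rfl⟩
    exact ⟨hk, f' * f, by rw [map_mul]; rfl, by rw [map_mul]; rfl⟩

theorem cosLinks_red (h : D.Fixes K fix) (l : List (Γ × κ × Bool)) (γ : Γ) :
    (D.cosLinks h).Red l (γ : Γ ⧸ K) ↔ D.RedK K fix l γ := by
  refine and_congr_right fun _ => forall₂_congr fun p _ => ?_
  obtain ⟨γ', k, b⟩ := p
  constructor
  · rintro h1 hk _ ⟨f, rfl⟩ h2
    refine h1 ⟨(D.a k (!b) f : Γ), ?_⟩
    cases b
    · exact ⟨hk, f, rfl, (QuotientGroup.eq.2 h2).symm⟩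
    · exact ⟨hk, f, (QuotientGroup.eq.2 h2).symm, rfl⟩
  · rintro h1 ⟨y, hy⟩
    cases b
    · obtain ⟨hk, f, -, e⟩ := hy
      exact h1 hk _ ⟨f, rfl⟩ (QuotientGroup.eq.1 e.symm)
    · obtain ⟨hk, f, e, -⟩ := hy
      exact h1 hk _ ⟨f, rfl⟩ (QuotientGroup.eq.1 e.symm)

theorem cosLinks_j (h : D.Fixes K fix) (γ : Γ) :
    (D.cosLinks h).j (γ : Γ ⧸ K) = D.of γ • (D.cosLinks h).j ((1 : Γ) : Γ ⧸ K) := by
  rw [← Links.j_smul, MulAction.Quotient.smul_coe, smul_eq_mul, mul_one]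

theorem cosLinks_stab (h : D.Fixes K fix) (g : D.MH) :
    g • (D.cosLinks h).j ((1 : Γ) : Γ ⧸ K) = (D.cosLinks h).j ((1 : Γ) : Γ ⧸ K) ↔
      g ∈ D.Kt K fix := by
  constructor
  · intro e
    let c : Γ ⧸ K → D.MH ⧸ D.Kt K fix := fun x => Quotient.liftOn' x
      (fun γ => ((D.of γ : D.MH) : D.MH ⧸ D.Kt K fix)) fun a b hab => by
        rw [QuotientGroup.leftRel_apply] at hab
        rw [QuotientGroup.eq, ← map_inv, ← map_mul]
        exact Subgroup.subset_closure (Or.inl ⟨_, hab, rfl⟩)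
    have hc : ∀ γ : Γ, c (γ : Γ ⧸ K) = (D.of γ : D.MH) := fun _ => rfl
    have := (D.cosLinks h).univ c (fun γ x => by
      induction x using QuotientGroup.induction_on with
      | H γ' =>
        rw [MulAction.Quotient.smul_coe, hc, hc, MulAction.Quotient.smul_coe, smul_eq_mul,
          smul_eq_mul, map_mul]) (by
      rintro k _ _ ⟨hk, f, rfl, rfl⟩
      rw [hc, hc, MulAction.Quotient.smul_coe, smul_eq_mul, eq_comm, QuotientGroup.eq,
        ← D.t_conj k f]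
      have : (D.t k * D.of (D.a k true f) * (D.t k)⁻¹)⁻¹ * (D.t k * D.of (D.a k true f)) = D.t k := by
        group
      rw [this]
      exact Subgroup.subset_closure (Or.inr ⟨k, hk, rfl⟩)) e
    rw [hc, map_one, MulAction.Quotient.smul_coe, smul_eq_mul, mul_one, eq_comm,
      QuotientGroup.eq] at this
    simpa using this
  · intro hg
    refine (Subgroup.closure_le (MulAction.stabilizer D.MH
      ((D.cosLinks h).j ((1 : Γ) : Γ ⧸ K)))).2 ?_ hg
    rintro _ (⟨γ, hγ, rfl⟩ | ⟨k, hk, rfl⟩)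
    · rw [SetLike.mem_coe, MulAction.mem_stabilizer_iff, ← cosLinks_j]
      congr 1
      rw [eq_comm, QuotientGroup.eq]
      simpa using hγ
    · exact (D.cosLinks h).j_link ⟨hk, 1, by rw [map_one], by rw [map_one]⟩

theorem cosLinks_eq (h : D.Fixes K fix) {g g' : D.MH} {γ : Γ} :
    g • (D.cosLinks h).j ((1 : Γ) : Γ ⧸ K) = g' • (D.cosLinks h).j (γ : Γ ⧸ K) ↔
      (g' * D.of γ)⁻¹ * g ∈ D.Kt K fix := by
  rw [D.cosLinks_j h γ, ← mul_smul, ← inv_smul_eq_iff, ← mul_smul, cosLinks_stab]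

end HD

namespace HW
variable {Γ κ Ω : Type} [Group Γ] [MulAction Γ Ω]

/-- The word attached to a list of conjugates. -/
def cw : List (Γ × κ × Bool) → Ω → HW Γ κ Ω
  | [], x => pt x
  | p :: c, x => cons p.1 p.2 (hm p.1⁻¹ (cw c x))

theorem cw_anchor : type_of% @cw.eq_def := @cw.eq_def

theorem cw_eq_mk {ν : Γ → ℕ} (hν : IsSN ν) {n : ℕ} (c : List (Γ × κ × Bool))
    (hc : ∀ p ∈ c, ν p.1 ≤ n) (x : Ω) (q₀ : Γ) (h₀ : ν q₀ ≤ n) :
    ∃ l q, hm q₀⁻¹ (cw c x) = mk l (q⁻¹ • x) ∧ (∀ p ∈ l, ν p.1 ≤ 2 * n) ∧ ν q ≤ n ∧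
      (l = [] → q = q₀) := by
  induction c generalizing q₀ with
  | nil => exact ⟨[], q₀, rfl, by simp, h₀, fun _ => rfl⟩
  | cons p c ih =>
    have hp := hc p List.mem_cons_self
    obtain ⟨l, q, h1, h2, h3, -⟩ := ih (fun p' hp' => hc p' (List.mem_cons_of_mem _ hp')) p.1 hp
    refine ⟨(q₀⁻¹ * p.1, p.2) :: l, q, by rw [cw, hm_cons, h1, mk_cons], ?_, h3, by simp⟩
    intro p' hp'
    rcases List.mem_cons.1 hp' with rfl | hp'
    · have := hν.mul q₀⁻¹ p.1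
      rw [hν.inv] at this
      simp only
      omega
    · exact h2 p' hp'

end HW

namespace Links
open HW
variable {Γ κ Ω : Type} [Group Γ] [MulAction Γ Ω]

theorem ev_cw {D : HD Γ κ} (Λ : Links D Ω) (c : List (Γ × κ × Bool)) (x : Ω) :
    Λ.ev (cw c x) = D.cprod c • Λ.j x := by
  induction c with
  | nil => exact (one_smul _ _).symm
  | cons p c ih => rw [cw, ev, ev_hm, ih, HD.cprod_cons, map_inv, ← mul_smul, ← mul_smul]

theorem exists_cw {E : κ → Subgroup Γ} (Λ : Links (HD.central E) Ω) {ν : Γ → ℕ} {n : ℕ}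
    {Good : Ω → Prop} (hG : ∀ l q x y, Good x → ν q ≤ n → Λ.L' l (q⁻¹ • x) y → Good (q • y))
    (c : List (Γ × κ × Bool)) (hc : ∀ p ∈ c, ν p.1 ≤ n) (x : Ω) (hx : Good x) :
    ∃ c' x', Λ.RedW (cw c' x') ∧ Λ.ev (cw c x) = Λ.ev (cw c' x') ∧ (∀ p ∈ c', ν p.1 ≤ n) ∧
      Good x' := by
  induction c with
  | nil => exact ⟨[], x, trivial, rfl, by simp, hx⟩
  | cons p c ih =>
    obtain ⟨c', x', h1, h2, h3, h4⟩ := ih fun p' hp' => hc p' (List.mem_cons_of_mem _ hp')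
    have hp := hc p List.mem_cons_self
    obtain ⟨q, k, b⟩ := p
    have e : Λ.ev (cw ((q, k, b) :: c) x) = Λ.ev (hm q (Λ.Tact (k, b) (hm q⁻¹ (cw c' x')))) := by
      rw [cw, ev, ev_hm, h2, ev_hm, ev_Tact, ev_hm, mul_smul]
    rw [e]
    rcases Λ.pin_cases k b (hm q⁻¹ (cw c' x')) with h' | ⟨x₁, y, e₁, h'⟩ | ⟨f, w', e₁⟩
    · refine ⟨(q, k, b) :: c', x', ⟨h', (Λ.redW_hm _ _).2 h1⟩, ?_, ?_, h4⟩
      · rw [Λ.Tact_cons h', hm_cons, mul_one, cw]
      · intro p' hp'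
        rcases List.mem_cons.1 hp' with rfl | hp'
        exacts [hp, h3 p' hp']
    · cases c' with
      | nil =>
        obtain rfl : q⁻¹ • x' = x₁ := HW.pt.inj e₁
        exact ⟨[], q • y, trivial, by rw [e₁, Λ.Tact_link h']; rfl, by simp, hG _ q x' y h4 hp h'⟩
      | cons p' c' => cases e₁
    · cases c' with
      | nil => cases e₁
      | cons p' c' =>
        rw [cw, hm_cons] at e₁
        obtain ⟨e₂, -, rfl⟩ := HW.cons.inj e₁
        refine ⟨c', x', (Λ.redW_hm _ _).1 h1.2, ?_,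
          fun p'' hp'' => h3 p'' (List.mem_cons_of_mem _ hp''), h4⟩
        rw [cw, hm_cons, e₁, Tact_pinch, hm_hm, hm_hm]
        have e₃ : (HD.central E).a k (!b) f = q⁻¹ * p'.1 := e₂.symm
        rw [e₃, mul_inv_cancel_left, mul_inv_cancel, hm_one]

end Links

theorem HNNAux_exists_hom {ι : Type} (X : MG ι) {Z : Type} [Group Z] (z : ι → Z)
    (h : ∀ w, X.ev w = 1 → evW z w = 1) : ∃ f : X.G →* Z, ∀ w, f (X.ev w) = evW z w := by
  have key : ∀ v w, X.ev v = X.ev w → evW z v = evW z w := fun v w e => by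
    have := h (v ++ w.inv) (by rw [MG.ev, evW_append, evW_inv, mul_inv_eq_one]; exact e)
    rwa [evW_append, evW_inv, mul_inv_eq_one] at this
  choose s hs using X.surj
  refine ⟨MonoidHom.mk' (fun g => evW z (s g)) fun a b => ?_, fun w => key _ _ (hs _)⟩
  rw [← evW_append]
  exact key _ _ (by rw [MG.ev, MG.ev, evW_append, hs, hs, hs])

end Crest.Agent.R185
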