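import Crest.Agent.R185.Basic

/-!
# Row 185: multiple HNN extensions and free extensions of actions (definitions, easy API)
-/

set_option autoImplicit false

namespace Crest.Agent.R185

/-- Data of a multiple HNN extension of `Γ` with stable letters `κ`: the letter `k` conjugates
`a k true f` to `a k false f`. -/
structure HD (Γ : Type) [Group Γ] (κ : Type) where
  F : κ → Type
  [grp : ∀ k, Group (F k)]
  a : ∀ k, Bool → F k →* Γ
  inj : ∀ k b, Function.Injective (a k b)

attribute [instance] HD.grp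

namespace HD
variable {Γ κ : Type} [Group Γ] (D : HD Γ κ)

/-- The defining relators. -/
def rels : Set (Monoid.Coprod Γ (FreeGroup κ)) :=
  {r | ∃ k f, r = Monoid.Coprod.inr (FreeGroup.of k) * Monoid.Coprod.inl (D.a k true f) *
    (Monoid.Coprod.inr (FreeGroup.of k))⁻¹ * (Monoid.Coprod.inl (D.a k false f))⁻¹}

/-- The multiple HNN extension. -/
def MH : Type := Monoid.Coprod Γ (FreeGroup κ) ⧸ Subgroup.normalClosure D.rels

instance : Group D.MH :=
  inferInstanceAs (Group (Monoid.Coprod Γ (FreeGroup κ) ⧸ Subgroup.normalClosure D.rels))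

/-- The quotient map. -/
def qmk : Monoid.Coprod Γ (FreeGroup κ) →* D.MH := QuotientGroup.mk' _

/-- The base group. -/
def of : Γ →* D.MH := D.qmk.comp Monoid.Coprod.inl

/-- The stable letters. -/
def t (k : κ) : D.MH := D.qmk (Monoid.Coprod.inr (FreeGroup.of k))

/-- Signed stable letters. -/
def T (l : κ × Bool) : D.MH := bif l.2 then D.t l.1 else (D.t l.1)⁻¹

@[simp] theorem T_true (k : κ) : D.T (k, true) = D.t k := rfl
@[simp] theorem T_false (k : κ) : D.T (k, false) = (D.t k)⁻¹ := rfl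

theorem T_not (k : κ) (b : Bool) : D.T (k, !b) = (D.T (k, b))⁻¹ := by
  cases b <;> simp

theorem t_conj (k : κ) (f : D.F k) :
    D.t k * D.of (D.a k true f) * (D.t k)⁻¹ = D.of (D.a k false f) := by
  rw [← mul_inv_eq_one]
  have : D.qmk (Monoid.Coprod.inr (FreeGroup.of k) * Monoid.Coprod.inl (D.a k true f) *
    (Monoid.Coprod.inr (FreeGroup.of k))⁻¹ * (Monoid.Coprod.inl (D.a k false f))⁻¹) = 1 :=
    (QuotientGroup.eq_one_iff _).2 (Subgroup.subset_normalClosure ⟨k, f, rfl⟩)
  simp only [map_mul, map_inv] at this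
  exact this

theorem T_conj (k : κ) (b : Bool) (f : D.F k) :
    D.T (k, b) * D.of (D.a k b f) * (D.T (k, b))⁻¹ = D.of (D.a k (!b) f) := by
  cases b
  · simp only [T_false, Bool.not_false, ← D.t_conj k f]; group
  · exact D.t_conj k f

/-- The universal property. -/
def lift {Z : Type*} [Group Z] (φ : Γ →* Z) (s : κ → Z)
    (h : ∀ k f, s k * φ (D.a k true f) * (s k)⁻¹ = φ (D.a k false f)) : D.MH →* Z :=
  QuotientGroup.lift _ (Monoid.Coprod.lift φ (FreeGroup.lift s)) (by
    intro x hx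
    refine Subgroup.normalClosure_le_normal (N := (Monoid.Coprod.lift φ (FreeGroup.lift s)).ker)
      ?_ hx
    rintro _ ⟨k, f, rfl⟩
    simp [MonoidHom.mem_ker, h k f])

@[simp] theorem lift_of {Z : Type*} [Group Z] (φ : Γ →* Z) (s : κ → Z) (h) (γ : Γ) :
    D.lift φ s h (D.of γ) = φ γ := rfl

@[simp] theorem lift_t {Z : Type*} [Group Z] (φ : Γ →* Z) (s : κ → Z) (h) (k : κ) :
    D.lift φ s h (D.t k) = s k := by
  change Monoid.Coprod.lift φ (FreeGroup.lift s) (Monoid.Coprod.inr (FreeGroup.of k)) = s k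
  simp

theorem closure_eq_top : Subgroup.closure (Set.range D.of ∪ Set.range D.t) = ⊤ := by
  rw [eq_top_iff]
  rintro g -
  obtain ⟨x, rfl⟩ : ∃ x, D.qmk x = g := QuotientGroup.mk'_surjective _ g
  induction x using Monoid.Coprod.induction_on with
  | inl γ => exact Subgroup.subset_closure (Or.inl ⟨γ, rfl⟩)
  | inr w =>
    induction w using FreeGroup.induction_on with
    | C1 => simp
    | of k => exact Subgroup.subset_closure (Or.inr ⟨k, rfl⟩)
    | inv_of k h => rw [map_inv, map_inv]; exact inv_mem h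
    | mul x y hx hy => rw [map_mul, map_mul]; exact mul_mem hx hy
  | mul x y hx hy => rw [map_mul]; exact mul_mem hx hy

theorem hom_ext {Z : Type*} [Group Z] {φ ψ : D.MH →* Z} (h₁ : ∀ γ, φ (D.of γ) = ψ (D.of γ))
    (h₂ : ∀ k, φ (D.t k) = ψ (D.t k)) : φ = ψ := by
  refine MonoidHom.eq_of_eqOn_dense D.closure_eq_top ?_
  rintro _ (⟨γ, rfl⟩ | ⟨k, rfl⟩)
  exacts [h₁ γ, h₂ k]

/-- The edge group of a signed letter. -/
def E (l : κ × Bool) : Subgroup Γ := (D.a l.1 l.2).range

/-- The product `γ₁ T₁ γ₂ T₂ ⋯ γₙ Tₙ`. -/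
def prod (l : List (Γ × κ × Bool)) : D.MH := (l.map fun p => D.of p.1 * D.T p.2).prod

@[simp] theorem prod_nil : D.prod [] = 1 := rfl
@[simp] theorem prod_cons (p : Γ × κ × Bool) (l : List (Γ × κ × Bool)) :
    D.prod (p :: l) = D.of p.1 * D.T p.2 * D.prod l := rfl

/-- No pinches. -/
def NoPinch (l : List (Γ × κ × Bool)) : Prop :=
  l.IsChain fun p q => q.2 = (p.2.1, !p.2.2) → q.1 ∉ D.E p.2

/-- The sum norm: stable letters have weight `1`. -/
noncomputable def nu (ν : Γ → ℕ) (g : D.MH) : ℕ :=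
  sInf {n | ∃ l γ, g = D.prod l * D.of γ ∧ n = (l.map fun p => ν p.1 + 1).sum + ν γ}

/-- The depth norm: stable letters have weight `0`, only the depth of conjugators (seen from both
ends) counts. -/
noncomputable def dnu (ν : Γ → ℕ) (g : D.MH) : ℕ :=
  sInf {n | ∃ (l : List (Γ × κ × Bool)) (γ : Γ),
    g = (l.map fun p => D.of p.1 * D.T p.2 * (D.of p.1)⁻¹).prod * D.of γ ∧
      (∀ p ∈ l, ν p.1 ≤ n ∧ ν (γ⁻¹ * p.1) ≤ n) ∧ ν γ ≤ n}

/-- The subgroup generated by `K` and the stable letters in `fix`. -/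
def Kt (K : Subgroup Γ) (fix : Set κ) : Subgroup D.MH :=
  Subgroup.closure (D.of '' K ∪ D.t '' fix)

/-- The letters in `fix` are compatible with `K`. -/
def Fixes (K : Subgroup Γ) (fix : Set κ) : Prop :=
  ∀ k ∈ fix, ∀ f, D.a k true f ∈ K ↔ D.a k false f ∈ K

/-- `γ₁ T₁ ⋯ γₙ Tₙ γ` is reduced modulo `Kt K fix`. -/
def RedK (K : Subgroup Γ) (fix : Set κ) (l : List (Γ × κ × Bool)) (γ : Γ) : Prop :=
  D.NoPinch l ∧ ∀ p ∈ l.getLast?, p.2.1 ∈ fix → ∀ e ∈ D.E p.2, e⁻¹ * γ ∉ K

/-- HNN data in which the letter `k` centralises the subgroup `E k`. -/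
def central (E : κ → Subgroup Γ) : HD Γ κ where
  F k := E k
  a k _ := (E k).subtype
  inj k _ := (E k).subtype_injective

end HD

/-- The marking of an HNN extension of a marked group. -/
def MG.hnn {ι κ : Type} (X : MG ι) (D : HD X.G κ) : MG (ι ⊕ κ) where
  G := D.MH
  gen := Sum.elim (fun i => D.of (X.gen i)) D.t
  surj g := by
    rw [← mem_closure_range_iff]
    have hg : g ∈ Subgroup.closure (Set.range D.of ∪ Set.range D.t) := by
      rw [D.closure_eq_top]; trivial
    refine (Subgroup.closure_le _).2 ?_ hg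
    rintro _ (⟨γ, rfl⟩ | ⟨k, rfl⟩)
    · obtain ⟨w, rfl⟩ := X.surj γ
      exact (mem_closure_range_iff _ _).2 ⟨ren Sum.inl w, by rw [evW_ren, map_evW]; rfl⟩
    · exact Subgroup.subset_closure ⟨Sum.inr k, rfl⟩

theorem MG.hnn_ev_inl {ι κ : Type} (X : MG ι) (D : HD X.G κ) (w : Word ι) :
    (X.hnn D).ev (ren Sum.inl w) = D.of (X.ev w) := by
  rw [MG.ev, evW_ren, map_evW]; rfl

/-- Links: partial equivariant injections prescribing the action of the stable letters. -/
structure Links {Γ κ : Type} [Group Γ] (D : HD Γ κ) (Ω : Type) [MulAction Γ Ω] where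
  L : κ → Ω → Ω → Prop
  func : ∀ k x y y', L k x y → L k x y' → y = y'
  inj : ∀ k x x' y, L k x y → L k x' y → x = x'
  equiv : ∀ k x y f, L k x y → L k (D.a k true f • x) (D.a k false f • y)

namespace Links
variable {Γ κ Ω : Type} [Group Γ] [MulAction Γ Ω] {D : HD Γ κ} (Λ : Links D Ω)

/-- Links of signed letters. -/
def L' (l : κ × Bool) (x y : Ω) : Prop := bif l.2 then Λ.L l.1 x y else Λ.L l.1 y x

/-- The domain of a signed letter. -/
def dom (l : κ × Bool) : Set Ω := {x | ∃ y, Λ.L' l x y}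

/-- The generating relation of the free extension. -/
inductive Rel : D.MH × Ω → D.MH × Ω → Prop
  | of (g : D.MH) (γ : Γ) (x : Ω) : Rel (g * D.of γ, x) (g, γ • x)
  | t (g : D.MH) (k : κ) (x y : Ω) : Λ.L k x y → Rel (g * D.t k, x) (g, y)

/-- The free extension of the action to the HNN extension. -/
def X : Type := Quot Λ.Rel

instance : MulAction D.MH Λ.X where
  smul g := Quot.map (fun p => (g * p.1, p.2)) (by
    rintro _ _ (⟨g', γ, x⟩ | ⟨g', k, x, y, h⟩)
    · simpa [← mul_assoc] using Rel.of (g * g') γ x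
    · simpa [← mul_assoc] using Rel.t (g * g') k x y h)
  one_smul x := by
    induction x using Quot.inductionOn with
    | h p => change Quot.mk _ (1 * p.1, p.2) = _; simp
  mul_smul g g' x := by
    induction x using Quot.inductionOn with
    | h p => change Quot.mk _ (g * g' * p.1, p.2) = Quot.mk _ (g * (g' * p.1), p.2); rw [mul_assoc]

/-- The inclusion of the original action. -/
def j (x : Ω) : Λ.X := Quot.mk _ (1, x)

theorem smul_j (g : D.MH) (x : Ω) : g • Λ.j x = Quot.mk _ (g, x) := by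
  change Quot.mk _ (g * 1, x) = _; rw [mul_one]

theorem j_smul (γ : Γ) (x : Ω) : Λ.j (γ • x) = D.of γ • Λ.j x := by
  rw [smul_j]
  exact (Quot.sound (by simpa using Rel.of (Λ := Λ) 1 γ x)).symm

theorem j_link {k : κ} {x y : Ω} (h : Λ.L k x y) : D.t k • Λ.j x = Λ.j y := by
  rw [smul_j]
  exact Quot.sound (by simpa using Rel.t 1 k x y h)

theorem j_link' {l : κ × Bool} {x y : Ω} (h : Λ.L' l x y) : D.T l • Λ.j x = Λ.j y := by
  rcases l with ⟨k, _ | _⟩
  · rw [HD.T_false, inv_smul_eq_iff]; exact (Λ.j_link h).symm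
  · exact Λ.j_link h

/-- The universal property of the free extension. -/
theorem univ {Z : Type*} [MulAction D.MH Z] (c : Ω → Z) (h₁ : ∀ γ x, c (γ • x) = D.of γ • c x)
    (h₂ : ∀ k x y, Λ.L k x y → D.t k • c x = c y) {g : D.MH} {x y : Ω}
    (h : g • Λ.j x = Λ.j y) : g • c x = c y := by
  let F : Λ.X → Z := Quot.lift (fun p => p.1 • c p.2) (by
    rintro _ _ (⟨g', γ, x⟩ | ⟨g', k, x, y, h⟩)
    · simp [mul_smul, h₁]
    · simp [mul_smul, h₂ k x y h])
  have := congrArg F h
  rw [smul_j] at this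
  simpa [F, j] using this

/-- `γ₁ T₁ ⋯ γₙ Tₙ • x` is reduced. -/
def Red (l : List (Γ × κ × Bool)) (x : Ω) : Prop :=
  D.NoPinch l ∧ ∀ p ∈ l.getLast?, x ∉ Λ.dom p.2

end Links

end Crest.Agent.R185
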