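import Crest.Agent.R185.HigmanA

/-!
# Row 185: the subgroup `⟨A₁, g A₀ g⁻¹⟩` of a central HNN extension; the Higman rope
-/

set_option autoImplicit false

namespace Crest.Agent.R185

namespace Hig

section TC

variable {G : Type} [Group G]

/-- One stable letter which centralises `B`. -/
abbrev cen (B : Subgroup G) : HD G Unit := HD.central fun _ => B

theorem cen_comm (B : Subgroup G) {e : G} (he : e ∈ B) :
    (cen B).t () * (cen B).of e * ((cen B).t ())⁻¹ = (cen B).of e :=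
  (cen B).t_conj () (⟨e, he⟩ : B)

/-- Base points of two coset spaces. -/
def pt (A : Bool → Subgroup G) (b : Bool) : Σ b, G ⧸ A b := ⟨b, ((1 : G) : G ⧸ A b)⟩

theorem smul_pt (A : Bool → Subgroup G) (γ : G) (b : Bool) :
    γ • pt A b = ⟨b, (γ : G ⧸ A b)⟩ := by
  change (⟨b, ((γ * 1 : G) : G ⧸ A b)⟩ : Σ b, G ⧸ A b) = _
  rw [mul_one]

theorem smul_pt_eq {A : Bool → Subgroup G} {γ γ' : G} {i i' : Bool} :
    γ • pt A i = γ' • pt A i' ↔ i = i' ∧ γ⁻¹ * γ' ∈ A i := by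
  rw [smul_pt, smul_pt]
  constructor
  · intro h
    obtain ⟨rfl, h⟩ := Sigma.mk.inj h
    exact ⟨rfl, QuotientGroup.eq.1 (eq_of_heq h)⟩
  · rintro ⟨rfl, h⟩
    rw [QuotientGroup.eq.2 h]

theorem exists_pt {A : Bool → Subgroup G} (x : Σ b, G ⧸ A b) : ∃ (γ : G) (i : Bool),
    x = γ • pt A i := by
  obtain ⟨i, x⟩ := x
  obtain ⟨γ, rfl⟩ := QuotientGroup.mk_surjective x
  exact ⟨γ, i, (smul_pt A γ i).symm⟩

variable {B : Subgroup G} {A : Bool → Subgroup G}

/-- The stable letter moves the `B`-orbit of one base point to the `B`-orbit of the other. -/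
def tcL (h : ∀ b ∈ B, b ∈ A true ↔ b ∈ A false) : Links (cen B) (Σ b, G ⧸ A b) where
  L _ x y := ∃ e ∈ B, x = e • pt A false ∧ y = e • pt A true
  func := by
    rintro _ _ _ _ ⟨e, he, rfl, rfl⟩ ⟨e', he', h1, rfl⟩
    exact smul_pt_eq.2 ⟨rfl, (h _ (B.mul_mem (B.inv_mem he) he')).2 (smul_pt_eq.1 h1).2⟩
  inj := by
    rintro _ _ _ _ ⟨e, he, rfl, rfl⟩ ⟨e', he', rfl, h1⟩
    exact smul_pt_eq.2 ⟨rfl, (h _ (B.mul_mem (B.inv_mem he) he')).1 (smul_pt_eq.1 h1).2⟩
  equiv := by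
    rintro _ _ _ f ⟨e, he, rfl, rfl⟩
    exact ⟨(f : B).1 * e, B.mul_mem (f : B).2 he, (mul_smul _ _ _).symm, (mul_smul _ _ _).symm⟩

/-- Conjugation of the base group by the stable letter. -/
def cof (B : Subgroup G) : G →* (cen B).MH :=
  (MulAut.conj ((cen B).t ())).toMonoidHom.comp (cen B).of

theorem cof_apply (B : Subgroup G) (γ : G) :
    cof B γ = (cen B).t () * (cen B).of γ * ((cen B).t ())⁻¹ := rfl

/-- The subgroup `⟨A₁, g A₀ g⁻¹⟩`. -/
def St (B : Subgroup G) (A : Bool → Subgroup G) : Subgroup (cen B).MH :=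
  (A true).map (cen B).of ⊔ (A false).map (cof B)

theorem tc_link (h : ∀ b ∈ B, b ∈ A true ↔ b ∈ A false) :
    (cen B).t () • (tcL h).j (pt A false) = (tcL h).j (pt A true) :=
  (tcL h).j_link ⟨1, B.one_mem, (one_smul _ _).symm, (one_smul _ _).symm⟩

theorem stab_iff (h : ∀ b ∈ B, b ∈ A true ↔ b ∈ A false) (g : (cen B).MH) :
    g • (tcL h).j (pt A true) = (tcL h).j (pt A true) ↔ g ∈ St B A := by
  have hfix : ∀ i, ∀ a ∈ A i, (cen B).of a • (tcL h).j (pt A i) = (tcL h).j (pt A i) :=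
    fun i a ha => by
      rw [← Links.j_smul, smul_pt_eq.2 ⟨rfl, (by simpa using ha : a⁻¹ * 1 ∈ A i)⟩, one_smul]
  refine ⟨fun hg => ?_, fun hg => ?_⟩
  · choose γ i hγ using exists_pt (A := A)
    let τ : Bool → (cen B).MH := fun i => bif i then 1 else ((cen B).t ())⁻¹
    let c : (Σ b, G ⧸ A b) → (cen B).MH ⧸ St B A := fun x => ((cen B).of (γ x) * τ (i x) :)
    have hc : ∀ γ' i', c (γ' • pt A i') = (((cen B).of γ' * τ i' : (cen B).MH) : _ ⧸ St B A) := by
      intro γ' i'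
      obtain ⟨e1, e2⟩ := smul_pt_eq.1 (hγ (γ' • pt A i'))
      refine (QuotientGroup.eq.2 ?_).symm
      rw [← e1]
      cases i'
      · exact Subgroup.mem_sup_right ⟨_, e2, by simp [τ, cof_apply, mul_assoc]⟩
      · exact Subgroup.mem_sup_left ⟨_, e2, by simp [τ]⟩
    have key := (tcL h).univ c (fun γ' x => ?_) ?_ hg
    · have e := hc 1 true
      rw [one_smul] at e
      rw [e] at key
      simpa [τ] using (St B A).inv_mem (QuotientGroup.eq.1 key)
    · obtain ⟨γ'', i', rfl⟩ := exists_pt x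
      rw [← mul_smul, hc, hc, map_mul, mul_assoc]
      rfl
    · rintro _ _ _ ⟨e, he, rfl, rfl⟩
      rw [hc, hc]
      change (((cen B).t () * ((cen B).of e * ((cen B).t ())⁻¹) : (cen B).MH) : _ ⧸ St B A) = _
      rw [← mul_assoc, cen_comm B he]
      simp [τ]
  · refine (sup_le ?_ ?_ : St B A ≤ MulAction.stabilizer _ ((tcL h).j (pt A true))) hg
    · rintro _ ⟨a, ha, rfl⟩
      exact hfix true a ha
    · rintro _ ⟨a, ha, rfl⟩
      rw [MulAction.mem_stabilizer_iff, cof_apply, ← tc_link h, mul_smul, inv_smul_smul, mul_smul,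
        hfix false a ha]

theorem of_mem_St (h : ∀ b ∈ B, b ∈ A true ↔ b ∈ A false) (γ : G) :
    (cen B).of γ ∈ St B A ↔ γ ∈ A true := by
  rw [← stab_iff h, ← Links.j_smul, (tcL h).j_injective.eq_iff]
  have := smul_pt_eq (A := A) (γ := γ) (γ' := 1) (i := true) (i' := true)
  simpa using this

end TC

theorem ni_St {ι : Type} [Primcodable ι] {Y : MG ι} {B : Subgroup Y.G} {A : Bool → Subgroup Y.G}
    (h : ∀ b ∈ B, b ∈ A true ↔ b ∈ A false) (h1 : NI Y {1} B) (h2 : ∀ i, NI Y B (A i))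
    (h3 : NI Y {1} (A true)) (hmem : REPred fun w => (Y.hnn (cen B)).ev w ∈ St B A) :
    NI (Y.hnn (cen B)) (St B A : Set (cen B).MH) ⊥ := by
  have hdom : ∀ (b i : Bool) (γ : Y.G), γ • pt A i ∉ (tcL h).dom ((), b) ↔
      (i = !b → ∀ e ∈ B, e⁻¹ * γ ∉ A i) := fun b i γ => by
    have : γ • pt A i ∈ (tcL h).dom ((), b) ↔ ∃ e ∈ B, e • pt A (!b) = γ • pt A i := by
      cases b
      · exact ⟨fun ⟨_, e, he, _, h2⟩ => ⟨e, he, h2.symm⟩, fun ⟨e, he, h1⟩ => ⟨_, e, he, rfl, h1.symm⟩⟩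
      · exact ⟨fun ⟨_, e, he, h1, _⟩ => ⟨e, he, h1.symm⟩, fun ⟨e, he, h1⟩ => ⟨_, e, he, h1.symm, rfl⟩⟩
    rw [this]
    simp only [smul_pt_eq]
    exact ⟨fun h e1 e he hm => h ⟨e, he, e1.symm, e1 ▸ hm⟩,
      fun h ⟨e, he, e1, hm⟩ => h e1.symm e he (e1 ▸ hm)⟩
  have htrue : REPred fun _ : Word ι => True := re_of_primrecPred (Primrec.primrecPred (by
    simpa using Primrec.const true))
  refine ni_bot.2 ((Cert.triv_iff.1 (cert_links (𝒞 := Ctx.triv) (fun _ => Y) (fun _ => cen B)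
    (fun _ => Σ b, Y.G ⧸ A b) (fun _ => tcL h) (fun _ => pt A) true
    (fun i => bif i then [] else [(Sum.inr (), false)]) (fun _ i => ?_) (fun _ => {pt A true})
    (fun _ _ => 0) (fun _ _ => 0) (fun _ g => ?_) (fun l => Cert.triv_iff.2 ?_)
    (fun l i => Cert.triv_iff.2 ?_) (fun i => Cert.triv_iff.2 ?_)
    (Cert.triv_iff.2 (hmem.of_eq fun w => (stab_iff h _).symm)))).of_eq fun w => ?_)
  · cases i
    · have e : ((cen B).t ())⁻¹ • (tcL h).j (pt A true) = (tcL h).j (pt A false) :=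
        inv_smul_eq_iff.2 (tc_link h).symm
      exact (congrArg (fun g : (cen B).MH => g • (tcL h).j (pt A true))
        (evW_false (Y.hnn (cen B)).gen _)).trans e
    · exact one_smul (cen B).MH ((tcL h).j (pt A true))
  · obtain ⟨l, x, a1, a2⟩ := (tcL h).exists_red g (pt A true)
    obtain ⟨γ, i, rfl⟩ := exists_pt x
    exact ⟨l, i, γ, a1, a2, by simp⟩
  · exact (ni_one.1 h1).of_eq fun w => by rw [show (cen B).E l = B from B.range_subtype]
  · obtain ⟨_, b⟩ := l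
    by_cases hi : i = !b
    · exact (h2 i).of_eq fun w => by rw [hdom]; exact ⟨fun h _ => h, fun h => h hi⟩
    · exact htrue.of_eq fun w => by rw [hdom]; exact ⟨fun _ h => (hi h).elim, fun _ => trivial⟩
  · have : ∀ γ : Y.G, γ • pt A i ∉ ({pt A true} : Set (Σ b, Y.G ⧸ A b)) ↔
        (i = true → γ ∉ A i) := fun γ => by
      rw [Set.mem_singleton_iff, ← one_smul Y.G (pt A true), smul_pt_eq]
      simp
    cases i
    · exact htrue.of_eq fun w => by rw [this]; simp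
    · exact (ni_one.1 h3).of_eq fun w => by rw [this]; simp
  · rw [Set.image_singleton, Set.mem_singleton_iff, stab_iff]
    rfl

end Hig

end Crest.Agent.R185
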