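import Crest.Agent.R185.Mach
import Crest.Agent.R185.HigmanB

/-!
# Row 185: the theorems of Higman and Clapham
-/

set_option autoImplicit false

namespace Crest.Agent.R185

namespace Hig

theorem fg_range {G H : Type} [Group G] [Group H] [Group.FG G] (f : G →* H) : f.range.FG :=
  (Group.fg_iff_subgroup_fg _).1 inferInstance

theorem fg_map {G H : Type} [Group G] [Group H] {K : Subgroup G} (h : K.FG) (f : G →* H) :
    (K.map f).FG := by
  obtain ⟨S, rfl, hS⟩ := (Subgroup.fg_iff _).1 h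
  exact (Subgroup.fg_iff _).2 ⟨f '' S, (MonoidHom.map_closure f S).symm, hS.image f⟩

/-- The subgroup generated by the graph of `q` and the conjugate of `c` is a graph. -/
theorem fst_injOn {F Γ X : Type} [Group F] [Group Γ] [Group X] (c : F →* Γ)
    (hc : Function.Injective c) (q : F →* X) (K : Subgroup Γ) (hK : ∀ U, c U ∈ K → q U = 1)
    {x : X} (hx : ((1, x) : (cen K).MH × X) ∈ (((cen K).of.comp c).prod q).range ⊔
      (((cof K).comp c).prod 1).range) : x = 1 := by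
  let B : Subgroup (Γ × X) := K.prod ⊤
  let A : Bool → Subgroup (Γ × X) := fun b => (c.prod (bif b then q else 1)).range
  have h : ∀ b ∈ B, b ∈ A true ↔ b ∈ A false := fun b hb => by
    constructor <;> rintro ⟨U, rfl⟩
    · exact ⟨U, Prod.ext rfl (hK U hb.1).symm⟩
    · exact ⟨U, Prod.ext rfl (hK U hb.1)⟩
  let θ : (cen K).MH →* (cen B).MH := (cen K).lift ((cen B).of.comp (MonoidHom.inl Γ X))
    (fun _ => (cen B).t ()) fun _ f => cen_comm B ⟨(f : K).2, trivial⟩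
  have hθ : ∀ g y, Commute (θ g) (((cen B).of.comp (MonoidHom.inr Γ X)) y) := fun g y => by
    refine Subgroup.closure_induction (p := fun g _ => Commute (θ g) _) ?_ (by simp)
      (fun _ _ _ _ h1 h2 => by rw [map_mul]; exact h1.mul_left h2)
      (fun _ _ h => by rw [map_inv]; exact h.inv_left)
      ((cen K).closure_eq_top ▸ Subgroup.mem_top g)
    rintro _ (⟨γ, rfl⟩ | ⟨_, rfl⟩)
    · exact (MonoidHom.commute_inl_inr γ y).map (cen B).of
    · rw [HD.lift_t]
      exact mul_inv_eq_iff_eq_mul.1 (cen_comm B ⟨K.one_mem, trivial⟩)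
  have key : (((cen K).of.comp c).prod q).range ⊔ (((cof K).comp c).prod 1).range ≤
      (St B A).comap (θ.noncommCoprod _ hθ) := by
    refine sup_le ?_ ?_ <;> rintro _ ⟨U, rfl⟩
    · refine Subgroup.mem_sup_left ⟨_, ⟨U, rfl⟩, ?_⟩
      exact (congrArg (cen B).of (by simp)).trans (map_mul (cen B).of (c U, 1) (1, q U))
    · refine Subgroup.mem_sup_right ⟨_, ⟨U, rfl⟩, ?_⟩
      simp [θ, cof_apply, Prod.mk_one_one]
  have h1 := key hx
  rw [Subgroup.mem_comap, MonoidHom.noncommCoprod_apply, map_one, one_mul] at h1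
  obtain ⟨U, hU⟩ := (of_mem_St h _).1 h1
  rw [(map_eq_one_iff c hc).1 (congrArg Prod.fst hU), map_one] at hU
  exact (congrArg Prod.snd hU).symm

/-- From a benign subgroup to the embedding. -/
theorem of_benign {ι ι₁ : Type} [Primcodable ι] [Finite ι] [Primcodable ι₁] [Finite ι₁] (X : MG ι)
    (Γ : MG ι₁) (hΓ : RFP Γ ∅) (c : FreeGroup ι →* Γ.G) (hc : Function.Injective c)
    (K : Subgroup Γ.G) (hK : K.FG) (hm : ∀ U, c U ∈ K ↔ FreeGroup.lift X.gen U = 1) :
    ∃ (X' : MG (((ι₁ ⊕ Unit) ⊕ ι) ⊕ Unit)) (f : X.G →* X'.G), RFP X' ∅ ∧ Function.Injective f ∧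
      (NI X {1} ⊥ → NI4 Γ c.range K → NI X' {1} ⊥) := by
  have hT : RFP (Γ.hnn (cen K)) ∅ := by
    simpa using hΓ.hnn (cen K) fun _ => (Group.fg_iff_subgroup_fg K).2 hK
  let a₁ := ((cen K).of.comp c).prod (FreeGroup.lift X.gen)
  let a₀ := ((cof K).comp c).prod (1 : FreeGroup ι →* X.G)
  let H := a₁.range ⊔ a₀.range
  have : Group.FG H := (Group.fg_iff_subgroup_fg H).2 ((fg_range a₁).sup (fg_range a₀))
  let u : H →* (Γ.hnn (cen K)).G := (MonoidHom.fst _ _).comp H.subtype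
  let v : H →* X.G := (MonoidHom.snd _ _).comp H.subtype
  have hu : Function.Injective u := (injective_iff_map_eq_one u).2 fun ⟨⟨d, x⟩, hs⟩ h1 => by
    obtain rfl : d = 1 := h1
    obtain rfl := fst_injOn c hc _ K (fun U => (hm U).1) hs
    rfl
  have hX := rope hT X u hu v (a₁.codRestrict H fun U => Subgroup.mem_sup_left ⟨U, rfl⟩)
    (a₀.codRestrict H fun U => Subgroup.mem_sup_right ⟨U, rfl⟩)
    (fun i => FreeGroup.lift_apply_of) (fun _ => rfl) fun r hr => (cen_comm K ((hm _).2 hr)).symm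
  refine ⟨_, ghIn u hu v, hX, ghIn_injective u hu v, fun h1 ⟨h2, h3, h4, h5⟩ => ?_⟩
  have e : u.range = St K fun _ => c.range := by
    change ((MonoidHom.fst _ _).comp H.subtype).range = (_ : Subgroup (cen K).MH)
    rw [MonoidHom.range_comp, Subgroup.range_subtype, Subgroup.map_sup, MonoidHom.map_range,
      MonoidHom.map_range, St, MonoidHom.map_range, MonoidHom.map_range]
    rfl
  have a1 := ni_St (A := fun _ => c.range) (fun _ _ => Iff.rfl) h2 (fun _ => h3.symm)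
    (ni_one.2 (ni_bot.1 h5)) (re_mem hT.re_eq ((fg_map (fg_range c) _).sup (fg_map (fg_range c) _)))
  have a2 := h4.hnn_bot (cen K) (fun l => ni_bot.2 ((ni_one.1 h2).of_eq fun w => by
    rw [show (cen K).E l = K from K.range_subtype]; rfl)) hT.re_eq
  rw [Set.image_singleton, map_one] at a2
  have a3 := ni_gh_bot u hu v (e ▸ a1) hT.re_eq h1 a2 hX.re_eq h1
  rwa [Set.image_singleton, map_one] at a3

theorem exists_code {ι : Type} [Primcodable ι] {P : Word ι → Prop} (h : REPred P) :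
    ∃ j, ∀ x M, halts j x M ↔ P x := by
  obtain ⟨j, hj⟩ := Nat.Partrec.Code.exists_code.1
    (re_comp (α := Word ι × ℕ) h Computable.fst)
  refine ⟨j, fun x M => ?_⟩
  simp [halts, hj, Part.assert, Part.bind]

/-- The kernel of a recursively presented marked group is benign. -/
theorem benign {ι : Type} [Primcodable ι] [Finite ι] (X : MG ι) (h : REPred fun w => X.ev w = 1) :
    ∃ (ι₁ : Type) (_ : Primcodable ι₁) (_ : Finite ι₁) (Γ : MG ι₁) (c : FreeGroup ι →* Γ.G)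
      (K : Subgroup Γ.G), RFP Γ ∅ ∧ Function.Injective c ∧ K.FG ∧
      (∀ U, c U ∈ K ↔ FreeGroup.lift X.gen U = 1) ∧
      (NI X {1} ⊥ → NI4 Γ c.range K) := by
  obtain ⟨𝔐⟩ := exists_mach ι
  obtain ⟨j, hj⟩ := exists_code h
  let R := (FreeGroup.lift X.gen).ker
  let e := MonoidHom.id (FreeGroup ι)
  have he : Function.Injective e := Function.injective_id
  let D₀ := gh e he e
  have hR : ∀ f, e f ∈ (⊥ : Subgroup (FreeGroup ι)) → e f ∈ R := fun f hf => bot_le (a := R) hf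
  let K₀ := D₀.Kt ((⊥ : Subgroup (FreeGroup ι)).prod R) Set.univ
  let Mg := ((MG.free ι).prod (MG.free ι)).hnn D₀
  have hMg : RFP Mg ∅ := by
    simpa using ((rfp_free ι).prod (rfp_free ι)).hnn D₀ fun _ =>
      inferInstanceAs (Group.FG (FreeGroup ι))
  let πM : FreeGroup (Option ι) →* D₀.MH :=
    FreeGroup.lift fun o => o.elim (D₀.t ()) fun i => D₀.of (.of i, 1)
  have hπ : ∀ x, πM (Jx x) = ghIn e he e (.mk x) * D₀.t () := fun x => by
    have a1 : πM (.mk (ren some x)) = D₀.of (.mk x, 1) := by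
      refine (evW_ren _ some x).trans ?_
      rw [← evW_of]
      exact (map_evW (D₀.of.comp (MonoidHom.inl _ _)) FreeGroup.of x).symm
    have a2 : πM (.of none) = D₀.t () := FreeGroup.lift_apply_of
    have a3 : D₀.t () * D₀.of (.mk x, 1) * (D₀.t ())⁻¹ = D₀.of (.mk x, .mk x) :=
      gh_conj e he e (.mk x)
    rw [Jx, map_mul, map_mul, map_inv, a1, a2, mul_assoc, inv_mul_eq_iff_eq_mul, ← mul_assoc,
      ghIn_apply, ← map_mul, ← mul_inv_eq_iff_eq_mul]
    simpa using (a3 :)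
  have ht₀ : D₀.t () ∈ K₀ := Subgroup.subset_closure (Or.inr ⟨(), trivial, rfl⟩)
  let L := machL 𝔐.W 𝔐.pw 𝔐.z (𝔐.start j) {0}
  have hL : L.FG := (Subgroup.fg_iff _).2 ⟨_, rfl, ((List.finite_toSet _).image _).union
    ((Set.finite_singleton _).subset (by rintro _ ⟨_, rfl, rfl⟩; rfl))⟩
  have hFh : Group.FG 𝔐.Fh := (Group.fg_iff_subgroup_fg _).2
    ((Subgroup.fg_iff _).2 ⟨_, 𝔐.Fh_eq.symm, Set.finite_range _⟩)
  let u := 𝔐.Fh.subtype
  have hu : Function.Injective u := 𝔐.Fh.subtype_injective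
  let v : 𝔐.Fh →* Mg.G := πM.comp 𝔐.π
  have hLK : ∀ f, u f ∈ L → v f ∈ K₀ := fun f hf => by
    refine (Subgroup.closure_le (K₀.comap πM)).2 ?_ (𝔐.sound j {0} f hf)
    rintro _ ⟨_, -, x, hx, rfl⟩
    change πM _ ∈ K₀
    rw [hπ]
    exact mul_mem ((ghIn_mem e he e hR _).2 ((hj _ _).1 hx)) ht₀
  let D₁ := gh u hu v
  let K₁ := D₁.Kt (L.prod K₀) Set.univ
  have hW : RFP 𝔐.W ∅ := ⟨_, List.finite_toSet _, by simpa using 𝔐.pres⟩
  have hΓ : RFP ((𝔐.W.prod Mg).hnn D₁) ∅ := by simpa using (hW.prod hMg).hnn D₁ fun _ => hFh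
  have hK₁ : K₁.FG := by
    let K' : Subgroup D₁.MH := L.map (D₁.of.comp (MonoidHom.inl _ _)) ⊔
      Subgroup.closure {D₁.t (), ghIn u hu v (D₀.t ())}
    have b1 : ∀ l ∈ L, D₁.of (l, 1) ∈ K' := fun l hl => Subgroup.mem_sup_left ⟨l, hl, rfl⟩
    have b2 : D₁.t () ∈ K' := Subgroup.mem_sup_right (Subgroup.subset_closure (Or.inl rfl))
    have b3 : ghIn u hu v (D₀.t ()) ∈ K' :=
      Subgroup.mem_sup_right (Subgroup.subset_closure (Or.inr rfl))
    have b4 : ∀ l m, D₁.of (l, m) = D₁.of (l, 1) * ghIn u hu v m := fun l m =>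
      (congrArg D₁.of (by simp)).trans (map_mul D₁.of (l, 1) (1, m))
    have b5 : K₀ ≤ K'.comap (ghIn u hu v) := by
      refine (Subgroup.closure_le _).2 ?_
      rintro _ (⟨⟨_, r⟩, ⟨rfl, hr⟩, rfl⟩ | ⟨_, -, rfl⟩)
      · obtain ⟨x, rfl⟩ := (MG.free ι).surj r
        rw [show evW (MG.free ι).gen x = FreeGroup.mk x from evW_of x] at hr ⊢
        obtain ⟨f, hf, hx⟩ := 𝔐.complete 0 j x ((hj _ _).2 hr)
        have c1 := mul_mem (mul_mem b2 (b1 _ hf)) (inv_mem b2)
        have c2 : v f = (ghIn e he e (.mk x) * D₀.t () : D₀.MH) := (congrArg πM hx).trans (hπ x)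
        rw [show (f : 𝔐.W.G) = u f from rfl, gh_conj, b4, mul_mem_cancel_left (b1 (u f) hf),
          c2] at c1
        exact (mul_mem_cancel_right b3).1
          (map_mul (ghIn u hu v) (ghIn e he e (.mk x)) (D₀.t ()) ▸ c1)
      · exact b3
    have : K₁ = K' := by
      refine le_antisymm ((Subgroup.closure_le _).2 ?_) (sup_le ?_ ((Subgroup.closure_le _).2 ?_))
      · rintro _ (⟨⟨l, m⟩, ⟨hl, hm⟩, rfl⟩ | ⟨_, -, rfl⟩)
        · rw [SetLike.mem_coe, b4]
          exact mul_mem (b1 l hl) (b5 hm)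
        · exact b2
      · rintro _ ⟨l, hl, rfl⟩
        exact Subgroup.subset_closure (Or.inl ⟨(l, 1), ⟨hl, K₀.one_mem⟩, rfl⟩)
      · rintro _ (rfl | rfl)
        · exact Subgroup.subset_closure (Or.inr ⟨(), trivial, rfl⟩)
        · exact (ghIn_mem u hu v hLK _).2 ht₀
    rw [this]
    exact (fg_map hL _).sup ((Subgroup.fg_iff _).2 ⟨_, rfl, Set.toFinite _⟩)
  refine ⟨_, inferInstance, inferInstance, (𝔐.W.prod Mg).hnn D₁,
    (ghIn u hu v).comp (ghIn e he e), K₁, hΓ,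
    (ghIn_injective u hu v).comp (ghIn_injective e he e), hK₁,
    fun U => (ghIn_mem u hu v hLK _).trans (ghIn_mem e he e hR U), fun hX => ?_⟩
  have m₁ := re_mem hΓ.re_eq hK₁
  have m₀ : REPred fun w => Mg.ev w ∈ K₀ :=
    (re_comp m₁ ((primrec_ren Primrec.sumInl).comp (primrec_ren Primrec.sumInr)).to_comp).of_eq
      fun w => by
        rw [MG.hnn_ev_inl, MG.prod_ev_inr]
        exact ghIn_mem u hu v hLK _
  have f1 := (rfp_free ι).re_eq
  have f2 : NI (MG.free ι) {1} ⊥ := ni_free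
  have f3 : NI4 (MG.free ι) (e.range : Set (FreeGroup ι)) ⊥ := by
    rw [MonoidHom.range_eq_top.2 Function.surjective_id]
    exact ⟨f2, ni_univ _ _, f2, ni_univ _ _⟩
  have f4 : NI (MG.free ι) {1} R := ni_one.2 ((ni_one.1 hX).of_eq fun w => by
    rw [MG.free_ev]; rfl)
  have g := NI4.gh (Y := MG.free ι) (Z := MG.free ι) e he e hR f3 f1 f1 hMg.re_eq m₀
    ⟨f4, ni_univ _ _, f2, ni_univ _ _⟩
  have hS : ComputablePred (· ∈ ({0} : Set ℕ)) :=
    (Primrec.eq.comp Primrec.id (Primrec.const 0)).computablePred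
  have cj : Computable fun w : Word 𝔐.ιW => (j, w) := (Computable.const j).pair Computable.id
  have w : NI4 𝔐.W u.range L := by
    rw [show u.range = 𝔐.Fh from 𝔐.Fh.range_subtype]
    have w1 := re_comp (𝔐.re_L _ hS) cj
    have w2 := re_comp (𝔐.re_FhL _ hS) cj
    exact ⟨ni_one.2 w1, w2, ni_bot.2 𝔐.re_ne, ni_bot.2 𝔐.re_Fh⟩
  have k := NI4.gh u hu v hLK w hW.re_eq (re_mem hW.re_eq hL) hΓ.re_eq m₁ g
  refine (congrArg (fun S : Set D₁.MH => NI4 ((𝔐.W.prod Mg).hnn D₁) S K₁) (Set.ext fun y => ?_)).mp k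
  exact ⟨fun ⟨_, ⟨U, _, h1⟩, h2⟩ => ⟨U, (congrArg (ghIn u hu v) h1).trans h2⟩,
    fun ⟨U, h⟩ => ⟨_, ⟨U, trivial, rfl⟩, h⟩⟩

end Hig

/-- Higman's embedding theorem, with Clapham's addendum on the word problem. -/
theorem higman {ι : Type} [Primcodable ι] [Finite ι] (X : MG ι)
    (h : REPred fun w => X.ev w = 1) :
    ∃ (ι' : Type) (_ : Primcodable ι') (_ : Finite ι') (X' : MG ι') (R : List (Word ι'))
      (f : X.G →* X'.G), Pres X' {r | r ∈ R} ∧ Function.Injective f ∧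
      ((REPred fun w => X.ev w ≠ 1) → REPred fun w => X'.ev w ≠ 1) := by
  obtain ⟨ι₁, _, _, Γ, c, K, hΓ, hc, hK, hm, hre⟩ := Hig.benign X h
  obtain ⟨X', f, ⟨T, hT, hX'⟩, hf, hre'⟩ := Hig.of_benign X Γ hΓ c hc K hK hm
  refine ⟨_, inferInstance, inferInstance, X', hT.toFinset.toList, f, by simpa using hX', hf,
    fun hX => ?_⟩
  exact Hig.ni_bot.1 (hre' (Hig.ni_bot.2 hX) (hre (Hig.ni_bot.2 hX)))

end Crest.Agent.R185
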