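import Crest.Agent.R185.HNNCert
import Crest.Agent.R185.PresLib

/-!
# Row 185: tools for the theorems of Higman and Clapham

Relatively finite presentations, recursively enumerable non-membership, graph extensions.
-/

set_option autoImplicit false

namespace Crest.Agent.R185

namespace Hig

variable {ι ι' κ : Type}

/-! ### Finite presentations -/

/-- Finitely presented up to the relators `T₀`. -/
def RFP (Y : MG ι) (T₀ : Set (Word ι)) : Prop := ∃ T : Set (Word ι), T.Finite ∧ Pres Y (T ∪ T₀)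

theorem exists_gens (H : Type) [Group H] [h : Group.FG H] :
    ∃ (n : ℕ) (z : Fin n → H), ∀ f, ∃ U, evW z U = f := by
  obtain ⟨S, hS⟩ := h.1
  refine ⟨S.card, fun i => S.equivFin.symm i, fun f => (mem_closure_range_iff _ f).1 ?_⟩
  refine Subgroup.closure_mono (h := (S : Set H)) (fun x hx => Set.mem_range.2
    ⟨S.equivFin ⟨x, hx⟩, by simp⟩) ?_
  rw [hS]
  trivial

theorem rfp_free (ι : Type) : RFP (MG.free ι) ∅ := ⟨∅, Set.finite_empty, by simpa using pres_free ι⟩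

theorem rfp_rel (Y : MG ι) : RFP Y Y.rel := ⟨∅, Set.finite_empty, by simpa using pres_rel Y⟩

theorem RFP.prod [Finite ι] [Finite ι'] {Y : MG ι} {Z : MG ι'} {T₀ : Set (Word ι)}
    {T₁ : Set (Word ι')} (h : RFP Y T₀) (h' : RFP Z T₁) :
    RFP (Y.prod Z) (ren Sum.inl '' T₀ ∪ ren Sum.inr '' T₁) := by
  obtain ⟨T, hT, h⟩ := h
  obtain ⟨T', hT', h'⟩ := h'
  refine ⟨ren Sum.inl '' T ∪ ren Sum.inr '' T' ∪
    {r | ∃ i i', r = comm [(Sum.inl i, true)] [(Sum.inr i', true)]},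
    ((hT.image _).union (hT'.image _)).union ((Set.finite_range fun p : ι × ι' =>
      comm [(Sum.inl p.1, true)] [(Sum.inr p.2, true)]).subset ?_), ?_⟩
  · rintro _ ⟨i, i', rfl⟩
    exact ⟨(i, i'), rfl⟩
  · convert pres_prod h h' using 1
    simp only [Set.image_union]
    ac_rfl

theorem RFP.hnn [Finite κ] {Y : MG ι} {T₀ : Set (Word ι)} (h : RFP Y T₀) (D : HD Y.G κ)
    (hF : ∀ k, Group.FG (D.F k)) : RFP (Y.hnn D) (ren Sum.inl '' T₀) := by
  obtain ⟨T, hT, h⟩ := h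
  choose n z hz using fun k => exists_gens (D.F k)
  choose p hp using fun k b i => Y.surj (D.a k b (z k i))
  have key := pres_hnn Y D h (fun k => Set.range fun i => (p k true i, p k false i))
    (by rintro k _ ⟨i, rfl⟩; exact ⟨_, hp k true i, hp k false i⟩) fun k => by
      refine top_le_iff.1 fun f _ => Subgroup.closure_mono ?_
        ((mem_closure_range_iff (z k) f).2 (hz k f))
      rintro _ ⟨i, rfl⟩
      exact ⟨_, ⟨i, rfl⟩, hp k true i⟩
  rw [Set.image_union, Set.union_right_comm] at key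
  refine ⟨_, (hT.image _).union ((Set.finite_range fun t : Σ k, Fin (n k) =>
    [(Sum.inr t.1, true)] ++ ren Sum.inl (p t.1 true t.2) ++ [(Sum.inr t.1, false)] ++
      (ren Sum.inl (p t.1 false t.2)).inv).subset ?_), key⟩
  rintro _ ⟨k, _, ⟨i, rfl⟩, rfl⟩
  exact ⟨⟨k, i⟩, rfl⟩

theorem RFP.of_imp {Y : MG ι} {T₀ T' : Set (Word ι)} (h : RFP Y T₀) (hT' : T'.Finite)
    (h₁ : ∀ r ∈ T', Y.ev r = 1)
    (h₂ : ∀ (Z : Type) [Group Z] (z : ι → Z), (∀ r ∈ T', evW z r = 1) → ∀ r ∈ T₀, evW z r = 1) :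
    RFP Y ∅ := by
  obtain ⟨T, hT, h⟩ := h
  refine ⟨T ∪ T', hT.union hT', h.of_imp ?_ fun Z _ z hz r hr => ?_⟩
  · rintro r ((hr | hr) | hr)
    exacts [h.1 r (Or.inl hr), h₁ r hr, hr.elim]
  · rcases hr with hr | hr
    · exact hz r (Or.inl (Or.inl hr))
    · exact h₂ Z z (fun r hr => hz r (Or.inl (Or.inr hr))) r hr

/-! ### Graph extensions -/

/-- The letter conjugates `(u f, 1)` to `(u f, v f)`. -/
def gh {Y Z H : Type} [Group Y] [Group Z] [Group H] (u : H →* Y) (hu : Function.Injective u)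
    (v : H →* Z) : HD (Y × Z) Unit where
  F _ := H
  a _ b := u.prod (bif b then 1 else v)
  inj _ _ := fun _ _ h => hu (congrArg Prod.fst h)

section
variable {Y Z H : Type} [Group Y] [Group Z] [Group H] (u : H →* Y) (hu : Function.Injective u)
  (v : H →* Z)

theorem gh_conj (f : H) : (gh u hu v).t () * (gh u hu v).of (u f, 1) * ((gh u hu v).t ())⁻¹ =
    (gh u hu v).of (u f, v f) := (gh u hu v).t_conj () f

theorem gh_fixes {L : Subgroup Y} {K : Subgroup Z} (h : ∀ f, u f ∈ L → v f ∈ K) :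
    (gh u hu v).Fixes (L.prod K) Set.univ := fun _ _ f =>
  ⟨fun hf => ⟨hf.1, h f hf.1⟩, fun hf => ⟨hf.1, K.one_mem⟩⟩

/-- The inclusion of the second factor. -/
def ghIn : Z →* (gh u hu v).MH := (gh u hu v).of.comp (MonoidHom.inr Y Z)

theorem ghIn_apply (z : Z) : ghIn u hu v z = (gh u hu v).of (1, z) := rfl

theorem ghIn_injective : Function.Injective (ghIn u hu v) := fun _ _ h =>
  congrArg Prod.snd ((gh u hu v).of_injective h)

theorem ghIn_mem {L : Subgroup Y} {K : Subgroup Z} (h : ∀ f, u f ∈ L → v f ∈ K) (z : Z) :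
    ghIn u hu v z ∈ (gh u hu v).Kt (L.prod K) Set.univ ↔ z ∈ K :=
  ((gh u hu v).of_mem_Kt (gh_fixes u hu v h) _).trans ⟨fun h => h.2, fun h => ⟨L.one_mem, h⟩⟩

end

theorem commute_evW {G : Type} [Group G] {z : ι → G} {g : G} (h : ∀ i, Commute g (z i))
    (w : Word ι) : Commute g (evW z w) :=
  Subgroup.closure_induction (p := fun x _ => Commute g x) (by rintro _ ⟨i, rfl⟩; exact h i)
    (Commute.one_right g) (fun _ _ _ _ => Commute.mul_right) (fun _ _ => Commute.inv_right)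
    ((mem_closure_range_iff z _).2 ⟨w, rfl⟩)

/-- The rope trick. -/
theorem rope [Finite ι] [Finite ι'] {Y : MG ι'} (hY : RFP Y ∅) (X : MG ι) {H : Type} [Group H]
    [Group.FG H] (u : H →* Y.G) (hu : Function.Injective u) (v : H →* X.G)
    (a a' : FreeGroup ι →* H) (ha : ∀ i, v (a (.of i)) = X.gen i) (ha' : ∀ i, v (a' (.of i)) = 1)
    (hr : ∀ r, X.ev r = 1 → u (a (.mk r)) = u (a' (.mk r))) :
    RFP ((Y.prod X).hnn (gh u hu v)) ∅ := by
  have h0 := (hY.prod (rfp_rel X)).hnn (gh u hu v) fun _ => ‹Group.FG H›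
  obtain ⟨T, hT, hY⟩ := hY
  choose p hp using fun i => Y.surj (u (a (.of i)))
  choose p' hp' using fun i => Y.surj (u (a' (.of i)))
  let Φ : ∀ (Z : Type) [Group Z], ((ι' ⊕ ι) ⊕ Unit → Z) → Prop := fun Z _ z =>
    (∀ r ∈ T, evW (fun i => z (.inl (.inl i))) r = 1) ∧
    (∀ i j, Commute (z (.inl (.inr j))) (z (.inl (.inl i)))) ∧
    (∀ i, z (.inr ()) * evW (fun i => z (.inl (.inl i))) (p i) * (z (.inr ()))⁻¹ =
      evW (fun i => z (.inl (.inl i))) (p i) * z (.inl (.inr i))) ∧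
    ∀ i, z (.inr ()) * evW (fun i => z (.inl (.inl i))) (p' i) * (z (.inr ()))⁻¹ =
      evW (fun i => z (.inl (.inl i))) (p' i)
  let T' : Set (Word ((ι' ⊕ ι) ⊕ Unit)) := ren (fun i => Sum.inl (Sum.inl i)) '' T ∪
    (Set.range (fun q : ι' × ι => comm [(Sum.inl (Sum.inr q.2), true)] [(Sum.inl (Sum.inl q.1), true)]) ∪
    (Set.range (fun i => [(Sum.inr (), true)] ++ ren (fun i => Sum.inl (Sum.inl i)) (p i) ++
      [(Sum.inr (), false)] ++ (ren (fun i => Sum.inl (Sum.inl i)) (p i) ++ [(Sum.inl (Sum.inr i), true)]).inv) ∪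
    Set.range (fun i => [(Sum.inr (), true)] ++ ren (fun i => Sum.inl (Sum.inl i)) (p' i) ++
      [(Sum.inr (), false)] ++ (ren (fun i => Sum.inl (Sum.inl i)) (p' i)).inv)))
  have hΦ : ∀ (Z : Type) [Group Z] (z : (ι' ⊕ ι) ⊕ Unit → Z), (∀ r ∈ T', evW z r = 1) ↔ Φ Z z := by
    intro Z _ z
    simp only [T', Φ, Set.mem_union, or_imp, forall_and, Set.forall_mem_image, Set.forall_mem_range,
      evW_comm_eq_one, evW_append, evW_inv, evW_ren, evW_true, evW_false, mul_inv_eq_one,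
      Prod.forall]
  refine h0.of_imp (T' := T') ((hT.image _).union ((Set.finite_range _).union
    ((Set.finite_range _).union (Set.finite_range _)))) ((hΦ _ _).2 ?_) fun Z _ z hz => ?_
  · have e : ∀ w, evW (fun i => ((Y.prod X).hnn (gh u hu v)).gen (.inl (.inl i))) w =
        (gh u hu v).of (Y.ev w, 1) := fun w =>
      (map_evW ((gh u hu v).of.comp (MonoidHom.inl Y.G X.G)) Y.gen w).symm
    refine ⟨fun r hr => ?_, fun i j => ?_, fun i => ?_, fun i => ?_⟩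
    · rw [e, hY.1 r (Or.inl hr)]
      exact map_one (gh u hu v).of
    · exact (MonoidHom.commute_inl_inr (Y.gen i) (X.gen j)).symm.map (gh u hu v).of
    · rw [e, MG.ev, hp]
      refine (gh_conj u hu v _).trans ?_
      rw [ha]
      exact (congrArg (gh u hu v).of (by simp)).trans (map_mul (gh u hu v).of (_, 1) (1, _))
    · rw [e, MG.ev, hp']
      refine (gh_conj u hu v _).trans ?_
      rw [ha']
  · obtain ⟨h1, h2, h3, h4⟩ := (hΦ Z z).1 hz
    obtain ⟨φ, hφ⟩ := Y.exists_hom (fun i => z (.inl (.inl i)))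
      (hY.2 Z _ (by simpa using h1))
    have hc : ∀ y U, Commute (φ y) (FreeGroup.lift (fun j => z (.inl (.inr j))) U) := by
      intro y U
      obtain ⟨w, rfl⟩ := Y.surj y
      obtain ⟨U, rfl⟩ := (MG.free ι).surj U
      rw [hφ, show evW (MG.free ι).gen U = FreeGroup.mk U from evW_of U]
      exact commute_evW (fun j => (commute_evW (fun i => h2 i j) w).symm) U
    have e1 : (MulAut.conj (z (.inr ()))).toMonoidHom.comp (φ.comp (u.comp a)) =
        (φ.noncommCoprod _ hc).comp ((u.comp a).prod (MonoidHom.id _)) :=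
      FreeGroup.ext_hom _ _ fun i => by simpa [← hp, hφ] using h3 i
    have e2 : (MulAut.conj (z (.inr ()))).toMonoidHom.comp (φ.comp (u.comp a')) =
        φ.comp (u.comp a') :=
      FreeGroup.ext_hom _ _ fun i => by simpa [← hp', hφ] using h4 i
    rintro _ ⟨_, ⟨_, h, -⟩ | ⟨r, hr', rfl⟩, rfl⟩
    · exact h.elim
    have f1 := DFunLike.congr_fun e1 (.mk r)
    have f2 := DFunLike.congr_fun e2 (.mk r)
    simp only [MonoidHom.comp_apply, MonoidHom.noncommCoprod_apply, MonoidHom.prod_apply,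
      MonoidHom.id_apply, hr r hr'] at f1 f2
    rw [f2, left_eq_mul] at f1
    rw [evW_ren, evW_ren]
    exact f1

/-! ### Recursively enumerable predicates -/

variable [Primcodable ι] [Primcodable ι'] [Primcodable κ]

theorem re_finite_set {α : Type} [Primcodable α] {T : Set α} (hT : T.Finite) :
    REPred fun r => r ∈ T :=
  (re_of_primrecPred (cl_primrecRel_mem.comp Primrec.id
    (Primrec.const hT.toFinset.toList))).of_eq fun r => by simp

theorem RFP.re_eq {Y : MG ι} (h : RFP Y ∅) : REPred fun w => Y.ev w = 1 := by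
  obtain ⟨T, hT, h⟩ := h
  exact Cert.triv_iff.1 (cert_eq_of_pres (𝒞 := Ctx.triv) (fun _ => Y) (fun _ => T ∪ ∅) (fun _ => h)
    (Cert.triv_iff.2 (re_finite_set (hT.union Set.finite_empty))))

theorem re_mem {Y : MG ι} (h : REPred fun w => Y.ev w = 1) {K : Subgroup Y.G} (hK : K.FG) :
    REPred fun w => Y.ev w ∈ K := by
  obtain ⟨S, rfl⟩ := hK
  choose p hp using Y.surj
  have e : Subgroup.closure (S : Set Y.G) = Y.sub (p '' S) := by
    change _ = Subgroup.closure (_ '' (p '' S))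
    rw [Set.image_image]
    simp [hp]
  rw [e]
  exact Cert.triv_iff.1 (cert_mem_sub (𝒞 := Ctx.triv) (fun _ => Y) (fun _ => p '' S)
    (Cert.triv_iff.2 h) (Cert.triv_iff.2 (re_finite_set (S.finite_toSet.image p))))

/-- Non-membership in `𝒳 K` is recursively enumerable. -/
def NI (Y : MG ι) (𝒳 : Set Y.G) (K : Subgroup Y.G) : Prop :=
  REPred fun w => ∀ x ∈ 𝒳, x⁻¹ * Y.ev w ∉ K

theorem ni_one {Y : MG ι} {K : Subgroup Y.G} : NI Y {1} K ↔ REPred fun w => Y.ev w ∉ K :=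
  ⟨fun h => h.of_eq fun w => by simp, fun h => h.of_eq fun w => by simp⟩

theorem ni_bot {Y : MG ι} {𝒳 : Set Y.G} : NI Y 𝒳 ⊥ ↔ REPred fun w => Y.ev w ∉ 𝒳 := by
  have : ∀ w, (∀ x ∈ 𝒳, x⁻¹ * Y.ev w ∉ (⊥ : Subgroup Y.G)) ↔ Y.ev w ∉ 𝒳 := fun w =>
    ⟨fun h hw => h _ hw (by simp), fun h x hx e => h (inv_mul_eq_one.1 e ▸ hx)⟩
  exact ⟨fun h => h.of_eq this, fun h => h.of_eq fun w => (this w).symm⟩

theorem ni_univ (Y : MG ι) (K : Subgroup Y.G) : NI Y Set.univ K :=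
  (re_finite_set Set.finite_empty).of_eq fun w =>
    ⟨fun h => h.elim, fun h => h (Y.ev w) trivial (by simp)⟩

theorem NI.symm {Y : MG ι} {A B : Subgroup Y.G} (h : NI Y A B) : NI Y B A :=
  (re_comp h primrec_inv.to_comp).of_eq fun w => by
    simp only [evW_inv]
    refine ⟨fun h b hb ha => h _ (A.inv_mem ha) ?_, fun h a ha hb => h _ (B.inv_mem hb) ?_⟩
    · simpa using B.inv_mem hb
    · simpa using A.inv_mem ha

theorem NI.prod {Y : MG ι} {Z : MG ι'} {𝒳 : Set Y.G} {𝒴 : Set Z.G} {L : Subgroup Y.G}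
    {K : Subgroup Z.G} (h : NI Y 𝒳 L) (h' : NI Z 𝒴 K) :
    NI (Y.prod Z) (𝒳 ×ˢ 𝒴 : Set (Y.G × Z.G)) (L.prod K) :=
  (re_or (re_comp h primrec_lft.to_comp) (re_comp h' primrec_rgt.to_comp)).of_eq fun w => by
    rw [MG.prod_ev]
    constructor
    · rintro (h | h) x hx hm
      exacts [h _ hx.1 hm.1, h _ hx.2 hm.2]
    · intro h
      by_contra hc
      push Not at hc
      obtain ⟨⟨x, hx, h1⟩, y, hy, h2⟩ := hc
      exact h (x, y) ⟨hx, hy⟩ ⟨h1, h2⟩

theorem NI.graph {Y : MG ι} {Z : MG ι'} {H : Type} [Group H] [Group.FG H] (u : H →* Y.G)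
    (v : H →* Z.G) {L : Subgroup Y.G} {K : Subgroup Z.G} (hLK : ∀ f, u f ∈ L → v f ∈ K)
    (h1 : NI Y u.range L) (h2 : REPred fun w => Y.ev w ∈ L) (h3 : NI Z {1} K) :
    NI (Y.prod Z) ((u.prod v).range : Set (Y.G × Z.G)) (L.prod K) := by
  obtain ⟨n, z, hz⟩ := exists_gens H
  choose σ hσ using fun i => Y.surj (u (z i))
  choose τ hτ using fun i => Z.surj (v (z i))
  have e1 : ∀ U, Y.ev (subst σ U) = u (evW z U) := fun U => by
    simp only [MG.ev, evW_subst, map_evW, hσ]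
  have e2 : ∀ U, Z.ev (subst τ U) = v (evW z U) := fun U => by
    simp only [MG.ev, evW_subst, map_evW, hτ]
  have c1 : Primrec fun q : Word (ι ⊕ ι') × Word (Fin n) => (subst σ q.2).inv ++ lft q.1 :=
    Primrec.list_append.comp (primrec_inv.comp ((primrec_subst σ).comp Primrec.snd))
      (primrec_lft.comp Primrec.fst)
  have c2 : Primrec fun q : Word (ι ⊕ ι') × Word (Fin n) => (subst τ q.2).inv ++ rgt q.1 :=
    Primrec.list_append.comp (primrec_inv.comp ((primrec_subst τ).comp Primrec.snd))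
      (primrec_rgt.comp Primrec.fst)
  refine (re_or (re_comp h1 primrec_lft.to_comp) (re_exists (re_and (re_comp h2 c1.to_comp)
    (re_comp (ni_one.1 h3) c2.to_comp)))).of_eq fun w => ?_
  rw [MG.prod_ev]
  simp only [evW_append, evW_inv, e1, e2]
  constructor
  · rintro (h | ⟨U, a1, a2⟩) _ ⟨f, rfl⟩ hm
    · exact h _ ⟨f, rfl⟩ hm.1
    · have m1 : (u f)⁻¹ * Y.ev (lft w) ∈ L := hm.1
      have m2 : (v f)⁻¹ * Z.ev (rgt w) ∈ K := hm.2
      have b1 : u ((evW z U)⁻¹ * f) ∈ L := by simpa using L.mul_mem a1 (L.inv_mem m1)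
      exact a2 (by simpa [mul_assoc] using K.mul_mem (hLK _ b1) m2)
  · intro h
    by_contra hc
    push Not at hc
    obtain ⟨⟨_, ⟨f, rfl⟩, a1⟩, a2⟩ := hc
    obtain ⟨U, rfl⟩ := hz f
    exact h _ ⟨_, rfl⟩ ⟨a1, a2 U a1⟩

theorem NI.hnn_bot [Finite κ] {Y : MG ι} (D : HD Y.G κ) {𝒳 : Set Y.G} (h : NI Y 𝒳 ⊥)
    (hE : ∀ l, NI Y (D.E l) ⊥) (heq : REPred fun w => (Y.hnn D).ev w = 1) :
    NI (Y.hnn D) (D.of '' 𝒳 : Set D.MH) ⊥ :=
  ni_bot.2 (Cert.triv_iff.1 (cert_hnn (𝒞 := Ctx.triv) (fun _ => Y) (fun _ => D) (fun _ => 𝒳)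
    (fun _ _ => 0) (fun _ _ => 0)
    (fun _ g => (D.exists_noPinch g).imp fun _ => Exists.imp fun _ h => ⟨h.1, h.2, by simp⟩)
    (fun l => Cert.triv_iff.2 (ni_bot.1 (hE l))) (Cert.triv_iff.2 (ni_bot.1 h))
    (Cert.triv_iff.2 heq)))

theorem NI.hnn_K [Finite κ] {Y : MG ι} (D : HD Y.G κ) {K : Subgroup Y.G}
    (hfix : D.Fixes K Set.univ) {𝒳 : Set Y.G} (h : NI Y 𝒳 K) (hE : ∀ l, NI Y (D.E l) ⊥)
    (hEK : ∀ l, NI Y (D.E l) K) (hmem : REPred fun w => (Y.hnn D).ev w ∈ D.Kt K Set.univ) :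
    NI (Y.hnn D) (D.of '' 𝒳 : Set D.MH) (D.Kt K Set.univ) :=
  (Cert.triv_iff.1 (cert_hnn_K (𝒞 := Ctx.triv) (fun _ => Y) (fun _ => D) (fun _ => K) Set.univ
    (fun _ => hfix) (fun _ => 𝒳) (fun _ _ => 0) (fun _ _ => 0)
    (fun _ g => (D.exists_redK hfix g).imp fun _ => Exists.imp fun _ h => ⟨h.1, h.2, by simp⟩)
    (fun l => Cert.triv_iff.2 (ni_bot.1 (hE l))) (fun l _ => Cert.triv_iff.2 (hEK l))
    (Cert.triv_iff.2 h) (Cert.triv_iff.2 hmem))).of_eq fun _ =>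
      ⟨by rintro h _ ⟨x, hx, rfl⟩; exact h x hx, fun h x hx => h _ ⟨x, hx, rfl⟩⟩

section
variable {Y : MG ι} {Z : MG ι'} {H : Type} [Group H] [Group.FG H] (u : H →* Y.G)
  (hu : Function.Injective u) (v : H →* Z.G)

theorem ni_gh_E {L : Subgroup Y.G} {K : Subgroup Z.G} (hLK : ∀ f, u f ∈ L → v f ∈ K)
    (h1 : NI Y u.range L) (h2 : REPred fun w => Y.ev w ∈ L) (h3 : NI Z {1} K) (l : Unit × Bool) :
    NI (Y.prod Z) (((gh u hu v).E l : Subgroup (Y.G × Z.G)) : Set (Y.G × Z.G)) (L.prod K) := by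
  obtain ⟨_, _ | _⟩ := l
  · exact NI.graph u v hLK h1 h2 h3
  · exact NI.graph u 1 (fun _ _ => K.one_mem) h1 h2 h3

omit [Primcodable ι] [Primcodable ι'] [Group.FG H] in
theorem image_ghIn (𝒳 : Set Z.G) :
    (gh u hu v).of '' (({1} : Set Y.G) ×ˢ 𝒳) = ghIn u hu v '' 𝒳 := by
  rw [Set.singleton_prod, Set.image_image]
  rfl

theorem ni_gh_E_bot (h1 : NI Y u.range ⊥) (h2 : REPred fun w => Y.ev w = 1) (h3 : NI Z {1} ⊥)
    (l : Unit × Bool) :
    NI (Y.prod Z) (((gh u hu v).E l : Subgroup (Y.G × Z.G)) : Set (Y.G × Z.G)) ⊥ := by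
  have := ni_gh_E u hu v (L := ⊥) (K := ⊥)
    (fun f hf => by rw [(map_eq_one_iff u hu).1 hf, map_one]; exact one_mem _) h1 h2 h3 l
  rwa [Subgroup.bot_prod_bot] at this

theorem ni_gh_bot (h1 : NI Y u.range ⊥) (h2 : REPred fun w => Y.ev w = 1) (h3 : NI Z {1} ⊥)
    (h4 : NI Y {1} ⊥) (heq : REPred fun w => ((Y.prod Z).hnn (gh u hu v)).ev w = 1)
    {𝒳 : Set Z.G} (h : NI Z 𝒳 ⊥) :
    NI ((Y.prod Z).hnn (gh u hu v)) (ghIn u hu v '' 𝒳 : Set (gh u hu v).MH) ⊥ := by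
  have h5 := h4.prod h
  rw [Subgroup.bot_prod_bot] at h5
  rw [← image_ghIn]
  exact h5.hnn_bot (Y := Y.prod Z) (gh u hu v) (ni_gh_E_bot u hu v h1 h2 h3) heq

theorem ni_gh_K {L : Subgroup Y.G} {K : Subgroup Z.G} (hLK : ∀ f, u f ∈ L → v f ∈ K)
    (h1 : NI Y u.range ⊥) (h2 : REPred fun w => Y.ev w = 1) (h3 : NI Z {1} ⊥)
    (h1' : NI Y u.range L) (h2' : REPred fun w => Y.ev w ∈ L) (h3' : NI Z {1} K)
    (h4 : NI Y {1} L) (hmem : REPred fun w =>
      ((Y.prod Z).hnn (gh u hu v)).ev w ∈ (gh u hu v).Kt (L.prod K) Set.univ)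
    {𝒳 : Set Z.G} (h : NI Z 𝒳 K) :
    NI ((Y.prod Z).hnn (gh u hu v)) (ghIn u hu v '' 𝒳 : Set (gh u hu v).MH)
      ((gh u hu v).Kt (L.prod K) Set.univ) := by
  rw [← image_ghIn]
  exact (h4.prod h).hnn_K (Y := Y.prod Z) (gh u hu v) (gh_fixes u hu v hLK)
    (ni_gh_E_bot u hu v h1 h2 h3) (ni_gh_E u hu v hLK h1' h2' h3') hmem

end

/-- The four non-membership problems of a stage of the construction. -/
def NI4 (Y : MG ι) (𝒳 : Set Y.G) (K : Subgroup Y.G) : Prop :=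
  NI Y {1} K ∧ NI Y 𝒳 K ∧ NI Y {1} ⊥ ∧ NI Y 𝒳 ⊥

theorem NI4.gh {Y : MG ι} {Z : MG ι'} {H : Type} [Group H] [Group.FG H] (u : H →* Y.G)
    (hu : Function.Injective u) (v : H →* Z.G) {L : Subgroup Y.G} {K : Subgroup Z.G}
    (hLK : ∀ f, u f ∈ L → v f ∈ K) (hY : NI4 Y u.range L) (h1 : REPred fun w => Y.ev w = 1)
    (h2 : REPred fun w => Y.ev w ∈ L)
    (heq : REPred fun w => ((Y.prod Z).hnn (gh u hu v)).ev w = 1) (hmem : REPred fun w =>
      ((Y.prod Z).hnn (gh u hu v)).ev w ∈ (gh u hu v).Kt (L.prod K) Set.univ)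
    {𝒳 : Set Z.G} (h : NI4 Z 𝒳 K) :
    NI4 ((Y.prod Z).hnn (gh u hu v)) (ghIn u hu v '' 𝒳 : Set (gh u hu v).MH)
      ((gh u hu v).Kt (L.prod K) Set.univ) := by
  obtain ⟨a1, a2, a3, a4⟩ := hY
  obtain ⟨b1, b2, b3, b4⟩ := h
  have c1 := ni_gh_K u hu v hLK a4 h1 b3 a2 h2 b1 a1 hmem b1
  have c3 := ni_gh_bot u hu v a4 h1 b3 a3 heq b3
  rw [Set.image_singleton, map_one] at c1 c3
  exact ⟨c1, ni_gh_K u hu v hLK a4 h1 b3 a2 h2 b1 a1 hmem b2, c3,
    ni_gh_bot u hu v a4 h1 b3 a3 heq b4⟩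

theorem ni_free : NI (MG.free ι) {1} ⊥ :=
  ni_one.2 ((re_of_primrecPred ((primrecPred_mk_eq.comp
    (Primrec.id.pair (Primrec.const []))).not)).of_eq fun w => by rw [MG.free_ev]; rfl)

end Hig

end Crest.Agent.R185
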