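import Crest.Agent.R185.PosetDef

/-!
# Row 185, killing gadget: chains on lists, acyclic carriers, cross and cup products
-/

set_option autoImplicit false

namespace Crest.Agent.R185
namespace Kill

open Finsupp

/-- Chains on lists. -/
abbrev Ch (X : Type) : Type := List X →₀ ℤ

section general
variable {I M : Type} [AddCommGroup M]

/-- Additive extension from the basis. -/
noncomputable def lift (f : I → M) : (I →₀ ℤ) →+ M :=
  Finsupp.liftAddHom fun l => (zmultiplesHom _ (f l) : ℤ →+ M)

@[simp] theorem lift_sg (f : I → M) (l : I) : lift f (single l 1) = f l := by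
  simp [lift]

theorem hom_ext {f g : (I →₀ ℤ) →+ M} (h : ∀ l, f (single l 1) = g (single l 1)) : f = g := by
  refine Finsupp.addHom_ext fun l n => ?_
  have : (single l n : I →₀ ℤ) = n • single l 1 := by simp
  rw [this, map_zsmul, map_zsmul, h]

/-- Chains supported on the basis elements satisfying `p`. -/
def On (p : I → Prop) : AddSubgroup (I →₀ ℤ) where
  carrier := {c | ∀ l ∈ c.support, p l}
  zero_mem' := by simp
  add_mem' := by
    classical
    intro a b ha hb l hl
    rcases Finset.mem_union.1 (Finsupp.support_add hl) with h | h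
    exacts [ha l h, hb l h]
  neg_mem' := by
    intro a ha l hl
    exact ha l (by simpa using hl)

theorem mem_On {p : I → Prop} {c : I →₀ ℤ} : c ∈ On p ↔ ∀ l ∈ c.support, p l := Iff.rfl

theorem sg_mem {p : I → Prop} {l : I} (h : p l) (n : ℤ) : single l n ∈ On p := by
  intro l' hl'
  rw [Finset.mem_singleton.1 (Finsupp.support_single_subset hl')]
  exact h

theorem On.mono {p q : I → Prop} (h : ∀ l, p l → q l) {c : I →₀ ℤ} (hc : c ∈ On p) :
    c ∈ On q := fun l hl => h l (hc l hl)

theorem On.map {p : I → Prop} (f : (I →₀ ℤ) →+ M) {N : AddSubgroup M}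
    (h : ∀ l, p l → f (single l 1) ∈ N) {c : I →₀ ℤ} (hc : c ∈ On p) : f c ∈ N := by
  rw [← Finsupp.sum_single c, Finsupp.sum, map_sum]
  refine N.sum_mem fun l hl => ?_
  have : (single l (c l) : I →₀ ℤ) = c l • single l 1 := by simp
  rw [this, map_zsmul]
  exact N.zsmul_mem (h l (hc l hl)) _

theorem On.ext {p : I → Prop} (f g : (I →₀ ℤ) →+ M)
    (h : ∀ l, p l → f (single l 1) = g (single l 1)) {c : I →₀ ℤ} (hc : c ∈ On p) :
    f c = g c := by
  have := On.map (f - g) (N := ⊥) (fun l hl => by simp [h l hl]) hc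
  simpa [sub_eq_zero] using this

theorem On.apply_eq_zero {p : I → Prop} {c : I →₀ ℤ} (hc : c ∈ On p) {l : I} (hl : ¬ p l) :
    c l = 0 := by
  by_contra h
  exact hl (hc l (Finsupp.mem_support_iff.2 h))

end general

variable {X Y Z : Type}

/-- The cone operator. -/
noncomputable def cn (a : X) : Ch X →+ Ch X := Finsupp.mapDomain.addMonoidHom (List.cons a)

/-- The map induced on chains. -/
noncomputable def mp (f : X → Y) : Ch X →+ Ch Y := Finsupp.mapDomain.addMonoidHom (List.map f)

/-- The sign operator. -/
noncomputable def sgn : Ch X →+ Ch X := lift fun l => (-1 : ℤ) ^ l.length • single l 1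

/-- The coefficient of the empty list. -/
noncomputable def aug : Ch X →+ ℤ := Finsupp.applyAddHom []

@[simp] theorem cn_sg (a : X) (l : List X) (n : ℤ) : cn a (single l n) = single (a :: l) n := by
  simp [cn]

@[simp] theorem mp_sg (f : X → Y) (l : List X) (n : ℤ) :
    mp f (single l n) = single (l.map f) n := by
  simp [mp]

theorem sgn_sg (l : List X) : sgn (single l 1) = (-1 : ℤ) ^ l.length • single l 1 := by
  simp only [sgn, lift_sg]

theorem aug_apply (c : Ch X) : aug c = c [] := rfl

theorem bd_sg (l : List X) : bd (single l 1) = bdL l := by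
  simp [bd]

@[simp] theorem bd_nil (n : ℤ) : bd (single ([] : List X) n) = 0 := by
  simp [bd]

theorem bd_cons (a : X) (l : List X) :
    bd (single (a :: l) 1) = single l 1 - cn a (bd (single l 1)) := by
  rw [bd_sg, bd_sg, bdL_cons]; rfl

theorem bd_cn (a : X) (c : Ch X) : bd (cn a c) = c - cn a (bd c) := by
  have : bd.comp (cn a) = AddMonoidHom.id _ - (cn a).comp bd :=
    hom_ext fun l => by simp [bd_cons]
  exact DFunLike.congr_fun this c

theorem bd_one (a : X) : bd (single [a] 1) = single [] 1 := by
  simp [bd_cons]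

theorem bd_bd' (c : Ch X) : bd (bd c) = 0 := by
  have : (bd.comp bd : Ch X →+ Ch X) = 0 := hom_ext fun l => by
    induction l with
    | nil => simp
    | cons a l ih =>
      simp only [AddMonoidHom.comp_apply, AddMonoidHom.zero_apply] at ih ⊢
      rw [bd_cons, map_sub, bd_cn, ih]; simp
  exact DFunLike.congr_fun this c

theorem mp_cn (f : X → Y) (a : X) (c : Ch X) : mp f (cn a c) = cn (f a) (mp f c) := by
  have : (mp f).comp (cn a) = (cn (f a)).comp (mp f) := hom_ext fun l => by simp
  exact DFunLike.congr_fun this c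

theorem bd_mp (f : X → Y) (c : Ch X) : bd (mp f c) = mp f (bd c) := by
  have : bd.comp (mp f) = (mp f).comp bd := hom_ext fun l => by
    induction l with
    | nil => simp
    | cons a l ih =>
      simp only [AddMonoidHom.comp_apply, mp_sg] at ih ⊢
      rw [List.map_cons, bd_cons, bd_cons, ih, map_sub, mp_cn, mp_sg]
  exact DFunLike.congr_fun this c

theorem mp_mp (f : X → Y) (g : Y → Z) (c : Ch X) : mp g (mp f c) = mp (g ∘ f) c := by
  have : (mp g).comp (mp f) = mp (g ∘ f) := hom_ext fun l => by simp
  exact DFunLike.congr_fun this c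

theorem mp_id (c : Ch X) : mp id c = c := by
  have : mp (id : X → X) = AddMonoidHom.id _ := hom_ext fun l => by simp
  exact DFunLike.congr_fun this c

@[simp] theorem aug_cn (a : X) (c : Ch X) : aug (cn a c) = 0 := by
  have : aug.comp (cn a) = 0 := hom_ext fun l => by simp [aug_apply]
  exact DFunLike.congr_fun this c

@[simp] theorem aug_nil : aug (single ([] : List X) 1) = 1 := by simp [aug_apply]

@[simp] theorem aug_cons (a : X) (l : List X) : aug (single (a :: l) 1) = 0 := by
  simp [aug_apply]

theorem aug_mp (f : X → Y) (c : Ch X) : aug (mp f c) = aug c := by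
  have : aug.comp (mp f) = aug := hom_ext fun l => by cases l <;> simp
  exact DFunLike.congr_fun this c

theorem sgn_cn (a : X) (c : Ch X) : sgn (cn a c) = -cn a (sgn c) := by
  have : sgn.comp (cn a) = -(cn a).comp sgn := hom_ext fun l => by
    simp only [AddMonoidHom.comp_apply, AddMonoidHom.neg_apply, cn_sg, sgn_sg, map_zsmul,
      List.length_cons, pow_succ, mul_neg, mul_one, neg_smul]
  exact DFunLike.congr_fun this c

@[simp] theorem sgn_nil : sgn (single ([] : List X) 1) = single [] 1 := by simp [sgn_sg]

theorem sgn_sgn (c : Ch X) : sgn (sgn c) = c := by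
  have : (sgn.comp sgn : Ch X →+ Ch X) = AddMonoidHom.id _ := hom_ext fun l => by
    simp only [AddMonoidHom.comp_apply, sgn_sg, map_zsmul, smul_smul, AddMonoidHom.id_apply,
      ← mul_pow]
    simp
  exact DFunLike.congr_fun this c

theorem sgn_bd (c : Ch X) : sgn (bd c) = -bd (sgn c) := by
  have : (sgn.comp bd : Ch X →+ Ch X) = -bd.comp sgn := hom_ext fun l => by
    induction l with
    | nil => simp
    | cons a l ih =>
      simp only [AddMonoidHom.comp_apply, AddMonoidHom.neg_apply] at ih ⊢
      rw [← cn_sg, bd_cn, map_sub, sgn_cn, sgn_cn, ih, map_neg, map_neg, bd_cn]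
      abel
  exact DFunLike.congr_fun this c

theorem sgn_mp (f : X → Y) (c : Ch X) : sgn (mp f c) = mp f (sgn c) := by
  have : sgn.comp (mp f) = (mp f).comp sgn := hom_ext fun l => by
    simp only [AddMonoidHom.comp_apply, mp_sg, sgn_sg, map_zsmul, List.length_map]
  exact DFunLike.congr_fun this c

theorem sgn_of_len {n : ℕ} {c : Ch X} (hc : c ∈ On fun l => l.length = n) :
    sgn c = (-1 : ℤ) ^ n • c :=
  On.ext sgn ((-1 : ℤ) ^ n • AddMonoidHom.id _) (fun l hl => by simp [sgn_sg, hl]) hc

theorem bd_sg_mem (l : List X) :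
    bd (single l 1) ∈ On fun l' => l'.Sublist l ∧ l'.length + 1 = l.length := by
  induction l with
  | nil => simp [zero_mem]
  | cons a l ih =>
    rw [bd_cons]
    refine sub_mem (sg_mem ⟨List.sublist_cons_self a l, rfl⟩ _) ?_
    refine On.map (cn a) (fun l' hl' => ?_) ih
    rw [cn_sg]
    exact sg_mem ⟨hl'.1.cons_cons a, by simp [hl'.2]⟩ _

/-- Chains of lists of length `n` with entries in `S`. -/
def Sup (S : Set X) (n : ℕ) : AddSubgroup (Ch X) := On fun l => l.length = n ∧ ∀ a ∈ l, a ∈ S

theorem Sup.mono {S S' : Set X} (h : S ⊆ S') {n : ℕ} {c : Ch X} (hc : c ∈ Sup S n) :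
    c ∈ Sup S' n := On.mono (fun _ hl => ⟨hl.1, fun a ha => h (hl.2 a ha)⟩) hc

theorem Sup.cn {S : Set X} {n : ℕ} {c : Ch X} (hc : c ∈ Sup S n) {a : X} (ha : a ∈ S) :
    cn a c ∈ Sup S (n + 1) := by
  refine On.map (Kill.cn a) (fun l hl => ?_) hc
  rw [cn_sg]
  refine sg_mem ⟨by simp [hl.1], fun b hb => ?_⟩ _
  rcases List.mem_cons.1 hb with rfl | hb
  exacts [ha, hl.2 b hb]

/-- Acyclic carriers. -/
theorem carrier (F : Ch X →+ Ch Y) (hF : ∀ c, bd (F c) = F (bd c)) (h0 : F (single [] 1) = 0)
    (Γ : List X → Set Y) (hΓ : ∀ l l', l'.Sublist l → Γ l' ⊆ Γ l)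
    (hne : ∀ l, l ≠ [] → (Γ l).Nonempty) (hFΓ : ∀ l, F (single l 1) ∈ Sup (Γ l) l.length)
    (n : ℕ) : ∃ h h' : Ch X →+ Ch Y, ∀ l : List X, l.length = n →
      h (single l 1) ∈ Sup (Γ l) (n + 1) ∧
        bd (h (single l 1)) + h' (bd (single l 1)) = F (single l 1) := by
  classical
  induction n with
  | zero =>
    refine ⟨0, 0, fun l hl => ?_⟩
    obtain rfl := List.length_eq_zero_iff.1 hl
    simp [h0, zero_mem]
  | succ n ih =>
    obtain ⟨h, h', H⟩ := ih
    refine ⟨lift fun l => if hl : l = [] then 0 else
      cn (hne l hl).some (F (single l 1) - h (bd (single l 1))), h, fun l hl => ?_⟩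
    have hl0 : l ≠ [] := by rintro rfl; simp at hl
    rw [lift_sg, dif_neg hl0]
    constructor
    · refine Sup.cn (sub_mem (hl ▸ hFΓ l) ?_) (hne l hl0).some_mem
      refine On.map h (fun l' hl' => Sup.mono (hΓ _ _ hl'.1) (H l' (by omega)).1) (bd_sg_mem l)
    · have h1 : bd (h (bd (single l 1))) + h' (bd (bd (single l 1))) = F (bd (single l 1)) :=
        On.ext (bd.comp h + h'.comp bd) F (fun l' hl' => (H l' (by omega)).2) (bd_sg_mem l)
      rw [bd_bd', map_zero, add_zero] at h1
      rw [bd_cn, map_sub, hF, h1]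
      simp

/-! ### Cross product -/

/-- The shuffle product of two lists. -/
noncomputable def crL (x : List X) : List Y → Ch (X × Y) :=
  List.rec (fun _ => 0) (fun a x prev y =>
    List.rec (aug (single x 1) • single [] 1)
      (fun b y r => cn (a, b) (prev (b :: y) + (-1 : ℤ) ^ x.length • r)) y) x

/-- The cross product of chains. -/
noncomputable def cr : Ch X →+ Ch Y →+ Ch (X × Y) := lift fun x => lift fun y => crL x y

theorem cr_sg (x : List X) (y : List Y) : cr (single x 1) (single y 1) = crL x y := by
  simp [cr]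

@[simp] theorem cr_nil_left : (cr (single ([] : List X) 1) : Ch Y →+ Ch (X × Y)) = 0 :=
  hom_ext fun y => by rw [cr_sg]; rfl

theorem cr_nil_right (c : Ch X) :
    cr c (single ([] : List Y) 1) = aug (bd c) • single [] 1 := by
  have : (cr : Ch X →+ Ch Y →+ Ch (X × Y)).flip (single [] 1) =
      (zmultiplesHom _ (single [] 1)).comp (aug.comp bd) := hom_ext fun x => by
    cases x with
    | nil => simp
    | cons a x =>
      simp only [AddMonoidHom.flip_apply, AddMonoidHom.comp_apply, zmultiplesHom_apply, cr_sg,
        bd_cons, map_sub, aug_cn, sub_zero]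
      rfl
  exact DFunLike.congr_fun this c

theorem cr_cons (a : X) (x : List X) (b : Y) (y : List Y) :
    cr (single (a :: x) 1) (single (b :: y) 1) = cn (a, b) (cr (single x 1) (single (b :: y) 1) +
      (-1 : ℤ) ^ x.length • cr (single (a :: x) 1) (single y 1)) := by
  simp only [cr_sg]; rfl

theorem cr_cn (a : X) (b : Y) (c : Ch X) (d : Ch Y) :
    cr (cn a c) (cn b d) = cn (a, b) (cr c (cn b d) + cr (cn a (sgn c)) d) := by
  have : ((cr.comp (cn a)).flip.comp (cn b)).flip =
      ((cr.flip.comp (cn b)).flip + cr.comp ((cn a).comp sgn)).compr₂ (cn (a, b)) :=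
    hom_ext fun x => hom_ext fun y => by
      simp only [AddMonoidHom.flip_apply, AddMonoidHom.comp_apply, AddMonoidHom.compr₂_apply,
        AddMonoidHom.add_apply, cn_sg, sgn_sg, map_zsmul, AddMonoidHom.smul_apply, cr_cons]
  exact DFunLike.congr_fun (DFunLike.congr_fun this c) d

theorem bd_cr (c : Ch X) (d : Ch Y) : bd (cr c d) = cr (bd c) d - cr (sgn c) (bd d) := by
  have : (cr : Ch X →+ Ch Y →+ Ch (X × Y)).compr₂ bd =
      cr.comp bd - ((cr.comp sgn).flip.comp bd).flip := hom_ext fun x => by
    induction x with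
    | nil =>
      refine AddMonoidHom.ext fun d => ?_
      simp only [AddMonoidHom.flip_apply, AddMonoidHom.comp_apply, AddMonoidHom.compr₂_apply,
        AddMonoidHom.sub_apply]
      simp
    | cons a x ihx =>
      refine hom_ext fun y => ?_
      have ihx' : ∀ d : Ch Y, bd (cr (single x 1) d) =
          cr (bd (single x 1)) d - cr (sgn (single x 1)) (bd d) :=
        fun d => DFunLike.congr_fun ihx d
      simp only [AddMonoidHom.flip_apply, AddMonoidHom.comp_apply, AddMonoidHom.compr₂_apply,
        AddMonoidHom.sub_apply]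
      induction y with
      | nil => simp [cr_nil_right, bd_bd']
      | cons b y ihy =>
        rw [cr_cons, bd_cn, map_add bd, map_zsmul, ihx', ihy]
        simp only [← cn_sg a x, ← cn_sg b y, bd_cn, sgn_cn, map_sub, map_neg, cr_cn,
          AddMonoidHom.sub_apply, AddMonoidHom.neg_apply, sgn_bd, sgn_sgn]
        rcases neg_one_pow_eq_or ℤ x.length with h | h <;>
          simp only [sgn_sg, h, one_smul, neg_smul, map_neg, map_add, map_sub,
            AddMonoidHom.neg_apply] <;> abel
  exact DFunLike.congr_fun (DFunLike.congr_fun this c) d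

theorem cr_one_left (a : X) (d : Ch Y) : cr (single [a] 1) d = mp (fun b => (a, b)) d := by
  have : cr (single [a] 1) = mp (fun b : Y => (a, b)) := hom_ext fun y => by
    induction y with
    | nil => simp [cr_nil_right, bd_one]
    | cons b y ih => rw [cr_cons, ih]; simp
  exact DFunLike.congr_fun this d

theorem cr_one_right (c : Ch X) (b : Y) :
    cr c (single [b] 1) = mp (fun a => (a, b)) c - aug c • single [] 1 := by
  have : (cr : Ch X →+ Ch Y →+ Ch (X × Y)).flip (single [b] 1) = mp (fun a => (a, b)) -
      (zmultiplesHom _ (single [] 1)).comp aug := hom_ext fun x => by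
    simp only [AddMonoidHom.flip_apply, AddMonoidHom.comp_apply, zmultiplesHom_apply,
      AddMonoidHom.sub_apply]
    induction x with
    | nil => simp
    | cons a x ih =>
      rw [cr_cons, ih, cr_nil_right, bd_cons]
      cases x <;> simp
  exact DFunLike.congr_fun this c

theorem cr_sg_mem (x : List X) (y : List Y) : cr (single x 1) (single y 1) ∈
    On fun l => l.length + 1 = x.length + y.length ∧ ∀ p ∈ l, p.1 ∈ x ∧ p.2 ∈ y := by
  induction x generalizing y with
  | nil => simp [zero_mem]
  | cons a x ihx =>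
    induction y with
    | nil =>
      rw [cr_nil_right, bd_cons]
      cases x with
      | nil => simpa using sg_mem (by simp) 1
      | cons a' x => simp [zero_mem]
    | cons b y ihy =>
      rw [cr_cons, map_add, map_zsmul]
      refine add_mem ?_ (AddSubgroup.zsmul_mem _ ?_ _)
      · refine On.map (cn (a, b)) (fun l hl => ?_) (ihx (b :: y))
        rw [cn_sg]
        refine sg_mem ⟨by simp only [List.length_cons] at hl ⊢; omega, fun p hp => ?_⟩ _
        rcases List.mem_cons.1 hp with rfl | hp
        · simp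
        · exact ⟨List.mem_cons_of_mem _ (hl.2 p hp).1, (hl.2 p hp).2⟩
      · refine On.map (cn (a, b)) (fun l hl => ?_) ihy
        rw [cn_sg]
        refine sg_mem ⟨by simp only [List.length_cons] at hl ⊢; omega, fun p hp => ?_⟩ _
        rcases List.mem_cons.1 hp with rfl | hp
        · simp
        · exact ⟨(hl.2 p hp).1, List.mem_cons_of_mem _ (hl.2 p hp).2⟩

/-! ### Alexander–Whitney diagonal -/

variable {M : Type} [AddCommGroup M]

/-- The Alexander–Whitney diagonal followed by a biadditive map. -/
noncomputable def aw (β : Ch X →+ Ch X →+ M) : Ch X →+ M :=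
  lift fun l => ∑ i ∈ Finset.range l.length, β (single (l.take (i + 1)) 1) (single (l.drop i) 1)

theorem aw_sg (β : Ch X →+ Ch X →+ M) (l : List X) : aw β (single l 1) =
    ∑ i ∈ Finset.range l.length, β (single (l.take (i + 1)) 1) (single (l.drop i) 1) := by
  simp only [aw, lift_sg]

theorem aw_cn (β : Ch X →+ Ch X →+ M) (a : X) (c : Ch X) :
    aw β (cn a c) = β (single [a] 1) (cn a c) + aw (β.comp (cn a)) c := by
  have : (aw β).comp (cn a) = (β (single [a] 1)).comp (cn a) + aw (β.comp (cn a)) :=
    hom_ext fun l => by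
      simp only [AddMonoidHom.comp_apply, AddMonoidHom.add_apply, cn_sg, aw_sg, List.length_cons,
        Finset.sum_range_succ', List.take_succ_cons, List.drop_succ_cons, List.take_zero,
        List.drop_zero]
      abel
  exact DFunLike.congr_fun this c

theorem aw_sub (β β' : Ch X →+ Ch X →+ M) (c : Ch X) : aw (β - β') c = aw β c - aw β' c := by
  have : aw (β - β') = aw β - aw β' := hom_ext fun l => by
    simp only [aw_sg, AddMonoidHom.sub_apply, Finset.sum_sub_distrib]
  exact DFunLike.congr_fun this c

theorem map_aw {M' : Type} [AddCommGroup M'] (f : M →+ M') (β : Ch X →+ Ch X →+ M) (c : Ch X) :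
    f (aw β c) = aw (β.compr₂ f) c := by
  have : f.comp (aw β) = aw (β.compr₂ f) := hom_ext fun l => by
    simp only [aw_sg, AddMonoidHom.comp_apply, map_sum, AddMonoidHom.compr₂_apply]
  exact DFunLike.congr_fun this c

/-- The boundary of the tensor product, dually. -/
noncomputable def dl (β : Ch X →+ Ch X →+ M) : Ch X →+ Ch X →+ M :=
  β.comp bd - ((β.comp sgn).flip.comp bd).flip

theorem dl_apply (β : Ch X →+ Ch X →+ M) (c d : Ch X) :
    dl β c d = β (bd c) d - β (sgn c) (bd d) := rfl

theorem aw_bd (β : Ch X →+ Ch X →+ M) (c : Ch X) :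
    aw β (bd c) = aw (dl β) c - β (single [] 1) c + β (sgn c) (single [] 1) := by
  have : (aw β).comp bd = aw (dl β) - β (single [] 1) + (β.comp sgn).flip (single [] 1) :=
    hom_ext fun l => by
      simp only [AddMonoidHom.flip_apply, AddMonoidHom.comp_apply, AddMonoidHom.add_apply,
        AddMonoidHom.sub_apply]
      induction l generalizing β with
      | nil => simp [aw_sg]
      | cons a l ih =>
        have e : (dl β).comp (cn a) = β - dl (β.comp (cn a)) := by
          refine AddMonoidHom.ext fun x => AddMonoidHom.ext fun y => ?_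
          simp only [AddMonoidHom.comp_apply, AddMonoidHom.sub_apply, dl_apply, bd_cn, sgn_cn,
            map_sub, map_neg, AddMonoidHom.neg_apply]
          abel
        rw [← cn_sg, bd_cn, map_sub, aw_cn, aw_cn, ih, e, aw_sub, dl_apply, bd_one, bd_cn, sgn_cn]
        simp only [AddMonoidHom.comp_apply, cn_sg, sgn_sg [a], List.length_singleton, pow_one,
          neg_smul, one_smul, map_neg, map_sub, AddMonoidHom.neg_apply]
        abel
  exact DFunLike.congr_fun this c

end Kill
end Crest.Agent.R185
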