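import Crest.Agent.R185.KillTri
import Crest.Agent.R185.FPAlg

/-!
# Row 185, killing gadget: equivariant killing maps and the mapping cone
-/

set_option autoImplicit false

namespace Crest.Agent.R185
namespace Kill

open Finsupp

section null
variable {A A' A'' : Type} [Group A] [Group A'] [Group A'']

/-- Translation of chains. -/
noncomputable abbrev tr (g : A) : Ch A →+ Ch A := mp fun x => g * x

theorem tr_tr (g h : A) (c : Ch A) : tr g (tr h c) = tr (g * h) c := by
  rw [mp_mp]; congr 2; funext x; simp [mul_assoc]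

theorem tr_one (c : Ch A) : tr 1 c = c := by
  have : (fun x : A => 1 * x) = id := by funext x; simp
  rw [tr, this, mp_id]

theorem mp_tr (f : A →* A') (g : A) (c : Ch A) : mp f (tr g c) = tr (f g) (mp f c) := by
  rw [mp_mp, mp_mp]; congr 2; funext x; simp

/-- An equivariant chain map from the truncated bar complex to a bounded part. -/
def Null (N : ℕ) (φ : A →* A') : Prop :=
  ∃ T : Set A', T.Finite ∧ ∃ ψ : Ch A →+ Ch A',
    (∀ (a : A) c, ψ (tr a c) = tr (φ a) (ψ c)) ∧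
    (∀ l : List A, l.length ≤ N → ψ (single l 1) ∈ C T l.length ∧
      bd (ψ (single l 1)) = ψ (bd (single l 1))) ∧
    ψ (single [] 1) = single [] 1 ∧ ∀ a, ψ (single [a] 1) = single [φ a] 1

theorem null_one (φ : A →* A') : Null 1 φ := by
  refine ⟨{1}, Set.finite_singleton _, mp φ, mp_tr φ, fun l hl => ⟨?_, bd_mp _ _⟩, by simp,
    by simp⟩
  rw [mp_sg]
  refine C.sg' (by simp) ?_
  match l, hl with
  | [], _ => simp [Small]
  | [a], _ => simp [Small]

theorem Null.step {N : ℕ} {φ : A →* A'} (h : Null (N + 1) φ) {κ : A' →* A''}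
    (hκ : mp κ ∈ Nul A' A'' (N + 1)) : Null (N + 2) (κ.comp φ) := by
  classical
  obtain ⟨T, hT, ψ, hψ, H, h0, h1⟩ := h
  obtain ⟨T', hT', K⟩ := hκ T hT
  have key : ∀ x : List A, ∃ w, x.length = N + 2 → w ∈ C T' (N + 2) ∧
      bd w = mp κ (ψ (bd (single x 1))) := by
    intro x
    by_cases hx : x.length = N + 2
    · obtain ⟨w, hw, e⟩ := K (ψ (bd (single x 1)))
        (On.map ψ (fun l hl => by
          have := (H l (by omega)).1
          rwa [show l.length = N + 1 by omega] at this) (bd_sg_mem x))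
        (by
          have : bd (ψ (bd (single x 1))) = ψ (bd (bd (single x 1))) :=
            On.ext (bd.comp ψ) (ψ.comp bd) (fun l hl => (H l (by omega)).2) (bd_sg_mem x)
          rw [this, bd_bd', map_zero])
      exact ⟨w, fun _ => ⟨hw, e⟩⟩
    · exact ⟨0, fun h => absurd h hx⟩
  choose w hw using key
  set ψ' : Ch A →+ Ch A'' := lift fun l => if l.length = N + 2 then
    tr (κ (φ (l.headD 1))) (w (l.map fun x => (l.headD 1)⁻¹ * x)) else mp κ (ψ (single l 1))
    with hψ'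
  have hlow : ∀ l : List A, l.length ≠ N + 2 → ψ' (single l 1) = mp κ (ψ (single l 1)) := by
    intro l hl
    rw [hψ', lift_sg, if_neg hl]
  have htop : ∀ l : List A, l.length = N + 2 → ψ' (single l 1) =
      tr (κ (φ (l.headD 1))) (w (l.map fun x => (l.headD 1)⁻¹ * x)) := by
    intro l hl
    rw [hψ', lift_sg, if_pos hl]
  refine ⟨T' ∪ κ '' T, hT'.union (hT.image _), ψ', fun a c => ?_, fun l hl => ?_, ?_, fun a => ?_⟩
  · have : ψ'.comp (tr a) = (tr (κ.comp φ a)).comp ψ' := hom_ext fun l => by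
      simp only [AddMonoidHom.comp_apply]
      by_cases hl : l.length = N + 2
      · rw [mp_sg, htop l hl, htop _ (by simpa using hl), tr_tr]
        cases l with
        | nil => simp at hl
        | cons b l => simp [Function.comp_def, mul_assoc]
      · rw [hlow l hl, mp_sg, hlow _ (by simpa using hl), ← mp_sg, hψ, mp_tr]; rfl
    exact DFunLike.congr_fun this c
  · have hb : ψ' (bd (single l 1)) = mp κ (ψ (bd (single l 1))) :=
      On.ext ψ' ((mp κ).comp ψ) (fun l' hl' => hlow l' (by omega)) (bd_sg_mem l)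
    by_cases hl' : l.length = N + 2
    · have := hw (l.map fun x => (l.headD 1)⁻¹ * x) (by simpa using hl')
      rw [htop l hl', hb, hl']
      refine ⟨C.mono Set.subset_union_left (C.tr _ this.1), ?_⟩
      rw [bd_mp, this.2, ← mp_sg, bd_mp, hψ, mp_tr, tr_tr]
      simp [tr_one]
    · rw [hlow l hl', hb, bd_mp, (H l (by omega)).2]
      exact ⟨C.mono Set.subset_union_right (C.mp κ (H l (by omega)).1), rfl⟩
  · rw [hlow _ (by simp), h0]; simp
  · rw [hlow _ (by simp), h1]; simp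

theorem exists_null (hfg : Group.FG A) {θ : Monoid.End A} (g : Gadget (θ : A →* A)) (N : ℕ) :
    ∃ M : ℕ, 0 < M ∧ Null (N + 1) (θ ^ M : Monoid.End A) := by
  induction N with
  | zero => exact ⟨1, one_pos, null_one _⟩
  | succ N ih =>
    obtain ⟨M, hM, h⟩ := ih
    obtain ⟨m, hm⟩ := exists_contr hfg g N
    refine ⟨m + M, by omega, ?_⟩
    have := h.step (hm.nul le_rfl)
    convert this using 1
    rw [pow_add]; rfl

end null

/-- Lemma (P) for complexes given as subgroups of a fixed group. -/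
theorem fpn_of_emb {G : Type} [Group G] (X : ℕ → Type) [∀ i, MulAction G (X i)] {M : Type}
    [AddCommGroup M] (act : G → M →+ M) (N : ℕ → AddSubgroup M) (e : ∀ i, (X i →₀ ℤ) →+ M)
    (r : ∀ i, M →+ (X i →₀ ℤ)) (hre : ∀ i c, r i (e i c) = c) (heN : ∀ i c, e i c ∈ N i)
    (her : ∀ i, ∀ m ∈ N i, e i (r i m) = m)
    (hact : ∀ i g c, e i (chAct g c) = act g (e i c)) (D : M →+ M) (ε : M →+ ℤ) (n : ℕ)
    (hD : ∀ g m, D (act g m) = act g (D m)) (hε : ∀ g m, ε (act g m) = ε m)
    (hDN : ∀ i, i ≤ n → ∀ m ∈ N (i + 1), D m ∈ N i) (hsurj : ∃ m ∈ N 0, ε m = 1)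
    (hex0 : ∀ m ∈ N 0, ε m = 0 ↔ ∃ m' ∈ N 1, D m' = m)
    (hex : ∀ i, i < n → ∀ m ∈ N (i + 1), D m = 0 ↔ ∃ m' ∈ N (i + 2), D m' = m)
    (hfin : ∀ i, i ≤ n → Finite (MulAction.orbitRel.Quotient G (X i)))
    (hstab : ∀ i, i ≤ n → ∀ x : X i, FPn (MulAction.stabilizer G x) n) : FPn G n := by
  have hinj : ∀ i, Function.Injective (e i) := fun i =>
    Function.LeftInverse.injective (hre i)
  have hed : ∀ i, i ≤ n → ∀ c, e i (r i (D (e (i + 1) c))) = D (e (i + 1) c) :=
    fun i hi c => her i _ (hDN i hi _ (heN _ c))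
  have hrange : ∀ i, i ≤ n → ∀ c, (∃ m' ∈ N (i + 1), D m' = e i c) ↔
      c ∈ Set.range ((r i).comp (D.comp (e (i + 1)))) := by
    intro i hi c
    constructor
    · rintro ⟨m', hm', h⟩
      exact ⟨r _ m', by simp [her _ _ hm', h, hre]⟩
    · rintro ⟨c', rfl⟩
      exact ⟨e _ c', heN _ _, (hed i hi c').symm⟩
  refine fpn_of_complex X (fun i => (r i).comp (D.comp (e (i + 1)))) (ε.comp (e 0)) n
    (fun i hi g c => hinj i ?_) (fun g c => ?_) (fun z => ?_) (fun c => ?_) (fun i hi c => ?_)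
    hfin hstab
  · simp only [AddMonoidHom.comp_apply]
    rw [hed i hi, hact, hact, hed i hi, hD]
  · simp only [AddMonoidHom.comp_apply]
    rw [hact, hε]
  · obtain ⟨m, hm, h⟩ := hsurj
    exact ⟨z • r 0 m, by simp [her _ _ hm, h]⟩
  · rw [← hrange 0 (Nat.zero_le _), ← hex0 _ (heN 0 c)]; rfl
  · rw [← hrange (i + 1) hi, ← hex i hi _ (heN _ c), ← hed i hi.le,
      map_eq_zero_iff _ (hinj i)]; rfl

theorem eq_zero_of_shift {I : Type} (f : I → I) (ht : I → ℤ) (c : I →₀ ℤ)
    (hc : c = mapDomain f c) (h : ∀ i ∈ c.support, ht (f i) < ht i) : c = 0 := by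
  classical
  by_contra h0
  obtain ⟨i, hi, hmax⟩ := c.support.exists_max_image ht (Finsupp.support_nonempty_iff.2 h0)
  have hi' : i ∈ (mapDomain f c).support := hc ▸ hi
  obtain ⟨j, hj, rfl⟩ := Finset.mem_image.1 (Finsupp.mapDomain_support hi')
  exact absurd (hmax j hj) (not_le.2 (h j hj))

variable {H : Type} [Group H]

/-- The cells of the mapping cone. -/
@[ext] structure Cell (T : Set H) (i : ℕ) : Type where
  b : Bool
  l : List H
  h : l ≠ [] ∧ l.length = i + b.toNat ∧ Small T l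

theorem Small.tr {T : Set H} {l : List H} (h : Small T l) (g : H) :
    Small T (l.map fun x => g * x) := by
  intro a ha b hb
  obtain ⟨a', ha', rfl⟩ := List.mem_map.1 ha
  obtain ⟨b', hb', rfl⟩ := List.mem_map.1 hb
  simpa [mul_assoc] using h a' ha' b' hb'

instance (T : Set H) (i : ℕ) : MulAction H (Cell T i) where
  smul g x := ⟨x.b, x.l.map fun a => g * a, by simpa using x.h.1, by simpa using x.h.2.1,
    x.h.2.2.tr g⟩
  one_smul x := Cell.ext rfl (by
    change x.l.map (fun a => 1 * a) = x.l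
    simp)
  mul_smul g h x := Cell.ext rfl (by
    change x.l.map (fun a => g * h * a) = (x.l.map fun a => h * a).map fun a => g * a
    simp [Function.comp_def, mul_assoc])

theorem Cell.smul_l {T : Set H} {i : ℕ} (g : H) (x : Cell T i) :
    (g • x).l = x.l.map fun a => g * a := rfl

theorem Cell.smul_b {T : Set H} {i : ℕ} (g : H) (x : Cell T i) : (g • x).b = x.b := rfl

theorem Cell.finite_orbits {T : Set H} (hT : T.Finite) (i : ℕ) :
    Finite (MulAction.orbitRel.Quotient H (Cell T i)) := by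
  have := hT.to_subtype
  have h1 : {x : Cell T i | ∀ a ∈ x.l, a ∈ T}.Finite := by
    have h2 : ((Set.univ : Set Bool) ×ˢ
        (List.map (Subtype.val : T → H) '' {l : List T | l.length ≤ i + 1})).Finite :=
      Set.finite_univ.prod ((List.finite_length_le T (i + 1)).image _)
    refine Set.Finite.of_finite_image (f := fun x : Cell T i => (x.b, x.l)) (h2.subset ?_)
      fun x _ y _ h => Cell.ext (Prod.mk.inj h).1 (Prod.mk.inj h).2
    rintro _ ⟨x, hx, rfl⟩
    refine ⟨trivial, x.l.attachWith (· ∈ T) hx, ?_, by simp⟩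
    have := x.h.2.1
    have := Bool.toNat_le x.b
    simp only [Set.mem_ofPred_eq, List.length_attachWith]
    omega
  have := h1.to_subtype
  refine Finite.of_surjective (fun x : {x : Cell T i | ∀ a ∈ x.l, a ∈ T} =>
    (Quotient.mk _ x.1 : MulAction.orbitRel.Quotient H (Cell T i))) fun q => ?_
  obtain ⟨x, rfl⟩ := Quotient.exists_rep q
  obtain ⟨a, ha⟩ := List.exists_mem_of_ne_nil _ x.h.1
  refine ⟨⟨a⁻¹ • x, fun b hb => ?_⟩, Quotient.sound ⟨a⁻¹, rfl⟩⟩
  obtain ⟨b', hb', rfl⟩ := List.mem_map.1 hb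
  exact x.h.2.2 a ha b' hb'

theorem Cell.stab {T : Set H} {i : ℕ} (x : Cell T i) (n : ℕ) :
    FPn (MulAction.stabilizer H x) n := by
  have : Subsingleton (MulAction.stabilizer H x) := by
    refine subsingleton_of_forall_eq 1 fun g => Subtype.ext ?_
    have h1 := congrArg Cell.l g.2
    obtain ⟨b, l, hl, hl'⟩ := x
    cases l with
    | nil => exact absurd rfl hl
    | cons a l =>
      simp only [Cell.smul_l, List.map_cons, List.cons.injEq, mul_eq_right] at h1
      exact h1.1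
  exact fpinf_of_finite _ n

/-- Chains of nonempty small lists. -/
def C' (T : Set H) (n : ℕ) : AddSubgroup (Ch H) := On fun l => l ≠ [] ∧ l.length = n ∧ Small T l

theorem C'_succ (T : Set H) (n : ℕ) : C' T (n + 1) = C T (n + 1) := by
  unfold C' C
  congr 1
  funext l
  refine propext ⟨fun h => h.2, fun h => ⟨?_, h⟩⟩
  rintro rfl
  simp at h

theorem C'_zero (T : Set H) : C' T 0 = ⊥ := by
  refine (AddSubgroup.eq_bot_iff_forall _).2 fun c hc => ?_
  exact On.ext (AddMonoidHom.id _) 0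
    (fun l hl => absurd (List.length_eq_zero_iff.1 hl.2.1) hl.1) hc

theorem mem_cone {T : Set H} {i : ℕ} {x y : Ch H} :
    (x, y) ∈ (C T (i + 1)).prod (C' T i) ↔ x ∈ C T (i + 1) ∧ y ∈ C' T i := Iff.rfl

theorem mem_cone_succ {T : Set H} {i : ℕ} {x y : Ch H} :
    (x, y) ∈ (C T (i + 1 + 1)).prod (C' T (i + 1)) ↔ x ∈ C T (i + 2) ∧ y ∈ C T (i + 1) := by
  rw [mem_cone, C'_succ]

theorem mem_cone_zero {T : Set H} {x y : Ch H} :
    (x, y) ∈ (C T (0 + 1)).prod (C' T 0) ↔ x ∈ C T 1 ∧ y = 0 := by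
  rw [mem_cone, C'_zero, AddSubgroup.mem_bot]

/-- The embedding of the cellular chains of the cone. -/
noncomputable def cellE (T : Set H) (i : ℕ) : (Cell T i →₀ ℤ) →+ Ch H × Ch H :=
  lift fun x => if x.b then (single x.l 1, 0) else (0, single x.l 1)

open Classical in
/-- First half of the retraction. -/
noncomputable def cellR₁ (T : Set H) (i : ℕ) : Ch H →+ (Cell T i →₀ ℤ) :=
  lift fun l => if h : l ≠ [] ∧ l.length = i + 1 ∧ Small T l then
    single (⟨true, l, h⟩ : Cell T i) 1 else 0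

open Classical in
/-- Second half of the retraction. -/
noncomputable def cellR₂ (T : Set H) (i : ℕ) : Ch H →+ (Cell T i →₀ ℤ) :=
  lift fun l => if h : l ≠ [] ∧ l.length = i ∧ Small T l then
    single (⟨false, l, h⟩ : Cell T i) 1 else 0

theorem cellE_true {T : Set H} {i : ℕ} {l : List H} (h : l ≠ [] ∧ l.length = i + 1 ∧ Small T l) :
    cellE T i (single (⟨true, l, h⟩ : Cell T i) 1) = (single l 1, 0) := by
  simp [cellE]

theorem cellE_false {T : Set H} {i : ℕ} {l : List H} (h : l ≠ [] ∧ l.length = i ∧ Small T l) :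
    cellE T i (single (⟨false, l, h⟩ : Cell T i) 1) = (0, single l 1) := by
  simp [cellE]

theorem cellR₁_sg {T : Set H} {i : ℕ} {l : List H} (h : l ≠ [] ∧ l.length = i + 1 ∧ Small T l) :
    cellR₁ T i (single l 1) = single (⟨true, l, h⟩ : Cell T i) 1 := by
  rw [cellR₁, lift_sg, dif_pos h]

theorem cellR₂_sg {T : Set H} {i : ℕ} {l : List H} (h : l ≠ [] ∧ l.length = i ∧ Small T l) :
    cellR₂ T i (single l 1) = single (⟨false, l, h⟩ : Cell T i) 1 := by
  rw [cellR₂, lift_sg, dif_pos h]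

theorem cell_re (T : Set H) (i : ℕ) (c : Cell T i →₀ ℤ) :
    ((cellR₁ T i).coprod (cellR₂ T i)) (cellE T i c) = c := by
  have : ((cellR₁ T i).coprod (cellR₂ T i)).comp (cellE T i) = AddMonoidHom.id _ := by
    refine hom_ext ?_
    rintro ⟨b, l, hl⟩
    cases b
    · rw [AddMonoidHom.comp_apply, cellE_false (i := i) hl, AddMonoidHom.coprod_apply, map_zero,
        zero_add, cellR₂_sg (i := i) hl]; rfl
    · rw [AddMonoidHom.comp_apply, cellE_true (i := i) hl, AddMonoidHom.coprod_apply, map_zero,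
        add_zero, cellR₁_sg (i := i) hl]; rfl
  exact DFunLike.congr_fun this c

theorem cell_mem (T : Set H) (i : ℕ) (c : Cell T i →₀ ℤ) :
    cellE T i c ∈ (C T (i + 1)).prod (C' T i) := by
  refine On.map (p := fun _ => True) (cellE T i) ?_ (fun _ _ => trivial)
  rintro ⟨b, l, hl⟩ -
  cases b
  · rw [cellE_false (i := i) hl, mem_cone]
    exact ⟨zero_mem _, sg_mem (p := fun l => l ≠ [] ∧ l.length = i ∧ Small T l) hl _⟩
  · rw [cellE_true (i := i) hl, mem_cone]
    exact ⟨C.sg' hl.2.1 hl.2.2, zero_mem _⟩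

theorem cell_er (T : Set H) (i : ℕ) (m : Ch H × Ch H) (hm : m ∈ (C T (i + 1)).prod (C' T i)) :
    cellE T i (((cellR₁ T i).coprod (cellR₂ T i)) m) = m := by
  obtain ⟨x, y⟩ := m
  rw [mem_cone, ← C'_succ] at hm
  have h1 : cellE T i (cellR₁ T i x) = (x, 0) :=
    On.ext ((cellE T i).comp (cellR₁ T i)) (AddMonoidHom.inl _ _) (fun l hl => by
      rw [AddMonoidHom.comp_apply, cellR₁_sg hl, cellE_true hl]; rfl) hm.1
  have h2 : cellE T i (cellR₂ T i y) = (0, y) :=
    On.ext ((cellE T i).comp (cellR₂ T i)) (AddMonoidHom.inr _ _) (fun l hl => by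
      rw [AddMonoidHom.comp_apply, cellR₂_sg hl, cellE_false hl]; rfl) hm.2
  rw [AddMonoidHom.coprod_apply, map_add, h1, h2]
  simp

theorem cell_act (T : Set H) (i : ℕ) (g : H) (c : Cell T i →₀ ℤ) :
    cellE T i (chAct g c) = (tr g).prodMap (tr g) (cellE T i c) := by
  have : (cellE T i).comp (Finsupp.mapDomain.addMonoidHom fun x : Cell T i => g • x) =
      ((tr g).prodMap (tr g)).comp (cellE T i) := by
    refine hom_ext ?_
    rintro ⟨b, l, hl⟩
    cases b <;> simp [cellE, Cell.smul_l, Cell.smul_b]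
  exact DFunLike.congr_fun this c

theorem C.eq_aug {T : Set H} {c : Ch H} (hc : c ∈ C T 0) : Kill.aug c • single [] 1 = c :=
  On.ext ((zmultiplesHom _ (single [] 1)).comp Kill.aug) (AddMonoidHom.id _) (fun l hl => by
    obtain rfl := List.length_eq_zero_iff.1 hl.1
    simp) hc

/-- The mapping cone of `1 - β`. -/
theorem fpn_of_cone (T : Set H) (hT : T.Finite) (h1T : (1 : H) ∈ T) (β : Ch H →+ Ch H) (n : ℕ)
    (hβ : ∀ g c, β (tr g c) = tr g (β c))
    (hβC : ∀ k, k ≤ n + 1 → ∀ c ∈ C T k, β c ∈ C T k ∧ bd (β c) = β (bd c))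
    (hβ0 : β (single [] 1) = single [] 1)
    (hex0 : ∀ x ∈ C T 1, bd x = 0 → ∃ u ∈ C T 2, ∃ v ∈ C T 1, bd u + v - β v = x)
    (hex : ∀ i, i < n → ∀ x ∈ C T (i + 2), ∀ y ∈ C T (i + 1), bd x + y - β y = 0 →
      aug (bd y) • single [] 1 = bd y →
      ∃ u ∈ C T (i + 3), ∃ v ∈ C T (i + 2), bd u + v - β v = x ∧ -bd v = y) : FPn H n := by
  classical
  obtain ⟨D, hDa⟩ : ∃ D : Ch H × Ch H →+ Ch H × Ch H,
      ∀ x y, D (x, y) = (bd x + y - β y, aug (bd y) • single [] 1 - bd y) :=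
    ⟨(bd.coprod (AddMonoidHom.id _ - β)).prod
      (((zmultiplesHom _ (single [] 1)).comp (aug.comp bd) - bd).comp (AddMonoidHom.snd _ _)),
      fun x y => by simp [add_sub_assoc]⟩
  refine fpn_of_emb (Cell T) (fun g => (tr g).prodMap (tr g))
    (fun i => (C T (i + 1)).prod (C' T i)) (cellE T) (fun i => (cellR₁ T i).coprod (cellR₂ T i))
    (cell_re T) (cell_mem T) (cell_er T) (cell_act T) D
    ((aug.comp bd).comp (AddMonoidHom.fst _ _)) n ?_ ?_ ?_ ?_ ?_ ?_
    (fun i _ => Cell.finite_orbits hT i) (fun i _ x => Cell.stab x n)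
  · rintro g ⟨x, y⟩
    simp only [AddMonoidHom.coe_prodMap, Prod.map_apply, hDa, bd_mp, hβ, aug_mp, map_add, map_sub,
      map_zsmul, mp_sg, List.map_nil]
  · rintro g ⟨x, y⟩
    simp [bd_mp, aug_mp]
  · rintro i hi ⟨x, y⟩ hm
    obtain ⟨hx, hy⟩ := mem_cone_succ.1 hm
    rw [hDa, mem_cone]
    refine ⟨sub_mem (add_mem (C.bd hx) hy) (hβC _ (by omega) y hy).1, ?_⟩
    cases i with
    | zero =>
      rw [C.eq_aug (C.bd hy), sub_self]
      exact zero_mem _
    | succ i =>
      rw [C.aug (C.bd hy), zero_smul, zero_sub, C'_succ]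
      exact neg_mem (C.bd hy)
  · refine ⟨(single [1] 1, 0), mem_cone_zero.2 ⟨C.sg' rfl (by simp [Small, h1T]), rfl⟩, ?_⟩
    simp [bd_one]
  · rintro ⟨x, y⟩ hm
    obtain ⟨hx, rfl⟩ := mem_cone_zero.1 hm
    simp only [AddMonoidHom.comp_apply, AddMonoidHom.coe_fst]
    constructor
    · intro h
      have h0 : bd x = 0 := by rw [← C.eq_aug (C.bd hx), h, zero_smul]
      obtain ⟨u, hu, v, hv, e⟩ := hex0 x hx h0
      refine ⟨(u, v), mem_cone_succ.2 ⟨hu, hv⟩, ?_⟩
      rw [hDa, e, C.eq_aug (C.bd hv), sub_self]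
    · rintro ⟨⟨u, v⟩, hm', e⟩
      obtain ⟨hu, hv⟩ := mem_cone_succ.1 hm'
      rw [hDa] at e
      obtain ⟨rfl, -⟩ := Prod.mk.inj e
      rw [map_sub, map_add, bd_bd', zero_add, (hβC 1 (by omega) v hv).2, ← C.eq_aug (C.bd hv),
        map_zsmul β, hβ0, sub_self, map_zero]
  · rintro i hi ⟨x, y⟩ hm
    obtain ⟨hx, hy⟩ := mem_cone_succ.1 hm
    constructor
    · intro h
      rw [hDa] at h
      obtain ⟨h1, h2⟩ := Prod.mk.inj h
      obtain ⟨u, hu, v, hv, e1, e2⟩ := hex i hi x hx y hy h1 (sub_eq_zero.1 h2)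
      refine ⟨(u, v), mem_cone_succ.2 ⟨hu, hv⟩, ?_⟩
      rw [hDa, e1, C.aug (C.bd hv), zero_smul, zero_sub, e2]
    · rintro ⟨⟨u, v⟩, hm', e⟩
      obtain ⟨hu, hv⟩ := mem_cone_succ.1 hm'
      rw [← e, hDa u v, C.aug (C.bd hv), zero_smul, zero_sub, hDa]
      simp only [map_sub, map_add, map_neg, bd_bd', (hβC (i + 2) (by omega) v hv).2]
      refine Prod.ext ?_ (by simp)
      simp only [Prod.fst_zero]
      abel

end Kill
end Crest.Agent.R185
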