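import Crest.Agent.R185.KillChain
import Crest.Agent.R185.FPDef

/-!
# Row 185, killing gadget: bounded bar chains, the triangle lemma, killing
-/

set_option autoImplicit false

namespace Crest.Agent.R185
namespace Kill

open Finsupp

variable {A A' A'' : Type} [Group A] [Group A'] [Group A'']

/-- Lists whose entries differ by elements of `T`. -/
def Small (T : Set A) (l : List A) : Prop := ∀ a ∈ l, ∀ b ∈ l, a⁻¹ * b ∈ T

theorem Small.sub {T : Set A} {l l' : List A} (h : Small T l) (h' : ∀ a ∈ l', a ∈ l) :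
    Small T l' := fun a ha b hb => h a (h' a ha) b (h' b hb)

theorem Small.mono {T T' : Set A} (hT : T ⊆ T') {l : List A} (h : Small T l) : Small T' l :=
  fun a ha b hb => hT (h a ha b hb)

/-- Chains of `T`-small lists of length `n`. -/
def C (T : Set A) (n : ℕ) : AddSubgroup (Ch A) := On fun l => l.length = n ∧ Small T l

theorem C.mono {T T' : Set A} (hT : T ⊆ T') {n : ℕ} {c : Ch A} (hc : c ∈ C T n) : c ∈ C T' n :=
  On.mono (fun _ hl => ⟨hl.1, hl.2.mono hT⟩) hc

theorem C.len {T : Set A} {n : ℕ} {c : Ch A} (hc : c ∈ C T n) :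
    c ∈ On fun l : List A => l.length = n := On.mono (fun _ hl => hl.1) hc

theorem C.sg {T : Set A} {l : List A} (h : Small T l) : single l 1 ∈ C T l.length :=
  sg_mem ⟨rfl, h⟩ _

theorem C.sg' {T : Set A} {l : List A} {n : ℕ} (hn : l.length = n) (h : Small T l) :
    single l 1 ∈ C T n := sg_mem ⟨hn, h⟩ _

theorem C.bd {T : Set A} {n : ℕ} {c : Ch A} (hc : c ∈ C T (n + 1)) : bd c ∈ C T n := by
  refine On.map R185.bd (fun l hl => ?_) hc
  exact On.mono (fun l' hl' => ⟨by omega, hl.2.sub fun a ha => hl'.1.subset ha⟩) (bd_sg_mem l)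

theorem C.mp' {T : Set A} {T' : Set A'} (f : A → A')
    (hf : ∀ a b, a⁻¹ * b ∈ T → (f a)⁻¹ * f b ∈ T') {n : ℕ} {c : Ch A} (hc : c ∈ C T n) :
    mp f c ∈ C T' n := by
  refine On.map (Kill.mp f) (fun l hl => ?_) hc
  rw [mp_sg]
  refine sg_mem ⟨by simp [hl.1], fun a ha b hb => ?_⟩ _
  obtain ⟨a', ha', rfl⟩ := List.mem_map.1 ha
  obtain ⟨b', hb', rfl⟩ := List.mem_map.1 hb
  exact hf a' b' (hl.2 a' ha' b' hb')

theorem C.mp {T : Set A} (f : A →* A') {n : ℕ} {c : Ch A} (hc : c ∈ C T n) :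
    mp f c ∈ C (f '' T) n :=
  C.mp' (T' := f '' T) f (fun a b h => ⟨_, h, by simp⟩) hc

theorem C.tr {T : Set A} (g : A) {n : ℕ} {c : Ch A} (hc : c ∈ C T n) :
    Kill.mp (fun a => g * a) c ∈ C T n :=
  C.mp' _ (fun a b h => by simpa [mul_assoc] using h) hc

theorem C.sgn {T : Set A} {n : ℕ} {c : Ch A} (hc : c ∈ C T n) : sgn c ∈ C T n := by
  rw [sgn_of_len (C.len hc)]
  exact AddSubgroup.zsmul_mem _ hc _

theorem C.aug {T : Set A} {n : ℕ} {c : Ch A} (hc : c ∈ C T (n + 1)) : aug c = 0 :=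
  On.apply_eq_zero hc (by simp)

theorem C.cr {T : Set A} {T' : Set A'} {n m k : ℕ} (hk : n + m = k + 1) {c : Ch A} {d : Ch A'}
    (hc : c ∈ C T n) (hd : d ∈ C T' m) : cr c d ∈ C (T ×ˢ T') k := by
  refine On.map (Kill.cr.flip d) (fun x hx => ?_) hc
  refine On.map (Kill.cr (single x 1)) (fun y hy => ?_) hd
  refine On.mono (fun l hl => ⟨by omega, fun p hp q hq => ?_⟩) (cr_sg_mem x y)
  exact ⟨hx.2 _ (hl.2 p hp).1 _ (hl.2 q hq).1, hy.2 _ (hl.2 p hp).2 _ (hl.2 q hq).2⟩

/-- Additive maps sending bounded cycles of length `k` uniformly to bounded boundaries. -/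
def Nul (A A' : Type) [Group A] [Group A'] (k : ℕ) : AddSubgroup (Ch A →+ Ch A') where
  carrier := {u | ∀ T : Set A, T.Finite → ∃ T' : Set A', T'.Finite ∧
    ∀ z ∈ C T k, bd z = 0 → ∃ w ∈ C T' (k + 1), bd w = u z}
  zero_mem' := fun _ _ => ⟨∅, Set.finite_empty, fun _ _ _ => ⟨0, zero_mem _, by simp⟩⟩
  add_mem' := by
    intro u v hu hv T hT
    obtain ⟨T₁, h₁, H₁⟩ := hu T hT
    obtain ⟨T₂, h₂, H₂⟩ := hv T hT
    refine ⟨T₁ ∪ T₂, h₁.union h₂, fun z hz h0 => ?_⟩
    obtain ⟨w₁, hw₁, e₁⟩ := H₁ z hz h0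
    obtain ⟨w₂, hw₂, e₂⟩ := H₂ z hz h0
    exact ⟨w₁ + w₂, add_mem (C.mono Set.subset_union_left hw₁) (C.mono Set.subset_union_right hw₂),
      by simp [e₁, e₂]⟩
  neg_mem' := by
    intro u hu T hT
    obtain ⟨T₁, h₁, H₁⟩ := hu T hT
    refine ⟨T₁, h₁, fun z hz h0 => ?_⟩
    obtain ⟨w₁, hw₁, e₁⟩ := H₁ z hz h0
    exact ⟨-w₁, neg_mem hw₁, by simp [e₁]⟩

theorem mem_Nul {k : ℕ} {u : Ch A →+ Ch A'} : u ∈ Nul A A' k ↔ ∀ T : Set A, T.Finite →
    ∃ T' : Set A', T'.Finite ∧ ∀ z ∈ C T k, bd z = 0 → ∃ w ∈ C T' (k + 1), bd w = u z := Iff.rfl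

theorem Nul.post {k : ℕ} {u : Ch A →+ Ch A'} (hu : u ∈ Nul A A' k) (f : A' →* A'') :
    (mp f).comp u ∈ Nul A A'' k := by
  intro T hT
  obtain ⟨T₁, h₁, H₁⟩ := hu T hT
  refine ⟨f '' T₁, h₁.image _, fun z hz h0 => ?_⟩
  obtain ⟨w, hw, e⟩ := H₁ z hz h0
  exact ⟨mp f w, C.mp f hw, by simp [bd_mp, e]⟩

theorem Nul.tr {k : ℕ} {u : Ch A →+ Ch A'} (hu : u ∈ Nul A A' k) (g : A') :
    (mp fun a => g * a).comp u ∈ Nul A A' k := by
  intro T hT
  obtain ⟨T₁, h₁, H₁⟩ := hu T hT
  refine ⟨T₁, h₁, fun z hz h0 => ?_⟩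
  obtain ⟨w, hw, e⟩ := H₁ z hz h0
  exact ⟨mp _ w, C.tr g hw, by simp [bd_mp, e]⟩

theorem Nul.congr {k : ℕ} {u v : Ch A →+ Ch A'} (hu : u ∈ Nul A A' k)
    (h : ∀ l : List A, l.length = k → u (single l 1) = v (single l 1)) : v ∈ Nul A A' k := by
  intro T hT
  obtain ⟨T₁, h₁, H₁⟩ := hu T hT
  refine ⟨T₁, h₁, fun z hz h0 => ?_⟩
  obtain ⟨w, hw, e⟩ := H₁ z hz h0
  exact ⟨w, hw, e.trans (On.ext u v h (C.len hz))⟩

theorem nul_of_carrier (F : Ch A →+ Ch A') (hF : ∀ c, bd (F c) = F (bd c))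
    (h0 : F (single [] 1) = 0) (Γ : List A → Set A') (hΓ : ∀ l l', l'.Sublist l → Γ l' ⊆ Γ l)
    (hne : ∀ l, l ≠ [] → (Γ l).Nonempty) (hFΓ : ∀ l, F (single l 1) ∈ Sup (Γ l) l.length)
    (hb : ∀ T : Set A, T.Finite → ∃ T' : Set A', T'.Finite ∧
      ∀ l, Small T l → ∀ a ∈ Γ l, ∀ b ∈ Γ l, a⁻¹ * b ∈ T') (k : ℕ) : F ∈ Nul A A' k := by
  intro T hT
  obtain ⟨T', hT', H'⟩ := hb T hT
  obtain ⟨h, h', H⟩ := carrier F hF h0 Γ hΓ hne hFΓ k
  refine ⟨T', hT', fun z hz hz0 => ⟨h z, ?_, ?_⟩⟩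
  · refine On.map h (fun l hl => ?_) hz
    exact On.mono (fun l' hl' => ⟨hl'.1, fun a ha b hb =>
      H' l hl.2 a (hl'.2 a ha) b (hl'.2 b hb)⟩) (H l hl.1).1
  · have : bd (h z) + h' (bd z) = F z :=
      On.ext (bd.comp h + h'.comp bd) F (fun l hl => (H l hl.1).2) hz
    simpa [hz0] using this

theorem mp_sg_mem {X Y : Type} (f : X → Y) (l : List X) {S : Set Y} (h : ∀ a ∈ l, f a ∈ S) :
    mp f (single l 1) ∈ Sup S l.length := by
  rw [mp_sg]
  refine sg_mem ⟨by simp, fun b hb => ?_⟩ _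
  obtain ⟨a, ha, rfl⟩ := List.mem_map.1 hb
  exact h a ha

/-- Conjugation acts like translation. -/
theorem nul_conj (f : A →* A') (g : A') (k : ℕ) :
    (mp fun x => g * f x * g⁻¹) - (mp fun a => g * a).comp (mp f) ∈ Nul A A' k := by
  have h1 : (mp fun x => f x * g⁻¹) - mp f ∈ Nul A A' k := by
    refine nul_of_carrier _ (fun c => by simp [bd_mp]) (by simp)
      (fun l => {b | ∃ a ∈ l, b = f a ∨ b = f a * g⁻¹}) ?_ ?_ ?_ ?_ k
    · rintro l l' hl b ⟨a, ha, hb⟩
      exact ⟨a, hl.subset ha, hb⟩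
    · intro l hl
      obtain ⟨a, ha⟩ := List.exists_mem_of_ne_nil l hl
      exact ⟨f a, a, ha, Or.inl rfl⟩
    · intro l
      exact sub_mem (mp_sg_mem _ l fun a ha => ⟨a, ha, Or.inr rfl⟩)
        (mp_sg_mem _ l fun a ha => ⟨a, ha, Or.inl rfl⟩)
    · intro T hT
      refine ⟨f '' T ∪ (fun x => g * f x) '' T ∪ (fun x => f x * g⁻¹) '' T ∪
        (fun x => g * f x * g⁻¹) '' T,
        (((hT.image _).union (hT.image _)).union (hT.image _)).union (hT.image _), ?_⟩
      rintro l hl _ ⟨a, ha, rfl | rfl⟩ _ ⟨b, hb, rfl | rfl⟩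
      · exact Or.inl (Or.inl (Or.inl ⟨_, hl a ha b hb, by simp⟩))
      · exact Or.inl (Or.inr ⟨_, hl a ha b hb, by simp [mul_assoc]⟩)
      · exact Or.inl (Or.inl (Or.inr ⟨_, hl a ha b hb, by simp [mul_assoc]⟩))
      · exact Or.inr ⟨_, hl a ha b hb, by simp [mul_assoc]⟩
  have h2 := Nul.tr h1 g
  convert h2 using 1
  refine AddMonoidHom.ext fun c => ?_
  simp only [AddMonoidHom.sub_apply, AddMonoidHom.comp_apply, map_sub, mp_mp]
  congr 3
  funext x
  simp [mul_assoc]

/-- The diagonal is boundedly homotopic to its Alexander–Whitney approximation. -/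
theorem nul_diag (φ : A →* A') (k : ℕ) :
    mp (φ.prod φ) - aw (((cr.comp (mp φ)).flip.comp (mp φ)).flip) ∈ Nul A (A' × A') (k + 1) := by
  set γ : Ch A →+ Ch A →+ Ch (A' × A') := ((cr.comp (mp φ)).flip.comp (mp φ)).flip with hγ
  have hγa : ∀ x y, γ x y = cr (mp φ x) (mp φ y) := fun x y => rfl
  set E : Ch A →+ Ch (A' × A') := (zmultiplesHom _ (single [] 1)).comp aug with hE
  have hEa : ∀ x, E x = aug x • single [] 1 := fun x => rfl
  have h1 : mp (φ.prod φ) - aw γ - E ∈ Nul A (A' × A') (k + 1) := by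
    refine nul_of_carrier _ (fun c => ?_) (by simp [hEa, aw_sg])
      (fun l => {p | ∃ a ∈ l, ∃ b ∈ l, p = (φ a, φ b)}) ?_ ?_ ?_ ?_ _
    · have e : γ.compr₂ bd = dl γ := by
        refine AddMonoidHom.ext fun x => AddMonoidHom.ext fun y => ?_
        simp only [AddMonoidHom.compr₂_apply, dl_apply, hγa, bd_cr, bd_mp, sgn_mp]
      simp only [AddMonoidHom.sub_apply, map_sub, bd_mp, hEa, map_zsmul, bd_nil, smul_zero,
        sub_zero]
      rw [map_aw, e, aw_bd, hγa, hγa, mp_sg, List.map_nil, cr_nil_left, cr_nil_right,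
        bd_mp, aug_mp]
      have : aug (bd (sgn c)) = -aug (bd c) := by
        have h3 : ∀ x : Ch A, aug (sgn x) = aug x := fun x => by
          have : aug.comp (sgn : Ch A →+ Ch A) = aug := hom_ext fun l => by
            cases l <;> simp [sgn_sg, -smul_single]
          exact DFunLike.congr_fun this x
        rw [← h3 (bd c), sgn_bd, map_neg, neg_neg]
      rw [this, neg_smul, AddMonoidHom.zero_apply]
      abel
    · rintro l l' hl p ⟨a, ha, b, hb, hp⟩
      exact ⟨a, hl.subset ha, b, hl.subset hb, hp⟩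
    · intro l hl
      obtain ⟨a, ha⟩ := List.exists_mem_of_ne_nil l hl
      exact ⟨_, a, ha, a, ha, rfl⟩
    · intro l
      refine sub_mem (sub_mem (mp_sg_mem _ l fun a ha => ⟨a, ha, a, ha, rfl⟩) ?_) ?_
      · rw [aw_sg]
        refine sum_mem fun i hi => ?_
        rw [hγa, mp_sg, mp_sg]
        have hi' := Finset.mem_range.1 hi
        refine On.mono (fun l' hl' => ⟨?_, fun p hp => ?_⟩) (cr_sg_mem _ _)
        · have := hl'.1
          simp only [List.length_map, List.length_take, List.length_drop] at this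
          omega
        · obtain ⟨a, ha, e1⟩ := List.mem_map.1 (hl'.2 p hp).1
          obtain ⟨b, hb, e2⟩ := List.mem_map.1 (hl'.2 p hp).2
          exact ⟨a, List.mem_of_mem_take ha, b, List.mem_of_mem_drop hb, Prod.ext e1.symm e2.symm⟩
      · rw [hEa]
        cases l with
        | nil => exact AddSubgroup.zsmul_mem _ (sg_mem (by simp) _) _
        | cons a l => simp [zero_mem]
    · intro T hT
      refine ⟨(φ '' T) ×ˢ (φ '' T), (hT.image _).prod (hT.image _), ?_⟩
      rintro l hl _ ⟨a, ha, b, hb, rfl⟩ _ ⟨a', ha', b', hb', rfl⟩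
      exact ⟨⟨_, hl a ha a' ha', by simp⟩, ⟨_, hl b hb b' hb', by simp⟩⟩
  refine Nul.congr h1 fun l hl => ?_
  cases l with
  | nil => simp at hl
  | cons a l => simp [hEa]

/-- `φ` is boundedly null-homotopic on lists of length at most `k`. -/
def Contr (k : ℕ) (φ : A →* A') : Prop :=
  ∀ T : Set A, T.Finite → ∃ T' : Set A', T'.Finite ∧ ∃ s : Ch A →+ Ch A',
    (∀ l : List A, s (single l 1) ∈ C T' (l.length + 1)) ∧ s (single [] 1) = single [1] 1 ∧
    ∀ l, Small T l → l.length ≤ k →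
      bd (s (single l 1)) + s (bd (single l 1)) = mp φ (single l 1)

theorem contr_zero (φ : A →* A') : Contr 0 φ := by
  intro T _
  refine ⟨{1}, Set.finite_singleton _, (zmultiplesHom _ (single [1] 1)).comp aug, fun l => ?_,
    by simp, fun l _ hl => ?_⟩
  · cases l with
    | nil => simpa using C.sg' (T := ({1} : Set A')) (l := [1]) rfl (by simp [Small])
    | cons a l => simp [zero_mem]
  · obtain rfl := List.length_eq_zero_iff.1 (Nat.le_zero.1 hl)
    simp [bd_one]

theorem Contr.nul {k : ℕ} {φ : A →* A'} (h : Contr k φ) {j : ℕ} (hj : j ≤ k) :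
    mp φ ∈ Nul A A' j := by
  intro T hT
  obtain ⟨T', hT', s, hs, -, H⟩ := h T hT
  refine ⟨T', hT', fun z hz h0 => ⟨s z, On.map s (fun l hl => hl.1 ▸ hs l) hz, ?_⟩⟩
  have : bd (s z) + s (bd z) = mp φ z :=
    On.ext (bd.comp s + s.comp bd) (mp φ) (fun l hl => H l hl.2 (by omega)) hz
  simpa [h0] using this

theorem Contr.step {k : ℕ} {φ : A →* A'} (h : Contr k φ) {ψ : A' →* A''}
    (hψ : mp ψ ∈ Nul A' A'' (k + 1)) : Contr (k + 1) (ψ.comp φ) := by
  classical
  intro T hT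
  obtain ⟨T', hT', s, hs, hs0, H⟩ := h T hT
  obtain ⟨T'', hT'', K⟩ := hψ (T' ∪ φ '' T) (hT'.union (hT.image _))
  have key : ∀ l : List A, l.length = k + 1 ∧ Small T l → ∃ w ∈ C T'' (k + 1 + 1),
      bd w = mp ψ (mp φ (single l 1) - s (bd (single l 1))) := by
    rintro l ⟨hl, hsm⟩
    have hb : bd (single l 1) ∈ C T k := C.bd (C.sg' hl hsm)
    refine K _ (sub_mem (C.mono Set.subset_union_right (C.mp φ (C.sg' hl hsm)))
      (C.mono Set.subset_union_left (On.map s (fun l' hl' => hl'.1 ▸ hs l') hb))) ?_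
    have : bd (s (bd (single l 1))) + s (bd (bd (single l 1))) = mp φ (bd (single l 1)) :=
      On.ext (bd.comp s + s.comp bd) (mp φ) (fun l' hl' => H l' hl'.2 (by omega)) hb
    rw [bd_bd', map_zero, add_zero] at this
    rw [map_sub, bd_mp, this, sub_self]
  choose w hw hw' using key
  set s' : Ch A →+ Ch A'' := lift fun l => if hl : l.length = k + 1 ∧ Small T l then w l hl
    else mp ψ (s (single l 1)) with hs'
  have hlow : ∀ l : List A, l.length ≤ k → s' (single l 1) = mp ψ (s (single l 1)) := by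
    intro l hl
    rw [hs', lift_sg, dif_neg (by omega)]
  have hlow' : ∀ l : List A, l.length ≤ k + 1 →
      s' (bd (single l 1)) = mp ψ (s (bd (single l 1))) := fun l hl =>
    On.ext s' ((mp ψ).comp s) (fun l' hl' => hlow l' (by omega)) (bd_sg_mem l)
  refine ⟨T'' ∪ ψ '' T', hT''.union (hT'.image _), s', fun l => ?_, ?_, fun l hl hk => ?_⟩
  · rw [hs', lift_sg]
    split_ifs with hl
    · rw [hl.1]; exact C.mono Set.subset_union_left (hw l hl)
    · exact C.mono Set.subset_union_right (C.mp ψ (hs l))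
  · rw [hlow _ (by simp), hs0]; simp
  · rw [hlow' l hk, MonoidHom.coe_comp, ← mp_mp]
    rcases Nat.lt_or_ge k l.length with hk' | hk'
    · have hl' : l.length = k + 1 ∧ Small T l := ⟨by omega, hl⟩
      rw [hs', lift_sg, dif_pos hl', hw', map_sub]
      abel
    · rw [hlow l hk', bd_mp, ← map_add, H l hl hk']

theorem bd_two {X : Type} (a b : X) : bd (single [a, b] 1) = single [b] 1 - single [a] 1 := by
  rw [bd_cons, bd_one, cn_sg]

theorem nul_one (hfg : Group.FG A) : mp (MonoidHom.id A) ∈ Nul A A 1 := by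
  obtain ⟨S, hS, hSf⟩ := Group.fg_iff.1 hfg
  set T : Set A := insert 1 (S ∪ S⁻¹) with hT
  have hTf : T.Finite := (hSf.union hSf.inv).insert _
  have hedge : ∀ g s : A, s ∈ S → single [g, g * s] 1 ∈ C T 2 := by
    intro g s hs
    refine C.sg' rfl ?_
    intro a ha b hb
    simp only [List.mem_cons, List.not_mem_nil, or_false] at ha hb
    rcases ha with rfl | rfl <;> rcases hb with rfl | rfl <;> simp [hT, hs]
  have key : ∀ g : A, ∃ w ∈ C T 2, bd w = single [g] 1 - single [1] 1 := by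
    intro g
    have hg : g ∈ Subgroup.closure S := hS ▸ Subgroup.mem_top g
    induction hg using Subgroup.closure_induction_right with
    | one => exact ⟨0, zero_mem _, by simp⟩
    | mul_right x _ y hy ih =>
      obtain ⟨w, hw, e⟩ := ih
      refine ⟨w + single [x, x * y] 1, add_mem hw (hedge x y hy), ?_⟩
      rw [map_add, e, bd_two]; abel
    | mul_inv_cancel x _ y hy ih =>
      obtain ⟨w, hw, e⟩ := ih
      refine ⟨w - single [x * y⁻¹, x * y⁻¹ * y] 1, sub_mem hw (hedge _ y hy), ?_⟩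
      rw [map_sub, e, bd_two, inv_mul_cancel_right]; abel
  choose p hp hp' using key
  intro T₀ _
  refine ⟨T, hTf, fun z hz h0 => ⟨lift (fun l : List A => p (l.headD 1)) z, ?_, ?_⟩⟩
  · exact On.map (lift fun l : List A => p (l.headD 1))
      (fun l _ => by rw [lift_sg]; exact hp _) hz
  · have : bd (lift (fun l : List A => p (l.headD 1)) z) = z - cn 1 (bd z) := by
      refine On.ext (bd.comp (lift fun l : List A => p (l.headD 1)))
        (AddMonoidHom.id (Ch A) - (cn 1).comp bd) (fun l hl => ?_) hz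
      obtain ⟨a, rfl⟩ := List.length_eq_one_iff.1 hl.1
      simp [hp', bd_one]
    rw [this, h0, MonoidHom.coe_id, mp_id]
    simp

/-- The triangle lemma in `A' × A'`. -/
theorem triangle₀ {k : ℕ} {φ : A →* A'} (h : Contr (k + 1) φ) :
    mp (φ.prod φ) - mp ((MonoidHom.inl A' A').comp φ) - mp ((MonoidHom.inr A' A').comp φ) ∈
      Nul A (A' × A') (k + 2) := by
  set γ : Ch A →+ Ch A →+ Ch (A' × A') := ((cr.comp (mp φ)).flip.comp (mp φ)).flip with hγ
  have hγa : ∀ x y, γ x y = cr (mp φ x) (mp φ y) := fun x y => rfl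
  suffices h2 : aw γ - mp ((MonoidHom.inl A' A').comp φ) - mp ((MonoidHom.inr A' A').comp φ) ∈
      Nul A (A' × A') (k + 2) by
    have := add_mem (nul_diag φ (k + 1)) h2
    convert this using 1
    rw [← hγ]; abel
  intro T hT
  obtain ⟨T', hT', s, hs, hs0, H⟩ := h T hT
  set S : Set A' := insert 1 (T' ∪ φ '' T) with hS
  have hSf : S.Finite := (hT'.union (hT.image _)).insert _
  have hT'S : T' ⊆ S := fun x hx => Or.inr (Or.inl hx)
  have hTS : φ '' T ⊆ S := fun x hx => Or.inr (Or.inr hx)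
  have hsC : ∀ {n : ℕ} {c : Ch A}, c ∈ C T n → s c ∈ C S (n + 1) := fun hc =>
    On.map s (fun l hl => C.mono hT'S (hl.1 ▸ hs l)) hc
  have hφC : ∀ {n : ℕ} {c : Ch A}, c ∈ C T n → mp φ c ∈ C S n := fun hc =>
    C.mono hTS (C.mp φ hc)
  have hσs : ∀ x, sgn (s x) = -s (sgn x) := fun x => by
    have : sgn.comp s = -s.comp sgn := hom_ext fun l => by
      simp only [AddMonoidHom.comp_apply, AddMonoidHom.neg_apply, sgn_sg, map_zsmul,
        sgn_of_len (C.len (hs l)), pow_succ, mul_neg, mul_one, neg_smul]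
    exact DFunLike.congr_fun this x
  set β : Ch A →+ Ch A →+ Ch (A' × A') := ((cr.comp s).flip.comp (mp φ)).flip with hβ
  have hβa : ∀ x y, β x y = cr (s x) (mp φ y) := fun x y => rfl
  set D : Ch A →+ Ch A' := mp φ - bd.comp s - s.comp bd with hD
  have hDa : ∀ x, D x = mp φ x - bd (s x) - s (bd x) := fun x => rfl
  set ζ : Ch A →+ Ch A →+ Ch (A' × A') := ((cr.comp D).flip.comp (mp φ)).flip with hζ
  have hζa : ∀ x y, ζ x y = cr (D x) (mp φ y) := fun x y => rfl
  set V : Ch A →+ Ch (A' × A') :=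
    lift fun l => cr (sgn (D (single l 1))) (s (single (l.drop (k + 1)) 1)) with hV
  have hD0 : ∀ l, Small T l → l.length ≤ k + 1 → D (single l 1) = 0 := fun l hl hk => by
    rw [hDa, ← H l hl hk]; abel
  have hDC : ∀ {c : Ch A}, c ∈ C T (k + 2) → D c ∈ C S (k + 2) := fun hc =>
    sub_mem (sub_mem (hφC hc) (C.bd (hsC hc))) (hsC (C.bd hc))
  have hDbd : ∀ {c : Ch A}, c ∈ C T (k + 2) → bd (D c) = 0 := fun {c} hc => by
    have h1 : D (bd c) = 0 := On.ext D 0 (fun l hl => hD0 l hl.2 hl.1.le) (C.bd hc)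
    rw [hDa, bd_bd', map_zero, sub_zero] at h1
    rw [hDa, map_sub, map_sub, bd_bd', sub_zero, bd_mp, h1]
  have E1 : β.compr₂ bd = γ - ζ - dl β := by
    refine AddMonoidHom.ext fun x => AddMonoidHom.ext fun y => ?_
    simp only [AddMonoidHom.compr₂_apply, AddMonoidHom.sub_apply, dl_apply, hγa, hβa, hζa, hDa,
      bd_cr, hσs, bd_mp, map_sub, map_neg, AddMonoidHom.neg_apply]
    abel
  have E2 : ∀ z ∈ C T (k + 2), aw ζ z = cr (D z) (single [1] 1) - bd (V z) := fun z hz => by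
    refine On.ext (aw ζ) ((cr.comp D).flip (single [1] 1) - bd.comp V) (fun l hl => ?_) hz
    simp only [AddMonoidHom.sub_apply, AddMonoidHom.comp_apply, AddMonoidHom.flip_apply]
    rw [aw_sg, hl.1, Finset.sum_range_succ, Finset.sum_eq_zero, zero_add,
      List.take_of_length_le (by omega), hV, lift_sg, bd_cr, sgn_sgn, hζa]
    · have h1 : bd (sgn (D (single l 1))) = 0 := by
        have := sgn_bd (D (single l 1))
        rw [hDbd (C.sg' hl.1 hl.2), map_zero] at this
        exact neg_eq_zero.1 this.symm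
      obtain ⟨a, ha⟩ := List.length_eq_one_iff.1
        (show (l.drop (k + 1)).length = 1 by rw [List.length_drop]; omega)
      have h2 := H (l.drop (k + 1)) (hl.2.sub fun a ha => List.mem_of_mem_drop ha)
        (by rw [List.length_drop]; omega)
      rw [ha, bd_one, hs0] at h2
      rw [h1, ha, ← h2, map_add, map_zero, AddMonoidHom.zero_apply]
      abel
    · intro i hi
      have hi' := Finset.mem_range.1 hi
      rw [hζa, hD0 _ (hl.2.sub fun a ha => List.mem_of_mem_take ha)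
        (by rw [List.length_take]; omega), map_zero, AddMonoidHom.zero_apply]
  refine ⟨S ×ˢ S, hSf.prod hSf, fun z hz h0 =>
    ⟨aw β z - mp (MonoidHom.inl A' A') (s z) - V z, ?_, ?_⟩⟩
  · refine sub_mem (sub_mem ?_ ?_) ?_
    · refine On.map (aw β) (fun l hl => ?_) hz
      rw [aw_sg]
      refine sum_mem fun i hi => ?_
      have hi' := Finset.mem_range.1 hi
      rw [hβa]
      refine C.cr ?_ (hsC (C.sg (hl.2.sub fun a ha => List.mem_of_mem_take ha)))
        (hφC (C.sg (hl.2.sub fun a ha => List.mem_of_mem_drop ha)))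
      rw [List.length_take, List.length_drop]; omega
    · refine C.mono ?_ (C.mp (MonoidHom.inl A' A') (hsC hz))
      rintro _ ⟨x, hx, rfl⟩
      exact ⟨hx, Or.inl rfl⟩
    · refine On.map V (fun l hl => ?_) hz
      rw [hV, lift_sg]
      refine C.cr ?_ (C.sgn (hDC (C.sg' hl.1 hl.2)))
        (hsC (C.sg (hl.2.sub fun a ha => List.mem_of_mem_drop ha)))
      rw [List.length_drop]; omega
  · have h1 := aw_bd β z
    rw [h0, map_zero, hβa, hβa, hs0, cr_one_left, mp_sg, List.map_nil, cr_nil_right,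
      C.aug (C.bd (hsC (C.sgn hz))), zero_smul, add_zero] at h1
    have h2 := E2 z hz
    rw [cr_one_right, C.aug (hDC hz), zero_smul, sub_zero, hDa, h0, map_zero, sub_zero,
      map_sub] at h2
    have e1 : mp ((MonoidHom.inl A' A').comp φ) z = mp (fun a => (a, (1 : A'))) (mp φ z) := by
      rw [mp_mp]; rfl
    have e2 : mp ((MonoidHom.inr A' A').comp φ) z = mp (fun a => ((1 : A'), a)) (mp φ z) := by
      rw [mp_mp]; rfl
    have e3 : mp (MonoidHom.inl A' A') (bd (s z)) = mp (fun a => (a, (1 : A'))) (bd (s z)) := rfl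
    simp only [AddMonoidHom.sub_apply]
    rw [map_sub, map_sub, map_aw, E1, aw_sub, aw_sub, h2, bd_mp, e1, e2, e3,
      ← sub_eq_zero.1 h1.symm]
    abel

/-- The pointwise product of commuting homomorphisms. -/
def pr (e e' : A →* A') (h : ∀ x y, Commute (e x) (e' y)) : A →* A' :=
  (e.noncommCoprod e' h).comp ((MonoidHom.id A).prod (MonoidHom.id A))

theorem pr_apply (e e' : A →* A') (h : ∀ x y, Commute (e x) (e' y)) (x : A) :
    pr e e' h x = e x * e' x := rfl

/-- The triangle lemma. -/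
theorem triangle {k : ℕ} {φ : A →* A'} (h : Contr (k + 1) φ) (e e' : A' →* A'')
    (hc : ∀ x y, Commute (e x) (e' y)) :
    mp ((pr e e' hc).comp φ) - mp (e.comp φ) - mp (e'.comp φ) ∈ Nul A A'' (k + 2) := by
  have := Nul.post (triangle₀ h) (e.noncommCoprod e' hc)
  convert this using 1
  refine AddMonoidHom.ext fun c => ?_
  simp only [AddMonoidHom.sub_apply, AddMonoidHom.comp_apply, map_sub, mp_mp]
  have e1 : ⇑((pr e e' hc).comp φ) = e.noncommCoprod e' hc ∘ φ.prod φ := by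
    funext x; simp [pr_apply]
  have e2 : ⇑(e.comp φ) = e.noncommCoprod e' hc ∘ (MonoidHom.inl A' A').comp φ := by
    funext x; simp
  have e3 : ⇑(e'.comp φ) = e.noncommCoprod e' hc ∘ (MonoidHom.inr A' A').comp φ := by
    funext x; simp
  rw [e1, e2, e3]

theorem triangle3 {k : ℕ} {φ : A →* A'} (h : Contr (k + 1) φ) (e : Fin 3 → A' →* A'')
    (hc : ∀ i j, i ≠ j → ∀ x y, Commute (e i x) (e j y)) :
    ∃ ρ : A' →* A'', (∀ x, ρ x = e 0 x * e 1 x * e 2 x) ∧
      mp (ρ.comp φ) - mp ((e 0).comp φ) - mp ((e 1).comp φ) - mp ((e 2).comp φ) ∈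
        Nul A A'' (k + 2) := by
  have h01 := hc 0 1 (by decide)
  have h2 : ∀ x y, Commute (pr (e 0) (e 1) h01 x) (e 2 y) := fun x y =>
    (hc 0 2 (by decide) x y).mul_left (hc 1 2 (by decide) x y)
  refine ⟨pr _ _ h2, fun x => rfl, ?_⟩
  have := add_mem (triangle h _ _ h2) (triangle h _ _ h01)
  convert this using 1
  abel

/-- The gadget kills the first obstruction. -/
theorem gadget_kill {k : ℕ} {φ : A →* A'} (h : Contr (k + 1) φ) {θ : A' →* A''}
    (g : Gadget θ) : mp (θ.comp φ) ∈ Nul A A'' (k + 2) := by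
  choose ρ hρ hρ' using fun i => triangle3 h (fun j => g.e i j) (fun j j' hj => g.comm_row i j j' hj)
  choose κ hκ hκ' using fun j => triangle3 h (fun i => g.e i j) (fun i i' hi => g.comm_col i i' j hi)
  have h1 : mp ((ρ 0).comp φ) + mp ((ρ 1).comp φ) + mp ((ρ 2).comp φ) - mp ((κ 0).comp φ) -
      mp ((κ 1).comp φ) - mp ((κ 2).comp φ) ∈ Nul A A'' (k + 2) := by
    have := sub_mem (add_mem (add_mem (hρ' 0) (hρ' 1)) (hρ' 2))
      (add_mem (add_mem (hκ' 0) (hκ' 1)) (hκ' 2))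
    convert this using 1
    abel
  have hc0 : ∀ x y, Commute (ρ 0 x) (θ y) := fun x y => by
    rw [hρ]
    exact (((g.comm_zero 0 y x).mul_right (g.comm_zero 1 y x)).mul_right (g.comm_zero 2 y x)).symm
  have h2 := triangle h (ρ 0) θ hc0
  have c0 := nul_conj ((ρ 0).comp φ) g.r (k + 2)
  have e0 : (fun x => g.r * ((ρ 0).comp φ) x * g.r⁻¹) = (pr (ρ 0) θ hc0).comp φ := by
    funext x
    simp only [MonoidHom.comp_apply, pr_apply, hρ]
    exact g.r_row0 _
  have cr : ∀ i, i ≠ 0 → mp ((ρ i).comp φ) - (mp fun a => g.r * a).comp (mp ((ρ i).comp φ)) ∈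
      Nul A A'' (k + 2) := fun i hi => by
    have c := nul_conj ((ρ i).comp φ) g.r (k + 2)
    have e : (fun x => g.r * ((ρ i).comp φ) x * g.r⁻¹) = (ρ i).comp φ := by
      funext x
      simp only [MonoidHom.comp_apply, hρ]
      exact (g.r_row i hi _).mul_inv_cancel
    rwa [e] at c
  have cc : ∀ j, mp ((κ j).comp φ) - (mp fun a => g.r * a).comp (mp ((κ j).comp φ)) ∈
      Nul A A'' (k + 2) := fun j => by
    have c := nul_conj ((κ j).comp φ) g.r (k + 2)
    have e : (fun x => g.r * ((κ j).comp φ) x * g.r⁻¹) = (κ j).comp φ := by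
      funext x
      simp only [MonoidHom.comp_apply, hκ]
      exact (g.r_col j _).mul_inv_cancel
    rwa [e] at c
  rw [e0] at c0
  have h3 := Nul.tr h1 g.r
  have h4 := sub_mem (sub_mem (add_mem (add_mem (add_mem (add_mem h3 c0) (cr 1 (by decide)))
    (cr 2 (by decide))) (neg_mem (add_mem (add_mem (cc 0) (cc 1)) (cc 2)))) h1) h2
  convert h4 using 1
  simp only [AddMonoidHom.comp_add, AddMonoidHom.comp_sub]
  abel

/-- Every degree is killed by some power. -/
theorem exists_contr (hfg : Group.FG A) {θ : Monoid.End A} (g : Gadget (θ : A →* A)) (k : ℕ) :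
    ∃ m : ℕ, Contr (k + 1) (θ ^ m : Monoid.End A) := by
  induction k with
  | zero => exact ⟨0, (contr_zero (MonoidHom.id A)).step (nul_one hfg)⟩
  | succ k ih =>
    obtain ⟨m, hm⟩ := ih
    refine ⟨1 + m + m, ?_⟩
    have := hm.step (gadget_kill hm g)
    convert this using 1
    rw [pow_add, pow_add, pow_one]; rfl

end Kill
end Crest.Agent.R185
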