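import Crest.Agent.R185.Pkg
import Crest.Agent.R185.PresLib

/-!
# Row 185: the approximants `B m` and their limit
-/

set_option autoImplicit false

namespace Crest.Agent.R185

variable {ι : Type}

/-- The relations of the finite stages. -/
def stgRel (σ : ι → Word ι) (R : Set (Word ι)) : ℕ → Set (Word ι)
  | 0 => (MG.ofRel (∅ : Set (Word ι))).rel
  | m + 1 => (MG.ofRel (R ∪ subst σ '' stgRel σ R m)).rel

theorem stgRel_anchor : type_of% @stgRel.eq_def := @stgRel.eq_def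
theorem stgRel_zero (σ : ι → Word ι) (R : Set (Word ι)) :
    stgRel σ R 0 = (MG.ofRel (∅ : Set (Word ι))).rel := rfl
theorem stgRel_succ (σ : ι → Word ι) (R : Set (Word ι)) (m : ℕ) :
    stgRel σ R (m + 1) = (MG.ofRel (R ∪ subst σ '' stgRel σ R m)).rel := rfl

theorem ofRel_mono {T T' : Set (Word ι)} (h : T ⊆ T') : (MG.ofRel T).rel ⊆ (MG.ofRel T').rel :=
  (pres_ofRel T).rel_subset fun r hr => (pres_ofRel T').1 r (h hr)

theorem Pres.rel_eq {X X' : MG ι} {T : Set (Word ι)} (h : Pres X T) (h' : Pres X' T) :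
    X.rel = X'.rel :=
  Set.Subset.antisymm (h.rel_subset h'.1) (h'.rel_subset h.1)

theorem ofRel_rel_rel (X : MG ι) : (MG.ofRel X.rel).rel = X.rel :=
  (pres_ofRel _).rel_eq (pres_rel X)

variable (σ : ι → Word ι) (R : Set (Word ι))

theorem stgRel_mono : Monotone (stgRel σ R) := by
  refine monotone_nat_of_le_succ fun m => ?_
  induction m with
  | zero => exact ofRel_mono (Set.empty_subset _)
  | succ m ih => exact ofRel_mono (Set.union_subset_union_right _ (Set.image_mono ih))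

theorem exists_mg_stgRel (m : ℕ) : ∃ X : MG ι, X.rel = stgRel σ R m := by
  cases m with
  | zero => exact ⟨_, rfl⟩
  | succ m => exact ⟨_, rfl⟩

/-- The approximants, including the limit. -/
def stg (m : ℕ∞) : MG ι := MG.ofRel (⋃ k : ℕ, ⋃ _ : (k : ℕ∞) ≤ m, stgRel σ R k)

theorem mem_rel_iff_mk (X : MG ι) (w : Word ι) :
    w ∈ X.rel ↔ FreeGroup.mk w ∈ (FreeGroup.lift X.gen).ker := Iff.rfl

theorem mem_stg_rel (m : ℕ∞) (w : Word ι) :
    (stg σ R m).ev w = 1 ↔ ∃ k : ℕ, (k : ℕ∞) ≤ m ∧ w ∈ stgRel σ R k := by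
  constructor
  · intro hw
    choose X hX using exists_mg_stgRel σ R
    let N : ℕ → Subgroup (FreeGroup ι) := fun k => (FreeGroup.lift (X k).gen).ker
    have hN : ∀ k w, FreeGroup.mk w ∈ N k ↔ w ∈ stgRel σ R k := fun k w => by
      rw [← hX k]; rfl
    have hmono : ∀ k k', k ≤ k' → N k ≤ N k' := fun k k' h x hx => by
      induction x using Quot.inductionOn with
      | h v => exact (hN k' v).2 (stgRel_mono σ R h ((hN k v).1 hx))
    have h1 := (pres_iff _ _).1 (pres_ofRel (⋃ k : ℕ, ⋃ _ : (k : ℕ∞) ≤ m, stgRel σ R k))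
    have h2 : FreeGroup.mk w ∈ Subgroup.normalClosure
        (FreeGroup.mk '' ⋃ k : ℕ, ⋃ _ : (k : ℕ∞) ≤ m, stgRel σ R k) := by
      rw [← h1]; exact hw
    have key : ∀ x ∈ Subgroup.normalClosure
        (FreeGroup.mk '' ⋃ k : ℕ, ⋃ _ : (k : ℕ∞) ≤ m, stgRel σ R k),
        ∃ k : ℕ, (k : ℕ∞) ≤ m ∧ x ∈ N k := by
      intro x hx
      induction hx using Subgroup.closure_induction with
      | mem x hx =>
        obtain ⟨a, ⟨v, hv, rfl⟩, hc⟩ := Group.mem_conjugatesOfSet_iff.1 hx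
        simp only [Set.mem_iUnion] at hv
        obtain ⟨k, hk, hv⟩ := hv
        obtain ⟨c, rfl⟩ := isConj_iff.1 hc
        exact ⟨k, hk, (MonoidHom.normal_ker _).conj_mem _ ((hN k v).2 hv) c⟩
      | one => exact ⟨0, by simp, one_mem _⟩
      | mul x y _ _ hx hy =>
        obtain ⟨k, hk, hx⟩ := hx
        obtain ⟨k', hk', hy⟩ := hy
        refine ⟨max k k', ?_, mul_mem (hmono _ _ (le_max_left _ _) hx)
          (hmono _ _ (le_max_right _ _) hy)⟩
        rcases le_total k k' with h | h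
        · rwa [max_eq_right h]
        · rwa [max_eq_left h]
      | inv x _ hx =>
        obtain ⟨k, hk, hx⟩ := hx
        exact ⟨k, hk, inv_mem hx⟩
    obtain ⟨k, hk, hx⟩ := key _ h2
    exact ⟨k, hk, (hN k w).1 hx⟩
  · rintro ⟨k, hk, hw⟩
    exact (pres_ofRel _).1 w (Set.mem_iUnion₂.2 ⟨k, hk, hw⟩)

theorem stg_rel_coe (m : ℕ) : (stg σ R m).rel = stgRel σ R m := by
  ext w
  refine (mem_stg_rel σ R m w).trans ⟨?_, fun h => ⟨m, le_rfl, h⟩⟩
  rintro ⟨k, hk, hw⟩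
  exact stgRel_mono σ R (by exact_mod_cast hk) hw

theorem stg_mono {m m' : ℕ∞} (h : m ≤ m') {w : Word ι} (hw : (stg σ R m).ev w = 1) :
    (stg σ R m').ev w = 1 := by
  obtain ⟨k, hk, hw⟩ := (mem_stg_rel σ R m w).1 hw
  exact (mem_stg_rel σ R m' w).2 ⟨k, hk.trans h, hw⟩

theorem stg_cont {m : ℕ∞} {w : Word ι} (hw : (stg σ R m).ev w = 1) :
    ∃ k : ℕ, (k : ℕ∞) ≤ m ∧ (stg σ R k).ev w = 1 := by
  obtain ⟨k, hk, hw⟩ := (mem_stg_rel σ R m w).1 hw
  exact ⟨k, hk, (mem_stg_rel σ R k w).2 ⟨k, le_rfl, hw⟩⟩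

theorem stg_zero : (stg σ R 0).rel = (MG.free ι).rel :=
  (stg_rel_coe σ R 0).trans ((pres_ofRel _).rel_eq (pres_free ι))

theorem pres_stg_succ (m : ℕ∞) :
    Pres (stg σ R (m + 1)) (R ∪ subst σ '' (stg σ R m).rel) := by
  induction m using ENat.recTopCoe with
  | coe m =>
    have h1 : (stg σ R ((m : ℕ∞) + 1)).rel = (MG.ofRel (R ∪ subst σ '' stgRel σ R m)).rel := by
      exact_mod_cast stg_rel_coe σ R (m + 1)
    rw [stg_rel_coe]
    refine ⟨fun r hr => ?_, fun Z _ z hz w hw => ?_⟩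
    · have : r ∈ (stg σ R ((m : ℕ∞) + 1)).rel := by rw [h1]; exact (pres_ofRel _).1 r hr
      exact this
    · have : w ∈ (MG.ofRel (R ∪ subst σ '' stgRel σ R m)).rel := by rw [← h1]; exact hw
      exact (pres_ofRel _).2 Z z hz w this
  | top =>
    rw [top_add]
    refine ⟨?_, fun Z _ z hz w hw => ?_⟩
    · rintro r (hr | ⟨v, hv, rfl⟩)
      · exact (mem_stg_rel σ R ⊤ r).2 ⟨1, le_top, (pres_ofRel _).1 r (Or.inl hr)⟩
      · obtain ⟨k, -, hv⟩ := (mem_stg_rel σ R ⊤ v).1 hv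
        exact (mem_stg_rel σ R ⊤ _).2 ⟨k + 1, le_top, (pres_ofRel _).1 _ (Or.inr ⟨v, hv, rfl⟩)⟩
    · obtain ⟨k, -, hw⟩ := (mem_stg_rel σ R ⊤ w).1 hw
      have hw' := stgRel_mono σ R (Nat.le_succ k) hw
      refine (pres_ofRel _).2 Z z ?_ w hw'
      rintro r (hr | ⟨v, hv, rfl⟩)
      · exact hz r (Or.inl hr)
      · exact hz _ (Or.inr ⟨v, (mem_stg_rel σ R ⊤ v).2 ⟨k, le_top, hv⟩, rfl⟩)

theorem stg_succ_rel (m : ℕ∞) {X : MG ι} (h : Pres X (R ∪ subst σ '' (stg σ R m).rel)) :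
    X.rel = (stg σ R (m + 1)).rel :=
  h.rel_eq (pres_stg_succ σ R m)

theorem stg_min (Z : Type) [Group Z] (z : ι → Z) (h₁ : ∀ r ∈ R, evW z r = 1)
    (h₂ : ∀ w, evW z w = 1 → evW z (subst σ w) = 1) (m : ℕ∞) (w : Word ι)
    (hw : (stg σ R m).ev w = 1) : evW z w = 1 := by
  obtain ⟨k, -, hk⟩ := (mem_stg_rel σ R m w).1 hw
  clear hw
  induction k generalizing w with
  | zero => exact (pres_ofRel _).2 Z z (by simp) w hk
  | succ k ih =>
    refine (pres_ofRel _).2 Z z ?_ w hk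
    rintro r (hr | ⟨v, hv, rfl⟩)
    exacts [h₁ r hr, h₂ v (ih v hv)]

/-- The final data attached to a fixed point. -/
theorem exists_finalData (hR : R.Finite) {X : MG ι} (h : Pres X (R ∪ subst σ '' (stg σ R ⊤).rel))
    (f : (stg σ R ⊤).G →* X.G) (hf : Function.Injective f)
    (hgen : ∀ i, f ((stg σ R ⊤).gen i) = X.ev (σ i)) (g : Gadget f) :
    ∃ (D : FinalData ι) (e : X.G ≃* D.A.G) (e' : (stg σ R ⊤).G ≃* D.A.G),
      (∀ w, e (X.ev w) = D.A.ev w) ∧ (∀ w, e' ((stg σ R ⊤).ev w) = D.A.ev w) ∧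
      ∀ a, D.θ (e' a) = e (f a) := by
  have h1 : X.rel = (stg σ R ⊤).rel := by simpa using stg_succ_rel σ R ⊤ h
  obtain ⟨e, he⟩ := MG.exists_equiv X _ h1
  refine ⟨{ A := stg σ R ⊤, σ := σ, R := R, R_fin := hR
            θ := (e : X.G →* (stg σ R ⊤).G).comp (f.comp (MonoidHom.id _))
            θ_gen := fun i => by simp [hgen, he]
            θ_inj := e.injective.comp hf
            R_rel := fun r hr => by
              exact stg_mono σ R le_top ((pres_stg_succ σ R ⊤).1 r (Or.inl hr))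
            min := fun Z _ z h₁ h₂ w hw => stg_min σ R Z z h₁ h₂ ⊤ w hw
            gad := g.comp _ _ }, e, MulEquiv.refl _, he, fun _ => rfl, fun _ => rfl⟩

end Crest.Agent.R185
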