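import Crest.Agent.R185.MachDef
import Crest.Agent.S0500

/-!
# Row 185: a universal affine rule system (from the DPRM theorem)
-/

set_option autoImplicit false

namespace Crest.Agent.R185

/-- A finitely generated module of functions which is invariant under shifts. -/
def MaGood {σ : Type} (V : Submodule ℤ ((σ → ℤ) → ℤ)) : Prop :=
  V.FG ∧ ∀ (g : σ → ℤ), ∀ f ∈ V, (fun p => f (p + g)) ∈ V

theorem MaGood.sup {σ : Type} {V W : Submodule ℤ ((σ → ℤ) → ℤ)} (hV : MaGood V) (hW : MaGood W) :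
    MaGood (V ⊔ W) := by
  refine ⟨hV.1.sup hW.1, fun g f hf => ?_⟩
  obtain ⟨a, ha, b, hb, rfl⟩ := Submodule.mem_sup.1 hf
  exact Submodule.add_mem_sup (hV.2 g a ha) (hW.2 g b hb)

theorem ma_exists_good {σ : Type} (q : MvPolynomial σ ℤ) :
    ∃ V, MaGood V ∧ (fun p => MvPolynomial.eval p q) ∈ V := by
  induction q using MvPolynomial.induction_on with
  | C a =>
    refine ⟨Submodule.span ℤ {fun _ => 1}, ⟨Submodule.fg_span_singleton _, fun g f hf => ?_⟩, ?_⟩
    · obtain ⟨c, rfl⟩ := Submodule.mem_span_singleton.1 hf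
      exact hf
    · exact Submodule.mem_span_singleton.2 ⟨a, by ext; simp⟩
  | add p q hp hq =>
    obtain ⟨V, hV, hp⟩ := hp
    obtain ⟨W, hW, hq⟩ := hq
    refine ⟨V ⊔ W, hV.sup hW, ?_⟩
    simp only [map_add]
    exact Submodule.add_mem_sup hp hq
  | mul_X q i hq =>
    obtain ⟨V, hV, hq⟩ := hq
    refine ⟨V ⊔ V.map (LinearMap.mulRight ℤ fun p => p i), ⟨hV.1.sup (hV.1.map _), fun g f hf => ?_⟩,
      Submodule.mem_sup_right ⟨_, hq, by ext; simp⟩⟩
    obtain ⟨a, ha, _, ⟨b, hb, rfl⟩, rfl⟩ := Submodule.mem_sup.1 hf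
    have h1 := hV.2 g a ha
    have h2 := hV.2 g b hb
    have h3 := Submodule.add_mem_sup (V.add_mem h1 (V.smul_mem (g i) h2))
      (Submodule.mem_map_of_mem (f := LinearMap.mulRight ℤ fun p : σ → ℤ => p i) h2)
    convert h3 using 1
    ext p
    simp
    ring

/-- The shift on an invariant module. -/
def MaGood.shift {σ : Type} {V : Submodule ℤ ((σ → ℤ) → ℤ)} (hV : MaGood V) (g : σ → ℤ) :
    V ≃ₗ[ℤ] V where
  toFun f := ⟨fun p => f.1 (p + g), hV.2 g f.1 f.2⟩
  invFun f := ⟨fun p => f.1 (p + -g), hV.2 (-g) f.1 f.2⟩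
  map_add' _ _ := rfl
  map_smul' _ _ := rfl
  left_inv f := Subtype.ext (funext fun p => by simp)
  right_inv f := Subtype.ext (funext fun p => by simp)

/-- Polynomials are linear functionals along an orbit of a linear action of the shifts. -/
theorem ma_orbit {σ : Type} (q : Fin 4 → MvPolynomial σ ℤ) :
    ∃ (s : ℕ) (φ : (σ → ℤ) → Fin s → ℤ) (T : (σ → ℤ) → (Fin s → ℤ) ≃+ (Fin s → ℤ))
      (π : Fin 4 → (Fin s → ℤ) →+ ℤ), (∀ g p, T g (φ p) = φ (p + g)) ∧
        ∀ i p, π i (φ p) = MvPolynomial.eval p (q i) := by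
  choose W hW hq using fun i => ma_exists_good (q i)
  let V := W 0 ⊔ W 1 ⊔ W 2 ⊔ W 3
  have hV : MaGood V := (((hW 0).sup (hW 1)).sup (hW 2)).sup (hW 3)
  have hle : ∀ i, W i ≤ V := fun i => by
    fin_cases i
    · exact le_sup_of_le_left (le_sup_of_le_left le_sup_left)
    · exact le_sup_of_le_left (le_sup_of_le_left le_sup_right)
    · exact le_sup_of_le_left le_sup_right
    · exact le_sup_right
  have : Module.Finite ℤ V := Module.Finite.iff_fg.2 hV.1
  have : Module.Free ℤ V := Module.free_of_finite_type_torsion_free'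
  let e := (Module.finBasis ℤ (Module.Dual ℤ V)).equivFun
  let ev : (σ → ℤ) → Module.Dual ℤ V := fun p => (LinearMap.proj p).comp V.subtype
  refine ⟨_, fun p => e (ev p), fun g => (e.symm.trans ((hV.shift g).dualMap.trans e)).toAddEquiv,
    fun i => ((Module.Dual.eval ℤ V ⟨_, hle i (hq i)⟩).comp e.symm.toLinearMap).toAddMonoidHom,
    fun g p => ?_, fun i p => ?_⟩
  · simp only [LinearEquiv.coe_toAddEquiv, LinearEquiv.coe_addEquiv_apply, LinearEquiv.trans_apply,
      LinearEquiv.symm_apply_apply]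
    congr 1
  · simp [ev]

/-- The code of a word. -/
def maCode {α : Type} (c : ℕ) (d : α → ℕ) (x : List α) : ℕ := x.foldr (fun l n => c * n + d l) 0

theorem maCode_inj {α : Type} {c : ℕ} {d : α → ℕ} (hd : Function.Injective d) (h1 : ∀ l, 1 ≤ d l)
    (h2 : ∀ l, d l < c) : Function.Injective (maCode c d) := by
  intro x
  induction x with
  | nil =>
    rintro (_ | ⟨l, y⟩) h
    · rfl
    · have := h1 l
      simp only [maCode, List.foldr_nil, List.foldr_cons] at h
      omega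
  | cons k x ih =>
    rintro (_ | ⟨l, y⟩) h
    · have := h1 k
      simp only [maCode, List.foldr_nil, List.foldr_cons] at h
      omega
    · change c * maCode c d x + d k = c * maCode c d y + d l at h
      have e1 : d k = d l := by
        have := congrArg (· % c) h
        simpa [Nat.mod_eq_of_lt (h2 k), Nat.mod_eq_of_lt (h2 l)] using this
      have e2 : maCode c d x = maCode c d y :=
        Nat.eq_of_mul_eq_mul_left (lt_of_le_of_lt (Nat.zero_le _) (h2 k)) (by omega)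
      rw [hd e1, ih e2]

theorem maCode_prim {α : Type} [Primcodable α] [Finite α] (c : ℕ) (d : α → ℕ) :
    Primrec (maCode c d) :=
  Primrec.list_foldr (f := fun x : List α => x) (g := fun _ => 0)
    (h := fun _ (p : α × ℕ) => c * p.2 + d p.1) Primrec.id (Primrec.const 0)
    (Primrec.nat_add.comp (Primrec.nat_mul.comp (Primrec.const c) (Primrec.snd.comp Primrec.snd))
      ((Primrec.dom_finite d).comp (Primrec.fst.comp Primrec.snd))).to₂

theorem ma_re {Y : Type} [Primcodable Y] [Finite Y] (c : ℕ) (d : Y × Bool → ℕ) :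
    REPred fun a : Fin 3 → ℕ => a ∈ {a : Fin 3 → ℕ | ∃ x : Word Y, a 2 = maCode c d x ∧
      halts (Denumerable.ofNat Nat.Partrec.Code (a 0)) x (a 1)} := by
  refine re_exists (p := fun p : (Fin 3 → ℕ) × Word Y => p.1 2 = maCode c d p.2 ∧
    halts (Denumerable.ofNat Nat.Partrec.Code (p.1 0)) p.2 (p.1 1)) (re_and ?_ ?_)
  · exact re_of_primrecPred (Primrec.eq.comp ((m_primrec_apply 2).comp Primrec.fst)
      ((maCode_prim c d).comp Primrec.snd))
  · exact Partrec.dom_re (Nat.Partrec.Code.eval_part.comp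
      ((Primrec.ofNat _).comp ((m_primrec_apply 0).comp Primrec.fst)).to_comp
      (Primrec.encode.comp (Primrec.snd.pair ((m_primrec_apply 1).comp Primrec.fst))).to_comp)

theorem ma_exists_list {σ : Type} [Fintype σ] [DecidableEq σ] (n : σ → ℕ) :
    ∃ l : List σ, (l.map fun i => (Pi.single i 1 : σ → ℤ)).sum = fun i => (n i : ℤ) := by
  have : ∀ s : Finset σ, ∃ l : List σ, (l.map fun i => (Pi.single i 1 : σ → ℤ)).sum =
      ∑ i ∈ s, Pi.single i (n i : ℤ) := fun s => by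
    induction s using Finset.induction_on with
    | empty => exact ⟨[], rfl⟩
    | insert i s hi ih =>
      obtain ⟨l, hl⟩ := ih
      refine ⟨List.replicate (n i) i ++ l, ?_⟩
      rw [List.map_append, List.sum_append, hl, Finset.sum_insert hi, List.map_replicate,
        List.sum_replicate, ← Pi.single_smul', nsmul_eq_mul, mul_one]
  obtain ⟨l, hl⟩ := this Finset.univ
  exact ⟨l, hl.trans (Finset.univ_sum_single _)⟩

/-- The linear part of a rule. -/
def maLin {s : ℕ} (B c : ℤ) (T : (Fin s → ℤ) ≃+ (Fin s → ℤ)) :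
    (ℤ × ℤ × ℤ × ℤ × (Fin s → ℤ)) →+ (ℤ × ℤ × ℤ × ℤ × (Fin s → ℤ)) where
  toFun u := (B * u.1, u.2.1, u.2.2.1, c * u.2.2.2.1, T u.2.2.2.2)
  map_zero' := by simp
  map_add' u v := by simp [mul_add]

theorem maLin_apply {s : ℕ} (B c : ℤ) (T : (Fin s → ℤ) ≃+ (Fin s → ℤ))
    (u : ℤ × ℤ × ℤ × ℤ × (Fin s → ℤ)) :
    maLin B c T u = (B * u.1, u.2.1, u.2.2.1, c * u.2.2.2.1, T u.2.2.2.2) := rfl

theorem maLin_inj {s : ℕ} {B c : ℤ} (hB : B ≠ 0) (hc : c ≠ 0) (T : (Fin s → ℤ) ≃+ (Fin s → ℤ)) :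
    Function.Injective (maLin B c T) := by
  rintro ⟨a₁, a₂, a₃, a₄, a₅⟩ ⟨b₁, b₂, b₃, b₄, b₅⟩ h
  simpa [maLin_apply, hB, hc] using h

theorem maLin_range {s : ℕ} (B c : ℤ) (T : (Fin s → ℤ) ≃+ (Fin s → ℤ))
    (u : ℤ × ℤ × ℤ × ℤ × (Fin s → ℤ)) : (∃ v, maLin B c T v = u) ↔ B ∣ u.1 ∧ c ∣ u.2.2.2.1 := by
  constructor
  · rintro ⟨v, rfl⟩
    exact ⟨dvd_mul_right _ _, dvd_mul_right _ _⟩
  · obtain ⟨a₁, a₂, a₃, a₄, a₅⟩ := u
    rintro ⟨⟨x, hx⟩, ⟨y, hy⟩⟩
    dsimp only at hx hy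
    exact ⟨(x, a₂, a₃, y, T.symm a₅), by simp [maLin_apply, hx, hy]⟩

theorem exists_affSys (Y : Type) [Primcodable Y] [Finite Y] : Nonempty (AffSys Y) := by
  classical
  obtain ⟨K₀, ⟨e₀⟩⟩ := Finite.exists_equiv_fin (Y × Bool)
  let d : Y × Bool → ℕ := fun l => e₀ l + 1
  let c : ℕ := K₀ + 1
  have hcode : Function.Injective (maCode c d) :=
    maCode_inj (fun a b h => e₀.injective (Fin.ext (Nat.succ_injective h)))
      (fun l => Nat.le_add_left _ _) fun l => Nat.succ_lt_succ (e₀ l).2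
  obtain ⟨m, -, P, hP⟩ := Crest.Agent.S0500.result 3 (by norm_num) _ (ma_re c d)
  obtain ⟨s, φ, T, π, hT, hπ⟩ := ma_orbit (σ := Fin 3 ⊕ Fin m)
    ![MvPolynomial.X (.inl 0), MvPolynomial.X (.inl 1), MvPolynomial.X (.inl 2), P]
  let κ : Type := (Fin 3 ⊕ Fin m) ⊕ (Y × Bool)
  obtain ⟨K, ⟨eκ⟩⟩ := Finite.exists_equiv_fin κ
  let L : Type := ℤ × ℤ × ℤ × ℤ × (Fin s → ℤ)
  obtain ⟨r, ⟨e⟩⟩ : ∃ r : ℕ, Nonempty (L ≃+ (Fin r → ℤ)) :=
    ⟨_, ⟨(Module.finBasis ℤ L).equivFun.toAddEquiv⟩⟩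
  let B : ℤ := K + 2
  let dig : κ → ℤ := fun k => (eκ k : ℕ) + 1
  let cf : κ → ℤ := Sum.elim (fun _ => 1) fun _ => c
  let dd : κ → ℤ := Sum.elim (fun _ => 0) fun l => d l
  let sh : κ → Fin 3 ⊕ Fin m → ℤ := Sum.elim (fun i => Pi.single i 1) fun _ => 0
  let ltr : κ → Word Y := Sum.elim (fun _ => []) fun l => [l]
  let lin : κ → L →+ L := fun k => maLin B (cf k) (T (sh k))
  let vec : κ → L := fun k => (dig k, 0, 0, dd k, 0)
  let p1 : L →+ ℤ := AddMonoidHom.fst _ _
  let p2 : L →+ ℤ := (AddMonoidHom.fst _ _).comp (AddMonoidHom.snd _ _)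
  let p3 : L →+ ℤ := (AddMonoidHom.fst _ _).comp ((AddMonoidHom.snd _ _).comp (AddMonoidHom.snd _ _))
  let p4 : L →+ ℤ := (AddMonoidHom.fst _ _).comp ((AddMonoidHom.snd _ _).comp
    ((AddMonoidHom.snd _ _).comp (AddMonoidHom.snd _ _)))
  let p5 : L →+ (Fin s → ℤ) := (AddMonoidHom.snd _ _).comp ((AddMonoidHom.snd _ _).comp
    ((AddMonoidHom.snd _ _).comp (AddMonoidHom.snd _ _)))
  let F : Fin 4 → L →+ ℤ := fun i => (π i).comp p5 - ![p2, p3, p4, 0] i
  have hrun : ∀ (l : List κ) (J M : ℤ), ∃ h : ℤ,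
      mRun (fun k v => e (vec k) + (e.toAddMonoidHom.comp ((lin k).comp e.symm.toAddMonoidHom)) v) l
        (e (0, J, M, 0, φ 0)) =
      e (h, J, M, (maCode c d (l.flatMap ltr) : ℕ), φ (l.map sh).sum) := by
    intro l J M
    induction l with
    | nil => exact ⟨0, rfl⟩
    | cons k l ih =>
      obtain ⟨h, ih⟩ := ih
      refine ⟨dig k + B * h, ?_⟩
      rw [mRun_cons, ih]
      simp only [AddMonoidHom.comp_apply, AddEquiv.coe_toAddMonoidHom, AddEquiv.symm_apply_apply,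
        ← map_add]
      congr 1
      simp only [lin, vec, L, maLin_apply, Prod.mk_add_mk, zero_add, hT, List.map_cons,
        List.sum_cons, List.flatMap_cons, add_comm (sh k)]
      rcases k with i | l'
      · simp [dd, cf, ltr]
      · simp [dd, cf, ltr, maCode, add_comm]
  have hstart : ∀ J M : ℕ, e (0, 0, 0, 0, φ 0) + J • e (0, 1, 0, 0, 0) + M • e (0, 0, 1, 0, 0) =
      e (0, J, M, 0, φ 0) := fun J M => by
    rw [← map_nsmul, ← map_nsmul, ← map_add, ← map_add]
    congr 1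
    simp [L]
  have hA : ∀ (h J M N : ℤ) (p : Fin 3 ⊕ Fin m → ℤ),
      e (h, J, M, N, φ p) ∈ ⨅ i, ((F i).comp e.symm.toAddMonoidHom).ker ↔
        p (.inl 0) = J ∧ p (.inl 1) = M ∧ p (.inl 2) = N ∧ MvPolynomial.eval p P = 0 := by
    intro h J M N p
    simp [AddSubgroup.mem_iInf, Fin.forall_fin_succ, F, p2, p3, p4, p5, L, hπ, sub_eq_zero]
  refine ⟨{
    r := r
    κ := κ
    lin := fun k => e.toAddMonoidHom.comp ((lin k).comp e.symm.toAddMonoidHom)
    lin_inj := fun k => e.injective.comp ((maLin_inj ?_ ?_ _).comp e.symm.injective)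
    rng_prim := fun k => ?_
    vec := fun k => e (vec k)
    ltr := ltr
    ltr_len := ?_
    hist := p1.comp e.symm.toAddMonoidHom
    B := B
    dig := dig
    dig_inj := fun a b h => eκ.injective (Fin.ext (by simpa [dig] using h))
    dig_pos := fun k => by simp [dig]
    dig_lt := fun k => ?_
    hist_step := fun k v => ?_
    v₀ := e (0, 0, 0, 0, φ 0)
    eJ := e (0, 1, 0, 0, 0)
    eM := e (0, 0, 1, 0, 0)
    hist_v₀ := by simp [p1, L]
    hist_eJ := by simp [p1, L]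
    hist_eM := by simp [p1, L]
    μ := p3.comp e.symm.toAddMonoidHom
    μ_v₀ := by simp [p3, L]
    μ_eJ := by simp [p3, L]
    μ_eM := by simp [p3, L]
    A := ⨅ i, ((F i).comp e.symm.toAddMonoidHom).ker
    A_prim := ?_
    sound := fun j M l h => ?_
    complete := fun j M x h => ?_ }⟩
  · simp only [B]
    positivity
  · rcases k with i | l
    · simp [cf]
    · simp only [cf, c, Sum.elim_inr]
      positivity
  · refine (((m_primrec_dvd B).comp (m_primrec_fun (p1.comp e.symm.toAddMonoidHom))).and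
      ((m_primrec_dvd (cf k)).comp (m_primrec_fun (p4.comp e.symm.toAddMonoidHom)))).of_eq
      fun u => ?_
    refine (maLin_range B (cf k) (T (sh k)) (e.symm u)).symm.trans ⟨?_, ?_⟩
    · rintro ⟨v, hv⟩
      exact ⟨e v, by simp [lin, hv]⟩
    · rintro ⟨v, rfl⟩
      exact ⟨e.symm v, by simp [lin]⟩
  · rintro (i | l) <;> simp [ltr]
  · have := (eκ k).2
    simp only [dig, B]
    omega
  · simp only [AddMonoidHom.comp_apply, AddEquiv.coe_toAddMonoidHom, AddEquiv.symm_apply_apply,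
      map_add]
    exact add_comm _ _
  · have h : ∀ i, PrimrecPred fun u => ((F i).comp e.symm.toAddMonoidHom) u = 0 := fun i =>
      Primrec.eq.comp (m_primrec_fun _) (Primrec.const 0)
    refine ((h 0).and ((h 1).and ((h 2).and (h 3)))).of_eq fun u => ?_
    simp only [AddSubgroup.mem_iInf, AddMonoidHom.mem_ker, Fin.forall_fin_succ]
    simp
  · obtain ⟨h', hr⟩ := hrun l (Encodable.encode j : ℕ) M
    rw [hstart, hr, hA] at h
    have hnn : 0 ≤ (l.map sh).sum := by
      refine List.sum_nonneg fun g hg => ?_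
      obtain ⟨k, -, rfl⟩ := List.mem_map.1 hg
      rcases k with i' | l'
      · exact Pi.single_nonneg.2 zero_le_one
      · exact le_rfl
    obtain ⟨n, hn⟩ : ∃ n : Fin 3 ⊕ Fin m → ℕ, (l.map sh).sum = fun i => (n i : ℤ) :=
      ⟨fun i => ((l.map sh).sum i).toNat, funext fun i => (Int.toNat_of_nonneg (hnn i)).symm⟩
    rw [hn] at h
    simp only [Nat.cast_inj] at h
    obtain ⟨h0, h1, h2, h3⟩ := h
    by_contra hc
    refine (hP fun i => n (.inl i)).2 ?_ (fun i => n (.inr i)) ?_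
    · rintro ⟨x, hx, hx'⟩
      beta_reduce at hx hx'
      rw [h0, h1, Denumerable.ofNat_encode, ← hcode (h2.symm.trans hx)] at hx'
      exact hc hx'
    · rw [← h3]
      congr 2
      ext (i | i) <;> rfl
  · obtain ⟨w, hw, -⟩ := (hP ![Encodable.encode j, M, maCode c d x]).1
      ⟨x, rfl, by simpa using h⟩
    obtain ⟨l, hl⟩ := ma_exists_list (Sum.elim ![Encodable.encode j, M, maCode c d x] w)
    have e1 : (x.map Sum.inr ++ l.map Sum.inl : List κ).flatMap ltr = x := by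
      simp [List.flatMap_map, ltr]
    have e2 : ((x.map Sum.inr ++ l.map Sum.inl : List κ).map sh).sum =
        fun i => ((Sum.elim ![Encodable.encode j, M, maCode c d x] w i : ℕ) : ℤ) := by
      rw [← hl]
      simp [sh, Function.comp_def]
    refine ⟨_, e1, ?_⟩
    obtain ⟨h', hr⟩ := hrun (x.map Sum.inr ++ l.map Sum.inl) (Encodable.encode j : ℕ) M
    rw [hstart, hr, hA, e1, e2]
    refine ⟨rfl, rfl, rfl, ?_⟩
    rw [← hw]
    congr 2
    ext (i | i) <;> rfl

end Crest.Agent.R185
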