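import Crest.Agent.R185.MachRE
import Crest.Agent.R185.HNNCert

/-!
# Row 185: the group of a rule system
-/

set_option autoImplicit false

namespace Crest.Agent.R185

/-- Powers of a word. -/
def mPow {ι : Type} (z : Word ι) (M : ℕ) : Word ι := Nat.rec [] (fun _ ih => z ++ ih) M

theorem evW_mPow {ι G : Type} [Group G] (g : ι → G) (z : Word ι) (M : ℕ) :
    evW g (mPow z M) = evW g z ^ M := by
  induction M with
  | zero => simp [mPow]
  | succ M ih =>
    have : mPow z (M + 1) = z ++ mPow z M := rfl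
    rw [this, evW_append, ih, pow_succ']

theorem primrec_mPow {ι : Type} [Primcodable ι] (z : Word ι) : Primrec (mPow z) :=
  Primrec.nat_rec₁ _ (Primrec.list_append.comp (Primrec.const z) Primrec.snd).to₂

namespace QSys
variable {Y : Type} [Primcodable Y] [DecidableEq Y] (S : QSys Y)

/-- The rules. -/
abbrev ρ (k : S.κ) (u : S.X.G) : S.X.G := S.b k * S.ι k u

theorem ρ_inj (k : S.κ) : Function.Injective (S.ρ k) := m_rule_inj (S.ι_inj k) _

/-- The start configurations. -/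
abbrev st (j : Nat.Partrec.Code) (M : ℕ) : S.X.G := S.X.ev (S.sw j) * S.X.ev S.z ^ M

/-- The reachable configurations. -/
def Reach (j : Nat.Partrec.Code) (T : Set ℕ) : Set S.X.G :=
  {u | ∃ M ∈ T, ∃ l, u = mRun S.ρ l (S.st j M)}

theorem reach_iff (j : Nat.Partrec.Code) (T : Set ℕ) (k : S.κ) (u : S.X.G) :
    S.ρ k u ∈ S.Reach j T ↔ u ∈ S.Reach j T := by
  constructor
  · rintro ⟨M, hM, _ | ⟨k', l⟩, h⟩
    · exact (S.start_ne j M k u h.symm).elim
    · obtain rfl : k = k' := S.disj _ _ _ _ h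
      exact ⟨M, hM, l, S.ρ_inj k h⟩
  · rintro ⟨M, hM, l, rfl⟩
    exact ⟨M, hM, k :: l, rfl⟩

theorem re_not_reach (T : Set ℕ) (hT : ComputablePred (· ∈ T)) :
    REPred fun p : Nat.Partrec.Code × S.X.G => p.2 ∉ S.Reach p.1 T := by
  let Rule : (Nat.Partrec.Code × S.X.G) × List (Nat.Partrec.Code × S.X.G) → Prop := fun x =>
    (∀ M ∈ T, x.1.2 ≠ S.st x.1.1 M) ∧ ∀ k, (S.b k)⁻¹ * x.1.2 ∉ (S.ι k).range ∨
      ∃ y ∈ x.2, y.1 = x.1.1 ∧ S.ρ k y.2 = x.1.2
  have h1 : ∀ k, REPred fun x : (Nat.Partrec.Code × S.X.G) × List (Nat.Partrec.Code × S.X.G) =>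
      (S.b k)⁻¹ * x.1.2 ∉ (S.ι k).range ∨ ∃ y ∈ x.2, y.1 = x.1.1 ∧ S.ρ k y.2 = x.1.2 := by
    intro k
    refine re_of_primrecPred (PrimrecPred.or ?_ ?_)
    · exact (S.rng_prim k).not.comp
        (S.mul_prim.comp (Primrec.const _) (Primrec.snd.comp Primrec.fst))
    · have : PrimrecRel fun y x : Nat.Partrec.Code × S.X.G => y.1 = x.1 ∧ S.ρ k y.2 = x.2 :=
        (Primrec.eq.comp (Primrec.fst.comp Primrec.fst) (Primrec.fst.comp Primrec.snd)).and
          (Primrec.eq.comp (S.mul_prim.comp (Primrec.const _)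
            ((S.ι_prim k).comp (Primrec.snd.comp Primrec.fst))) (Primrec.snd.comp Primrec.snd))
      exact this.exists_mem_list.comp Primrec.snd Primrec.fst
  have := Fintype.ofFinite S.κ
  have h2 := re_forall_mem (re_comp (re_finite h1) (Primrec.snd.pair Primrec.fst).to_comp)
    (Computable.const (Finset.univ : Finset S.κ).toList)
  have hR : REPred Rule :=
    re_and (re_comp (S.re_nostart T hT) Computable.fst) (h2.of_eq fun x => by simp)
  refine (re_der hR).of_eq fun p => ⟨fun h => ?_, fun h => ?_⟩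
  · induction h with
    | mk a D hr _ ih =>
      rintro ⟨M, hM, _ | ⟨k, l⟩, h⟩
      · exact hr.1 M hM h
      · rcases hr.2 k with h' | ⟨y, hy, e₁, e₂⟩
        · exact h' ⟨mRun S.ρ l (S.st a.1 M), by dsimp only; rw [h]; simp⟩
        · refine ih y hy ⟨M, hM, l, S.ρ_inj k ?_⟩
          dsimp only at e₁ e₂
          rw [e₂, h, e₁, mRun_cons]
  · obtain ⟨j, u⟩ := p
    dsimp only at h
    induction hn : S.ht u using Nat.strong_induction_on generalizing u with
    | _ n ih =>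
      have hfin : {v | ∃ k, S.ρ k v = u}.Finite := by
        have : {v | ∃ k, S.ρ k v = u} = ⋃ k, S.ρ k ⁻¹' {u} := by ext; simp
        rw [this]
        exact Set.finite_iUnion fun k => (Set.finite_singleton u).preimage (S.ρ_inj k).injOn
      refine Der.mk _ (hfin.toFinset.toList.map fun v => (j, v)) ⟨fun M hM e => ?_, fun k => ?_⟩ ?_
      · exact h ⟨M, hM, [], e⟩
      · by_cases hk : (S.b k)⁻¹ * u ∈ (S.ι k).range
        · obtain ⟨v, hv⟩ := hk
          have e : S.ρ k v = u := by simp [ρ, hv]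
          exact Or.inr ⟨(j, v), List.mem_map.2 ⟨v, by simpa using ⟨k, e⟩, rfl⟩, rfl, e⟩
        · exact Or.inl hk
      · intro y hy
        obtain ⟨v, hv, rfl⟩ := List.mem_map.1 hy
        obtain ⟨k, e⟩ : ∃ k, S.ρ k v = u := by simpa using hv
        refine ih (S.ht v) ?_ v (fun hv => h (e ▸ (S.reach_iff j T k v).2 hv)) rfl
        rw [← hn, ← e]
        exact S.ht_lt k v

/-- The HNN data. -/
def D : HD (FQ S.X.G) S.κ where
  F _ := FQ S.X.G
  a k c := bif c then MonoidHom.id _ else mAff (S.ι k) (S.b k)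
  inj k c := by
    cases c
    · exact mAff_injective (S.ι_inj k) _
    · exact Function.injective_id

theorem D_true (k : S.κ) (f : FQ S.X.G) : S.D.a k true f = f := rfl

theorem D_false (k : S.κ) (f : FQ S.X.G) : S.D.a k false f = mAff (S.ι k) (S.b k) f := rfl

theorem E_true (k : S.κ) (f : FQ S.X.G) : f ∈ S.D.E (k, true) := ⟨f, rfl⟩

theorem E_false (k : S.κ) : S.D.E (k, false) =
    mE (S.ι k).range {u | (S.b k)⁻¹ * u ∈ (S.ι k).range} (m_rule_closed _ _) :=
  mAff_range _ _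

theorem aff_mem (j : Nat.Partrec.Code) (T : Set ℕ) (k : S.κ) (f : FQ S.X.G) :
    mAff (S.ι k) (S.b k) f ∈ mT (S.Reach j T) ↔ f ∈ mT (S.Reach j T) :=
  mAff_mem_mT (S.ι_inj k) _ (S.reach_iff j T k) f

theorem fixes (j : Nat.Partrec.Code) (T : Set ℕ) : S.D.Fixes (mT (S.Reach j T)) Set.univ :=
  fun k _ f => (S.aff_mem j T k f).symm

/-- The machine group. -/
def W : MG (Option S.ιQ ⊕ S.κ) := S.X.fq.hnn S.D

/-- The base group. -/
def of : FQ S.X.G →* S.W.G := S.D.of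

theorem of_inj : Function.Injective S.of := S.D.of_injective

theorem ev_inl (w : Word (Option S.ιQ)) : S.W.ev (ren Sum.inl w) = S.of (S.X.fq.ev w) :=
  S.X.fq.hnn_ev_inl S.D w

/-- The clock word. -/
def zw : Word (Option S.ιQ ⊕ S.κ) := ren Sum.inl (ren some S.z)

/-- The start words. -/
def start (j : Nat.Partrec.Code) : Word (Option S.ιQ ⊕ S.κ) := ren Sum.inl (mTw (S.sw j))

/-- The machine letters. -/
noncomputable def pw : List (Word (Option S.ιQ ⊕ S.κ)) :=
  (Set.toFinite (Set.univ : Set S.κ)).toFinset.toList.map fun k => [(Sum.inr k, true)]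

theorem mem_pw {p : Word (Option S.ιQ ⊕ S.κ)} : p ∈ S.pw ↔ ∃ k, p = [(Sum.inr k, true)] := by
  simp [pw, eq_comm]

theorem ev_zw : S.W.ev S.zw = S.of (SemidirectProduct.inr (S.X.ev S.z)) := by
  rw [zw, ev_inl, MG.fq_ev_ren]

theorem ev_start (j : Nat.Partrec.Code) : S.W.ev (S.start j) = S.of (mTau (S.X.ev (S.sw j))) := by
  rw [start, ev_inl, MG.fq_ev_tw]

theorem start_conj (j : Nat.Partrec.Code) (M : ℕ) :
    (S.W.ev S.zw ^ M)⁻¹ * S.W.ev (S.start j) * S.W.ev S.zw ^ M = S.of (mTau (S.st j M)) := by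
  rw [ev_zw, ev_start, ← map_pow, ← map_pow, ← map_inv, ← map_mul, ← map_mul, mTau_conj]

theorem start_comp : Computable S.start := by
  have h1 : Primrec (ren some : Word S.ιQ → Word (Option S.ιQ)) := primrec_ren Primrec.option_some
  have h2 : Primrec (mTw : Word S.ιQ → Word (Option S.ιQ)) :=
    Primrec.list_append.comp (Primrec.list_append.comp (primrec_inv.comp h1) (Primrec.const _)) h1
  exact ((primrec_ren Primrec.sumInl).comp h2).to_comp.comp S.sw_comp

theorem machL_eq (j : Nat.Partrec.Code) (T : Set ℕ) :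
    machL S.W S.pw S.zw (S.start j) T = S.D.Kt (mT (S.Reach j T)) Set.univ := by
  have ht : ∀ k, (S.D.t k : S.W.G) ∈ machL S.W S.pw S.zw (S.start j) T := fun k =>
    Subgroup.subset_closure (Or.inl ⟨_, S.mem_pw.2 ⟨k, rfl⟩, evW_true _ _⟩)
  refine le_antisymm ((Subgroup.closure_le _).2 ?_) ((Subgroup.closure_le _).2 ?_)
  · rintro _ (⟨p, hp, rfl⟩ | ⟨M, hM, rfl⟩)
    · obtain ⟨k, rfl⟩ := S.mem_pw.1 hp
      exact Subgroup.subset_closure (Or.inr ⟨k, trivial, (evW_true S.W.gen (Sum.inr k)).symm⟩)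
    · rw [start_conj]
      exact Subgroup.subset_closure (Or.inl ⟨_, mTau_mem_mT ⟨M, hM, [], rfl⟩, rfl⟩)
  · rintro _ (⟨γ, hγ, rfl⟩ | ⟨k, -, rfl⟩)
    · refine mT_le (K := (machL S.W S.pw S.zw (S.start j) T).comap S.of) ?_ hγ
      rintro _ ⟨M, hM, l, rfl⟩
      induction l with
      | nil => exact Subgroup.subset_closure (Or.inr ⟨M, hM, (S.start_conj j M).symm⟩)
      | cons k l ih =>
        have h1 := S.D.t_conj k (mTau (mRun S.ρ l (S.st j M)))
        rw [D_true, D_false, mAff_tau] at h1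
        have h2 := mul_mem (mul_mem (ht k) ih) (inv_mem (ht k))
        exact (show S.D.of (mTau (S.b k * S.ι k (mRun S.ρ l (S.st j M)))) ∈
          machL S.W S.pw S.zw (S.start j) T from h1 ▸ h2)
    · exact ht k

theorem of_mem_machL (j : Nat.Partrec.Code) (T : Set ℕ) (γ : FQ S.X.G) :
    S.of γ ∈ machL S.W S.pw S.zw (S.start j) T ↔ γ ∈ mT (S.Reach j T) := by
  rw [machL_eq]
  exact S.D.of_mem_Kt (S.fixes j T) γ

theorem exists_pres : ∃ R : List (Word (Option S.ιQ ⊕ S.κ)), Pres S.W {r | r ∈ R} := by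
  choose σ hσ using fun (k : S.κ) (o : Option S.ιQ) =>
    S.X.fq.surj (mAff (S.ι k) (S.b k) (S.X.fq.gen o))
  have h := pres_hnn S.X.fq S.D (pres_fq S.pres)
    (fun k => Set.range fun o => ([(o, true)], σ k o)) ?_ ?_
  · refine exists_pres_of_fp _ (h.fp (Set.Finite.union ?_ ?_))
    · exact ((List.finite_toSet S.R).image _).image _
    · refine (Set.finite_range fun x : S.κ × Option S.ιQ => [(Sum.inr x.1, true)] ++
        ren Sum.inl [(x.2, true)] ++ [(Sum.inr x.1, false)] ++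
          (ren Sum.inl (σ x.1 x.2)).inv).subset ?_
      rintro _ ⟨k, _, ⟨o, rfl⟩, rfl⟩
      exact ⟨(k, o), rfl⟩
  · rintro k _ ⟨o, rfl⟩
    exact ⟨S.X.fq.gen o, evW_true _ _, hσ k o⟩
  · intro k
    rw [eq_top_iff]
    intro f _
    refine Subgroup.closure_mono ?_ ((mem_closure_range_iff S.X.fq.gen f).2 (S.X.fq.surj f))
    rintro _ ⟨o, rfl⟩
    exact ⟨_, ⟨o, rfl⟩, evW_true _ _⟩

/-- The halting subgroup of `F(Q)`. -/
def EA : Subgroup (FQ S.X.G) := mE S.A S.A fun _ hu _ hq => mul_mem hu hq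

/-- The halting subgroup. -/
def Fh : Subgroup S.W.G := S.EA.map S.of

/-- The projection. -/
noncomputable def π : S.Fh →* FreeGroup (Option Y) :=
  ((mPi S.yp).comp S.EA.subtype).comp
    (S.EA.equivMapOfInjective S.of S.of_inj).symm.toMonoidHom

theorem π_of (f : S.Fh) {γ : FQ S.X.G} (h : (f : S.W.G) = S.of γ) : S.π f = mPi S.yp γ := by
  have h1 : S.of ((S.EA.equivMapOfInjective S.of S.of_inj).symm f : FQ S.X.G) = S.of γ := by
    rw [← h]
    exact congrArg Subtype.val ((S.EA.equivMapOfInjective S.of S.of_inj).apply_symm_apply f)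
  exact congrArg (mPi S.yp) (S.of_inj h1)

theorem exists_gens : ∃ (n : ℕ) (w : Fin n → Word S.ιQ), S.EA = Subgroup.closure (Set.range
    fun o : Option (Fin n) => S.X.fq.ev (o.elim [(none, true)] fun i => ren some (w i))) := by
  obtain ⟨s, hs⟩ := S.A_fg
  choose w hw using fun i : Fin s.card => S.X.surj (s.equivFin.symm i)
  refine ⟨_, w, le_antisymm ?_ ((Subgroup.closure_le _).2 ?_)⟩
  · have h1 : ∀ q ∈ S.A, (SemidirectProduct.inr q : FQ S.X.G) ∈ Subgroup.closure (Set.range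
        fun o : Option (Fin s.card) =>
          S.X.fq.ev (o.elim [(none, true)] fun i => ren some (w i))) := by
      intro q hq
      rw [← hs] at hq
      refine Subgroup.mem_comap.1 ((Subgroup.closure_le _).2 ?_ hq)
      intro a ha
      refine Subgroup.subset_closure ⟨some (s.equivFin ⟨a, ha⟩), ?_⟩
      refine (S.X.fq_ev_ren _).trans ?_
      rw [MG.ev, hw]
      simp
    refine mE_le h1 fun u hu => ?_
    rw [← one_mul u, ← mTau_conj]
    exact mul_mem (mul_mem (inv_mem (h1 u hu))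
      (Subgroup.subset_closure ⟨none, evW_true S.X.fq.gen none⟩)) (h1 u hu)
  · rintro _ ⟨_ | i, rfl⟩
    · have : S.X.fq.ev [(none, true)] = mTau (1 : S.X.G) := evW_true _ _
      have h2 : mTau (1 : S.X.G) ∈ S.EA := ⟨one_mem _, of_mem_mFr (one_mem S.A)⟩
      rwa [← this] at h2
    · have h1 : S.X.ev (w i) ∈ S.A := by
        rw [MG.ev, hw, ← hs]
        exact Subgroup.subset_closure (s.equivFin.symm i).2
      have h2 : (SemidirectProduct.inr (S.X.ev (w i)) : FQ S.X.G) ∈ S.EA := ⟨h1, one_mem _⟩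
      rwa [← S.X.fq_ev_ren] at h2

theorem he (k : S.κ) (c : Bool) (f : FQ S.X.G) :
    mNu S.yp (S.D.a k (!c) f) ≤ mNu S.yp (S.D.a k c f) + 2 := by
  cases c
  · exact ((mP_mNu _).of_aff (S.ι_inj k) (S.yp_ι k) (S.yp_b k)).mNu_le.trans (Nat.le_succ _)
  · exact ((mP_mNu _).aff (S.yp_ι k) (S.yp_b k)).mNu_le.trans (Nat.le_succ _)

theorem hK (j : Nat.Partrec.Code) (T : Set ℕ) (k : S.κ) (c : Bool) (f γ : FQ S.X.G)
    (h : γ⁻¹ * (S.D.a k c f : FQ S.X.G) ∈ mT (S.Reach j T)) : ∃ γ' : FQ S.X.G,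
      γ'⁻¹ * (S.D.a k (!c) f : FQ S.X.G) ∈ mT (S.Reach j T) ∧ mNu S.yp γ' ≤ mNu S.yp γ + 1 := by
  cases c
  · have h1 : mAff (S.ι k) (S.b k) f ∈ (mAff (S.ι k) (S.b k)).range := ⟨f, rfl⟩
    rw [mAff_range] at h1
    obtain ⟨h2, h3⟩ := mRet_spec h1 h
    rw [← mAff_range] at h2
    obtain ⟨γ', h2⟩ := h2
    refine ⟨γ', (S.aff_mem j T k _).1 ?_, ?_⟩
    · have := mul_mem (inv_mem h3) h
      rw [map_mul, map_inv, h2]
      simpa [mul_assoc, D_false, D_true] using this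
    · exact (mP.of_aff (S.ι_inj k) (S.yp_ι k) (S.yp_b k) (h2 ▸ (mP_mNu γ).ret _)).mNu_le
  · refine ⟨mAff (S.ι k) (S.b k) γ, ?_, ((mP_mNu _).aff (S.yp_ι k) (S.yp_b k)).mNu_le⟩
    have := (S.aff_mem j T k _).2 h
    rwa [map_mul, map_inv] at this

/-- The norm. -/
noncomputable def ν : S.W.G → ℕ := S.D.nu (mNu S.yp)

theorem ν_of (γ : FQ S.X.G) : S.ν (S.of γ) = mNu S.yp γ := S.D.nu_of isSN_mNu S.he γ

theorem depK (j : Nat.Partrec.Code) (T : Set ℕ) (γ : S.W.G) (f : S.Fh)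
    (h : γ⁻¹ * (f : S.W.G) ∈ machL S.W S.pw S.zw (S.start j) T) :
    ∃ f' : S.Fh, γ⁻¹ * (f' : S.W.G) ∈ machL S.W S.pw S.zw (S.start j) T ∧
      Dep (S.π f') (S.ν γ) := by
  obtain ⟨l, γ₀, h₁, h₂, -, h₃⟩ := S.D.bnf_K (S.fixes j T) isSN_mNu S.he
    (fun k _ => S.hK j T k) γ
  obtain ⟨_, f₀, hf₀, rfl⟩ := f
  have key : ∀ {G : Type} [Group G] (K : Subgroup G) (a b c : G), a⁻¹ * b ∈ K → b⁻¹ * c ∈ K →
      a⁻¹ * c ∈ K := fun K a b c h h' => by simpa [mul_assoc] using mul_mem h h'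
  have symm : ∀ {G : Type} [Group G] (K : Subgroup G) (a b : G), a⁻¹ * b ∈ K → b⁻¹ * a ∈ K :=
    fun K a b h => by simpa using inv_mem h
  rw [machL_eq] at h ⊢
  have h₄ := key (G := S.D.MH) _ _ _ _ h₂ h
  obtain rfl : l = [] := by
    by_contra hl
    exact S.D.britton_K (S.fixes j T) hl h₁ f₀ (symm _ _ _ h₄)
  rw [HD.prod_nil, one_mul] at h₂ h₄
  have h₅ : γ₀⁻¹ * f₀ ∈ mT (S.Reach j T) := by
    rw [← S.D.of_mem_Kt (S.fixes j T), map_mul, map_inv]
    exact h₄
  obtain ⟨h₆, h₇⟩ := mRet_spec hf₀ h₅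
  refine ⟨⟨S.of (mRet S.A γ₀), _, h₆, rfl⟩, ?_, ?_⟩
  · rw [← S.D.of_mem_Kt (S.fixes j T), map_mul, map_inv] at h₇
    exact key (G := S.D.MH) _ _ _ _ (symm _ _ _ h₂) h₇
  · rw [S.π_of _ rfl]
    exact (((mP_mNu γ₀).ret _).mono h₃).dep

theorem nf_comp : Computable (mNf S.X) := (primrec_mNf S.X S.mul_prim).to_comp

theorem re_E (l : S.κ × Bool) : REPred fun w => S.X.fq.ev w ∉ S.D.E l := by
  rcases l with ⟨k, _ | _⟩
  · rw [E_false]
    refine (re_comp (m_re_not_mem_mE (h := m_rule_closed (S.ι k) (S.b k)) (S.rng_prim k)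
      ((S.rng_prim k).comp (S.mul_prim.comp (Primrec.const _) Primrec.id))) S.nf_comp).of_eq
      fun w => ?_
    rw [mEl_mNf]
  · exact m_re_false.of_eq fun w => ⟨False.elim, fun h => h (S.E_true k _)⟩

theorem cert_eq (𝒞 : Ctx) : Cert 𝒞 (fun _ w => S.W.ev w = 1) fun _ _ => 0 := by
  obtain ⟨R, hR⟩ := S.exists_pres
  exact cert_eq_of_pres (fun _ => S.W) (fun _ => {r | r ∈ R}) (fun _ => hR)
    (Cert.of_re (re_of_primrecPred (cl_primrecRel_mem.comp Primrec.id (Primrec.const R))) _)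

theorem re_not_mem (𝒳 : Set (FQ S.X.G)) (h : REPred fun p : Word S.X.G × S.X.G => mEl p ∉ 𝒳) :
    REPred fun w => S.W.ev w ∉ S.of '' 𝒳 := by
  refine Cert.triv_iff.1 (cert_hnn (𝒞 := Ctx.triv) (fun _ => S.X.fq) (fun _ => S.D) (fun _ => 𝒳)
    (fun _ _ => 0) (fun _ _ => 0) (fun _ g => ?_) (fun l => Cert.of_re (S.re_E l) _)
    (Cert.of_re ((re_comp h S.nf_comp).of_eq fun w => by rw [mEl_mNf]) _) (S.cert_eq _))
  obtain ⟨l, γ, h₁, h₂⟩ := S.D.exists_noPinch g
  exact ⟨l, γ, h₁, h₂, fun _ _ => le_rfl, le_rfl⟩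

theorem re_mem_machL (T : Set ℕ) (hT : ComputablePred (· ∈ T)) :
    Cert (Ctx.par Nat.Partrec.Code)
      (fun j w => S.W.ev w ∈ machL S.W S.pw S.zw (S.start j) T) fun _ _ => 0 := by
  let U : Nat.Partrec.Code → Set (Word (Option S.ιQ ⊕ S.κ)) := fun j =>
    {w | w ∈ S.pw ∨ ∃ M, M ∈ T ∧ w = (mPow S.zw M).inv ++ S.start j ++ mPow S.zw M}
  have hU : ∀ j, S.W.sub (U j) = machL S.W S.pw S.zw (S.start j) T := fun j => by
    rw [MG.sub, machL]
    congr 1
    ext g
    constructor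
    · rintro ⟨w, hw | ⟨M, hM, rfl⟩, rfl⟩
      · exact Or.inl ⟨w, hw, rfl⟩
      · exact Or.inr ⟨M, hM, by simp [MG.ev, evW_mPow, mul_assoc]⟩
    · rintro (⟨w, hw, rfl⟩ | ⟨M, hM, rfl⟩)
      · exact ⟨w, Or.inl hw, rfl⟩
      · exact ⟨_, Or.inr ⟨M, hM, rfl⟩, by simp [MG.ev, evW_mPow, mul_assoc]⟩
  have h1 : REPred fun p : Nat.Partrec.Code × Word (Option S.ιQ ⊕ S.κ) => p.2 ∈ U p.1 := by
    refine re_or (re_of_primrecPred (cl_primrecRel_mem.comp Primrec.snd (Primrec.const _)))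
      (re_exists (p := fun v : (Nat.Partrec.Code × Word (Option S.ιQ ⊕ S.κ)) × ℕ => v.2 ∈ T ∧
        v.1.2 = (mPow S.zw v.2).inv ++ S.start v.1.1 ++ mPow S.zw v.2)
        (re_and (re_comp hT.to_re Computable.snd) ?_))
    have a1 : Computable fun v : (Nat.Partrec.Code × Word (Option S.ιQ ⊕ S.κ)) × ℕ =>
        mPow S.zw v.2 := (primrec_mPow _).to_comp.comp Computable.snd
    exact re_comp (re_of_primrecPred Primrec.eq) ((Computable.snd.comp Computable.fst).pair
      (Computable.list_append.comp (Computable.list_append.comp (primrec_inv.to_comp.comp a1)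
        (S.start_comp.comp (Computable.fst.comp Computable.fst))) a1))
  have := cert_mem_sub (𝒞 := Ctx.par Nat.Partrec.Code) (fun _ => S.W) U (S.cert_eq _)
    (cert_par_iff.2 h1)
  simpa only [hU] using this

theorem re_not_mem_K (T : Set ℕ) (hT : ComputablePred (· ∈ T)) (𝒳 : Set (FQ S.X.G))
    (h : REPred fun p : Nat.Partrec.Code × (Word S.X.G × S.X.G) =>
      ∀ x ∈ 𝒳, x⁻¹ * mEl p.2 ∉ mT (S.Reach p.1 T)) :
    REPred fun p : Nat.Partrec.Code × Word (Option S.ιQ ⊕ S.κ) =>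
      ∀ x ∈ 𝒳, (S.of x)⁻¹ * S.W.ev p.2 ∉ machL S.W S.pw S.zw (S.start p.1) T := by
  have hnf : Computable fun p : Nat.Partrec.Code × Word (Option S.ιQ) => (p.1, mNf S.X p.2) :=
    Computable.fst.pair (S.nf_comp.comp Computable.snd)
  have := cert_hnn_K (𝒞 := Ctx.par Nat.Partrec.Code) (fun _ => S.X.fq) (fun _ => S.D)
    (fun j => mT (S.Reach j T)) Set.univ (fun j => S.fixes j T) (fun _ => 𝒳)
    (fun _ _ => 0) (fun _ _ => 0) (fun j g => ?_) (fun l => Cert.of_re (S.re_E l) _)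
    (fun l _ => cert_par_iff.2 ?_)
    (cert_par_iff.2 ((re_comp h hnf).of_eq fun p => by rw [mEl_mNf]))
    (by simpa only [machL_eq] using! S.re_mem_machL T hT)
  · simpa only [machL_eq] using! cert_par_iff.1 this
  · obtain ⟨l, γ, h₁, h₂⟩ := S.D.exists_redK (S.fixes j T) g
    exact ⟨l, γ, h₁, h₂, fun _ _ => le_rfl, le_rfl⟩
  · rcases l with ⟨k, _ | _⟩
    · rw [E_false]
      refine (re_comp (m_re_forall_mE S.mul_prim (S := fun j => S.Reach j T) (S.re_not_reach T hT)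
        (h := m_rule_closed (S.ι k) (S.b k)) (S.rng_prim k)
        ((S.rng_prim k).comp (S.mul_prim.comp (Primrec.const _) Primrec.id))) hnf).of_eq
        fun p => ?_
      rw [mEl_mNf]
    · refine m_re_false.of_eq fun p => ⟨False.elim, fun h => h _ (S.E_true k (S.X.fq.ev p.2)) ?_⟩
      rw [inv_mul_cancel]
      exact one_mem _

include S in
theorem nonempty_machPkg : Nonempty (MachPkg Y) := by
  obtain ⟨R, hR⟩ := S.exists_pres
  obtain ⟨n, w, hw⟩ := S.exists_gens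
  refine ⟨{
    ιW := Option S.ιQ ⊕ S.κ
    W := S.W
    R := R
    pres := hR
    z := S.zw
    start := S.start
    start_comp := S.start_comp
    pw := S.pw
    ιH := Option (Fin n)
    hw := fun o => ren Sum.inl (o.elim [(none, true)] fun i => ren some (w i))
    πw := fun o => o.elim [(none, true)] fun i => ren some (S.yp (S.X.ev (w i))).toWord
    Fh := S.Fh
    Fh_eq := ?_
    π := S.π
    π_gen := ?_
    dec := id
    dec_le := fun _ => le_rfl
    dec_surj := Function.surjective_id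
    dec_comp := Computable.id
    sound := ?_
    complete := ?_
    ν := S.ν
    ν_sn := S.D.isSN_nu isSN_mNu
    ν_gen := ?_
    ν_z := ?_
    ν_start := ?_
    dep := ?_
    depK := S.depK
    re_ne := ?_
    re_Fh := S.re_not_mem S.EA (m_re_not_mem_mE S.A_prim S.A_prim)
    re_L := ?_
    re_FhL := ?_ }⟩
  · rw [Fh, hw]
    erw [MonoidHom.map_closure]
    rw [← Set.range_comp]
    congr 2
    funext o
    exact (S.ev_inl _).symm
  · rintro (_ | i) h
    · rw [S.π_of _ ((S.ev_inl _).trans (congrArg S.of (evW_true S.X.fq.gen none)))]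
      refine (mPi_tau (x := []) (map_one _)).trans ?_
      simp [Jx, ren, ← FreeGroup.one_eq_mk]
      rfl
    · rw [S.π_of _ ((S.ev_inl _).trans (congrArg S.of (S.X.fq_ev_ren _)))]
      exact mPi_inr FreeGroup.mk_toWord.symm
  · rintro j T ⟨_, γ, hγ, rfl⟩ h
    have h1 := mem_mT.1 ((S.of_mem_machL j T γ).1 h)
    rw [S.π_of _ rfl, ← SemidirectProduct.inl_left_mul_inr_right γ, h1.1, map_one, mul_one]
    refine hom_mem_of_mem_mFr (f := (mPi S.yp).comp SemidirectProduct.inl) ?_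
      (mem_mFr_inter hγ.2 h1.2)
    rintro _ ⟨hu, M, hM, l, rfl⟩
    obtain ⟨x, hx, e⟩ := S.sound j M l hu
    exact Subgroup.subset_closure ⟨M, hM, x, hx, mPi_tau e⟩
  · intro M j x hx
    obtain ⟨l, hl, e⟩ := S.complete j M x hx
    refine ⟨⟨S.of (mTau _), _, ⟨one_mem _, of_mem_mFr hl⟩, rfl⟩,
      (S.of_mem_machL j _ _).2 (mTau_mem_mT ⟨M, rfl, l, rfl⟩), ?_⟩
    rw [S.π_of _ rfl]
    exact mPi_tau e
  · rintro ((_ | i) | k)
    · exact (S.ν_of _).le.trans ((mP_tau _).mNu_le.trans (by simp))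
    · exact (S.ν_of _).le.trans ((mP_inr _).mNu_le.trans (S.yp_gen i))
    · exact S.D.nu_t_le isSN_mNu k
  · rw [ev_zw, ν_of]
    exact Nat.le_zero.1 ((mP_inr _).mNu_le.trans (by simp [S.yp_z]))
  · intro j
    rw [ev_start, ν_of]
    exact Nat.le_zero.1 ((mP_tau _).mNu_le.trans (by simp [S.yp_sw]))
  · rintro ⟨_, γ, hγ, rfl⟩
    rw [S.π_of _ rfl]
    change Dep _ (S.ν (S.of γ))
    rw [ν_of]
    exact (mP_mNu γ).dep
  · exact (S.re_not_mem {1} m_re_ne_one).of_eq fun w => by simp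
  · intro T hT
    have h0 : Primrec fun p : Nat.Partrec.Code × (Word S.X.G × S.X.G) =>
        (p.1, (([], 1) : Word S.X.G × S.X.G), p.2) :=
      Primrec.fst.pair ((Primrec.const _).pair Primrec.snd)
    have h1 := re_comp (m_re_not_mem_mT S.mul_prim (S := fun j => S.Reach j T)
      (S.re_not_reach T hT)) h0.to_comp
    refine (S.re_not_mem_K T hT {1} (h1.of_eq fun p => ?_)).of_eq fun p => by simp
    have : mEl (([], 1) : Word S.X.G × S.X.G) = 1 := rfl
    simp [this]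
  · intro T hT
    refine (S.re_not_mem_K T hT S.EA (m_re_forall_mE S.mul_prim (S := fun j => S.Reach j T) (S.re_not_reach T hT)
      S.A_prim S.A_prim)).of_eq fun p => ⟨?_, fun h x hx => h _ ⟨x, hx, rfl⟩⟩
    rintro h _ ⟨x, hx, rfl⟩
    exact h x hx

end QSys

end Crest.Agent.R185
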