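import Crest.Agent.R185.MachDef

/-!
# Row 185: from affine rule systems to rule systems on `ℤ^r × FreeGroup Y`
-/

set_option autoImplicit false

namespace Crest.Agent.R185

open Crest.Agent.Lib.Computability

section Codes
variable (Y : Type) [Primcodable Y] [DecidableEq Y]

theorem mq_primrecPred_red : PrimrecPred fun w : Word Y => FreeGroup.reduce w = w :=
  Primrec.eq.comp primrec_reduce Primrec.id

omit [Primcodable Y] in
/-- Elements of a free group are reduced words. -/
def mqEquiv : FreeGroup Y ≃ {w : Word Y // FreeGroup.reduce w = w} where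
  toFun g := ⟨g.toWord, FreeGroup.reduce_toWord g⟩
  invFun w := FreeGroup.mk w.1
  left_inv _ := FreeGroup.mk_toWord
  right_inv w := Subtype.ext (FreeGroup.toWord_mk.trans w.2)

/-- Coding of the free group by reduced words. -/
@[reducible] def mqFree : Primcodable (FreeGroup Y) :=
  @Primcodable.ofEquiv _ _ (Primcodable.subtype (mq_primrecPred_red Y)) (mqEquiv Y)

/-- Coding of the lattice written multiplicatively. -/
@[reducible] def mqLat (r : ℕ) : Primcodable (Multiplicative (Fin r → ℤ)) :=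
  inferInstanceAs (Primcodable (Fin r → ℤ))

attribute [local instance] mqFree mqLat

variable {Y}

theorem mq_primrec_toWord : Primrec (FreeGroup.toWord : FreeGroup Y → Word Y) := by
  let _ := Primcodable.subtype (mq_primrecPred_red Y)
  exact Primrec.subtype_val.comp (Primrec.of_equiv (e := mqEquiv Y))

theorem mq_primrec_mk : Primrec (FreeGroup.mk : Word Y → FreeGroup Y) := by
  let _ := Primcodable.subtype (mq_primrecPred_red Y)
  have h : Primrec fun w : Word Y =>
      (⟨FreeGroup.reduce w, FreeGroup.reduce.idem⟩ : {w : Word Y // FreeGroup.reduce w = w}) :=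
    Primrec.subtype_mk primrec_reduce
  exact ((Primrec.of_equiv_symm (e := mqEquiv Y)).comp h).of_eq fun w => FreeGroup.reduce.self

theorem mq_primrec_fmul : Primrec₂ fun u v : FreeGroup Y => u * v :=
  (mq_primrec_mk.comp (Primrec.list_append.comp (mq_primrec_toWord.comp Primrec.fst)
    (mq_primrec_toWord.comp Primrec.snd))).of_eq fun p => by
      rw [← FreeGroup.mul_mk, FreeGroup.mk_toWord, FreeGroup.mk_toWord]

theorem mq_primrec_finv : Primrec fun u : FreeGroup Y => u⁻¹ :=
  (mq_primrec_mk.comp (primrec_inv.comp mq_primrec_toWord)).of_eq fun p => by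
    rw [Word.inv, ← FreeGroup.inv_mk, FreeGroup.mk_toWord]

theorem mq_primrec_toAdd {r : ℕ} :
    Primrec (Multiplicative.toAdd : Multiplicative (Fin r → ℤ) → Fin r → ℤ) := Primrec.id

theorem mq_primrec_ofAdd {r : ℕ} :
    Primrec (Multiplicative.ofAdd : (Fin r → ℤ) → Multiplicative (Fin r → ℤ)) := Primrec.id

end Codes

/-- The lattice as a marked group. -/
@[reducible] def MG.lat (r : ℕ) : MG (Fin r) where
  G := Multiplicative (Fin r → ℤ)
  gen i := Multiplicative.ofAdd (Pi.single i 1)
  surj g := by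
    rw [← mem_closure_range_iff]
    have : g = ∏ i, Multiplicative.ofAdd (Pi.single i (1 : ℤ) : Fin r → ℤ) ^ (g.toAdd i) := by
      apply Multiplicative.toAdd.injective
      rw [toAdd_prod]
      conv_lhs => rw [← Finset.univ_sum_single g.toAdd]
      refine Finset.sum_congr rfl fun i _ => ?_
      rw [toAdd_zpow, toAdd_ofAdd, ← Pi.single_smul]
      simp
    rw [this]
    exact Subgroup.prod_mem _ fun i _ =>
      Subgroup.zpow_mem _ (Subgroup.subset_closure (Set.mem_range_self i)) _

theorem mq_fp_lat (r : ℕ) : Group.IsFinitelyPresented (Multiplicative (Fin r → ℤ)) := by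
  have : Group.IsFinitelyPresented (Fin r → Multiplicative ℤ) := fp_pi fun _ => inferInstance
  exact Group.IsFinitelyPresented.equiv (MulEquiv.piMultiplicative fun _ : Fin r => ℤ).symm

/-- Generators of the configuration group. -/
def mqGen (r : ℕ) (Y : Type) : Fin r ⊕ Y → Multiplicative (Fin r → ℤ) × FreeGroup Y :=
  Sum.elim (fun i => (Multiplicative.ofAdd (Pi.single i 1), 1)) fun y => (1, FreeGroup.of y)

theorem mqGen_surj (r : ℕ) (Y : Type) (g : Multiplicative (Fin r → ℤ) × FreeGroup Y) :
    ∃ w, evW (mqGen r Y) w = g :=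
  ((MG.lat r).prod (MG.free Y)).surj g

/-- The configuration group. -/
@[reducible] def mqX (r : ℕ) (Y : Type) : MG (Fin r ⊕ Y) where
  G := Multiplicative (Fin r → ℤ) × FreeGroup Y
  gen := mqGen r Y
  surj := mqGen_surj r Y

theorem mq_pres (r : ℕ) (Y : Type) [Finite Y] :
    ∃ R : List (Word (Fin r ⊕ Y)), Pres (mqX r Y) {x | x ∈ R} := by
  obtain ⟨R, hR⟩ := exists_pres_of_fp (MG.lat r) (mq_fp_lat r)
  refine exists_pres_of_fp (mqX r Y) ((pres_prod hR (pres_free Y)).fp ?_)
  refine ((R.finite_toSet.image _).union (Set.finite_empty.image _)).union ?_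
  refine (Set.finite_range fun p : Fin r × Y =>
    comm [((Sum.inl p.1 : Fin r ⊕ Y), true)] [(Sum.inr p.2, true)]).subset ?_
  rintro _ ⟨i, i', rfl⟩
  exact ⟨(i, i'), rfl⟩

/-- A word followed by `n` copies of another word. -/
def mqRep {ι : Type} (w₀ w : Word ι) (n : ℕ) : Word ι := Nat.rec w₀ (fun _ ih => ih ++ w) n

theorem mq_evW_rep {ι G : Type} [Group G] (z : ι → G) (w₀ w : Word ι) (n : ℕ) :
    evW z (mqRep w₀ w n) = evW z w₀ * evW z w ^ n := by
  induction n with
  | zero => simp [mqRep]
  | succ n ih =>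
    have : mqRep w₀ w (n + 1) = mqRep w₀ w n ++ w := rfl
    rw [this, evW_append, ih, pow_succ, mul_assoc]

theorem mq_primrec_rep {ι : Type} [Primcodable ι] (w₀ w : Word ι) : Primrec (mqRep w₀ w) :=
  Primrec.nat_rec₁ w₀ (Primrec.list_append.comp Primrec.snd (Primrec.const w)).to₂

theorem mq_digit {B h h' d d' : ℤ} (h1 : 0 ≤ d) (h2 : d < B) (h3 : 0 ≤ d') (h4 : d' < B)
    (e : B * h + d = B * h' + d') : d = d' := by
  have := congrArg (· % B) e
  simpa only [Int.mul_add_emod_self_left, Int.emod_eq_of_lt h1 h2, Int.emod_eq_of_lt h3 h4]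
    using this

theorem mq_natAbs {B h d : ℤ} (h1 : 1 ≤ d) (h2 : d + 2 ≤ B) : h.natAbs < (B * h + d).natAbs := by
  zify
  rcases le_or_gt 0 h with h0 | h0
  · rw [abs_of_nonneg h0]
    exact lt_of_lt_of_le (by nlinarith) (le_abs_self _)
  · rw [abs_of_neg h0]
    exact lt_of_lt_of_le (by nlinarith) (neg_le_abs _)

section Main
variable {Y : Type} [Primcodable Y] [DecidableEq Y] (S : AffSys Y)

attribute [local instance] mqFree mqLat

/-- The linear part of a rule. -/
def mqI (k : S.κ) : Multiplicative (Fin S.r → ℤ) × FreeGroup Y →*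
    Multiplicative (Fin S.r → ℤ) × FreeGroup Y :=
  MonoidHom.prodMap (AddMonoidHom.toMultiplicative (S.lin k)) (MonoidHom.id _)

/-- The translation part of a rule. -/
def mqB (k : S.κ) : Multiplicative (Fin S.r → ℤ) × FreeGroup Y :=
  (Multiplicative.ofAdd (S.vec k), FreeGroup.mk (S.ltr k))

/-- The start configurations. -/
def mqStart (j : Nat.Partrec.Code) (M : ℕ) : Multiplicative (Fin S.r → ℤ) × FreeGroup Y :=
  (Multiplicative.ofAdd (S.v₀ + Encodable.encode j • S.eJ + M • S.eM), 1)

omit [DecidableEq Y] in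
theorem mqI_apply (k : S.κ) (u : Multiplicative (Fin S.r → ℤ) × FreeGroup Y) :
    mqI S k u = (Multiplicative.ofAdd (S.lin k u.1.toAdd), u.2) := rfl

omit [DecidableEq Y] in
theorem mq_step (k : S.κ) (u : Multiplicative (Fin S.r → ℤ) × FreeGroup Y) :
    mqB S k * mqI S k u =
      (Multiplicative.ofAdd (S.vec k + S.lin k u.1.toAdd), FreeGroup.mk (S.ltr k) * u.2) := rfl

omit [DecidableEq Y] in
theorem mq_run (l : List S.κ) (v : Fin S.r → ℤ) :
    mRun (fun k u => mqB S k * mqI S k u) l (Multiplicative.ofAdd v, 1) =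
      (Multiplicative.ofAdd (mRun (fun k v => S.vec k + S.lin k v) l v),
        FreeGroup.mk (l.flatMap S.ltr)) := by
  induction l with
  | nil => rfl
  | cons k l ih =>
    rw [mRun_cons, ih, mq_step, mRun_cons, List.flatMap_cons, ← FreeGroup.mul_mk]
    rfl

theorem mq_primrec_start : Primrec₂ (mqStart S) := by
  refine Primrec.pair (mq_primrec_ofAdd.comp (m_primrec_pi fun i => ?_)) (Primrec.const 1)
  refine (int_add.comp (int_add.comp (Primrec.const (S.v₀ i))
    (int_mul.comp (int_natCast.comp (Primrec.encode.comp Primrec.fst)) (Primrec.const (S.eJ i))))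
    (int_mul.comp (int_natCast.comp Primrec.snd) (Primrec.const (S.eM i)))).of_eq fun p => ?_
  simp

theorem mq_re_nostart (T : Set ℕ) (hT : ComputablePred (· ∈ T)) :
    REPred fun p : Nat.Partrec.Code × (Multiplicative (Fin S.r → ℤ) × FreeGroup Y) =>
      ∀ M ∈ T, p.2 ≠ mqStart S p.1 M := by
  have hm : Primrec fun p : Nat.Partrec.Code × (Multiplicative (Fin S.r → ℤ) × FreeGroup Y) =>
      (S.μ p.2.1.toAdd).toNat :=
    int_toNat.comp ((m_primrec_fun S.μ).comp
      (mq_primrec_toAdd.comp (Primrec.fst.comp Primrec.snd)))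
  refine (re_or (re_comp hT.not.to_re hm.to_comp) (re_of_primrecPred
    (Primrec.eq.comp Primrec.snd ((mq_primrec_start S).comp Primrec.fst hm)).not)).of_eq ?_
  rintro ⟨j, u⟩
  constructor
  · intro h M hM e
    dsimp only at h e
    subst e
    have : (S.μ (mqStart S j M).1.toAdd).toNat = M := by
      simp only [mqStart, toAdd_ofAdd, map_add, map_nsmul, S.μ_v₀, S.μ_eJ, S.μ_eM]
      simp
    rw [this] at h
    exact h.elim (fun h => h hM) fun h => h rfl
  · intro h
    by_cases hM : (S.μ u.1.toAdd).toNat ∈ T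
    · exact Or.inr (h _ hM)
    · exact Or.inl hM

end Main

attribute [local instance] mqFree mqLat in
theorem exists_qSys {Y : Type} [Primcodable Y] [DecidableEq Y] [Finite Y] (S : AffSys Y) :
    Nonempty (QSys Y) := by
  obtain ⟨R, hR⟩ := mq_pres S.r Y
  obtain ⟨z, hz⟩ := mqGen_surj S.r Y (Multiplicative.ofAdd S.eM, 1)
  obtain ⟨w₀, hw₀⟩ := mqGen_surj S.r Y (Multiplicative.ofAdd S.v₀, 1)
  obtain ⟨wJ, hwJ⟩ := mqGen_surj S.r Y (Multiplicative.ofAdd S.eJ, 1)
  have hsw : ∀ j : Nat.Partrec.Code, evW (mqGen S.r Y) (mqRep w₀ wJ (Encodable.encode j)) =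
      (Multiplicative.ofAdd (S.v₀ + Encodable.encode j • S.eJ), 1) := fun j => by
    rw [mq_evW_rep, hw₀, hwJ, ofAdd_add, ofAdd_nsmul]
    simp
  have hst : ∀ (j : Nat.Partrec.Code) (M : ℕ),
      evW (mqGen S.r Y) (mqRep w₀ wJ (Encodable.encode j)) * evW (mqGen S.r Y) z ^ M =
        mqStart S j M := fun j M => by
    rw [hsw, hz, mqStart, ofAdd_add (S.v₀ + _), ofAdd_nsmul]
    simp
  refine ⟨{
    ιQ := Fin S.r ⊕ Y
    X := mqX S.r Y
    R := R
    pres := hR
    pcG := inferInstanceAs (Primcodable (Multiplicative (Fin S.r → ℤ) × FreeGroup Y))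
    mul_prim := ?_
    inv_prim := ?_
    yp := MonoidHom.snd _ _
    yp_gen := ?_
    κ := S.κ
    ι := mqI S
    ι_inj := ?_
    ι_prim := ?_
    rng_prim := ?_
    b := mqB S
    yp_ι := fun _ _ => rfl
    yp_b := fun k => FreeGroup.norm_mk_le.trans (S.ltr_len k)
    ht := fun u => (S.hist u.1.toAdd).natAbs
    ht_lt := ?_
    disj := ?_
    A := (AddSubgroup.toSubgroup S.A).prod ⊤
    A_fg := ?_
    A_prim := ?_
    z := z
    sw := fun j => mqRep w₀ wJ (Encodable.encode j)
    sw_comp := ((mq_primrec_rep w₀ wJ).comp Primrec.encode).to_comp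
    yp_z := congrArg Prod.snd hz
    yp_sw := fun j => congrArg Prod.snd (hsw j)
    start_ne := ?_
    re_nostart := ?_
    sound := ?_
    complete := ?_ }⟩
  · exact Primrec.pair
      (m_primrec_add.comp (mq_primrec_toAdd.comp (Primrec.fst.comp Primrec.fst))
        (mq_primrec_toAdd.comp (Primrec.fst.comp Primrec.snd)))
      (mq_primrec_fmul.comp (Primrec.snd.comp Primrec.fst) (Primrec.snd.comp Primrec.snd))
  · exact Primrec.pair (m_primrec_neg.comp (mq_primrec_toAdd.comp Primrec.fst))
      (mq_primrec_finv.comp Primrec.snd)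
  · rintro (i | y)
    · exact (FreeGroup.norm_one (α := Y)).le.trans zero_le_one
    · exact (FreeGroup.norm_of y).le
  · intro k u v h
    rw [mqI_apply, mqI_apply, Prod.ext_iff] at h
    exact Prod.ext (Multiplicative.toAdd.injective
      (S.lin_inj k (Multiplicative.ofAdd.injective h.1))) h.2
  · intro k
    exact Primrec.pair ((m_primrec_lin (S.lin k)).comp (mq_primrec_toAdd.comp Primrec.fst))
      Primrec.snd
  · intro k
    refine ((S.rng_prim k).comp (mq_primrec_toAdd.comp Primrec.fst)).of_eq fun u => ?_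
    constructor
    · rintro ⟨v, hv⟩
      exact ⟨(Multiplicative.ofAdd v, u.2), Prod.ext (congrArg Multiplicative.ofAdd hv) rfl⟩
    · rintro ⟨v, rfl⟩
      exact ⟨v.1.toAdd, rfl⟩
  · intro k u
    change _ < (S.hist (S.vec k + S.lin k u.1.toAdd)).natAbs
    rw [S.hist_step]
    exact mq_natAbs (S.dig_pos k) (S.dig_lt k)
  · intro k k' u u' h
    have h1 : S.hist (S.vec k + S.lin k u.1.toAdd) = S.hist (S.vec k' + S.lin k' u'.1.toAdd) :=
      congrArg (fun u : Multiplicative (Fin S.r → ℤ) × FreeGroup Y => S.hist u.1.toAdd) h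
    rw [S.hist_step, S.hist_step] at h1
    have := S.dig_pos k
    have := S.dig_pos k'
    have := S.dig_lt k
    have := S.dig_lt k'
    exact S.dig_inj (mq_digit (by omega) (by omega) (by omega) (by omega) h1)
  · refine Subgroup.FG.prod ?_ (Group.fg_def.1 inferInstance)
    rw [← AddSubgroup.fg_iff_mul_fg, ← AddSubgroup.toIntSubmodule_toAddSubgroup S.A,
      ← Submodule.fg_iff_addSubgroup_fg]
    exact IsNoetherian.noetherian _
  · refine (S.A_prim.comp (mq_primrec_toAdd.comp Primrec.fst)).of_eq fun u => ?_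
    exact ⟨fun h => ⟨h, trivial⟩, fun h => h.1⟩
  · intro j M k u h
    replace h := (hst j M).symm.trans h
    have h1 : S.hist (S.v₀ + Encodable.encode j • S.eJ + M • S.eM) =
        S.hist (S.vec k + S.lin k u.1.toAdd) :=
      congrArg (fun u : Multiplicative (Fin S.r → ℤ) × FreeGroup Y => S.hist u.1.toAdd) h
    rw [S.hist_step, map_add, map_add, map_nsmul, map_nsmul, S.hist_v₀, S.hist_eJ,
      S.hist_eM] at h1
    have := S.dig_pos k
    have := S.dig_lt k
    have := mq_digit (B := S.B) (h := 0) (h' := S.hist u.1.toAdd) (d := 0) (d' := S.dig k)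
      le_rfl (by omega) (by omega) (by omega) (by simpa using h1)
    omega
  · intro T hT
    refine (mq_re_nostart S T hT).of_eq fun p => ?_
    simp only [MG.ev, hst]
  · intro j M l h
    simp only [MG.ev, hst, mqStart, mq_run] at h ⊢
    exact ⟨_, S.sound j M l h.1, rfl⟩
  · intro j M x h
    obtain ⟨l, rfl, hl⟩ := S.complete j M x h
    refine ⟨l, ?_⟩
    simp only [MG.ev, hst, mqStart, mq_run]
    exact ⟨⟨hl, trivial⟩, rfl⟩

end Crest.Agent.R185
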