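import Crest.Agent.R185.Pkg
import Crest.Agent.R185.HNNCert
import Crest.Agent.R185.PresLib
import Crest.Agent.R185.MachGrp
import Crest.Agent.R185.MachQ
import Crest.Agent.R185.MachAff

/-!
# Row 185: the machine group
-/

set_option autoImplicit false

namespace Crest.Agent.R185

theorem exists_mach (Y : Type) [Primcodable Y] [Finite Y] : Nonempty (MachPkg Y) := by
  classical
  obtain ⟨S⟩ := exists_affSys Y
  obtain ⟨S'⟩ := exists_qSys S
  exact S'.nonempty_machPkg

end Crest.Agent.R185
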