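import Crest.Agent.R185.Pkg
import Crest.Agent.R185.PresLib
import Crest.Agent.R185.CertLib
import Crest.Agent.Lib.Computability.RatPrimrec

/-!
# Row 185: affine rule systems (interfaces for the machine group)
-/

set_option autoImplicit false

namespace Crest.Agent.R185

/-- Running a list of rules (the last rule of the list is applied first). -/
def mRun {κ α : Type} (ρ : κ → α → α) (l : List κ) (u : α) : α := l.foldr ρ u

@[simp] theorem mRun_nil {κ α : Type} (ρ : κ → α → α) (u : α) : mRun ρ [] u = u := rfl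

@[simp] theorem mRun_cons {κ α : Type} (ρ : κ → α → α) (k : κ) (l : List κ) (u : α) :
    mRun ρ (k :: l) u = ρ k (mRun ρ l u) := rfl

theorem mRun_append {κ α : Type} (ρ : κ → α → α) (l l' : List κ) (u : α) :
    mRun ρ (l ++ l') u = mRun ρ l (mRun ρ l' u) := by
  simp [mRun]

/-- A universal nondeterministic machine whose configurations are points of a lattice and whose
rules are injective affine maps `v ↦ vec k + lin k v`; the rule `k` also writes `ltr k`. -/
structure AffSys (Y : Type) [Primcodable Y] where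
  r : ℕ
  κ : Type
  [pcκ : Primcodable κ]
  [finκ : Finite κ]
  lin : κ → (Fin r → ℤ) →+ (Fin r → ℤ)
  lin_inj : ∀ k, Function.Injective (lin k)
  rng_prim : ∀ k, PrimrecPred fun u => ∃ v, lin k v = u
  vec : κ → Fin r → ℤ
  ltr : κ → Word Y
  ltr_len : ∀ k, (ltr k).length ≤ 1
  hist : (Fin r → ℤ) →+ ℤ
  B : ℤ
  dig : κ → ℤ
  dig_inj : Function.Injective dig
  dig_pos : ∀ k, 1 ≤ dig k
  dig_lt : ∀ k, dig k + 2 ≤ B
  hist_step : ∀ k v, hist (vec k + lin k v) = B * hist v + dig k
  v₀ : Fin r → ℤ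
  eJ : Fin r → ℤ
  eM : Fin r → ℤ
  hist_v₀ : hist v₀ = 0
  hist_eJ : hist eJ = 0
  hist_eM : hist eM = 0
  μ : (Fin r → ℤ) →+ ℤ
  μ_v₀ : μ v₀ = 0
  μ_eJ : μ eJ = 0
  μ_eM : μ eM = 1
  A : AddSubgroup (Fin r → ℤ)
  A_prim : PrimrecPred fun u => u ∈ A
  sound : ∀ (j : Nat.Partrec.Code) (M : ℕ) (l : List κ),
    mRun (fun k v => vec k + lin k v) l (v₀ + Encodable.encode j • eJ + M • eM) ∈ A →
      halts j (l.flatMap ltr) M
  complete : ∀ (j : Nat.Partrec.Code) (M : ℕ) (x : Word Y), halts j x M → ∃ l : List κ,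
    l.flatMap ltr = x ∧
      mRun (fun k v => vec k + lin k v) l (v₀ + Encodable.encode j • eJ + M • eM) ∈ A

/-- A universal machine whose configurations are elements of a finitely presented computable group
and whose rules are the maps `u ↦ b k * ι k u`. -/
structure QSys (Y : Type) [Primcodable Y] [DecidableEq Y] where
  ιQ : Type
  [pcQ : Primcodable ιQ]
  [finQ : Finite ιQ]
  X : MG ιQ
  R : List (Word ιQ)
  pres : Pres X {r | r ∈ R}
  [pcG : Primcodable X.G]
  mul_prim : Primrec₂ fun u v : X.G => u * v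
  inv_prim : Primrec fun u : X.G => u⁻¹
  yp : X.G →* FreeGroup Y
  yp_gen : ∀ i, (yp (X.gen i)).norm ≤ 1
  κ : Type
  [pcκ : Primcodable κ]
  [finκ : Finite κ]
  ι : κ → X.G →* X.G
  ι_inj : ∀ k, Function.Injective (ι k)
  ι_prim : ∀ k, Primrec (ι k)
  rng_prim : ∀ k, PrimrecPred fun u => u ∈ (ι k).range
  b : κ → X.G
  yp_ι : ∀ k u, yp (ι k u) = yp u
  yp_b : ∀ k, (yp (b k)).norm ≤ 1
  ht : X.G → ℕ
  ht_lt : ∀ k u, ht u < ht (b k * ι k u)
  disj : ∀ k k' u u', b k * ι k u = b k' * ι k' u' → k = k'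
  A : Subgroup X.G
  A_fg : A.FG
  A_prim : PrimrecPred fun u => u ∈ A
  z : Word ιQ
  sw : Nat.Partrec.Code → Word ιQ
  sw_comp : Computable sw
  yp_z : yp (X.ev z) = 1
  yp_sw : ∀ j, yp (X.ev (sw j)) = 1
  start_ne : ∀ j (M : ℕ) k u, X.ev (sw j) * X.ev z ^ M ≠ b k * ι k u
  re_nostart : ∀ S : Set ℕ, ComputablePred (· ∈ S) →
    REPred fun p : Nat.Partrec.Code × X.G => ∀ M ∈ S, p.2 ≠ X.ev (sw p.1) * X.ev z ^ M
  sound : ∀ j (M : ℕ) (l : List κ), mRun (fun k u => b k * ι k u) l (X.ev (sw j) * X.ev z ^ M) ∈ A →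
    ∃ x, halts j x M ∧
      yp (mRun (fun k u => b k * ι k u) l (X.ev (sw j) * X.ev z ^ M)) = FreeGroup.mk x
  complete : ∀ j (M : ℕ) (x : Word Y), halts j x M → ∃ l : List κ,
    mRun (fun k u => b k * ι k u) l (X.ev (sw j) * X.ev z ^ M) ∈ A ∧
      yp (mRun (fun k u => b k * ι k u) l (X.ev (sw j) * X.ev z ^ M)) = FreeGroup.mk x

attribute [instance] AffSys.pcκ AffSys.finκ QSys.pcQ QSys.finQ QSys.pcG QSys.pcκ QSys.finκ

section Prim
open Crest.Agent.Lib.Computability

theorem m_primrec_sum {α ι : Type} [Primcodable α] (s : Finset ι) {f : ι → α → ℤ}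
    (hf : ∀ i, Primrec (f i)) : Primrec fun a => ∑ i ∈ s, f i a := by
  classical
  induction s using Finset.induction_on with
  | empty => simpa using Primrec.const (0 : ℤ)
  | insert i s hi ih => simpa [Finset.sum_insert hi] using int_add.comp (hf i) ih

theorem m_primrec_apply {r : ℕ} {σ : Type} [Primcodable σ] (i : Fin r) :
    Primrec fun v : Fin r → σ => v i :=
  Primrec.fin_app.comp Primrec.id (Primrec.const i)

theorem m_primrec_pi {α σ : Type} [Primcodable α] [Primcodable σ] {r : ℕ} {f : α → Fin r → σ}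
    (hf : ∀ i, Primrec fun a => f a i) : Primrec f :=
  Primrec.fin_curry.2 (Primrec.fin_curry₁.2 hf).swap

/-- Additive functionals on a lattice are primitive recursive. -/
theorem m_primrec_fun {r : ℕ} (f : (Fin r → ℤ) →+ ℤ) : Primrec f := by
  have : ∀ v : Fin r → ℤ, ∑ i, v i * f (Pi.single i 1) = f v := fun v => by
    conv_rhs => rw [← Finset.univ_sum_single v, map_sum]
    refine Finset.sum_congr rfl fun i _ => ?_
    rw [← smul_eq_mul, ← map_zsmul, ← Pi.single_smul]
    simp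
  exact (m_primrec_sum _ fun i => int_mul.comp (m_primrec_apply i) (Primrec.const _)).of_eq this

/-- Additive maps between lattices are primitive recursive. -/
theorem m_primrec_lin {r s : ℕ} (f : (Fin r → ℤ) →+ (Fin s → ℤ)) : Primrec f :=
  m_primrec_pi fun i => m_primrec_fun ((Pi.evalAddMonoidHom (fun _ => ℤ) i).comp f)

theorem m_primrec_add {r : ℕ} : Primrec₂ fun u v : Fin r → ℤ => u + v :=
  m_primrec_pi fun i => int_add.comp ((m_primrec_apply i).comp Primrec.fst)
    ((m_primrec_apply i).comp Primrec.snd)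

theorem m_primrec_neg {r : ℕ} : Primrec fun u : Fin r → ℤ => -u :=
  m_primrec_pi fun i => int_neg.comp (m_primrec_apply i)

theorem m_primrec_dvd (c : ℤ) : PrimrecPred fun n : ℤ => c ∣ n :=
  (nat_dvd.comp (Primrec.const c.natAbs) int_natAbs).of_eq fun _ => Int.natAbs_dvd_natAbs

end Prim

end Crest.Agent.R185
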