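import Crest.Agent.R185.MachDef

/-!
# Row 185: the group `F(Q) = Q * ⟨τ⟩` as a semidirect product
-/

set_option autoImplicit false

namespace Crest.Agent.R185

section Fr
variable {α β : Type}

/-- The subgroup of a free group generated by a set of letters. -/
def mFr (S : Set α) : Subgroup (FreeGroup α) := Subgroup.closure (FreeGroup.of '' S)

theorem mFr_mono {S S' : Set α} (h : S ⊆ S') : mFr S ≤ mFr S' :=
  Subgroup.closure_mono (Set.image_mono h)

theorem of_mem_mFr {S : Set α} {a : α} (h : a ∈ S) : FreeGroup.of a ∈ mFr S :=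
  Subgroup.subset_closure ⟨a, h, rfl⟩

theorem mk_mem_mFr {S : Set α} {w : Word α} (h : ∀ x ∈ w, x.1 ∈ S) : FreeGroup.mk w ∈ mFr S := by
  rw [← evW_of]
  induction w with
  | nil => simp
  | cons x w ih =>
    rw [evW_cons]
    refine mul_mem ?_ (ih fun y hy => h y (List.mem_cons_of_mem _ hy))
    have := of_mem_mFr (h x List.mem_cons_self)
    rcases x with ⟨a, _ | _⟩
    · exact inv_mem this
    · exact this

theorem exists_word_of_mem_mFr {S : Set α} {φ : FreeGroup α} (h : φ ∈ mFr S) :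
    ∃ w : Word α, (∀ x ∈ w, x.1 ∈ S) ∧ FreeGroup.mk w = φ := by
  induction h using Subgroup.closure_induction'' with
  | mem x hx =>
    obtain ⟨a, ha, rfl⟩ := hx
    exact ⟨[(a, true)], by simpa using ha, rfl⟩
  | inv_mem x hx =>
    obtain ⟨a, ha, rfl⟩ := hx
    exact ⟨[(a, false)], by simpa using ha, rfl⟩
  | one => exact ⟨[], by simp, rfl⟩
  | mul x y _ _ hx hy =>
    obtain ⟨v, hv, rfl⟩ := hx
    obtain ⟨w, hw, rfl⟩ := hy
    exact ⟨v ++ w, fun x hx => (List.mem_append.1 hx).elim (hv x) (hw x), by simp⟩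

theorem mem_mFr_iff [DecidableEq α] {S : Set α} {φ : FreeGroup α} :
    φ ∈ mFr S ↔ ∀ x ∈ φ.toWord, x.1 ∈ S := by
  constructor
  · intro h x hx
    obtain ⟨w, hw, rfl⟩ := exists_word_of_mem_mFr h
    exact hw x (FreeGroup.reduce.red.sublist.subset hx)
  · intro h
    rw [← FreeGroup.mk_toWord (x := φ)]
    exact mk_mem_mFr h

theorem mem_mFr_inter {S S' : Set α} {φ : FreeGroup α} (h : φ ∈ mFr S) (h' : φ ∈ mFr S') :
    φ ∈ mFr (S ∩ S') := by
  classical
  rw [mem_mFr_iff] at *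
  exact fun x hx => ⟨h x hx, h' x hx⟩

theorem hom_mem_of_mem_mFr {G : Type} [Group G] {S : Set α} {f : FreeGroup α →* G} {K : Subgroup G}
    (hK : ∀ a ∈ S, f (FreeGroup.of a) ∈ K) {φ : FreeGroup α} (h : φ ∈ mFr S) : f φ ∈ K := by
  have : mFr S ≤ K.comap f := (Subgroup.closure_le _).2 (by
    rintro _ ⟨a, ha, rfl⟩
    exact hK a ha)
  exact this h

theorem map_mem_mFr {S : Set α} {S' : Set β} {g : α → β} (hg : ∀ a ∈ S, g a ∈ S')
    {φ : FreeGroup α} (h : φ ∈ mFr S) : FreeGroup.map g φ ∈ mFr S' :=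
  hom_mem_of_mem_mFr (fun a ha => of_mem_mFr (hg a ha)) h

theorem mem_mFr_univ (φ : FreeGroup α) : φ ∈ mFr (Set.univ : Set α) := by
  classical
  exact mem_mFr_iff.2 fun _ _ => trivial

open Classical in
/-- The retraction killing the letters outside of `S`. -/
noncomputable def mKill (S : Set α) : FreeGroup α →* FreeGroup α :=
  FreeGroup.lift fun a => if a ∈ S then FreeGroup.of a else 1

theorem mKill_of_pos {S : Set α} {a : α} (h : a ∈ S) : mKill S (FreeGroup.of a) = FreeGroup.of a := by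
  simp [mKill, h]

theorem mKill_of_neg {S : Set α} {a : α} (h : a ∉ S) : mKill S (FreeGroup.of a) = 1 := by
  simp [mKill, h]

theorem mKill_mem_inter (S : Set α) {C : Set α} {φ : FreeGroup α} (h : φ ∈ mFr C) :
    mKill S φ ∈ mFr (S ∩ C) := by
  refine hom_mem_of_mem_mFr (fun a ha => ?_) h
  by_cases hS : a ∈ S
  · rw [mKill_of_pos hS]; exact of_mem_mFr ⟨hS, ha⟩
  · rw [mKill_of_neg hS]; exact one_mem _

theorem mKill_mem (S : Set α) (φ : FreeGroup α) : mKill S φ ∈ mFr S :=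
  mFr_mono Set.inter_subset_left (mKill_mem_inter S (mem_mFr_univ φ))

theorem mKill_mem_of_mem (S : Set α) {C : Set α} {φ : FreeGroup α} (h : φ ∈ mFr C) :
    mKill S φ ∈ mFr C :=
  mFr_mono Set.inter_subset_right (mKill_mem_inter S h)

theorem mKill_eq_self {S : Set α} {φ : FreeGroup α} (h : φ ∈ mFr S) : mKill S φ = φ := by
  have : mFr S ≤ (mKill S).eqLocus (MonoidHom.id _) := (Subgroup.closure_le _).2 (by
    rintro _ ⟨a, ha, rfl⟩
    exact mKill_of_pos ha)
  exact this h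

theorem mKill_map (S : Set β) (g : α → β) (φ : FreeGroup α) :
    mKill S (FreeGroup.map g φ) = FreeGroup.map g (mKill (g ⁻¹' S) φ) := by
  have : (mKill S).comp (FreeGroup.map g) = (FreeGroup.map g).comp (mKill (g ⁻¹' S)) := by
    ext a
    simp only [MonoidHom.comp_apply, FreeGroup.map.of]
    by_cases h : g a ∈ S
    · rw [mKill_of_pos h, mKill_of_pos (show a ∈ g ⁻¹' S from h), FreeGroup.map.of]
    · rw [mKill_of_neg h, mKill_of_neg (show a ∉ g ⁻¹' S from h), map_one]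
  exact DFunLike.congr_fun this φ

theorem map_mem_mFr_iff {S : Set β} {g : α → β} (hg : Function.Injective g) {φ : FreeGroup α} :
    FreeGroup.map g φ ∈ mFr S ↔ φ ∈ mFr (g ⁻¹' S) := by
  refine ⟨fun h => ?_, map_mem_mFr (g := g) fun _ h => h⟩
  have h1 := mKill_eq_self h
  rw [mKill_map] at h1
  rw [← FreeGroup.map_injective hg h1]
  exact mKill_mem _ _

theorem mKill_mk (S : Set α) [DecidablePred (· ∈ S)] (w : Word α) :
    mKill S (FreeGroup.mk w) = FreeGroup.mk (w.filter fun x => x.1 ∈ S) := by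
  rw [← evW_of, ← evW_of]
  induction w with
  | nil => simp
  | cons x w ih =>
    rw [evW_cons, map_mul, ih]
    rcases x with ⟨a, _ | _⟩ <;> by_cases h : a ∈ S <;>
      simp [h, mKill_of_pos, mKill_of_neg, evW_cons]

end Fr

section FQ
variable {Q : Type} [Group Q]

/-- The action of `Q` on the letters `τ u = u⁻¹ τ u`. -/
def mAct (Q : Type) [Group Q] : Q →* MulAut (FreeGroup Q) where
  toFun q := FreeGroup.freeGroupCongr (Equiv.mulRight q⁻¹)
  map_one' := by
    ext φ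
    change FreeGroup.map _ φ = φ
    simp
  map_mul' q q' := by
    ext φ
    change FreeGroup.map _ φ = FreeGroup.map _ (FreeGroup.map _ φ)
    rw [FreeGroup.map.comp]
    congr 2
    funext u
    simp [mul_assoc]

theorem mAct_apply (q : Q) (φ : FreeGroup Q) : mAct Q q φ = FreeGroup.map (· * q⁻¹) φ := rfl

theorem mAct_symm (q : Q) (φ : FreeGroup Q) :
    (MulEquiv.symm (mAct Q q)) φ = FreeGroup.map (· * q) φ := by
  have : MulEquiv.symm (mAct Q q) = mAct Q q⁻¹ := by rw [map_inv]; rfl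
  rw [this, mAct_apply, inv_inv]

/-- The free product of `Q` with an infinite cyclic group. -/
abbrev FQ (Q : Type) [Group Q] : Type := FreeGroup Q ⋊[mAct Q] Q

/-- The conjugate `u⁻¹ τ u`. -/
def mTau (u : Q) : FQ Q := SemidirectProduct.inl (FreeGroup.of u)

theorem mTau_conj (u q : Q) : (SemidirectProduct.inr q : FQ Q)⁻¹ * mTau u *
    SemidirectProduct.inr q = mTau (u * q) := by
  ext <;> simp [mTau, mAct_symm]

/-- The universal property. -/
def mLift {Z : Type} [Group Z] (f : Q →* Z) (t : Z) : FQ Q →* Z :=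
  SemidirectProduct.lift (FreeGroup.lift fun u => (f u)⁻¹ * t * f u) f fun q => by
    ext u
    simp [mAct_apply, mul_assoc]

theorem mLift_tau {Z : Type} [Group Z] (f : Q →* Z) (t : Z) (u : Q) :
    mLift f t (mTau u) = (f u)⁻¹ * t * f u := by
  simp [mLift, mTau]

theorem mLift_inr {Z : Type} [Group Z] (f : Q →* Z) (t : Z) (q : Q) :
    mLift f t (SemidirectProduct.inr q) = f q := by
  simp [mLift]

/-- The subgroup `⟨A, τ u (u ∈ C)⟩`. -/
def mE (A : Subgroup Q) (C : Set Q) (h : ∀ u ∈ C, ∀ q ∈ A, u * q ∈ C) : Subgroup (FQ Q) where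
  carrier := {f | f.right ∈ A ∧ f.left ∈ mFr C}
  one_mem' := ⟨one_mem _, one_mem _⟩
  mul_mem' := fun hf hg => ⟨mul_mem hf.1 hg.1,
    mul_mem hf.2 (map_mem_mFr (fun u hu => h u hu _ (inv_mem hf.1)) hg.2)⟩
  inv_mem' := fun hf => ⟨inv_mem hf.1,
    map_mem_mFr (fun u hu => h u hu _ (inv_mem (inv_mem hf.1))) (inv_mem hf.2)⟩

theorem mem_mE {A : Subgroup Q} {C : Set Q} {h : ∀ u ∈ C, ∀ q ∈ A, u * q ∈ C} {f : FQ Q} :
    f ∈ mE A C h ↔ f.right ∈ A ∧ f.left ∈ mFr C := Iff.rfl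

/-- The subgroup generated by the `τ u`, `u ∈ S`. -/
def mT (S : Set Q) : Subgroup (FQ Q) :=
  mE ⊥ S fun u hu q hq => by rw [Subgroup.mem_bot.1 hq, mul_one]; exact hu

theorem mem_mT {S : Set Q} {f : FQ Q} : f ∈ mT S ↔ f.right = 1 ∧ f.left ∈ mFr S := by
  rw [mT, mem_mE, Subgroup.mem_bot]

theorem mTau_mem_mT {S : Set Q} {u : Q} (h : u ∈ S) : mTau u ∈ mT S :=
  mem_mT.2 ⟨rfl, of_mem_mFr h⟩

theorem mE_le {A : Subgroup Q} {C : Set Q} {h : ∀ u ∈ C, ∀ q ∈ A, u * q ∈ C}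
    {K : Subgroup (FQ Q)} (h₁ : ∀ q ∈ A, SemidirectProduct.inr q ∈ K) (h₂ : ∀ u ∈ C, mTau u ∈ K) :
    mE A C h ≤ K := fun f hf => by
  rw [← SemidirectProduct.inl_left_mul_inr_right f]
  exact mul_mem (hom_mem_of_mem_mFr h₂ hf.2) (h₁ _ hf.1)

theorem mT_le {S : Set Q} {K : Subgroup (FQ Q)} (h₂ : ∀ u ∈ S, mTau u ∈ K) : mT S ≤ K :=
  mE_le (fun q hq => by rw [Subgroup.mem_bot.1 hq, map_one]; exact one_mem _) h₂

theorem inv_mul_mem_mT {S : Set Q} {f g : FQ Q} : f⁻¹ * g ∈ mT S ↔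
    f.right = g.right ∧ f.left⁻¹ * g.left ∈ mFr {u | u * f.right ∈ S} := by
  rw [mem_mT]
  have h1 : (f⁻¹ * g).left = FreeGroup.map (· * f.right) (f.left⁻¹ * g.left) := by
    simp [mAct_symm]
  rw [h1, map_mem_mFr_iff (mul_left_injective _)]
  simp only [SemidirectProduct.mul_right, SemidirectProduct.inv_right, inv_mul_eq_one]
  rfl

/-- Killing the letters outside of `C`. -/
noncomputable def mRet (C : Set Q) (f : FQ Q) : FQ Q := ⟨mKill C f.left, f.right⟩

theorem mRet_spec {A : Subgroup Q} {C : Set Q} {h : ∀ u ∈ C, ∀ q ∈ A, u * q ∈ C} {S : Set Q}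
    {e γ : FQ Q} (he : e ∈ mE A C h) (hγ : γ⁻¹ * e ∈ mT S) :
    mRet C γ ∈ mE A C h ∧ γ⁻¹ * mRet C γ ∈ mT S := by
  rw [inv_mul_mem_mT] at hγ ⊢
  refine ⟨⟨show γ.right ∈ A from hγ.1 ▸ he.1, mKill_mem _ _⟩, rfl, ?_⟩
  have h1 := mKill_mem_of_mem C hγ.2
  rw [map_mul, mKill_eq_self he.2, map_inv] at h1
  have h2 := mul_mem hγ.2 (inv_mem h1)
  simpa [mRet, mul_assoc] using h2

theorem forall_mE_iff {A : Subgroup Q} {C : Set Q} {h : ∀ u ∈ C, ∀ q ∈ A, u * q ∈ C} {S : Set Q}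
    {γ : FQ Q} : (∀ e ∈ mE A C h, e⁻¹ * γ ∉ mT S) ↔ γ.right ∉ A ∨ γ⁻¹ * mRet C γ ∉ mT S := by
  constructor
  · intro H
    by_contra hc
    push Not at hc
    exact H (mRet C γ) ⟨hc.1, mKill_mem _ _⟩ (by simpa using inv_mem hc.2)
  · intro H e he hγ
    have := mRet_spec he (γ := γ) (S := S) (by simpa using inv_mem hγ)
    rcases H with H | H
    · exact H this.1.1
    · exact H this.2

/-- The affine endomorphism `τ u ↦ τ (b * ι u)`, `q ↦ ι q`. -/
def mAff (ι : Q →* Q) (b : Q) : FQ Q →* FQ Q :=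
  SemidirectProduct.map (FreeGroup.map fun u => b * ι u) ι fun q => by
    ext u
    simp [mAct_apply, mul_assoc]

theorem mAff_left (ι : Q →* Q) (b : Q) (f : FQ Q) :
    (mAff ι b f).left = FreeGroup.map (fun u => b * ι u) f.left := rfl

theorem mAff_right (ι : Q →* Q) (b : Q) (f : FQ Q) : (mAff ι b f).right = ι f.right := rfl

theorem mAff_tau (ι : Q →* Q) (b u : Q) : mAff ι b (mTau u) = mTau (b * ι u) := by
  simp [mAff, mTau]

theorem m_rule_inj {ι : Q →* Q} (hι : Function.Injective ι) (b : Q) :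
    Function.Injective fun u => b * ι u := fun _ _ h => hι (mul_left_cancel h)

theorem mAff_injective {ι : Q →* Q} (hι : Function.Injective ι) (b : Q) :
    Function.Injective (mAff ι b) := fun f g h => by
  ext
  · exact FreeGroup.map_injective (m_rule_inj hι b) (congrArg SemidirectProduct.left h)
  · exact hι (congrArg SemidirectProduct.right h)

theorem m_rule_closed (ι : Q →* Q) (b : Q) :
    ∀ u ∈ {u | b⁻¹ * u ∈ ι.range}, ∀ q ∈ ι.range, u * q ∈ {u | b⁻¹ * u ∈ ι.range} :=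
  fun u hu q hq => by
    have := mul_mem hu hq
    rwa [mul_assoc] at this

theorem m_rule_range (ι : Q →* Q) (b : Q) :
    (Set.range fun u => b * ι u) = {u | b⁻¹ * u ∈ ι.range} := by
  ext u
  constructor
  · rintro ⟨v, rfl⟩
    exact ⟨v, by simp⟩
  · rintro ⟨v, hv⟩
    exact ⟨v, by simp [hv]⟩

theorem mAff_range (ι : Q →* Q) (b : Q) :
    (mAff ι b).range = mE ι.range {u | b⁻¹ * u ∈ ι.range} (m_rule_closed ι b) := by
  ext f
  rw [mem_mE, ← m_rule_range, mFr, ← FreeGroup.range_map]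
  constructor
  · rintro ⟨g, rfl⟩
    exact ⟨⟨_, rfl⟩, ⟨_, rfl⟩⟩
  · rintro ⟨⟨q, hq⟩, ⟨φ, hφ⟩⟩
    exact ⟨⟨φ, q⟩, SemidirectProduct.ext hφ hq⟩

theorem mAff_mem_mT {ι : Q →* Q} (hι : Function.Injective ι) (b : Q) {S : Set Q}
    (hS : ∀ u, b * ι u ∈ S ↔ u ∈ S) (f : FQ Q) : mAff ι b f ∈ mT S ↔ f ∈ mT S := by
  rw [mem_mT, mem_mT, mAff_left, mAff_right, map_mem_mFr_iff (m_rule_inj hι b),
    map_eq_one_iff ι hι]
  have : (fun u => b * ι u) ⁻¹' S = S := Set.ext hS
  rw [this]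

end FQ

section Depth
variable {Q Y : Type} [Group Q] [DecidableEq Y] (yp : Q →* FreeGroup Y)

/-- `f` has depth at most `n`. -/
def mP (n : ℕ) (f : FQ Q) : Prop :=
  (yp f.right).norm ≤ n ∧
    f.left ∈ mFr {u | (yp u).norm ≤ n ∧ (yp (u * f.right)).norm ≤ n}

variable {yp}

theorem mP.mono {m n : ℕ} {f : FQ Q} (h : mP yp m f) (hmn : m ≤ n) : mP yp n f :=
  ⟨h.1.trans hmn, mFr_mono (fun _ hu => And.intro (hu.1.trans hmn) (hu.2.trans hmn)) h.2⟩

theorem m_norm_mul {u v : Q} {m n : ℕ} (hu : (yp u).norm ≤ m) (hv : (yp v).norm ≤ n) :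
    (yp (u * v)).norm ≤ m + n := by
  rw [map_mul]
  exact (FreeGroup.norm_mul_le _ _).trans (add_le_add hu hv)

theorem m_norm_inv (u : Q) : (yp u⁻¹).norm = (yp u).norm := by
  rw [map_inv, FreeGroup.norm_inv_eq]

theorem mP.mul {m n : ℕ} {f g : FQ Q} (hf : mP yp m f) (hg : mP yp n g) :
    mP yp (m + n) (f * g) := by
  refine ⟨m_norm_mul hf.1 hg.1, mul_mem
    (mFr_mono (fun u hu => And.intro (hu.1.trans (by omega)) ?_) hf.2)
    (map_mem_mFr (g := (· * f.right⁻¹)) (fun u hu => ?_) hg.2)⟩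
  · rw [SemidirectProduct.mul_right, ← mul_assoc]
    exact m_norm_mul hu.2 hg.1
  · refine ⟨?_, ?_⟩
    · rw [add_comm]
      exact m_norm_mul hu.1 ((m_norm_inv _).le.trans hf.1)
    · have : u * f.right⁻¹ * (f * g).right = u * g.right := by simp [mul_assoc]
      change (yp (u * f.right⁻¹ * (f * g).right)).norm ≤ _
      rw [this]
      exact hu.2.trans (by omega)

theorem mP.inv {n : ℕ} {f : FQ Q} (hf : mP yp n f) : mP yp n f⁻¹ := by
  refine ⟨(m_norm_inv _).le.trans hf.1,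
    map_mem_mFr (g := (· * f.right⁻¹⁻¹)) (fun u hu => ?_) (inv_mem hf.2)⟩
  refine ⟨?_, ?_⟩
  · simpa using hu.2
  · simpa using hu.1

theorem mP_inr (q : Q) : mP yp (yp q).norm (SemidirectProduct.inr q) :=
  ⟨le_rfl, one_mem _⟩

theorem mP_tau (u : Q) : mP yp (yp u).norm (mTau u) :=
  ⟨by simp [mTau], of_mem_mFr ⟨le_rfl, by simp [mTau]⟩⟩

theorem exists_mP (f : FQ Q) : ∃ n, mP yp n f := by
  let K : Subgroup (FQ Q) :=
    { carrier := {f | ∃ n, mP yp n f}
      one_mem' := ⟨0, by simp, one_mem _⟩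
      mul_mem' := fun ⟨_, h⟩ ⟨_, h'⟩ => ⟨_, h.mul h'⟩
      inv_mem' := fun ⟨_, h⟩ => ⟨_, h.inv⟩ }
  exact mE_le (A := ⊤) (C := Set.univ) (h := fun _ _ _ _ => trivial) (K := K)
    (fun q _ => ⟨_, mP_inr q⟩) (fun u _ => ⟨_, mP_tau u⟩) ⟨trivial, mem_mFr_univ _⟩

variable (yp) in
/-- The depth. -/
noncomputable def mNu (f : FQ Q) : ℕ := sInf {n | mP yp n f}

theorem mP_mNu (f : FQ Q) : mP yp (mNu yp f) f := Nat.sInf_mem (exists_mP f)

theorem mP.mNu_le {n : ℕ} {f : FQ Q} (h : mP yp n f) : mNu yp f ≤ n := Nat.sInf_le h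

theorem isSN_mNu : IsSN (mNu yp) := by
  refine ⟨?_, fun f g => ((mP_mNu f).mul (mP_mNu g)).mNu_le, fun f => le_antisymm
    (mP_mNu f).inv.mNu_le (by simpa using (mP_mNu f⁻¹).inv.mNu_le)⟩
  exact Nat.le_zero.1 (mP.mNu_le ⟨by simp, one_mem _⟩)

theorem mP.ret {n : ℕ} {f : FQ Q} (hf : mP yp n f) (C : Set Q) : mP yp n (mRet C f) :=
  ⟨hf.1, mKill_mem_of_mem C hf.2⟩

theorem mP.aff {ι : Q →* Q} {b : Q} (h₁ : ∀ u, yp (ι u) = yp u) (h₂ : (yp b).norm ≤ 1) {n : ℕ}
    {f : FQ Q} (hf : mP yp n f) : mP yp (n + 1) (mAff ι b f) := by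
  refine ⟨?_, map_mem_mFr (g := fun u => b * ι u) (fun u hu => ?_) hf.2⟩
  · rw [mAff_right, h₁]; exact hf.1.trans (by omega)
  refine ⟨?_, ?_⟩
  · rw [add_comm]; exact m_norm_mul h₂ (by rw [h₁]; exact hu.1)
  · rw [add_comm, mAff_right, mul_assoc, ← map_mul]
    exact m_norm_mul h₂ (by rw [h₁]; exact hu.2)

theorem mP.of_aff {ι : Q →* Q} (hι : Function.Injective ι) {b : Q} (h₁ : ∀ u, yp (ι u) = yp u)
    (h₂ : (yp b).norm ≤ 1) {n : ℕ} {f : FQ Q} (hf : mP yp n (mAff ι b f)) : mP yp (n + 1) f := by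
  have key : ∀ u, (yp (b * ι u)).norm ≤ n → (yp u).norm ≤ n + 1 := fun u hu => by
    have := m_norm_mul ((m_norm_inv b).le.trans h₂) hu
    rwa [inv_mul_cancel_left, h₁, add_comm] at this
  refine ⟨?_, mFr_mono (fun u hu => And.intro (key u hu.1) (key _ ?_))
    ((map_mem_mFr_iff (m_rule_inj hι b)).1 hf.2)⟩
  · have := hf.1
    rw [mAff_right, h₁] at this
    omega
  · have := hu.2
    rwa [mAff_right, mul_assoc, ← map_mul] at this

/-- The projection to the free group on `Y` and one more letter. -/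
def mPi (yp : Q →* FreeGroup Y) : FQ Q →* FreeGroup (Option Y) :=
  mLift ((FreeGroup.map some).comp yp) (FreeGroup.of none)

omit [DecidableEq Y] in
theorem mPi_tau {u : Q} {x : Word Y} (h : yp u = FreeGroup.mk x) : mPi yp (mTau u) = Jx x := by
  rw [mPi, mLift_tau, MonoidHom.comp_apply, h]
  rfl

omit [DecidableEq Y] in
theorem mPi_inr {q : Q} {x : Word Y} (h : yp q = FreeGroup.mk x) :
    mPi yp (SemidirectProduct.inr q) = FreeGroup.mk (ren some x) := by
  rw [mPi, mLift_inr, MonoidHom.comp_apply, h]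
  rfl

theorem mP.dep {n : ℕ} {f : FQ Q} (hf : mP yp n f) : Dep (mPi yp f) n := by
  refine ⟨mPi yp (SemidirectProduct.inl f.left), ?_, (yp f.right).toWord, hf.1, ?_⟩
  · refine hom_mem_of_mem_mFr (f := (mPi yp).comp SemidirectProduct.inl) (fun u hu => ?_) hf.2
    exact Subgroup.subset_closure ⟨(yp u).toWord, hu.1, mPi_tau FreeGroup.mk_toWord.symm⟩
  · rw [← mPi_inr FreeGroup.mk_toWord.symm, ← map_mul, SemidirectProduct.inl_left_mul_inr_right]

end Depth

section Mark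
variable {ι : Type}

/-- The marking of `F(Q)`. -/
abbrev MG.fq (X : MG ι) : MG (Option ι) where
  G := FQ X.G
  gen o := o.elim (mTau 1) fun i => SemidirectProduct.inr (X.gen i)
  surj g := by
    rw [← mem_closure_range_iff]
    have h1 : ∀ q : X.G, (SemidirectProduct.inr q : FQ X.G) ∈ Subgroup.closure (Set.range
        fun o : Option ι => o.elim (mTau 1) fun i => SemidirectProduct.inr (X.gen i)) := fun q => by
      obtain ⟨w, rfl⟩ := X.surj q
      exact (mem_closure_range_iff _ _).2 ⟨ren some w, by rw [evW_ren, map_evW]; rfl⟩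
    refine mE_le (A := ⊤) (C := Set.univ) (h := fun _ _ _ _ => trivial) (fun q _ => h1 q)
      (fun u _ => ?_) ⟨trivial, mem_mFr_univ _⟩
    rw [← one_mul u, ← mTau_conj]
    exact mul_mem (mul_mem (inv_mem (h1 u)) (Subgroup.subset_closure ⟨none, rfl⟩)) (h1 u)

theorem MG.fq_ev_ren (X : MG ι) (w : Word ι) :
    X.fq.ev (ren some w) = (SemidirectProduct.inr (X.ev w) : FQ X.G) := by
  rw [MG.ev, evW_ren, map_evW]; rfl

/-- The word for `τ u`. -/
def mTw (w : Word ι) : Word (Option ι) := (ren some w).inv ++ [(none, true)] ++ ren some w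

theorem MG.fq_ev_tw (X : MG ι) (w : Word ι) : X.fq.ev (mTw w) = mTau (X.ev w) := by
  have := X.fq_ev_ren w
  rw [MG.ev] at this
  rw [mTw, MG.ev, evW_append, evW_append, evW_inv, evW_true, this]
  exact (mTau_conj 1 _).trans (by rw [one_mul])

theorem pres_fq {X : MG ι} {T : Set (Word ι)} (h : Pres X T) : Pres X.fq (ren some '' T) := by
  constructor
  · rintro _ ⟨r, hr, rfl⟩
    rw [MG.fq_ev_ren, h.1 r hr, map_one]
  · intro Z _ z hz w hw
    obtain ⟨f, hf⟩ := X.exists_hom (fun i => z (some i))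
      (h.2 Z _ fun r hr => by rw [← evW_ren]; exact hz _ ⟨r, hr, rfl⟩)
    have h1 := map_evW (mLift f (z none)) X.fq.gen w
    have h2 : (fun i => mLift f (z none) (X.fq.gen i)) = z := by
      funext o
      cases o with
      | none => exact (mLift_tau f _ 1).trans (by simp)
      | some i => exact (mLift_inr f _ _).trans (by simpa using hf [(i, true)])
    have h3 : evW (G := FQ X.G) X.fq.gen w = 1 := hw
    rw [h2, h3, map_one] at h1
    exact h1.symm

end Mark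

end Crest.Agent.R185
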