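import Crest.Agent.R185.MachF

/-!
# Row 185: recursively enumerable predicates on `F(Q)`
-/

set_option autoImplicit false

namespace Crest.Agent.R185

/-- The context of a parameter. -/
def Ctx.par (β : Type) [Primcodable β] : Ctx where
  Ω := β
  F := β
  holds j φ := φ = j
  size _ _ := 0
  lim _ _ := True
  lim_anti _ _ _ _ _ := trivial

theorem cert_par_iff {α β : Type} [Primcodable α] [Primcodable β] {P : β → α → Prop}
    {ν : β → α → ℕ} : Cert (Ctx.par β) P ν ↔ REPred fun p : β × α => P p.1 p.2 := by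
  constructor
  · rintro ⟨R, hR, s, c⟩
    have h0 : PrimrecRel fun (D : List β) (j : β) => ∀ φ ∈ D, φ = j :=
      PrimrecRel.forall_mem_list Primrec.eq
    have h1 : REPred fun v : (β × α) × List β => R (v.1.2, v.2) ∧ ∀ φ ∈ v.2, φ = v.1.1 :=
      re_and (re_comp hR ((Primrec.snd.comp Primrec.fst).pair Primrec.snd).to_comp)
        (re_of_primrecPred (h0.comp Primrec.snd (Primrec.fst.comp Primrec.fst)))
    refine (re_exists h1).of_eq fun p => ⟨?_, fun h => ?_⟩
    · rintro ⟨D, hD, hD'⟩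
      exact s p.1 p.2 D hD hD'
    · obtain ⟨D, hD, hD'⟩ := c p.1 p.2 _ trivial le_rfl h
      exact ⟨D, hD, fun φ hφ => (hD' φ hφ).1⟩
  · intro h
    have h1 : REPred fun v : (α × List β) × β => P v.2 v.1.1 ∧ v.1.2 = [v.2] :=
      re_and (re_comp h (Primrec.snd.pair (Primrec.fst.comp Primrec.fst)).to_comp)
        (re_of_primrecPred (Primrec.eq.comp (Primrec.snd.comp Primrec.fst)
          (Primrec.list_cons.comp Primrec.snd (Primrec.const []))))
    refine ⟨_, re_exists h1, ?_, fun j a n _ _ hP => ⟨[j], ⟨j, hP, rfl⟩, fun φ hφ => ?_⟩⟩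
    · rintro j a D ⟨j', hP, e⟩ hD
      dsimp only at hP e
      subst e
      have : j' = j := hD j' (List.mem_singleton_self _)
      exact this ▸ hP
    · exact ⟨List.mem_singleton.1 hφ, Nat.zero_le _⟩

theorem m_re_false {α : Type} [Primcodable α] : REPred fun _ : α => False :=
  (re_of_primrecPred (Primrec.eq.comp (Primrec.const (0 : ℕ)) (Primrec.const 1))).of_eq
    fun _ => by simp

theorem m_re_not_mem_mFr {α β : Type} [Primcodable α] [Primcodable β] {S : β → Set α}
    (hS : REPred fun p : β × α => p.2 ∉ S p.1) :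
    REPred fun p : β × Word α => FreeGroup.mk p.2 ∉ mFr (S p.1) := by
  classical
  have h1 : REPred fun v : (β × Word α) × (α × Bool) =>
      v.2.1 ∉ S v.1.1 ∧ v.2 ∈ FreeGroup.reduce v.1.2 :=
    re_and (re_comp hS ((Primrec.fst.comp Primrec.fst).pair (Primrec.fst.comp Primrec.snd)).to_comp)
      (re_of_primrecPred (cl_primrecRel_mem.comp Primrec.snd
        (primrec_reduce.comp (Primrec.snd.comp Primrec.fst))))
  refine (re_exists h1).of_eq fun p => ?_
  rw [mem_mFr_iff, FreeGroup.toWord_mk]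
  push Not
  exact ⟨fun ⟨x, h₁, h₂⟩ => ⟨x, h₂, h₁⟩, fun ⟨x, h₁, h₂⟩ => ⟨x, h₂, h₁⟩⟩

section El
variable {Q : Type} [Group Q]

/-- The element of `F(Q)` given by a word and an element of `Q`. -/
def mEl (p : Word Q × Q) : FQ Q := ⟨FreeGroup.mk p.1, p.2⟩

theorem mRet_mEl (C : Set Q) [DecidablePred (· ∈ C)] (p : Word Q × Q) :
    mRet C (mEl p) = mEl (p.1.filter fun x => x.1 ∈ C, p.2) := by
  ext
  · exact mKill_mk C p.1
  · rfl

variable [Primcodable Q]

theorem m_re_ne_one : REPred fun p : Word Q × Q => mEl p ≠ 1 := by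
  refine (re_of_primrecPred (PrimrecPred.not ((primrecPred_mk_eq.comp
    (Primrec.fst.pair (Primrec.const []))).and
      (Primrec.eq.comp Primrec.snd (Primrec.const (1 : Q)))))).of_eq fun p => not_congr ?_
  exact ⟨fun h => SemidirectProduct.ext h.1 h.2,
    fun h => ⟨congrArg SemidirectProduct.left h, congrArg SemidirectProduct.right h⟩⟩

theorem m_re_not_mem_mE {A : Subgroup Q} {C : Set Q} {h : ∀ u ∈ C, ∀ q ∈ A, u * q ∈ C}
    (hA : PrimrecPred fun u => u ∈ A) (hC : PrimrecPred fun u => u ∈ C) :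
    REPred fun p : Word Q × Q => mEl p ∉ mE A C h := by
  have h1 : REPred fun p : Unit × Word Q => FreeGroup.mk p.2 ∉ mFr C :=
    m_re_not_mem_mFr (S := fun _ : Unit => C) (re_of_primrecPred (hC.not.comp Primrec.snd))
  refine (re_or (re_of_primrecPred (hA.not.comp Primrec.snd))
    (re_comp h1 ((Primrec.const ()).pair Primrec.fst).to_comp)).of_eq fun p => ?_
  rw [mem_mE, not_and_or]
  rfl

theorem m_re_not_mem_mT {β : Type} [Primcodable β] (hmul : Primrec₂ fun u v : Q => u * v)
    {S : β → Set Q} (hS : REPred fun p : β × Q => p.2 ∉ S p.1) :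
    REPred fun p : β × (Word Q × Q) × (Word Q × Q) => (mEl p.2.1)⁻¹ * mEl p.2.2 ∉ mT (S p.1) := by
  have h1 : REPred fun p : (β × Q) × Word Q =>
      FreeGroup.mk p.2 ∉ mFr {u | u * p.1.2 ∈ S p.1.1} :=
    m_re_not_mem_mFr (S := fun b : β × Q => {u | u * b.2 ∈ S b.1})
      (re_comp hS ((Primrec.fst.comp Primrec.fst).pair
        (hmul.comp Primrec.snd (Primrec.snd.comp Primrec.fst))).to_comp)
  have a1 : Primrec fun p : β × (Word Q × Q) × (Word Q × Q) => p.2.1 :=
    Primrec.fst.comp Primrec.snd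
  have a2 : Primrec fun p : β × (Word Q × Q) × (Word Q × Q) => p.2.2 :=
    Primrec.snd.comp Primrec.snd
  refine (re_or (re_of_primrecPred
    (Primrec.eq.comp (Primrec.snd.comp a1) (Primrec.snd.comp a2)).not)
    (re_comp h1 ((Primrec.fst.pair (Primrec.snd.comp a1)).pair (Primrec.list_append.comp
      (primrec_inv.comp (Primrec.fst.comp a1)) (Primrec.fst.comp a2))).to_comp)).of_eq fun p => ?_
  rw [inv_mul_mem_mT, not_and_or]
  simp only [← FreeGroup.mul_mk, Word.inv, ← FreeGroup.inv_mk]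
  rfl

theorem m_re_forall_mE {β : Type} [Primcodable β] (hmul : Primrec₂ fun u v : Q => u * v)
    {S : β → Set Q} (hS : REPred fun p : β × Q => p.2 ∉ S p.1)
    {A : Subgroup Q} {C : Set Q} {h : ∀ u ∈ C, ∀ q ∈ A, u * q ∈ C}
    (hA : PrimrecPred fun u => u ∈ A) (hC : PrimrecPred fun u => u ∈ C) :
    REPred fun p : β × (Word Q × Q) => ∀ e ∈ mE A C h, e⁻¹ * mEl p.2 ∉ mT (S p.1) := by
  classical
  have h1 : Primrec fun v : Word Q => v.filter fun x => x.1 ∈ C :=
    Primrec.listFilter (hC.comp Primrec.fst)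
  refine (re_or (re_of_primrecPred (hA.not.comp (Primrec.snd.comp Primrec.snd)))
    (re_comp (m_re_not_mem_mT hmul hS) (Primrec.fst.pair (Primrec.snd.pair
      ((h1.comp (Primrec.fst.comp Primrec.snd)).pair
        (Primrec.snd.comp Primrec.snd)))).to_comp)).of_eq fun p => ?_
  rw [forall_mE_iff, mRet_mEl]
  rfl

end El

section Nf
variable {ι : Type} (X : MG ι)

/-- The element of `Q` read from a letter. -/
def mLq (x : Option ι × Bool) : X.G :=
  x.1.elim 1 fun i => bif x.2 then X.gen i else (X.gen i)⁻¹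

/-- The conjugate of `τ` read from a letter. -/
def mLw (x : Option ι × Bool) : Word X.G := x.1.elim [(1, x.2)] fun _ => []

/-- Normal forms. -/
def mNf (w : Word (Option ι)) : Word X.G × X.G :=
  w.foldr (fun x p => (mLw X x ++ ren (· * (mLq X x)⁻¹) p.1, mLq X x * p.2)) ([], 1)

theorem mEl_mNf (w : Word (Option ι)) : mEl (mNf X w) = X.fq.ev w := by
  induction w with
  | nil => exact Eq.trans rfl (evW_nil _).symm
  | cons x w ih =>
    rw [MG.ev, evW_cons, ← MG.ev, ← ih]
    have h1 : (bif x.2 then X.fq.gen x.1 else (X.fq.gen x.1)⁻¹) = mEl (mLw X x, mLq X x) := by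
      rcases x with ⟨_ | i, _ | _⟩
      · exact (map_inv SemidirectProduct.inl (FreeGroup.of (1 : X.G))).symm
      · rfl
      · exact (map_inv SemidirectProduct.inr (X.gen i)).symm
      · rfl
    rw [h1]
    refine SemidirectProduct.ext ?_ rfl
    change FreeGroup.mk (_ ++ _) = FreeGroup.mk _ * FreeGroup.mk _
    rw [FreeGroup.mul_mk]
    rfl

theorem primrec_mNf [Primcodable ι] [Finite ι] [Primcodable X.G]
    (hmul : Primrec₂ fun u v : X.G => u * v) : Primrec (mNf X) := by
  have h1 : Primrec fun v : Word (Option ι) × ((Option ι × Bool) × (Word X.G × X.G)) => v.2.1 :=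
    Primrec.fst.comp Primrec.snd
  have h2 : Primrec fun v : Word (Option ι) × ((Option ι × Bool) × (Word X.G × X.G)) => v.2.2 :=
    Primrec.snd.comp Primrec.snd
  have h3 : Primrec fun v : Word (Option ι) × ((Option ι × Bool) × (Word X.G × X.G)) =>
      ren (· * (mLq X v.2.1)⁻¹) v.2.2.1 := by
    have a1 : Primrec fun v : (Word (Option ι) × ((Option ι × Bool) × (Word X.G × X.G))) ×
        (X.G × Bool) => (v.2.1 * (mLq X v.1.2.1)⁻¹, v.2.2) :=
      (hmul.comp (Primrec.fst.comp Primrec.snd)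
        ((Primrec.dom_finite fun x => (mLq X x)⁻¹).comp (h1.comp Primrec.fst))).pair
        (Primrec.snd.comp Primrec.snd)
    exact Primrec.list_map (Primrec.fst.comp h2) a1.to₂
  have h4 : Primrec fun v : Word (Option ι) × ((Option ι × Bool) × (Word X.G × X.G)) =>
      (mLw X v.2.1 ++ ren (· * (mLq X v.2.1)⁻¹) v.2.2.1, mLq X v.2.1 * v.2.2.2) :=
    (Primrec.list_append.comp ((Primrec.dom_finite (mLw X)).comp h1) h3).pair
      (hmul.comp ((Primrec.dom_finite (mLq X)).comp h1) (Primrec.snd.comp h2))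
  exact Primrec.list_foldr Primrec.id (Primrec.const _) h4.to₂

end Nf

end Crest.Agent.R185
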