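import Crest.Agent.R185.StretchF
import Crest.Agent.R185.HNNCert

/-!
# Row 185: the HNN extension `⟨X × F(a,b), s | s u_i s⁻¹ = x_i u_i⟩`
-/

set_option autoImplicit false

namespace Crest.Agent.R185.St

variable {ι : Type} [Encodable ι] (m : ℕ)

/-- The base group. -/
abbrev B (X : MG ι) : MG (ι ⊕ Bool) := X.prod (MG.free Bool)

/-- The first component of the edge maps. -/
def ψ (X : MG ι) (c : Bool) : FreeGroup ι →* X.G := bif c then 1 else FreeGroup.lift X.gen

/-- The edge maps. -/
def em (X : MG ι) (c : Bool) : FreeGroup ι →* X.G × FreeGroup Bool := (ψ X c).prod (u m)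

/-- The HNN data. -/
def D (X : MG ι) : HD (B X).G Unit where
  F _ := FreeGroup ι
  a _ c := em m X c
  inj _ _ := fun _ _ h => u_injective m (congrArg Prod.snd h)

/-- The HNN extension with its natural marking. -/
abbrev H (X : MG ι) : MG ((ι ⊕ Bool) ⊕ Unit) := (B X).hnn (D m X)

/-- The letters `a, b` among the three letters. -/
def cb (c : Bool) : Fin 3 := bif c then 1 else 0

/-- The word for a generator of `X`. -/
def σ (i : ι) : Word (Fin 3) :=
  [(2, true)] ++ ren cb (uW m i) ++ [(2, false)] ++ (ren cb (uW m i)).inv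

/-- The words for the natural generators. -/
def σ' : (ι ⊕ Bool) ⊕ Unit → Word (Fin 3) :=
  Sum.elim (Sum.elim (σ m) fun c => [(cb c, true)]) fun _ => [(2, true)]

/-- The three generators as words in the natural generators. -/
def τ : Fin 3 → Word ((ι ⊕ Bool) ⊕ Unit) :=
  ![[(.inl (.inr false), true)], [(.inl (.inr true), true)], [(.inr (), true)]]

/-- The base group in the extension. -/
def ob (X : MG ι) : X.G × FreeGroup Bool →* (D m X).MH := (D m X).of

/-- The three generators. -/
def gen3 (X : MG ι) : Fin 3 → (D m X).MH :=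
  ![ob m X (1, FreeGroup.of false), ob m X (1, FreeGroup.of true), (D m X).t ()]

theorem gen3_cb (X : MG ι) (c : Bool) : gen3 m X (cb c) = ob m X (1, FreeGroup.of c) := by
  cases c <;> rfl

theorem evW_ren_cb (X : MG ι) (w : Word Bool) :
    evW (gen3 m X) (ren cb w) = ob m X (1, FreeGroup.mk w) := by
  rw [evW_ren, ← evW_of w]
  simp only [gen3_cb]
  exact (map_evW ((ob m X).comp (MonoidHom.inr _ _)) FreeGroup.of w).symm

theorem evW_σ (X : MG ι) (i : ι) : evW (gen3 m X) (σ m i) = ob m X (X.gen i, 1) := by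
  have h := (D m X).t_conj () (FreeGroup.of i)
  have h1 : (D m X).of ((D m X).a () true (FreeGroup.of i)) = ob m X (1, FreeGroup.mk (uW m i)) := by
    rw [← u_of]; rfl
  have h2 : (D m X).of ((D m X).a () false (FreeGroup.of i)) =
      ob m X (X.gen i, FreeGroup.mk (uW m i)) := by
    rw [← u_of, ← FreeGroup.lift_apply_of (f := X.gen)]; rfl
  rw [h1, h2] at h
  rw [σ, evW_append, evW_append, evW_append, evW_inv, evW_true, evW_false, evW_ren_cb]
  change (D m X).t () * _ * ((D m X).t ())⁻¹ * _ = _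
  rw [h, ← map_inv, ← map_mul, Prod.inv_mk, Prod.mk_mul_mk, inv_one, mul_one, mul_inv_cancel]

theorem evW_σ' (X : MG ι) (j : (ι ⊕ Bool) ⊕ Unit) : evW (gen3 m X) (σ' m j) = (H m X).gen j := by
  rcases j with (i | c) | _
  · exact evW_σ m X i
  · exact (evW_true _ _).trans (gen3_cb m X c)
  · exact evW_true _ _

theorem evW_subst_σ' (X : MG ι) (w : Word ((ι ⊕ Bool) ⊕ Unit)) :
    evW (gen3 m X) (subst (σ' m) w) = (H m X).ev w := by
  rw [evW_subst]
  simp only [evW_σ']
  rfl

/-- The extension marked by `a, b, s`. -/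
def obj (X : MG ι) : MG (Fin 3) where
  G := (D m X).MH
  gen := gen3 m X
  surj g := by
    obtain ⟨w, hw⟩ := (H m X).surj g
    exact ⟨subst (σ' m) w, (evW_subst_σ' m X w).trans hw⟩

theorem ev_τ (X : MG ι) (j : Fin 3) : (H m X).ev (τ j) = gen3 m X j := by
  fin_cases j <;> exact evW_true _ _

theorem ev_subst_τ (X : MG ι) (w : Word (Fin 3)) : (H m X).ev (subst τ w) = (obj m X).ev w := by
  rw [MG.ev, evW_subst]
  congr 1
  funext j
  exact ev_τ m X j

/-- The embedding of `X`. -/
def emb (X : MG ι) : X.G →* (obj m X).G := (ob m X).comp (MonoidHom.inl _ _)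

theorem emb_injective (X : MG ι) : Function.Injective (emb m X) := fun _ _ h =>
  congrArg Prod.fst ((D m X).of_injective h)

theorem emb_gen (X : MG ι) (i : ι) : emb m X (X.gen i) = (obj m X).ev (σ m i) := (evW_σ m X i).symm

/-- The commutation relators. -/
def S : Set (Word (Fin 3)) := {r | ∃ (i : ι) (c : Bool), r = comm (σ m i) [(cb c, true)]}

theorem pres_obj {X : MG ι} {T : Set (Word ι)} (hT : Pres X T) :
    Pres (obj m X) (S (ι := ι) m ∪ subst (σ m) '' T) := by
  have h1 := pres_hnn (B X) (D m X) (pres_prod hT (pres_free Bool))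
    (fun _ => {p | ∃ i : ι, p = (ren Sum.inr (uW m i), (Sum.inl i, true) :: ren Sum.inr (uW m i))})
    (by
      rintro _ _ ⟨i, rfl⟩
      refine ⟨FreeGroup.of i, ?_, ?_⟩
      · rw [MG.prod_ev_inr, MG.free_ev, ← u_of]; rfl
      · have e := X.prod_ev_inr (MG.free Bool) (uW m i)
        rw [MG.ev] at e
        rw [MG.ev, evW_cons, e, MG.free_ev, ← u_of]
        refine Prod.ext ?_ ?_
        · change X.gen i * 1 = FreeGroup.lift X.gen (FreeGroup.of i)
          simp
        · change 1 * u m (FreeGroup.of i) = u m (FreeGroup.of i)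
          simp)
    (by
      intro _
      refine eq_top_iff.2 ((FreeGroup.closure_range_of ι).ge.trans (Subgroup.closure_mono ?_))
      rintro _ ⟨i, rfl⟩
      refine ⟨_, ⟨i, rfl⟩, ?_⟩
      rw [MG.prod_ev_inr, MG.free_ev, ← u_of]; rfl)
  have h2 := h1.remark (X' := obj m X) (MulEquiv.refl _) (σ' m) τ
    (fun j => (evW_σ' m X j).symm) (fun j => (ev_τ m X j).symm)
  refine h2.of_imp ?_ ?_
  · rintro _ (⟨i, c, rfl⟩ | ⟨r, hr, rfl⟩)
    · rw [MG.ev, evW_comm_eq_one]
      change Commute (evW (gen3 m X) _) (evW (gen3 m X) _)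
      rw [evW_σ, evW_true, gen3_cb]
      exact Commute.map (Prod.ext (by simp) (by simp)) _
    · rw [MG.ev, evW_subst]
      have := map_evW (emb m X) X.gen r
      simp only [emb_gen] at this
      rw [← this, show evW X.gen r = 1 from hT.1 r hr, map_one]
  · intro Z _ z hz
    rintro _ (⟨_, (⟨_, ((⟨r, hr, rfl⟩ | ⟨r, hr, -⟩) | ⟨i, c, rfl⟩), rfl⟩ | ⟨_, _, ⟨i, rfl⟩, rfl⟩),
      rfl⟩ | ⟨j, rfl⟩)
    · have := hz _ (Or.inr ⟨r, hr, rfl⟩)
      rw [evW_subst] at this
      rw [evW_subst, evW_ren, evW_ren]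
      exact this
    · exact hr.elim
    · have := hz _ (Or.inl ⟨i, c, rfl⟩)
      rw [evW_comm_eq_one] at this
      rw [evW_subst, evW_ren, evW_comm_eq_one, evW_true, evW_true]
      exact this
    · have e : evW (fun c => z (cb c)) (uW m i) = evW z (ren cb (uW m i)) := (evW_ren _ _ _).symm
      rw [evW_subst, evW_append, evW_append, evW_append, evW_inv, evW_true, evW_false, evW_ren,
        evW_ren, evW_ren, evW_cons, evW_ren]
      simp only [σ', σ, Sum.elim_inl, Sum.elim_inr, evW_true, cond_true, evW_append, evW_inv,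
        evW_false, e]
      group
    · fin_cases j <;> simp [τ, σ', subst, cb, evW_cons]

/-- The seminorm on the base group. -/
noncomputable def νB (X : MG ι) (g : X.G × FreeGroup Bool) : ℕ := max (m * X.wn g.1) (νF g.2)

omit [Encodable ι] in
theorem isSN_νB (X : MG ι) : IsSN (G := (B X).G) (νB m X) := by
  refine ⟨?_, fun a b => ?_, fun a => ?_⟩
  · change max (m * X.wn 1) (νF 1) = 0
    simp [X.isSN_wn.one, isSN_νF.one]
  · have h1 := Nat.mul_le_mul_left m (X.isSN_wn.mul a.1 b.1)
    have h2 := isSN_νF.mul a.2 b.2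
    rw [mul_add] at h1
    exact max_le (h1.trans (add_le_add (le_max_left _ _) (le_max_left _ _)))
      (h2.trans (add_le_add (le_max_right _ _) (le_max_right _ _)))
  · change max (m * X.wn a.1⁻¹) (νF a.2⁻¹) = max (m * X.wn a.1) (νF a.2)
    rw [X.isSN_wn.inv, isSN_νF.inv]

theorem wn_ψ_le (X : MG ι) (c : Bool) (U : FreeGroup ι) : m * X.wn (ψ X c U) ≤ νF (u m U) := by
  cases c
  · exact wn_lift_le m X U
  · change m * X.wn 1 ≤ _
    simp [X.isSN_wn.one]

theorem νB_em (X : MG ι) (c : Bool) (U : FreeGroup ι) : νB m X (em m X c U) = νF (u m U) :=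
  max_eq_right (wn_ψ_le m X c U)

theorem νB_edge (X : MG ι) (k : Unit) (b : Bool) (f : (D m X).F k) :
    νB m X ((D m X).a k (!b) f) ≤ νB m X ((D m X).a k b f) + 2 :=
  ((νB_em m X _ f).trans (νB_em m X _ f).symm).le.trans (Nat.le_add_right _ _)

/-- The seminorm on the extension. -/
noncomputable def N (X : MG ι) : (D m X).MH → ℕ := (D m X).nu (νB m X)

theorem N_ob (X : MG ι) (g : X.G × FreeGroup Bool) : N m X (ob m X g) = νB m X g :=
  (D m X).nu_of (isSN_νB m X) (νB_edge m X) g

theorem N_le_wn (X : MG ι) (g : (obj m X).G) : N m X g ≤ (obj m X).wn g := by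
  have h : ∀ c, N m X (ob m X (1, FreeGroup.of c)) ≤ 1 := fun c => by
    rw [N_ob, νB, X.isSN_wn.one, mul_zero]
    simpa using νF_of c
  refine IsSN.le_wn (obj m X) ((D m X).isSN_nu (isSN_νB m X)) (fun j => ?_) g
  fin_cases j
  · exact h false
  · exact h true
  · exact (D m X).nu_t_le (isSN_νB m X) ()

theorem norm_emb (X : MG ι) (x : X.G) : m * X.wn x ≤ (obj m X).wn (emb m X x) := by
  refine le_trans ?_ (N_le_wn m X _)
  exact (le_max_left _ _).trans (N_ob m X (x, 1)).ge

theorem primrec_σ {ι : Type} [Primcodable ι] (m : ℕ) : Primrec (σ (ι := ι) m) := by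
  have h : Primrec fun i : ι => ren cb (uW m i) :=
    (primrec_ren (Primrec.dom_finite cb)).comp (primrec_uW m)
  exact Primrec.list_append.comp (Primrec.list_append.comp
    (Primrec.list_append.comp (Primrec.const _) h) (Primrec.const _)) (primrec_inv.comp h)

theorem re_S {ι : Type} [Primcodable ι] (m : ℕ) : REPred fun r => r ∈ S (ι := ι) m := by
  have h1 : Primrec fun p : ι × Bool => σ m p.1 := (primrec_σ m).comp Primrec.fst
  have h2 : Primrec fun p : ι × Bool => ([(cb p.2, true)] : Word (Fin 3)) :=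
    (Primrec.dom_finite fun c : Bool => ([(cb c, true)] : Word (Fin 3))).comp Primrec.snd
  have h3 : Primrec fun p : ι × Bool => comm (σ m p.1) [(cb p.2, true)] :=
    Primrec.list_append.comp (Primrec.list_append.comp (Primrec.list_append.comp h1 h2)
      (primrec_inv.comp h1)) (primrec_inv.comp h2)
  have h4 : REPred fun q : Word (Fin 3) × ι × Bool => q.1 = comm (σ m q.2.1) [(cb q.2.2, true)] :=
    re_of_primrecPred (Primrec.eq.comp Primrec.fst (h3.comp Primrec.snd))
  exact (re_exists h4).of_eq fun r => by simp [S]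

theorem primrec_subst_σ {ι : Type} [Primcodable ι] (m : ℕ) : Primrec (subst (σ (ι := ι) m)) := by
  have h : Primrec₂ fun (_ : Unit) (i : ι) => σ m i := ((primrec_σ m).comp Primrec.snd).to₂
  exact (primrec_subst₂ h).comp (Primrec.const ()) Primrec.id

/-- Equality in the extension is certified from relators of `X`. -/
theorem cert_eq_obj {ι : Type} [Primcodable ι] (m : ℕ) {𝒞 : Ctx} (X : 𝒞.Ω → MG ι)
    (T : 𝒞.Ω → Set (Word ι)) (h : ∀ ω, Pres (X ω) (T ω))
    (hT : Cert 𝒞 (fun ω r => r ∈ T ω) fun _ _ => 0) :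
    Cert 𝒞 (fun ω w => (obj m (X ω)).ev w = 1) fun _ _ => 0 := by
  refine cert_eq_of_pres _ _ (fun ω => pres_obj m (h ω)) ?_
  have h1 : Cert 𝒞 (fun _ (p : Word (Fin 3) × Word ι) => subst (σ m) p.2 = p.1) fun _ _ => 0 :=
    Cert.of_re (re_of_primrecPred (Primrec.eq.comp ((primrec_subst_σ m).comp Primrec.snd)
      Primrec.fst)) _
  have h2 : Cert 𝒞 (fun ω r => r ∈ subst (σ m) '' T ω) fun _ _ => 0 :=
    ((hT.comp Computable.snd).and h1).guess (fun ω r w hw => ⟨w, hw⟩)
      fun ω r n _ _ ⟨w, hw⟩ => ⟨w, hw, by simp⟩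
  exact ((Cert.of_re (re_S (ι := ι) m) fun _ _ => 0).or h2).congr (fun _ _ h => h)
    fun _ _ _ _ _ h => ⟨h, by simp⟩

end Crest.Agent.R185.St
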