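import Crest.Agent.R185.Pkg
import Crest.Agent.R185.HNNCert
import Crest.Agent.R185.PresLib
import Crest.Agent.R185.StretchH

/-!
# Row 185: the stretching extension
-/

set_option autoImplicit false

namespace Crest.Agent.R185

namespace St
variable {ι : Type} [Primcodable ι] [Finite ι] (m : ℕ) {𝒞 : Ctx}

/-- The word for the first component of the edge maps. -/
def sel (c : Bool) (U : Word ι) : Word ι := bif c then [] else U

omit [Primcodable ι] [Finite ι] in
theorem ev_sel (X : MG ι) (c : Bool) (U : Word ι) : X.ev (sel c U) = ψ X c (FreeGroup.mk U) := by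
  cases c
  · rfl
  · exact evW_nil _

omit [Finite ι] in
theorem primrec_sel (c : Bool) : Primrec (sel (ι := ι) c) := by
  cases c
  · exact Primrec.id
  · exact Primrec.const _

omit [Primcodable ι] [Finite ι] in
theorem B_ev (X : MG ι) (w : Word (ι ⊕ Bool)) :
    (B X).ev w = (X.ev (lft w), FreeGroup.mk (rgt w)) := by
  rw [MG.prod_ev, MG.free_ev]
  rfl

theorem cert_edge (X : 𝒞.Ω → MG ι)
    (hne : Cert 𝒞 (fun ω w => (X ω).ev w ≠ 1) (fun ω w => m * (X ω).wn ((X ω).ev w)))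
    (l : Unit × Bool) : Cert 𝒞 (fun ω w => (B (X ω)).ev w ∉ (D m (X ω)).E l)
      fun ω w => 2 * νB m (X ω) ((B (X ω)).ev w) := by
  obtain ⟨k, c⟩ := l
  have h1 : Cert 𝒞 (fun _ (p : Word (ι ⊕ Bool) × Word ι) =>
      FreeGroup.mk (rgt p.1) ∉ (u (ι := ι) m).range) fun _ _ => 0 :=
    Cert.of_re (re_comp (re_not_mem_range_u m) (primrec_rgt.comp Primrec.fst).to_comp) _
  have h2 : Cert 𝒞 (fun _ (p : Word (ι ⊕ Bool) × Word ι) =>
      FreeGroup.mk (rgt p.1) = FreeGroup.mk (subst (uW m) p.2)) fun _ _ => 0 :=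
    Cert.of_re (re_of_primrecPred (primrecPred_mk_eq.comp
      ((primrec_rgt.comp Primrec.fst).pair ((primrec_subst _).comp Primrec.snd)))) _
  have h3 := hne.comp (f := fun p : Word (ι ⊕ Bool) × Word ι => (lft p.1).inv ++ sel c p.2)
    (Primrec.list_append.comp (primrec_inv.comp (primrec_lft.comp Primrec.fst))
      ((primrec_sel c).comp Primrec.snd)).to_comp
  have key : ∀ ω (w : Word (ι ⊕ Bool)), (B (X ω)).ev w ∈ (D m (X ω)).E (k, c) ↔
      ∃ U, ψ (X ω) c U = (X ω).ev (lft w) ∧ u m U = FreeGroup.mk (rgt w) := by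
    intro ω w
    rw [B_ev]
    exact ⟨fun ⟨U, hU⟩ => ⟨U, congrArg Prod.fst hU, congrArg Prod.snd hU⟩,
      fun ⟨U, h, h'⟩ => ⟨U, Prod.ext h h'⟩⟩
  have e3 : ∀ ω (w : Word (ι ⊕ Bool)) (U : Word ι), (X ω).ev ((lft w).inv ++ sel c U) =
      ((X ω).ev (lft w))⁻¹ * ψ (X ω) c (FreeGroup.mk U) := by
    intro ω w U
    rw [MG.ev, evW_append, evW_inv, ← ev_sel]
  refine (h1.or (h2.and h3)).guess ?_ ?_
  · intro ω w U hU hm
    obtain ⟨U', a1, a2⟩ := (key ω w).1 hm
    rcases hU with hU | ⟨b1, b2⟩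
    · exact hU ⟨U', a2⟩
    · apply b2
      dsimp only at b1 ⊢
      rw [← u_mk, ← a2] at b1
      rw [e3, ← u_injective m b1, a1, inv_mul_cancel]
  · intro ω w n _ hn hm
    have hx : m * (X ω).wn ((X ω).ev (lft w)) ≤ νB m (X ω) ((B (X ω)).ev w) := by
      rw [B_ev]; exact le_max_left _ _
    have hf : νF (FreeGroup.mk (rgt w)) ≤ νB m (X ω) ((B (X ω)).ev w) := by
      rw [B_ev]; exact le_max_right _ _
    have hsz : ∀ U : Word ι, m * (X ω).wn (ψ (X ω) c (FreeGroup.mk U)) ≤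
        νB m (X ω) ((B (X ω)).ev w) → m * (X ω).wn ((X ω).ev ((lft w).inv ++ sel c U)) ≤ n := by
      intro U hU
      rw [e3]
      have h4 := Nat.mul_le_mul_left m
        ((X ω).isSN_wn.mul ((X ω).ev (lft w))⁻¹ (ψ (X ω) c (FreeGroup.mk U)))
      rw [(X ω).isSN_wn.inv, mul_add] at h4
      omega
    by_cases hr : FreeGroup.mk (rgt w) ∈ (u (ι := ι) m).range
    · obtain ⟨U, -, hU⟩ := (mem_range_u m _).1 hr
      refine ⟨U, Or.inr ⟨hU, fun h => hm ((key ω w).2 ⟨FreeGroup.mk U, ?_, ?_⟩)⟩, ?_⟩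
      · dsimp only at h
        rw [e3, inv_mul_eq_one] at h
        exact h.symm
      · rw [u_mk, hU]
      · have := hsz U ((wn_ψ_le m _ c _).trans (by rw [u_mk, ← hU]; exact hf))
        simpa using this
    · refine ⟨[], Or.inl hr, ?_⟩
      have := hsz [] (by rw [← FreeGroup.one_eq_mk, map_one, (X ω).isSN_wn.one]; simp)
      simpa using this

theorem cert_range (X : 𝒞.Ω → MG ι)
    (heq : Cert 𝒞 (fun ω w => (X ω).ev w = 1) (fun _ _ => 0))
    (hne : Cert 𝒞 (fun ω w => (X ω).ev w ≠ 1) (fun ω w => m * (X ω).wn ((X ω).ev w))) :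
    Cert 𝒞 (fun ω w => (obj m (X ω)).ev w ∉ (emb m (X ω)).range)
      fun ω w => 2 * (obj m (X ω)).wn ((obj m (X ω)).ev w) := by
  have h1 : Cert 𝒞 (fun ω w => (H m (X ω)).ev w = 1) fun _ _ => 0 :=
    ((cert_eq_obj m X (fun ω => (X ω).rel) (fun ω => pres_rel _) heq).comp
      (primrec_subst (σ' m)).to_comp).congr
      (fun ω w h => (evW_subst_σ' m (X ω) w).symm.trans h)
      fun ω w n _ hn h => ⟨(evW_subst_σ' m (X ω) w).trans h, hn⟩
  have h2 : Cert 𝒞 (fun ω w => (B (X ω)).ev w ∉ {g : (B (X ω)).G | g.2 = 1})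
      fun ω w => 2 * νB m (X ω) ((B (X ω)).ev w) := by
    have h : REPred fun w : Word (ι ⊕ Bool) => ¬ FreeGroup.mk (rgt w) = FreeGroup.mk [] :=
      re_of_primrecPred (PrimrecPred.not (primrecPred_mk_eq.comp
        (primrec_rgt.pair (Primrec.const []))))
    refine (Cert.of_re h _).congr (fun ω w h => ?_) fun ω w n _ hn h => ⟨?_, hn⟩
    · rw [B_ev]; exact h
    · rw [B_ev] at h; exact h
  have h3 := cert_hnn (fun ω => B (X ω)) (fun ω => D m (X ω)) (fun ω => {g | g.2 = 1})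
    (fun ω g => 2 * νB m (X ω) g) (fun ω g => 2 * N m (X ω) g) (fun ω g => by
      obtain ⟨l, γ, a1, a2, a3, a4⟩ := (D m (X ω)).bnf (isSN_νB m _) (νB_edge m _) g
      exact ⟨l, γ, a1, a2, fun p hp => Nat.mul_le_mul_left _ (a3 p hp), Nat.mul_le_mul_left _ a4⟩)
    (cert_edge m X hne) h2 h1
  have key : ∀ ω (g : (obj m (X ω)).G), g ∈ (emb m (X ω)).range ↔
      g ∈ (D m (X ω)).of '' {g : (B (X ω)).G | g.2 = 1} := by
    intro ω g
    constructor
    · rintro ⟨x, rfl⟩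
      exact ⟨(x, 1), rfl, rfl⟩
    · rintro ⟨⟨x, f⟩, hf, rfl⟩
      obtain rfl : f = 1 := hf
      exact ⟨x, rfl⟩
  refine (h3.comp (primrec_subst τ).to_comp).congr (fun ω w h => ?_) fun ω w n _ hn h => ⟨?_, ?_⟩
  · rw [key, ← ev_subst_τ]; exact h
  · rw [key, ← ev_subst_τ] at h; exact h
  · refine le_trans ?_ hn
    have := N_le_wn m (X ω) ((obj m (X ω)).ev w)
    rw [← ev_subst_τ] at this ⊢
    exact Nat.mul_le_mul_left _ this

omit [Primcodable ι] in
theorem S_finite [Encodable ι] : (S (ι := ι) m).Finite :=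
  (Set.finite_range fun p : ι × Bool => comm (σ m p.1) [(cb p.2, true)]).subset
    fun _ ⟨i, c, h⟩ => ⟨(i, c), h.symm⟩

end St

theorem exists_stretch (ι : Type) [Primcodable ι] [Finite ι] (Λ : ℕ) :
    Nonempty (ExtPkg ι (Fin 3) Λ 2) := by
  refine ⟨{ obj := St.obj Λ
            σ := St.σ Λ
            R := (St.S_finite (ι := ι) Λ).toFinset.toList
            f := St.emb Λ
            f_gen := St.emb_gen Λ
            inj := St.emb_injective Λ
            norm := St.norm_emb Λ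
            pres := fun X => ?_
            cert := fun _ X h₁ h₂ => St.cert_range Λ X h₁ h₂ }⟩
  have : {r | r ∈ (St.S_finite (ι := ι) Λ).toFinset.toList} = St.S (ι := ι) Λ := by
    ext r; simp
  rw [this]
  exact St.pres_obj Λ (pres_rel X)

end Crest.Agent.R185
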