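import Crest.Agent.R185.ThAct

/-!
# Row 185: description of the domains of the links of `Θ`
-/

set_option autoImplicit false

namespace Crest.Agent.R185.Th

variable {C : Type} [Group C] {K : Subgroup C} {A : Set (VC C)} {μ : C → ℕ} {γ : VC C}

/-- A base point of the Cantor space. -/
def domPt : Cu := fun _ _ => false

theorem hd_domPt : hd domPt = false := rfl

theorem dom_smul_iff {γ γ' : VC C} {i i' : Option Bool} :
    γ • oo K i = γ' • oo K i' ↔ i = i' ∧ ∃ s ∈ SS K i, γ = γ' * s := by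
  rw [smul_oo_eq_iff]
  refine and_congr_right fun _ => ⟨fun h => ⟨_, (SS K i).inv_mem h, by group⟩, ?_⟩
  rintro ⟨s, hs, rfl⟩
  simpa using hs

theorem dom_cst_mem_Cst {c : C} (hc : c ∈ K) : cst c ∈ Cst K := ⟨c, hc, fun y => lab_cst c y⟩

theorem dom_cst_mem (c : C) : cst c ∈ Cst (⊤ : Subgroup C) ⊓ Hd C :=
  ⟨dom_cst_mem_Cst (Subgroup.mem_top c), fun _ => rfl⟩

theorem dom_key {e a : VC C} (he : e ∈ LabIn K) (ha : Sound K a) (y : Cu) :
    lab (e * io true a) y ∈ K ↔ hd y = false := by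
  rw [lab_mul, K.mul_mem_cancel_left (he _), lab_io]
  cases h : hd y
  · simp
  · simpa using ha _

theorem mem_range_cst : γ ∈ (cst : C →* VC C).range ↔
    (∀ y, vv γ y = y) ∧ ∀ y y', lab γ y = lab γ y' := by
  constructor
  · rintro ⟨c, rfl⟩
    simp
  · rintro ⟨h1, h2⟩
    exact ⟨lab γ domPt, VC.ext (fun y => by simp [h1]) fun y => by rw [lab_cst, h2]⟩

theorem mem_range_cone : γ ∈ (cone : C →* VC C).range ↔
    (∀ y, vv γ y = y) ∧ (∀ y, hd y = true → lab γ y = 1) ∧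
      ∀ y y', hd y = false → hd y' = false → lab γ y = lab γ y' := by
  constructor
  · rintro ⟨c, rfl⟩
    refine ⟨fun y => vv_cone c y, fun y hy => by simp [lab_cone, hy], fun y y' hy hy' => ?_⟩
    simp [lab_cone, hy, hy']
  · rintro ⟨h1, h2, h3⟩
    refine ⟨lab γ domPt, VC.ext (fun y => by simp [h1]) fun y => ?_⟩
    rw [lab_cone]
    split_ifs with h
    · exact h3 _ _ hd_domPt h
    · exact (h2 y (by simpa using h)).symm

theorem exists_cst_smul_iff {i : Option Bool} : (∃ c : C, γ • oo K i = cst c • oo K none) ↔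
    i = none ∧ ∀ y y', lab γ y = lab γ y' := by
  constructor
  · rintro ⟨c, h⟩
    obtain ⟨rfl, s, ⟨k, -, hk⟩, rfl⟩ := dom_smul_iff.1 h
    exact ⟨rfl, fun y y' => by simp [lab_mul, hk]⟩
  · rintro ⟨rfl, h⟩
    refine ⟨lab γ domPt, dom_smul_iff.2 ⟨rfl, cst (lab γ domPt)⁻¹ * γ, ⟨1, K.one_mem, fun y => ?_⟩,
      by simp⟩⟩
    rw [lab_mul, lab_cst, h y domPt, inv_mul_cancel]

variable (hA : ∀ a ∈ A, Sound K a)

theorem not_mem_dom_true (k : Bool) : γ • oo K none ∉ (LL hA).dom (k, true) := by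
  rintro ⟨y, h⟩
  cases k
  · obtain ⟨e, -, ⟨h, -⟩ | ⟨a, -, h, -⟩⟩ := h <;> simpa using (dom_smul_iff.1 h).1
  · obtain ⟨d, h, -⟩ := h
    simpa using (dom_smul_iff.1 h).1

theorem not_mem_dom_false (k b : Bool) : γ • oo K (some b) ∉ (LL hA).dom (k, false) := by
  rintro ⟨y, h⟩
  cases k
  · obtain ⟨e, -, ⟨-, h⟩ | ⟨a, -, -, h⟩⟩ := h <;> simpa using (dom_smul_iff.1 h).1
  · obtain ⟨d, -, h⟩ := h
    simpa using (dom_smul_iff.1 h).1

theorem not_mem_dom_η : γ • oo K (some false) ∉ (LL hA).dom (true, true) := by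
  rintro ⟨y, d, h, -⟩
  simpa using (dom_smul_iff.1 h).1

theorem mem_dom_g_X : γ • oo K (some false) ∈ (LL hA).dom (false, true) ↔
    ∀ y y', lab γ y * (lab γ y')⁻¹ ∈ K := by
  constructor
  · rintro ⟨x, e, he, ⟨h, -⟩ | ⟨a, -, h, -⟩⟩ y y'
    · obtain ⟨-, s, ⟨k, -, hk⟩, rfl⟩ := dom_smul_iff.1 h
      rw [lab_mul, lab_mul, hk, hk, mul_inv_rev, mul_assoc, mul_inv_cancel_left]
      exact K.mul_mem (he _) (K.inv_mem (he _))
    · simpa using (dom_smul_iff.1 h).1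
  · intro h
    refine ⟨_, γ * cst (lab γ domPt)⁻¹, fun y => ?_, Or.inl ⟨dom_smul_iff.2 ⟨rfl, cst (lab γ domPt),
      dom_cst_mem_Cst (Subgroup.mem_top _), by simp⟩, rfl⟩⟩
    rw [lab_mul, lab_cst, vv_cst]
    exact h _ _

theorem of_mem_dom_g_b (h : γ • oo K (some true) ∈ (LL hA).dom (false, true)) (y y' : Cu)
    (hy' : hd y' = false) : lab γ y * (lab γ y')⁻¹ ∈ K ↔ hd y = false := by
  obtain ⟨x, e, he, ⟨h, -⟩ | ⟨a, ha, h, -⟩⟩ := h
  · simpa using (dom_smul_iff.1 h).1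
  · obtain ⟨-, s, ⟨⟨k, -, hk⟩, hs⟩, rfl⟩ := dom_smul_iff.1 h
    have h1 : lab (e * io true a) (vv s y') ∈ K := (dom_key he (hA a ha) _).2 ((hs y').trans hy')
    rw [lab_mul _ s, lab_mul _ s, hk, hk, mul_inv_rev, mul_assoc, mul_inv_cancel_left,
      K.mul_mem_cancel_right (K.inv_mem h1), dom_key he (hA a ha), hs y]

theorem mem_dom_g_b (hμ : IsSN μ) (hA' : ∀ a, nV μ a ≤ 2 * nV μ γ → Sound K a → a ∈ A)
    (h : ∀ y y', hd y' = false → (lab γ y * (lab γ y')⁻¹ ∈ K ↔ hd y = false)) :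
    γ • oo K (some true) ∈ (LL hA).dom (false, true) := by
  have h1 : ∀ y, lab (γ * cst (lab γ domPt)⁻¹) y = lab γ y * (lab γ domPt)⁻¹ := fun y => by
    rw [lab_mul, lab_cst, vv_cst]
  obtain ⟨e, he, a, ha, hl, hγ⟩ := exists_key (K := K) (γ := γ * cst (lab γ domPt)⁻¹) fun y => by
    rw [h1]
    exact h y _ hd_domPt
  have ha' : a ∈ A := by
    refine hA' a (nV_le_iff.2 fun z => ?_) ha
    rw [hl, h1, two_mul]
    refine (hμ.mul _ _).trans ?_
    rw [hμ.inv]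
    exact add_le_add (le_nV _ _ _) (le_nV _ _ _)
  refine ⟨_, e, he, Or.inr ⟨a, ha', dom_smul_iff.2 ⟨rfl, cst (lab γ domPt), dom_cst_mem _, ?_⟩,
    rfl⟩⟩
  rw [← hγ]
  simp

theorem not_mem_dom_g_inv (h : Sound K γ) : γ • oo K none ∉ (LL hA).dom (false, false) := by
  rintro ⟨x, e, he, ⟨-, h'⟩ | ⟨a, ha, -, h'⟩⟩
  · obtain ⟨-, s, ⟨k, hk, hs⟩, rfl⟩ := dom_smul_iff.1 h'
    refine h domPt ?_
    rw [lab_mul, hs]
    exact K.mul_mem (he _) hk
  · obtain ⟨-, s, ⟨k, hk, hs⟩, rfl⟩ := dom_smul_iff.1 h'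
    refine h (vv s⁻¹ domPt) ?_
    rw [lab_mul _ s, hs, vv_vv_inv]
    exact K.mul_mem ((dom_key he (hA a ha) _).2 hd_domPt) hk

theorem mem_dom_g_inv (hA' : ∀ a, nV μ a ≤ nV μ γ → Sound K a → a ∈ A) (h : ¬ Sound K γ) :
    γ • oo K none ∈ (LL hA).dom (false, false) := by
  have hne : {y | lab γ y ∈ K}.Nonempty := by
    by_contra hc
    exact h fun y hy => hc ⟨y, hy⟩
  by_cases hc : {y | lab γ y ∈ K}ᶜ.Nonempty
  · have hU : IsClopen {y | lab γ y ∈ K} :=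
      ⟨⟨isLocallyConstant_lab γ (K : Set C)ᶜ⟩, isLocallyConstant_lab γ (K : Set C)⟩
    obtain ⟨u, hu, hU'⟩ := exists_V_clopen (C := C) hU hne hc
    have h1 : ∀ y, lab (γ * u) y = lab γ (vv u y) := fun y => by
      rw [lab_mul, mem_VV.1 hu, mul_one]
    obtain ⟨e, he, a, ha, hl, hγ⟩ := exists_key (K := K) (γ := γ * u) fun y => by
      rw [h1]
      exact hU' y
    have ha' : a ∈ A := by
      refine hA' a (nV_le_iff.2 fun z => ?_) ha
      rw [hl, h1]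
      exact le_nV _ _ _
    refine ⟨_, e, he, Or.inr ⟨a, ha', rfl, dom_smul_iff.2 ⟨rfl, u⁻¹,
      ⟨1, K.one_mem, mem_VV.1 ((VV C).inv_mem hu)⟩, ?_⟩⟩⟩
    rw [← hγ]
    simp
  · refine ⟨_, γ, fun y => ?_, Or.inl ⟨rfl, rfl⟩⟩
    by_contra hy
    exact hc ⟨y, hy⟩

theorem mem_dom_η_b : γ • oo K (some true) ∈ (LL hA).dom (true, true) ↔
    γ ∈ Hd C ∧ ∀ y y', hd y = false → hd y' = false → lab γ y = lab γ y' := by
  constructor
  · rintro ⟨x, d, h, -⟩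
    obtain ⟨-, s, ⟨⟨k, -, hk⟩, hs⟩, rfl⟩ := dom_smul_iff.1 h
    have h1 : ∀ y, hd y = false → lab (io true d * s) y = k := fun y hy => by
      rw [lab_mul, hk, lab_io_of_ne d (by rw [hs y, hy]; decide), one_mul]
    exact ⟨fun y => by rw [vv_mul, hd_vv_io, hs y], fun y y' hy hy' => by rw [h1 y hy, h1 y' hy']⟩
  · rintro ⟨h1, h2⟩
    obtain ⟨a₀, a₁, hγ, h0, -⟩ := exists_io_mul h1
    refine ⟨_, a₁ * cst (lab γ domPt)⁻¹, dom_smul_iff.2 ⟨rfl, io true (cst (lab γ domPt)) *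
      io false a₀, ⟨⟨lab γ domPt, Subgroup.mem_top _, fun y => ?_⟩, fun y => ?_⟩, ?_⟩, rfl⟩
    · rw [lab_mul, lab_io, lab_io, hd_vv_io]
      cases hy : hd y
      · simpa [h0] using h2 _ _ rfl hd_domPt
      · simp
    · rw [vv_mul, hd_vv_io, hd_vv_io]
    · rw [← mul_assoc, ← map_mul, mul_assoc, ← map_mul, inv_mul_cancel, map_one, mul_one,
        ← (io_commute a₀ a₁).eq]
      exact hγ

theorem mem_dom_η_inv : γ • oo K none ∈ (LL hA).dom (true, false) ↔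
    (∀ y, hd (vv γ y) = false → lab γ y ∈ K) ∧
      ∀ y y', hd (vv γ y) = false → hd (vv γ y') = false → lab γ y = lab γ y' := by
  constructor
  · rintro ⟨x, d, -, h⟩
    obtain ⟨-, s, ⟨k, hk, hs⟩, rfl⟩ := dom_smul_iff.1 h
    have h1 : ∀ y, hd (vv (io true d * s) y) = false → lab (io true d * s) y = k := fun y hy => by
      rw [vv_mul, hd_vv_io] at hy
      rw [lab_mul, hs, lab_io_of_ne d (by rw [hy]; decide), one_mul]
    exact ⟨fun y hy => by rw [h1 y hy]; exact hk, fun y y' hy hy' => by rw [h1 y hy, h1 y' hy']⟩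
  · rintro ⟨h1, h2⟩
    have h0 : hd (vv γ (vv γ⁻¹ domPt)) = false := by rw [vv_vv_inv, hd_domPt]
    obtain ⟨s, hs, hs'⟩ : ∃ s : VC C, (∀ y, vv s y = vv γ y) ∧
        ∀ y, lab s y = lab γ (vv γ⁻¹ domPt) :=
      ⟨cst (lab γ (vv γ⁻¹ domPt)) * inV (map 1 γ), fun y => by simp,
        fun y => by simp [lab_mul]⟩
    obtain ⟨d, hd'⟩ : γ * s⁻¹ ∈ (io true : VC C →* VC C).range := by
      refine mem_range_io.2 fun y hy => ?_
      have h3 : vv γ (vv s⁻¹ y) = y := by rw [← hs, vv_vv_inv]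
      refine ⟨by rw [vv_mul, h3], ?_⟩
      rw [lab_mul, lab_inv, hs', h2 _ _ (by rw [h3]; simpa using hy) h0, mul_inv_cancel]
    refine ⟨_, d, rfl, dom_smul_iff.2 ⟨rfl, s, ⟨_, h1 _ h0, hs'⟩, ?_⟩⟩
    rw [hd']
    simp

end Crest.Agent.R185.Th
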