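import Crest.Agent.R185.ThAct

/-!
# Row 185: bounded normal forms in `Θ`, high transitivity
-/

set_option autoImplicit false

namespace Crest.Agent.R185.Th

variable {C : Type} [Group C] {K : Subgroup C} {A : Set (VC C)} {μ : C → ℕ}

theorem bnf_grp (hμ : IsSN μ) (g : (DD K).MH) : ∃ l γ, (DD K).NoPinch l ∧
    g = (DD K).prod l * (DD K).of γ ∧ (∀ p ∈ l, nV μ p.1 ≤ 2 * nT μ K g) ∧
      nV μ γ ≤ 2 * nT μ K g := by
  have hν := isSN_nV hμ
  obtain ⟨l, q, x', h1, h2, h3, h4, h5, -⟩ := Links.bnf_depth (DD K).noLinks hν (nT μ K g)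
    (fun x => nV μ x ≤ nT μ K g) (by
      rintro ⟨k, _ | _⟩ q x y - - h
      · exact h.elim
      · exact h.elim) g le_rfl 1 (fun γ hγ => by simpa using hγ)
  refine ⟨l, q⁻¹ * x', h1.1, (DD K).noLinks_eq h2, h3, ?_⟩
  have := hν.mul q⁻¹ x'
  rw [hν.inv] at this
  omega

theorem nrm_cst_mem_SS {k : C} (hk : k ∈ K) (i : Option Bool) : cst k ∈ SS K i := by
  rcases i with _ | _ | _
  · exact ⟨k, hk, fun y => lab_cst k y⟩
  · exact ⟨k, trivial, fun y => lab_cst k y⟩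
  · exact ⟨⟨k, trivial, fun y => lab_cst k y⟩, fun y => rfl⟩

theorem nrm_cst_mem_SS_some (c : C) (b : Bool) : cst c ∈ SS K (some b) := by
  cases b
  · exact ⟨c, trivial, fun y => lab_cst c y⟩
  · exact ⟨⟨c, trivial, fun y => lab_cst c y⟩, fun y => rfl⟩

theorem nrm_SS_le {i : Option Bool} {s : VC C} (hs : s ∈ SS K i) : ∃ k, ∀ y, lab s y = k := by
  rcases i with _ | _ | _
  · obtain ⟨k, -, h⟩ := hs; exact ⟨k, h⟩
  · obtain ⟨k, -, h⟩ := hs; exact ⟨k, h⟩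
  · obtain ⟨⟨k, -, h⟩, -⟩ := hs; exact ⟨k, h⟩

theorem nrm_mul_smul_oo (γ : VC C) {s : VC C} {i : Option Bool} (hs : s ∈ SS K i) :
    (γ * s) • oo K i = γ • oo K i :=
  (smul_oo_eq_iff.2 ⟨rfl, by simpa using hs⟩).symm

theorem nrm_smul_oo {s : VC C} {i : Option Bool} (hs : s ∈ SS K i) : s • oo K i = oo K i := by
  simpa using nrm_mul_smul_oo 1 hs

/-- A point with first letter `b`. -/
def nrmPt (b : Bool) : Cu := fun _ _ => b

@[simp] theorem hd_nrmPt (b : Bool) : hd (nrmPt b) = b := rfl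

theorem nrm_Lk_name {k : Bool} {x y : Pt K} (h : Lk K A k x y) :
    ∃ (γ₀ : VC C) (b : Bool), x = γ₀ • oo K (some b) ∧ y = γ₀ • oo K none ∧
      ∃ y₀, lab γ₀ y₀ = 1 := by
  have key : ∀ (γ : VC C) (b : Bool), lab γ (nrmPt false) ∈ K → x = γ • oo K (some b) →
      y = γ • oo K none → ∃ (γ₀ : VC C) (b : Bool), x = γ₀ • oo K (some b) ∧
        y = γ₀ • oo K none ∧ ∃ y₀, lab γ₀ y₀ = 1 := by
    intro γ b hk hx hy
    refine ⟨γ * cst (lab γ (nrmPt false))⁻¹, b, ?_, ?_, nrmPt false, ?_⟩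
    · rw [nrm_mul_smul_oo γ (nrm_cst_mem_SS (K.inv_mem hk) _), hx]
    · rw [nrm_mul_smul_oo γ (nrm_cst_mem_SS (K.inv_mem hk) _), hy]
    · rw [lab_mul, vv_cst, lab_cst, mul_inv_cancel]
  cases k
  · obtain ⟨e, he, ⟨hx, hy⟩ | ⟨a, -, hx, hy⟩⟩ := h
    · exact key e false (he _) hx hy
    · refine key _ true ?_ hx hy
      rw [lab_mul, lab_io_of_ne a (by simp), mul_one]
      exact he _
  · obtain ⟨d, hx, hy⟩ := h
    refine key _ true ?_ hx hy
    rw [lab_io_of_ne d (by simp)]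
    exact K.one_mem

theorem bnf_pt (hA : ∀ a ∈ A, Sound K a) (hμ : IsSN μ) (g : (DD K).MH) :
    ∃ l i γ, (LL hA).Red l ((γ : VC C) • oo K i) ∧
      g • (LL hA).j (oo K none) = (DD K).prod l • (LL hA).j (γ • oo K i) ∧
      (∀ p ∈ l, nV μ p.1 ≤ 4 * nT μ K g) ∧ nV μ γ ≤ 4 * nT μ K g ∧
      (l = [] → nV μ γ ≤ 3 * nT μ K g) := by
  have hν := isSN_nV hμ
  set n := nT μ K g with hn
  obtain ⟨l, q, x', h1, h2, h3, h4, ⟨i, γ, rfl, -, h5⟩, h6⟩ := Links.bnf_depth (LL hA) hν n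
    (fun x => ∃ (i : Option Bool) (γ : VC C), x = γ • oo K i ∧
      (∀ y y', μ (lab γ y * (lab γ y')⁻¹) ≤ 2 * n) ∧ nV μ γ ≤ 3 * n) (by
      rintro l q x y ⟨i, γ, rfl, hd1, -⟩ hq h
      have : ∃ (γ₀ : VC C) (i₁ i₂ : Option Bool), q⁻¹ • γ • oo K i = γ₀ • oo K i₁ ∧
          y = γ₀ • oo K i₂ ∧ ∃ y₀, lab γ₀ y₀ = 1 := by
        obtain ⟨k, _ | _⟩ := l
        · obtain ⟨γ₀, b, e1, e2, e3⟩ := nrm_Lk_name (A := A) (k := k) h
          exact ⟨γ₀, _, _, e2, e1, e3⟩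
        · obtain ⟨γ₀, b, e1, e2, e3⟩ := nrm_Lk_name (A := A) (k := k) h
          exact ⟨γ₀, _, _, e1, e2, e3⟩
      obtain ⟨γ₀, i₁, i₂, e1, rfl, y₀, e3⟩ := this
      rw [← mul_smul] at e1
      obtain ⟨k, hk⟩ := nrm_SS_le (smul_oo_eq_iff.1 e1).2
      have e4 : q * γ₀ = γ * ((q⁻¹ * γ)⁻¹ * γ₀) := by group
      have hdiam : ∀ y y', μ (lab (q * γ₀) y * (lab (q * γ₀) y')⁻¹) ≤ 2 * n := by
        intro y y'
        rw [e4, lab_mul γ, lab_mul γ, hk, hk, mul_inv_rev (lab γ _) k, mul_assoc,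
          mul_inv_cancel_left]
        exact hd1 _ _
      refine ⟨i₂, q * γ₀, (mul_smul _ _ _).symm, hdiam, nV_le_iff.2 fun y => ?_⟩
      have g1 := hdiam y y₀
      have g2 : μ (lab (q * γ₀) y₀) ≤ n := by
        rw [lab_mul, e3, mul_one]
        exact (le_nV μ q _).trans hq
      have g3 := hμ.mul (lab (q * γ₀) y * (lab (q * γ₀) y₀)⁻¹) (lab (q * γ₀) y₀)
      rw [inv_mul_cancel_right] at g3
      omega) g le_rfl (oo K none) (fun γ hγ => ⟨none, γ, rfl, fun y y' => by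
        have g1 := hμ.mul (lab γ y) (lab γ y')⁻¹
        rw [hμ.inv] at g1
        have g2 := le_nV μ γ y
        have g3 := le_nV μ γ y'
        omega, by omega⟩)
  rw [← mul_smul] at h1 h2
  refine ⟨l, i, q⁻¹ * γ, h1, h2, fun p hp => by have := h3 p hp; omega, ?_, fun hl => ?_⟩
  · have := hν.mul q⁻¹ γ
    rw [hν.inv] at this
    omega
  · rw [h6 hl]
    simpa using h5

theorem orbit_bound (hA : ∀ a ∈ A, Sound K a) (hμ : IsSN μ) (γ : (DD K).MH) (c : C)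
    (h : γ⁻¹ * (DD K).of (cst c) ∈ KT K A) : ∃ c', c'⁻¹ * c ∈ K ∧ μ c' ≤ 3 * nT μ K γ := by
  rw [inv_mul_mem_KT_iff hA, ← Links.j_smul] at h
  obtain ⟨l, i, γ', h1, h2, -, -, h3⟩ := bnf_pt hA hμ γ
  obtain rfl : l = [] := by
    by_contra hl
    exact (LL hA).red_not_mem hl h1 _ (h2.symm.trans h.symm)
  rw [HD.prod_nil, one_smul] at h2
  have h4 := (LL hA).j_injective (h2.symm.trans h.symm)
  obtain ⟨rfl, k, hk, h5⟩ := smul_oo_eq_iff.1 h4
  have h6 := h5 (nrmPt false)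
  rw [lab_mul, lab_inv, lab_cst] at h6
  exact ⟨_, h6 ▸ hk, (le_nV μ γ' _).trans (h3 rfl)⟩

theorem nrm_commute {n : ℕ} (c : Fin n → C) (w : VC C)
    (hw' : ∀ y, ∃ i, lab w y = c i) (a : C) (ha : ∀ i, (c i)⁻¹ * a * c i ∈ K) :
    Commute ((DD K).of w * ((DD K).t false)⁻¹ * ((DD K).of w)⁻¹) ((DD K).of (cst a)) := by
  have h1 : w⁻¹ * cst a * w ∈ EE K false := by
    intro y
    obtain ⟨i, hi⟩ := hw' y
    rw [lab_mul, lab_mul, vv_cst, lab_cst, lab_inv_vv, hi]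
    exact ha i
  have h2 := (t_commute K h1).inv_left
  have h3 := h2.conj ((DD K).of w)
  have e : (DD K).of w * (DD K).of (w⁻¹ * cst a * w) * ((DD K).of w)⁻¹ = (DD K).of (cst a) := by
    rw [map_mul, map_mul, map_inv]; group
  rwa [e] at h3

theorem nrm_r_smul (hA : ∀ a ∈ A, Sound K a) (v : VC C) (b : Bool) :
    ((DD K).of v * ((DD K).t b)⁻¹) • (LL hA).j (oo K none) = (LL hA).j (v • oo K (some b)) := by
  rw [mul_smul, t_inv_smul hA, ← Links.j_smul]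

theorem high_trans (hA : ∀ a ∈ A, Sound K a) (hA' : ∀ a, Sound K a → a ∈ A) (n : ℕ) :
    ∃ r : Fin n → (DD K).MH,
      (∀ c i, (r i)⁻¹ * (DD K).of (cst c) * r i ∈ KT K A) ∧
      (∀ i j, i ≠ j → (r i)⁻¹ * r j ∉ KT K A) ∧
      ∀ c : Fin n → C, (∀ i j, i ≠ j → (c i)⁻¹ * c j ∉ K) → ∃ h : (DD K).MH,
        (∀ i, (r i)⁻¹ * (h * (DD K).of (cst (c i))) ∈ KT K A) ∧
        ∀ a, (∀ i, (c i)⁻¹ * a * c i ∈ K) → Commute h ((DD K).of (cst a)) := by
  rcases n with _ | _ | n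
  · exact ⟨Fin.elim0, fun _ i => i.elim0, fun i => i.elim0,
      fun _ _ => ⟨1, fun i => i.elim0, fun _ _ => Commute.one_left _⟩⟩
  · refine ⟨fun _ => ((DD K).t false)⁻¹, fun c i => ?_,
      fun i j hij => (hij (Subsingleton.elim (α := Fin 1) _ _)).elim, fun c _ => ⟨(DD K).of (cst (c 0)) *
        ((DD K).t false)⁻¹ * ((DD K).of (cst (c 0)))⁻¹, fun i => ?_, fun a ha => ?_⟩⟩
    · rw [mul_assoc, inv_mul_mem_KT_iff hA, nrm_r_smul hA, t_inv_smul hA,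
        nrm_smul_oo (nrm_cst_mem_SS_some c false)]
    · obtain rfl : i = 0 := Subsingleton.elim (α := Fin 1) _ _
      rw [inv_mul_mem_KT_iff hA, inv_mul_cancel_right, nrm_r_smul hA, t_inv_smul hA,
        nrm_smul_oo (nrm_cst_mem_SS_some _ false)]
    · exact nrm_commute c _ (fun y => ⟨0, lab_cst _ _⟩) a ha
  · obtain ⟨idx, hsurj, hlc⟩ := exists_idx (n := n + 1 + 1) (by omega)
    have hv : ∀ i : Fin (n + 1 + 1), ∃ v ∈ VV C, ∀ y, idx (vv v y) = i ↔ hd y = false := by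
      intro i
      obtain ⟨j, hj⟩ := exists_ne i
      obtain ⟨y₁, h₁⟩ := hsurj i
      obtain ⟨y₂, h₂⟩ := hsurj j
      exact exists_V_clopen (U := {y | idx y = i}) (hlc.isClopen_fiber i) ⟨y₁, h₁⟩
        ⟨y₂, fun h => hj (h₂.symm.trans h)⟩
    choose v hvV hv using hv
    have hfix : ∀ c i, (cst c * v i) • oo K (some true) = v i • oo K (some true) := by
      intro c i
      rw [(cst_commute (hvV i) c).eq, nrm_mul_smul_oo _ (nrm_cst_mem_SS_some c true)]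
    refine ⟨fun i => (DD K).of (v i) * ((DD K).t true)⁻¹, fun c i => ?_, fun i j hij h => ?_,
      fun c hc => ?_⟩
    · rw [mul_assoc, inv_mul_mem_KT_iff hA, ← mul_assoc, ← map_mul, nrm_r_smul hA, nrm_r_smul hA,
        hfix]
    · rw [inv_mul_mem_KT_iff hA, nrm_r_smul hA, nrm_r_smul hA] at h
      have h1 := (smul_oo_eq_iff.1 ((LL hA).j_injective h)).2.2 (nrmPt false)
      rw [vv_mul, hd_nrmPt, ← hv j, vv_vv_inv, (hv i _).2 rfl] at h1
      exact hij h1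
    · let w : VC C := mkLC (fun y => c (idx y)) (hlc.comp c)
      refine ⟨(DD K).of w * ((DD K).t false)⁻¹ * ((DD K).of w)⁻¹, fun i => ?_,
        fun a ha => nrm_commute c w (fun y => ⟨idx y, lab_mkLC _ _ _⟩) a ha⟩
      have hlab : ∀ y, lab (w⁻¹ * cst (c i) * v i) y ∈ K ↔ hd y = false := by
        intro y
        have e1 : lab w⁻¹ (vv (v i) y) = (c (idx (vv (v i) y)))⁻¹ := by
          have := lab_inv_vv w (vv (v i) y)
          rw [vv_mkLC, lab_mkLC] at this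
          exact this
        rw [lab_mul, lab_mul, vv_cst, lab_cst, mem_VV.1 (hvV i), mul_one, e1, ← hv i]
        constructor
        · intro h
          by_contra hne
          exact hc _ _ hne h
        · intro h
          rw [h, inv_mul_cancel]
          exact K.one_mem
      obtain ⟨e, he, a, ha, -, hγ⟩ := exists_key hlab
      have hL : (LL hA).L false ((w⁻¹ * cst (c i) * v i) • oo K (some true))
          ((w⁻¹ * cst (c i) * v i) • oo K none) :=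
        ⟨e, he, Or.inr ⟨a, hA' a ha, by rw [hγ], by rw [hγ]⟩⟩
      have h1 := (LL hA).j_link hL
      have h2 : (w⁻¹ * cst (c i) * v i) • oo K none = (w⁻¹ * cst (c i)) • oo K none :=
        nrm_mul_smul_oo _ ⟨1, K.one_mem, mem_VV.1 (hvV i)⟩
      rw [h2, ← eq_inv_smul_iff] at h1
      rw [inv_mul_mem_KT_iff hA, nrm_r_smul hA, mul_assoc, ← map_inv, ← map_mul, mul_smul,
        ← Links.j_smul, mul_smul, ← h1, ← Links.j_smul, ← mul_smul, ← hfix (c i) i]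
      congr 2
      group

theorem faithful (hA : ∀ a ∈ A, Sound K a) (c c' : C) (h : ¬ Commute c c') :
    ∃ γ, γ⁻¹ * (DD K).of (cst c) * γ ∉ KT K A := by
  refine ⟨(DD K).of (cone c') * ((DD K).t true)⁻¹, fun hm => h ?_⟩
  rw [mul_assoc, inv_mul_mem_KT_iff hA, ← mul_assoc, ← map_mul, nrm_r_smul hA,
    nrm_r_smul hA] at hm
  obtain ⟨k, hk⟩ := nrm_SS_le (smul_oo_eq_iff.1 ((LL hA).j_injective hm.symm)).2
  have h1 := hk (nrmPt false)
  have h2 := hk (nrmPt true)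
  rw [← map_inv] at h1 h2
  simp only [lab_mul, vv_mul, vv_cone, vv_cst, lab_cst, lab_cone, hd_nrmPt, if_true,
    Bool.true_eq_false, if_false, one_mul, mul_one] at h1 h2
  rw [← h2, inv_mul_eq_iff_eq_mul] at h1
  exact h1

end Crest.Agent.R185.Th
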