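import Crest.Agent.R185.ThCert
import Crest.Agent.R185.ThNorm
import Crest.Agent.R185.ThDom
import Crest.Agent.R185.HNNCert

/-!
# Row 185: certificates in `Θ(X, K)`
-/

set_option autoImplicit false

namespace Crest.Agent.R185.Th

theorem c2_of_iff {𝒞 : Ctx} {α : Type} [Primcodable α] {P Q : 𝒞.Ω → α → Prop}
    {ν ν' : 𝒞.Ω → α → ℕ} (h : Cert 𝒞 Q ν) (e : ∀ ω a, Q ω a ↔ P ω a)
    (hν : ∀ ω a, ν ω a ≤ ν' ω a) : Cert 𝒞 P ν' :=
  h.congr (fun ω a => (e ω a).1) fun ω a _ _ hn hp => ⟨(e ω a).2 hp, (hν ω a).trans hn⟩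

theorem c2_list {𝒞 : Ctx} {α : Type} [Primcodable α] (L : List α) :
    Cert 𝒞 (fun _ a => a ∈ L) fun _ _ => 0 :=
  Cert.of_re (re_of_primrecPred (cl_primrecRel_mem.comp Primrec.id (Primrec.const L))) _

theorem c2_image {𝒞 : Ctx} {α β : Type} [Primcodable α] [Primcodable β] {P : 𝒞.Ω → β → Prop}
    (h : Cert 𝒞 P fun _ _ => 0) {f : β → α} (hf : Primrec f) :
    Cert 𝒞 (fun ω a => ∃ b, P ω b ∧ a = f b) fun _ _ => 0 :=
  Cert.guess ((h.comp (f := fun x : α × β => x.2) Computable.snd).and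
    (Cert.of_re (p := fun x : α × β => x.1 = f x.2)
      (re_of_primrecPred (Primrec.eq.comp Primrec.fst (hf.comp Primrec.snd))) fun _ _ => 0))
    (fun _ _ b h => ⟨b, h⟩) fun _ _ _ _ _ ⟨b, h⟩ => ⟨b, h, Nat.zero_le _⟩

variable {ι : Type} [Primcodable ι] [Finite ι] {𝒞 : Ctx} (X : 𝒞.Ω → MG ι)
  (𝒦 : List (Word ι)) (K : ∀ ω, Subgroup (X ω).G) (hK𝒦 : ∀ ω, K ω = (X ω).sub {k | k ∈ 𝒦})
  (hE : Cert 𝒞 (fun ω w => (X ω).ev w = 1) fun _ _ => 0)

include hK𝒦 hE

theorem cert_Teq : Cert 𝒞 (fun ω w => evT (X ω) (K ω) w = 1) fun _ _ => 0 := by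
  obtain rfl : K = fun ω => (X ω).sub {k | k ∈ 𝒦} := funext hK𝒦
  obtain ⟨R, hR⟩ := exists_presT (ι := ι)
  refine cert_eq_of_pres (fun ω => TM (X ω) _) _ (fun ω => hR (X ω) _) ?_
  refine c2_of_iff (((c2_list R).or (c2_image hE (primrec_subst σc))).or
    (c2_list (𝒦.map fun k => wg ++ subst σc k ++ wg.inv ++ (subst σc k).inv))) (fun ω r => ?_)
    fun _ _ => by simp
  simp only [Set.mem_union, Set.mem_ofPred_eq, Set.mem_image, List.mem_map, MG.rel, eq_comm (a := r)]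

variable (hN : Cert 𝒞 (fun ω w => (X ω).ev w ≠ 1) fun ω w => (X ω).wn ((X ω).ev w))
  (hK : Cert 𝒞 (fun ω w => (X ω).ev w ∉ K ω) fun ω w => (X ω).wn ((X ω).ev w))

omit hK𝒦 in
theorem c2_mov : Cert 𝒞 (fun ω w => ∃ y, vv (evV (X ω) w) y ≠ y) fun _ _ => 0 :=
  c2_of_iff ((cert_mov X hE false).or (cert_mov X hE true)) (fun ω w => ⟨by
    rintro (⟨y, -, h⟩ | ⟨y, -, h⟩) <;> exact ⟨y, h⟩, by
    rintro ⟨y, h⟩
    cases e : hd y
    exacts [Or.inl ⟨y, e, h⟩, Or.inr ⟨y, e, h⟩]⟩) fun _ _ => by simp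

include hN hK

omit hK𝒦 in
theorem c2_edge (l : Bool × Bool) : Cert 𝒞 (fun ω w => evV (X ω) w ∉ (DD (K ω)).E l)
    fun ω w => 2 * νV (X ω) (evV (X ω) w) := by
  obtain ⟨_ | _, b⟩ := l
  · refine c2_of_iff (cert_one X hE (fun _ _ => True) (fun ω c => c ∉ K ω) hK) (fun ω w => ?_)
      fun _ _ => by omega
    simp [DD_E, EE, mem_LabIn]
  · refine c2_of_iff ((cert_mov X hE false).or
      (cert_one X hE (fun b _ => b = false) (fun ω c => c ≠ 1) hN)) (fun ω w => ?_)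
      fun _ _ => by omega
    rw [DD_E, EE, mem_range_io]
    simp only [ne_eq, Bool.not_eq_true, not_forall, not_and_or, ← exists_or, ← and_or_left,
      exists_prop]

omit hK𝒦 hK in
theorem c2_two (B B' : Bool → Bool → Prop) : Cert 𝒞 (fun ω w => ∃ y y',
    B (hd y) (hd (vv (evV (X ω) w) y)) ∧ B' (hd y') (hd (vv (evV (X ω) w) y')) ∧
      lab (evV (X ω) w) y ≠ lab (evV (X ω) w) y') fun ω w => 2 * νV (X ω) (evV (X ω) w) :=
  c2_of_iff (cert_two X hE B B' (fun ω c => c ≠ 1) hN)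
    (fun ω w => by simp only [ne_eq, mul_inv_eq_one]) fun _ _ => le_rfl

theorem c2_not (𝒳 : ∀ ω, Set (VC (X ω).G))
    (hX : Cert 𝒞 (fun ω w => evV (X ω) w ∉ 𝒳 ω) fun ω w => 2 * νV (X ω) (evV (X ω) w)) :
    Cert 𝒞 (fun ω w => evT (X ω) (K ω) w ∉ (DD (K ω)).of '' 𝒳 ω)
      fun ω w => 8 * nT (X ω).wn (K ω) (evT (X ω) (K ω) w) :=
  cert_hnn (fun ω => VM (X ω)) (fun ω => DD (K ω)) 𝒳 (fun ω γ => 2 * νV (X ω) γ)
    (fun ω g => 8 * nT (X ω).wn (K ω) g) (fun ω g => by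
      obtain ⟨l, γ, h1, h2, h3, h4⟩ := bnf_grp (K := K ω) (X ω).isSN_wn g
      exact ⟨l, γ, h1, h2, fun p hp => by have := h3 p hp; simp only [νV]; omega,
        by simp only [νV]; omega⟩)
    (c2_edge X K hE hN hK) hX (cert_Teq X 𝒦 K hK𝒦 hE)

theorem cert_not_cst :
    Cert 𝒞 (fun ω w => evT (X ω) (K ω) w ∉ ((DD (K ω)).of.comp cst).range)
      fun ω w => 8 * nT (X ω).wn (K ω) (evT (X ω) (K ω) w) := by
  refine c2_of_iff (c2_not X 𝒦 K hK𝒦 hE hN hK (fun ω => (cst : (X ω).G →* _).range)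
    (c2_of_iff ((c2_mov X hE).or (c2_two X hE hN (fun _ _ => True) fun _ _ => True))
      (fun ω w => ?_) fun _ _ => by omega)) (fun ω w => ?_) fun _ _ => le_rfl
  · rw [SetLike.mem_coe, mem_range_cst]
    simp only [ne_eq, not_and_or, not_forall, true_and]
  · rw [MonoidHom.range_comp, ← Subgroup.coe_map, SetLike.mem_coe]

theorem cert_not_cone :
    Cert 𝒞 (fun ω w => evT (X ω) (K ω) w ∉ ((DD (K ω)).of.comp cone).range)
      fun ω w => 8 * nT (X ω).wn (K ω) (evT (X ω) (K ω) w) := by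
  refine c2_of_iff (c2_not X 𝒦 K hK𝒦 hE hN hK (fun ω => (cone : (X ω).G →* _).range)
    (c2_of_iff ((c2_mov X hE).or
      ((cert_one X hE (fun b _ => b = true) (fun ω c => c ≠ 1) hN).or
        (c2_two X hE hN (fun b _ => b = false) fun b _ => b = false)))
      (fun ω w => ?_) fun _ _ => by omega)) (fun ω w => ?_) fun _ _ => le_rfl
  · rw [SetLike.mem_coe, mem_range_cone]
    simp only [ne_eq, not_and_or, not_forall, exists_prop]
  · rw [MonoidHom.range_comp, ← Subgroup.coe_map, SetLike.mem_coe]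

theorem cert_not_orbit (Acc : 𝒞.Ω → Set (Word (ιV ι))) (K₀ : List (Word (ιT ι)))
    (hK₀ : ∀ ω, (TM (X ω) (K ω)).sub (ktWords K₀ σx wJ (Acc ω)) = KT (K ω) (evV (X ω) '' Acc ω))
    (hA : ∀ ω, ∀ x ∈ Acc ω, Sound (K ω) (evV (X ω) x))
    (hA' : ∀ ω n, 𝒞.lim ω n → ∀ a, νV (X ω) a ≤ n → Sound (K ω) a →
      ∃ x ∈ Acc ω, evV (X ω) x = a)
    (hAcc : Cert 𝒞 (fun ω x => x ∈ Acc ω) fun _ _ => 0) :
    Cert 𝒞 (fun ω w => ∀ c, ((DD (K ω)).of (cst c))⁻¹ * evT (X ω) (K ω) w ∉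
        KT (K ω) (evV (X ω) '' Acc ω))
      fun ω w => 8 * nT (X ω).wn (K ω) (evT (X ω) (K ω) w) := by
  have hS : ∀ ω, ∀ a ∈ evV (X ω) '' Acc ω, Sound (K ω) a := by
    rintro ω _ ⟨x, hx, rfl⟩
    exact hA ω x hx
  have hmem : Cert 𝒞 (fun ω w => (X ω).ev w ∈ K ω) fun ω w => (X ω).wn ((X ω).ev w) :=
    c2_of_iff (cert_mem_sub X (fun _ => {k | k ∈ 𝒦}) hE (c2_list 𝒦))
      (fun ω w => by rw [hK𝒦]) fun _ _ => Nat.zero_le _
  refine c2_of_iff (cert_links (ιo := Option Bool) (fun ω => VM (X ω)) (fun ω => DD (K ω))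
    (fun ω => Pt (K ω)) (fun ω => LL (hS ω)) (fun ω => oo (K ω)) none
    (fun i => i.elim [] fun k => [(Sum.inr k, false)]) (fun ω i => ?_)
    (fun ω => {x | ∃ c : (X ω).G, x = cst c • oo (K ω) none}) (fun ω γ => 2 * νV (X ω) γ)
    (fun ω g => 8 * nT (X ω).wn (K ω) g) (fun ω g => ?_) (c2_edge X K hE hN hK) (fun l i => ?_)
    (fun i => ?_) ?_) (fun ω w => ?_) fun _ _ => le_rfl
  · cases i with
    | none =>
      have e : evT (X ω) (K ω) [] = 1 := evW_nil _
      exact (congrArg (· • _) e).trans (one_smul (DD (K ω)).MH ((LL (hS ω)).j (oo (K ω) none)))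
    | some k => exact (congrArg (· • _) (evT_t_inv (X ω) (K ω) k)).trans (t_inv_smul (hS ω) k)
  · obtain ⟨l, i, γ, h1, h2, h3, h4, -⟩ := bnf_pt (hS ω) (X ω).isSN_wn g
    exact ⟨l, i, γ, h1, h2, fun p hp => by have := h3 p hp; simp only [νV]; omega,
      by simp only [νV]; omega⟩
  · match l, i with
    | (k, true), none => exact HC.cert_true (fun ω _ => not_mem_dom_true (hS ω) k) _
    | (k, false), some b => exact HC.cert_true (fun ω _ => not_mem_dom_false (hS ω) k b) _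
    | (true, true), some false => exact HC.cert_true (fun ω _ => not_mem_dom_η (hS ω)) _
    | (false, true), some false =>
      refine c2_of_iff (cert_two X hE (fun _ _ => True) (fun _ _ => True) (fun ω c => c ∉ K ω) hK)
        (fun ω w => ?_) fun _ _ => le_rfl
      rw [mem_dom_g_X]
      simp only [not_forall, true_and]
    | (false, true), some true =>
      refine ((cert_two X hE (fun b _ => b = false) (fun b _ => b = false)
        (fun ω c => c ∉ K ω) hK).or (cert_two X hE (fun b _ => b = true) (fun b _ => b = false)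
          (fun ω c => c ∈ K ω) hmem)).congr ?_ fun ω w n hl hn h => ⟨?_, by simpa using hn⟩
      · rintro ω w (⟨y, y', h1, h2, h3⟩ | ⟨y, y', h1, h2, h3⟩) h
        · exact h3 ((of_mem_dom_g_b (hS ω) h y y' h2).2 h1)
        · simpa [h1] using (of_mem_dom_g_b (hS ω) h y y' h2).1 h3
      · by_contra hc
        refine h (mem_dom_g_b (hS ω) (X ω).isSN_wn
          (fun a ha hs => hA' ω n hl a (ha.trans hn) hs) fun y y' hy' => ⟨fun h1 => ?_, fun h1 => ?_⟩)
        · by_contra h2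
          exact hc (Or.inr ⟨y, y', by simpa using h2, hy', h1⟩)
        · by_contra h2
          exact hc (Or.inl ⟨y, y', h1, hy', h2⟩)
    | (false, false), none =>
      refine (cert_sound X hE K hK).congr (fun ω w h => not_mem_dom_g_inv (hS ω) h)
        fun ω w n hl hn h => ⟨?_, (Nat.le_mul_of_pos_left _ two_pos).trans hn⟩
      by_contra hc
      exact h (mem_dom_g_inv (μ := (X ω).wn) (hS ω)
        (fun a ha hs => hA' ω n hl a (by simp only [νV] at hn ⊢; omega) hs) hc)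
    | (true, true), some true =>
      refine c2_of_iff ((cert_one X hE (fun b b' => b' ≠ b) (fun _ _ => True)
        (HC.cert_true (fun _ _ => trivial) _)).or
        (c2_two X hE hN (fun b _ => b = false) fun b _ => b = false)) (fun ω w => ?_)
        fun _ _ => max_le (Nat.le_mul_of_pos_left _ two_pos) le_rfl
      rw [mem_dom_η_b, mem_Hd]
      simp only [ne_eq, not_and_or, not_forall, exists_prop, and_true]
    | (true, false), none =>
      refine c2_of_iff ((cert_one X hE (fun _ b => b = false) (fun ω c => c ∉ K ω) hK).or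
        (c2_two X hE hN (fun _ b => b = false) fun _ b => b = false)) (fun ω w => ?_)
        fun _ _ => max_le (Nat.le_mul_of_pos_left _ two_pos) le_rfl
      rw [mem_dom_η_inv]
      simp only [ne_eq, not_and_or, not_forall, exists_prop]
  · cases i with
    | none =>
      refine c2_of_iff (c2_two X hE hN (fun _ _ => True) fun _ _ => True) (fun ω w => ?_)
        fun _ _ => le_rfl
      rw [Set.mem_ofPred_eq, exists_cst_smul_iff]
      simp only [ne_eq, not_forall, true_and]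
    | some k => exact HC.cert_true (fun ω w h => by simpa using (exists_cst_smul_iff.1 h).1) _
  · refine c2_of_iff (cert_mem_sub (fun ω => TM (X ω) (K ω)) (fun ω => ktWords K₀ σx wJ (Acc ω))
      (cert_Teq X 𝒦 K hK𝒦 hE) (c2_of_iff ((c2_list K₀).or (c2_image hAcc
        (Primrec.list_append.comp (Primrec.list_append.comp (primrec_inv.comp (primrec_subst σx))
          (Primrec.const wJ)) (primrec_subst σx)))) (fun _ _ => Iff.rfl) fun _ _ => by simp))
      (fun ω w => ?_) fun _ _ => le_rfl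
    rw [hK₀]
    exact mem_KT_iff (hS ω) _
  · simp only [inv_mul_mem_KT_iff (hS ω), ← Links.j_smul]
    exact ⟨fun h c e => h ⟨_, ⟨c, rfl⟩, e.symm⟩, fun h ⟨_, ⟨c, rfl⟩, e⟩ => h c e.symm⟩

end Crest.Agent.R185.Th
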