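import Crest.Agent.R185.Pkg
import Crest.Agent.R185.HNNCert
import Crest.Agent.R185.PresLib
import Crest.Agent.R185.SVFin
import Crest.Agent.R185.ThCert2

/-!
# Row 185: the group Theta
-/

set_option autoImplicit false

namespace Crest.Agent.R185

open Th in
theorem exists_theta (ι : Type) [Primcodable ι] [Finite ι] : Nonempty (ThetaPkg ι) := by
  obtain ⟨K₀, hK₀⟩ := exists_K₀ (ι := ι)
  obtain ⟨R, hR⟩ := exists_presT (ι := ι)
  have hs : ∀ (X : MG ι) (K : Subgroup X.G) (Acc : Set (Word (ιV ι))),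
      (∀ x ∈ Acc, Sound K (evV X x)) → ∀ a ∈ evV X '' Acc, Sound K a := by
    rintro X K Acc h _ ⟨x, hx, rfl⟩
    exact h x hx
  refine ⟨{
    ιV := ιV ι
    ιT := ιT ι
    κ := 8
    V := VM
    νV := νV
    Sound := fun _ K a => Sound K a
    T := TM
    ν := fun X K => nT X.wn K
    ν_sn := fun X K => (DD K).isSN_dnu (isSN_nV X.isSN_wn)
    ν_gen := nT_gen
    Δ := fun _ K => (DD K).of.comp cst
    cone := fun _ K => (DD K).of.comp cone
    σΔ := σΔ
    σc := σc
    Δ_gen := fun X K i => (evT_σΔ X K i).symm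
    cone_gen := fun X K i => (evT_σc X K i).symm
    ν_Δ := fun X K c => (HD.dnu_of _).trans (nV_cst _ c)
    ν_cone := fun X K c => (HD.dnu_of _).trans (nV_cone X.isSN_wn c)
    σx := σx
    J := wJ
    dep := fun X K n g hg x hx => (nT_dep X K n g hg x hx).trans (by omega)
    K₀ := K₀
    g := wg
    R := R
    pres := hR
    K_le := fun X K Acc c hc => by
      rw [hK₀]
      exact cst_mem_KT hc
    orbit := fun X K Acc hA γ c h => by
      rw [hK₀] at h
      exact orbit_bound (hs X K Acc hA) X.isSN_wn γ c h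
    trans := fun X K Acc hA hA' n => by
      rw [hK₀]
      exact high_trans (hs X K Acc hA) hA' n
    faith := fun X K Acc hA c c' h => by
      rw [hK₀]
      exact faithful (hs X K Acc hA) c c' h
    cert_sound := fun 𝒞 X K hE hK => (cert_sound X hE K hK).mono fun ω a _ =>
      Nat.le_mul_of_pos_left _ (by norm_num)
    cert := fun 𝒞 X 𝒦 K Acc hK𝒦 hA hA' hAcc hE hN hK =>
      ⟨cert_not_cst X 𝒦 K hK𝒦 hE hN hK, cert_not_cone X 𝒦 K hK𝒦 hE hN hK, by
        simp only [hK₀]
        exact cert_not_orbit X 𝒦 K hK𝒦 hE hN hK Acc K₀ (fun ω => hK₀ _ _ _) hA hA' hAcc⟩ }⟩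

end Crest.Agent.R185
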