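import Crest.Agent.R185.Higman

/-!
# Row 185: groups with solvable word problem embed in finitely presented ones
-/

set_option autoImplicit false

namespace Crest.Agent.R185

theorem exists_fp_over (G : Type*) [Group G] (k : ℕ) (s : Fin k → G)
    (hgen : Subgroup.closure (Set.range s) = ⊤)
    (hdec : ComputablePred fun w : List (Fin k × Bool) => FreeGroup.lift s (FreeGroup.mk w) = 1) :
    ∃ (ι : Type) (_ : Primcodable ι) (_ : Finite ι) (X : MG ι) (R : List (Word ι))
      (f : G →* X.G), Pres X {r | r ∈ R} ∧ Function.Injective f ∧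
      REPred fun w => X.ev w ≠ 1 := by
  let φ := FreeGroup.lift s
  have hφ : Function.Surjective φ := by
    rw [← MonoidHom.range_eq_top, FreeGroup.range_lift_eq_closure, hgen]
  let e := QuotientGroup.quotientKerEquivOfSurjective φ hφ
  let X : MG (Fin k) :=
    { G := FreeGroup (Fin k) ⧸ φ.ker
      gen := fun i => QuotientGroup.mk' _ (FreeGroup.of i)
      surj := fun g => by
        obtain ⟨x, rfl⟩ := QuotientGroup.mk'_surjective _ g
        induction x using Quot.inductionOn with
        | h w => exact ⟨w, by rw [← map_evW, evW_of]; rfl⟩ }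
  have hX : ∀ w, X.ev w = 1 ↔ φ (FreeGroup.mk w) = 1 := fun w => by
    have : X.ev w = QuotientGroup.mk' φ.ker (FreeGroup.mk w) := by
      rw [← evW_of, map_evW]
    rw [this]
    exact QuotientGroup.eq_one_iff _
  obtain ⟨ι', _, _, X', R, f, h1, h2, h3⟩ := higman X (hdec.to_re.of_eq fun w => (hX w).symm)
  exact ⟨ι', inferInstance, inferInstance, X', R, f.comp (e.symm : G →* X.G), h1,
    h2.comp e.symm.injective, h3 (hdec.not.to_re.of_eq fun w => (hX w).not.symm)⟩

end Crest.Agent.R185
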