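import Crest.Agent.R185.PhiRec
import Crest.Agent.R185.WPMain
import Crest.Agent.R185.Gad
import Crest.Agent.R185.Theta
import Crest.Agent.R185.Stretch

/-!
# Row 185: the main embedding theorem
-/

set_option autoImplicit false

namespace Crest.Agent.R185

theorem exists_simple_over (G : Type*) [Group G] (k : ℕ) (s : Fin k → G)
    (hgen : Subgroup.closure (Set.range s) = ⊤)
    (hdec : ComputablePred fun w : List (Fin k × Bool) => FreeGroup.lift s (FreeGroup.mk w) = 1) :
    ∃ (H : Type) (_ : Group H) (f : G →* H),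
      Group.IsFinitelyPresented H ∧ FPinf H ∧ IsSimpleGroup H ∧ Function.Injective f := by
  obtain ⟨ι, _, _, X, R, f, h1, h2, h3⟩ := exists_fp_over G k s hgen hdec
  obtain ⟨ιC, _, _, κ, ⟨P⟩⟩ := exists_gad (Fin 3)
  obtain ⟨Θ⟩ := exists_theta ιC
  obtain ⟨Mc⟩ := exists_mach Θ.ιV
  let s₀ : Setup₀ := { ιG := ι, G := X, RG := R, presG := h1, ιC := ιC, κP := κ, P := P, Θ := Θ
                       Mc := Mc }
  let c := 3 * (3 * (κ + 1)) * (Θ.κ + 1)
  obtain ⟨St⟩ := exists_stretch s₀.ι (4 * c * c + 18)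
  let s₁ : Setup := { s₀ with Λ := 4 * c * c + 18, St := St, hΛ := Nat.le_add_left _ _ }
  obtain ⟨H, _, g, h4, h5, h6, h7⟩ := s₁.exists_simple h3
    (Nat.lt_add_of_pos_right (k := 18) (by norm_num))
  exact ⟨H, inferInstance, g.comp f, h4, h5, h6, h7.comp h2⟩

end Crest.Agent.R185
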