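import Crest.Agent.R185.PhiTT
import Crest.Agent.R185.HNNCert

/-!
# Row 185: certificates in the groups `C` and `Θ`
-/

set_option autoImplicit false

namespace Crest.Agent.R185

theorem Cert.scale_zero {𝒞 : Ctx} {α : Type} [Primcodable α] {P : 𝒞.Ω → α → Prop} (c : ℕ)
    (h : Cert 𝒞 P fun _ _ => 0) : Cert (𝒞.scale c) P fun _ _ => 0 :=
  (Cert.scale_iff c).2 (h.mono fun _ _ _ => Nat.zero_le _)

theorem primrec_append' {α β : Type} [Primcodable α] [Primcodable β] {f g : α → List β}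
    (hf : Primrec f) (hg : Primrec g) : Primrec fun a => f a ++ g a :=
  Primrec.list_append.comp hf hg

/-- Graph-type subsets. -/
theorem cert_graph {𝒞 : Ctx} {β φ : Type} [Primcodable β] [Primcodable φ] {F : 𝒞.Ω → Type}
    (P₁ P₂ : ∀ ω, F ω → β → Prop) (e : ∀ ω, φ → F ω)
    (compat : ∀ ω x x' b, P₁ ω x b → P₁ ω x' b → P₂ ω x b → P₂ ω x' b)
    {ν : 𝒞.Ω → β → ℕ} {ν₃ : 𝒞.Ω → β × φ → ℕ} (h₁ : Cert 𝒞 (fun ω b => ∀ x, ¬ P₁ ω x b) ν)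
    (h₂ : Cert 𝒞 (fun ω (p : β × φ) => P₁ ω (e ω p.2) p.1) fun _ _ => 0)
    (h₃ : Cert 𝒞 (fun ω (p : β × φ) => ¬ P₂ ω (e ω p.2) p.1) ν₃)
    (hb : ∀ ω b x, P₁ ω x b → ∃ u, P₁ ω (e ω u) b ∧ ν₃ ω (b, u) ≤ ν ω b) :
    Cert 𝒞 (fun ω b => ∀ x, ¬ (P₁ ω x b ∧ P₂ ω x b)) ν := by
  have h4 : Cert 𝒞 (fun ω b => (∃ x, P₁ ω x b) ∧ ∀ x, ¬ (P₁ ω x b ∧ P₂ ω x b)) ν := by
    refine (h₂.and h₃).guess ?_ ?_
    · rintro ω b u ⟨h, h'⟩
      exact ⟨⟨_, h⟩, fun x hx => h' (compat ω _ _ b hx.1 h hx.2)⟩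
    · rintro ω b n _ hn ⟨⟨x, hx⟩, h⟩
      obtain ⟨u, h1, h2⟩ := hb ω b x hx
      exact ⟨u, ⟨h1, fun h' => h _ ⟨h1, h'⟩⟩, by simpa using h2.trans hn⟩
  refine h₁.either h4 (fun ω b h x hx => h x hx.1) (fun ω b h => h.2) fun ω b n _ hn h => ?_
  by_cases hx : ∃ x, P₁ ω x b
  · exact Or.inr ⟨⟨hx, h⟩, hn⟩
  · exact Or.inl ⟨fun x hx' => hx ⟨x, hx'⟩, hn⟩

namespace Setup
variable (s : Setup)

def cC : ℕ := 3 * (s.κP + 1)

def cT : ℕ := 3 * s.cC * (s.Θ.κ + 1)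

theorem cC_eq : s.cC - 1 + 1 = s.cC := by unfold cC; omega

section C
variable {𝒞 : Ctx} (X : 𝒞.Ω → MG s.ι)
  (hEq : Cert 𝒞 (fun ω w => (X ω).ev w = 1) fun _ _ => 0)
  (hN1 : Cert 𝒞 (fun ω w => (X ω).ev w ≠ 1) fun ω w => s.Λ * (X ω).wn ((X ω).ev w))
include hEq

theorem eqC : Cert 𝒞 (fun ω w => (s.C (X ω)).ev w = 1) fun _ _ => 0 :=
  s.P.cert_eq _ (s.St.cert_eq X hEq)

include hN1

theorem certB (𝒳 : ∀ ω, Set (X ω).G)
    (h : Cert 𝒞 (fun ω w => (X ω).ev w ∉ 𝒳 ω) fun ω w => 3 * (s.Λ * (X ω).wn ((X ω).ev w))) :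
    Cert 𝒞 (fun ω w => (s.St.obj (X ω)).ev w ∉ s.St.f (X ω) '' 𝒳 ω)
      fun ω w => 3 * (s.St.obj (X ω)).wn ((s.St.obj (X ω)).ev w) :=
  cert_not_image (fun ω => s.St.f (X ω)) s.St.σ (fun ω => s.St.f_gen _) (fun ω => s.St.inj _) 𝒳
    (ν := fun ω x => 3 * (s.Λ * (X ω).wn x)) (ν' := fun ω x => 3 * (s.St.obj (X ω)).wn x)
    (fun ω x => Nat.mul_le_mul_left _ (s.St.norm _ x)) (s.St.cert_eq X hEq)
    ((s.St.cert 𝒞 X hEq hN1).mono fun _ _ _ => Nat.mul_le_mul_right _ (by norm_num)) h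

theorem certC (𝒳 : ∀ ω, Set (X ω).G)
    (h : Cert 𝒞 (fun ω w => (X ω).ev w ∉ 𝒳 ω) fun ω w => 3 * (s.Λ * (X ω).wn ((X ω).ev w))) :
    Cert 𝒞 (fun ω w => (s.C (X ω)).ev w ∉ s.ιm (X ω) '' 𝒳 ω)
      fun ω w => s.cC * (s.C (X ω)).wn ((s.C (X ω)).ev w) := by
  have h1 := s.certB X hEq hN1 (fun _ => {1}) (hN1.mono fun _ _ _ => by omega)
  simp only [Set.image_singleton, map_one, Set.mem_singleton_iff] at h1
  have h2 := (Cert.scale_iff 2).1 (s.P.cert (𝒞.scale 2) (fun ω => s.St.obj (X ω))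
    ((s.St.cert_eq X hEq).scale_zero 2) ((Cert.scale_iff 2).2 (h1.mono fun _ _ _ => by simp)))
  have h3 := cert_not_image (fun ω => s.P.f (s.St.obj (X ω))) s.P.σ (fun ω => s.P.f_gen _)
    (fun ω => s.P.inj _) (fun ω => s.St.f (X ω) '' 𝒳 ω)
    (ν := fun ω x => 3 * (s.St.obj (X ω)).wn x) (ν' := fun ω x => s.cC * (s.C (X ω)).wn x)
    (fun ω x => Nat.mul_le_mul (by unfold cC; omega)
      (by have := s.P.norm _ x; rwa [one_mul] at this)) (s.eqC X hEq)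
    (h2.mono fun _ _ _ => by
      rw [← mul_assoc]; exact Nat.mul_le_mul_right _ (by unfold cC; omega))
    (s.certB X hEq hN1 𝒳 h)
  simp only [← Set.image_comp] at h3
  exact h3

theorem neC : Cert 𝒞 (fun ω w => (s.C (X ω)).ev w ≠ 1)
    fun ω w => s.cC * (s.C (X ω)).wn ((s.C (X ω)).ev w) := by
  have h1 := s.certC X hEq hN1 (fun _ => {1}) (hN1.mono fun _ _ _ => by omega)
  simp only [Set.image_singleton, map_one, Set.mem_singleton_iff] at h1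
  exact h1

theorem notKC (hNK : Cert 𝒞 (fun ω w => (X ω).ev w ∉ s.K (X ω))
      fun ω w => s.Λ * (X ω).wn ((X ω).ev w)) :
    Cert 𝒞 (fun ω w => (s.C (X ω)).ev w ∉ s.KC (X ω))
      fun ω w => s.cC * (s.C (X ω)).wn ((s.C (X ω)).ev w) := by
  have h1 := s.certC X hEq hN1 (fun ω => s.K (X ω)) (hNK.mono fun _ _ _ => by omega)
  simp only [KC_eq]
  exact h1

theorem cert_sound (hNK : Cert 𝒞 (fun ω w => (X ω).ev w ∉ s.K (X ω))
      fun ω w => s.Λ * (X ω).wn ((X ω).ev w)) :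
    Cert 𝒞 (fun ω x => s.Θ.Sound (s.C (X ω)) (s.KC (X ω)) ((s.Θ.V (s.C (X ω))).ev x))
      fun ω x => s.cT * s.Θ.νV (s.C (X ω)) ((s.Θ.V (s.C (X ω))).ev x) := by
  have := (Cert.scale_iff (s.cC - 1)).1 (s.Θ.cert_sound (𝒞.scale (s.cC - 1))
    (fun ω => s.C (X ω)) (fun ω => s.KC (X ω)) ((s.eqC X hEq).scale_zero _)
    ((Cert.scale_iff _).2 ((s.notKC X hEq hN1 hNK).mono fun _ _ _ => by rw [cC_eq])))
  refine this.mono fun _ _ _ => ?_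
  rw [cC_eq, ← mul_assoc]
  exact Nat.mul_le_mul_right _ (by unfold cT; nlinarith)

omit hN1 in
/-- Enumeration of the marked free subgroup. -/
theorem certF (A : ∀ ω, Subgroup (X ω).G)
    (hA : Cert 𝒞 (fun ω w => (X ω).ev w ∉ A ω) fun ω w => s.Λ * (X ω).wn ((X ω).ev w))
    (hb : ∀ ω x u, x⁻¹ * s.m (X ω) u ∈ A ω →
      ∃ u', x⁻¹ * s.m (X ω) u' ∈ A ω ∧ u'.norm ≤ 2 * (X ω).wn x) :
    Cert 𝒞 (fun ω w => (X ω).ev w ∉ {x | ∃ u, x⁻¹ * s.m (X ω) u ∈ A ω})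
      fun ω w => 3 * (s.Λ * (X ω).wn ((X ω).ev w)) := by
  obtain ⟨g, hg, hg'⟩ := exists_allWords (ι := Bool)
  have h1 := (hA.comp (f := fun p : Word s.ι × Word Bool =>
    p.1.inv ++ ren .inl (ren s.lF p.2)) (primrec_append' (primrec_inv.comp .fst)
      ((primrec_ren (Primrec.dom_finite _)).comp ((primrec_ren (Primrec.dom_finite _)).comp .snd))).to_comp
    ).forall_mem (g := fun w => g (2 * w.length))
    (hg.comp (Primrec.nat_mul.comp (.const 2) Primrec.list_length)).to_comp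
    (ν' := fun _ w => 3 * (s.Λ * w.length)) (fun ω w _ u hu => by
      have := (X ω).wn_le (w.inv ++ ren .inl (ren s.lF u))
      have h2 := (hg' _ _).1 hu
      simp only [List.length_append, ren, List.length_map, FreeGroup.invRev_length] at this
      rw [mul_left_comm]
      exact Nat.mul_le_mul_left _ (by simp only [ren]; omega))
  refine ((cert_eq₂ X hEq).and (h1.comp Computable.snd)).guess ?_ ?_
  · rintro ω w w' ⟨e, h⟩ ⟨u, hu⟩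
    obtain ⟨u', h2, h3⟩ := hb ω _ u hu
    simp only at e h
    refine h u'.toWord ((hg' _ _).2 ?_) ?_
    · rw [e] at h3
      have := (X ω).wn_le w'
      exact h3.trans (by omega)
    · rw [MG.ev, evW_append, evW_inv, ← MG.ev, ← MG.ev, ← m_mk, FreeGroup.mk_toWord, ← e]
      exact h2
  · intro ω w n _ hn h
    obtain ⟨w', e, hw'⟩ := (X ω).exists_wn ((X ω).ev w)
    refine ⟨w', ⟨e.symm, fun u _ hu => h ⟨FreeGroup.mk u, ?_⟩⟩, by simpa [hw'] using hn⟩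
    rwa [MG.ev, evW_append, evW_inv, ← MG.ev, ← MG.ev, ← m_mk, e] at hu

end C

end Setup

end Crest.Agent.R185
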