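import Crest.Agent.R185.PhiCertA

/-!
# Row 185: certificates in the group `Γ`
-/

set_option autoImplicit false

namespace Crest.Agent.R185

section
variable {𝒞 : Ctx} {α β γ : Type} [Primcodable α] [Primcodable β] [Primcodable γ]

theorem Cert.of_iff {P Q : 𝒞.Ω → α → Prop} {ν ν' : 𝒞.Ω → α → ℕ} (h : Cert 𝒞 Q ν)
    (e : ∀ ω a, Q ω a ↔ P ω a) (hν : ∀ ω a, ν ω a ≤ ν' ω a) : Cert 𝒞 P ν' :=
  h.congr (fun ω a => (e ω a).1) fun ω a _ _ hn hP => ⟨(e ω a).2 hP, (hν ω a).trans hn⟩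

theorem Cert.par {j : 𝒞.Ω → γ} (hj : Cert 𝒞 (fun ω c => c = j ω) fun _ _ => 0)
    {Q : 𝒞.Ω → β → Prop} (hQ : Cert 𝒞 Q fun _ _ => 0) {f : γ × α → β} (hf : Computable f) :
    Cert 𝒞 (fun ω a => Q ω (f (j ω, a))) fun _ _ => 0 := by
  refine ((hj.comp Computable.snd).and (hQ.comp (f := fun p : α × γ => f (p.2, p.1))
    (hf.comp (Computable.snd.pair .fst)))).guess ?_ ?_
  · rintro ω a c ⟨rfl, h⟩
    exact h
  · intro ω a n _ _ h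
    exact ⟨j ω, ⟨rfl, h⟩, by simp⟩

theorem Cert.not4 {A B C D : 𝒞.Ω → α → Prop} {ν : 𝒞.Ω → α → ℕ}
    (hA : Cert 𝒞 (fun ω a => ¬ A ω a) ν) (hB : Cert 𝒞 (fun ω a => ¬ B ω a) fun _ _ => 0)
    (hC : Cert 𝒞 (fun ω a => ¬ C ω a) fun _ _ => 0)
    (hD : Cert 𝒞 (fun ω a => ¬ D ω a) fun _ _ => 0) :
    Cert 𝒞 (fun ω a => ¬ (A ω a ∧ B ω a ∧ C ω a ∧ D ω a)) ν :=
  (hA.or (hB.or (hC.or hD))).of_iff (fun _ _ => by tauto) fun _ _ => by simp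

theorem Cert.not3 {A B C : 𝒞.Ω → α → Prop} {ν : 𝒞.Ω → α → ℕ}
    (hA : Cert 𝒞 (fun ω a => ¬ A ω a) ν) (hB : Cert 𝒞 (fun ω a => ¬ B ω a) fun _ _ => 0)
    (hC : Cert 𝒞 (fun ω a => ¬ C ω a) fun _ _ => 0) :
    Cert 𝒞 (fun ω a => ¬ (A ω a ∧ B ω a ∧ C ω a)) ν :=
  (hA.or (hB.or hC)).of_iff (fun _ _ => by tauto) fun _ _ => by simp

end

theorem inv_mul_mem_trans {G : Type} [Group G] {A : Subgroup G} {x y z : G} (h : x⁻¹ * z ∈ A)
    (h' : y⁻¹ * z ∈ A) : x⁻¹ * y ∈ A := by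
  simpa [mul_assoc] using mul_mem h (inv_mem h')

theorem inv_mul_mem_of {G : Type} [Group G] {A : Subgroup G} {x y z : G} (h : x⁻¹ * y ∈ A)
    (h' : y⁻¹ * z ∈ A) : x⁻¹ * z ∈ A := by
  simpa [mul_assoc] using mul_mem h h'

theorem inv_mul_mem_symm {G : Type} [Group G] {A : Subgroup G} {x y : G} (h : x⁻¹ * y ∈ A) :
    y⁻¹ * x ∈ A := by
  simpa using inv_mem h

theorem ev_inv_append {ι : Type} (X : MG ι) (v w : Word ι) :
    X.ev (v.inv ++ w) = (X.ev v)⁻¹ * X.ev w := by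
  rw [MG.ev, evW_append, evW_inv]

namespace Setup
variable (s : Setup)

def pT (w : Word s.ιΓ) : Word s.Θ.ιT := lft w
def pW (w : Word s.ιΓ) : Word s.Mc.ιW := lft (rgt w)
def pF (w : Word s.ιΓ) : Word Bool := lft (rgt (rgt w))
def pG (w : Word s.ιΓ) : Word s.ιG := rgt (rgt (rgt w))

theorem pr_T : Primrec s.pT := primrec_lft
theorem pr_W : Primrec s.pW := primrec_lft.comp primrec_rgt
theorem pr_F : Primrec s.pF := primrec_lft.comp (primrec_rgt.comp primrec_rgt)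
theorem pr_G : Primrec s.pG := primrec_rgt.comp (primrec_rgt.comp primrec_rgt)

theorem Γ_ev (X : MG s.ι) (w : Word s.ιΓ) : (s.Γ X).ev w =
    ((s.T X).ev (s.pT w), s.Mc.W.ev (s.pW w), FreeGroup.mk (s.pF w), s.G.ev (s.pG w)) := by
  refine (MG.prod_ev _ _ w).trans ?_
  rw [MG.prod_ev, MG.prod_ev, MG.free_ev]
  rfl

/-- The element of `Fh` given by a word. -/
def eH (u : Word s.Mc.ιH) : s.Mc.Fh := evW (fun i => (⟨_, s.hw_mem i⟩ : s.Mc.Fh)) u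

theorem coe_eH (u : Word s.Mc.ιH) : (s.eH u : s.Mc.W.G) = s.Mc.W.ev (subst s.Mc.hw u) := by
  rw [MG.ev, evW_subst]
  exact map_evW s.Mc.Fh.subtype _ u

theorem π_eH (u : Word s.Mc.ιH) : s.Mc.π (s.eH u) = FreeGroup.mk (subst s.Mc.πw u) := by
  rw [eH, map_evW, ← evW_of, evW_subst]
  simp only [s.Mc.π_gen, evW_of]

theorem shiftB_mk (u : Word Bool) : shiftB (FreeGroup.mk u) = FreeGroup.mk (subst βw u) := by
  rw [← evW_of, map_evW, ← evW_of, evW_subst]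
  simp only [shiftB_of, evW_of]

theorem σj_mk (j : Nat.Partrec.Code) (u : Word Bool) : s.σj j (FreeGroup.mk u) =
    s.Mc.W.ev (subst (fun b => bif b then s.Mc.start j else s.Mc.z) u) := by
  rw [MG.ev, evW_subst]; rfl

theorem computable_σj : Computable fun p : Nat.Partrec.Code × Word Bool =>
    subst (fun b => bif b then s.Mc.start p.1 else s.Mc.z) p.2 :=
  (primrec_subst₂ (σ := fun (st : Word s.Mc.ιW) (b : Bool) => bif b then st else s.Mc.z)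
    (Primrec.cond Primrec.snd Primrec.fst (Primrec.const _)).to₂).to_comp.comp
    (s.Mc.start_comp.comp .fst) .snd

/-- The two kinds of negative facts are treated simultaneously. -/
structure Mode (𝒞 : Ctx) (j : 𝒞.Ω → Nat.Partrec.Code) (X : 𝒞.Ω → MG s.ι) where
  AT : ∀ ω, Subgroup (s.T (X ω)).G
  AW : 𝒞.Ω → Subgroup s.Mc.W.G
  AF : 𝒞.Ω → Subgroup (FreeGroup Bool)
  nT : Cert 𝒞 (fun ω w => (s.T (X ω)).ev w ∉ AT ω)
    fun ω w => s.cT * s.νT (X ω) ((s.T (X ω)).ev w)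
  mT : Cert 𝒞 (fun ω w => (s.T (X ω)).ev w ∈ AT ω) fun _ _ => 0
  nα : Cert 𝒞 (fun ω w => ∀ u, (s.α (X ω) u)⁻¹ * (s.T (X ω)).ev w ∉ AT ω)
    fun ω w => s.cT * s.νT (X ω) ((s.T (X ω)).ev w)
  nW : Cert 𝒞 (fun ω w => s.Mc.W.ev w ∉ AW ω) fun _ _ => 0
  mW : Cert 𝒞 (fun ω w => s.Mc.W.ev w ∈ AW ω) fun _ _ => 0
  nFh : Cert 𝒞 (fun ω w => ∀ f : s.Mc.Fh, (f : s.Mc.W.G)⁻¹ * s.Mc.W.ev w ∉ AW ω) fun _ _ => 0
  nF : Cert 𝒞 (fun ω w => FreeGroup.mk w ∉ AF ω) fun _ _ => 0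
  cπ : ∀ ω (f : s.Mc.Fh), (f : s.Mc.W.G) ∈ AW ω → s.πT (X ω) (s.Mc.π f) ∈ AT ω
  cβ : ∀ ω u, s.α (X ω) u ∈ AT ω → shiftB u ∈ AF ω
  cσ : ∀ ω u, s.α (X ω) u ∈ AT ω → s.σj (j ω) u ∈ AW ω
  dep : ∀ ω γ (f : s.Mc.Fh), γ⁻¹ * (f : s.Mc.W.G) ∈ AW ω →
    ∃ f' : s.Mc.Fh, γ⁻¹ * (f' : s.Mc.W.G) ∈ AW ω ∧ Dep (s.Mc.π f') (s.Mc.ν γ)

theorem νT_le (X : MG s.ι) (w : Word s.ιΓ) :
    s.cT * s.νT X ((s.T X).ev (s.pT w)) ≤ 2 * s.cT * s.νΓ X ((s.Γ X).ev w) := by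
  rw [Γ_ev, νΓ_mk]
  exact Nat.mul_le_mul (by omega) (le_max_left _ _)

namespace Mode
variable {s} {𝒞 : Ctx} {j : 𝒞.Ω → Nat.Partrec.Code} {X : 𝒞.Ω → MG s.ι} (M : s.Mode 𝒞 j X)

def A (ω : 𝒞.Ω) : Subgroup (s.Γ (X ω)).G :=
  (M.AT ω).prod ((M.AW ω).prod ((M.AF ω).prod (⊥ : Subgroup s.G.G)))

theorem mem_A {ω : 𝒞.Ω} (a : (s.T (X ω)).G) (b : s.Mc.W.G) (c : FreeGroup Bool)
    (w : Word s.ιΓ) : ((a, b, c, 1) : (s.Γ (X ω)).G)⁻¹ * (s.Γ (X ω)).ev w ∈ M.A ω ↔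
      a⁻¹ * (s.T (X ω)).ev (s.pT w) ∈ M.AT ω ∧ b⁻¹ * s.Mc.W.ev (s.pW w) ∈ M.AW ω ∧
      c⁻¹ * FreeGroup.mk (s.pF w) ∈ M.AF ω ∧ s.G.ev (s.pG w) = 1 := by
  rw [Γ_ev]
  refine and_congr_right' (and_congr_right' (and_congr_right' ?_))
  change 1⁻¹ * s.G.ev (s.pG w) = 1 ↔ _
  rw [inv_one, one_mul]

variable (hG : REPred fun w => s.G.ev w ≠ 1)
include hG

theorem nG : Cert 𝒞 (fun _ w => ¬ s.G.ev (s.pG w) = 1) fun _ _ => 0 :=
  (Cert.of_re hG fun _ _ => 0).comp s.pr_G.to_comp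

theorem base : Cert 𝒞 (fun ω w => (s.Γ (X ω)).ev w ∉ M.A ω)
    fun ω w => 2 * s.cT * s.νΓ (X ω) ((s.Γ (X ω)).ev w) := by
  refine ((M.nT.comp s.pr_T.to_comp).not4 (M.nW.comp s.pr_W.to_comp) (M.nF.comp s.pr_F.to_comp)
    (nG hG)).of_iff (fun ω w => not_congr ?_) fun ω w => s.νT_le _ w
  rw [Γ_ev]; rfl

theorem one_edge {F : 𝒞.Ω → Type} (e : ∀ ω, F ω → (s.T (X ω)).G)
    (h : Cert 𝒞 (fun ω w => ∀ u, (e ω u)⁻¹ * (s.T (X ω)).ev w ∉ M.AT ω)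
      fun ω w => s.cT * s.νT (X ω) ((s.T (X ω)).ev w)) :
    Cert 𝒞 (fun ω w => ∀ u, ((e ω u, 1, 1, 1) : (s.Γ (X ω)).G)⁻¹ * (s.Γ (X ω)).ev w ∉ M.A ω)
      fun ω w => 2 * s.cT * s.νΓ (X ω) ((s.Γ (X ω)).ev w) := by
  refine (Cert.not4 (A := fun ω w => ∃ u, (e ω u)⁻¹ * (s.T (X ω)).ev (s.pT w) ∈ M.AT ω)
    ((h.comp s.pr_T.to_comp).of_iff (fun _ _ => not_exists.symm) fun _ _ => le_rfl)
    (M.nW.comp s.pr_W.to_comp) (M.nF.comp s.pr_F.to_comp)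
    (nG hG)).of_iff (fun ω w => ?_) fun ω w => s.νT_le _ w
  simp only [← exists_and_right, not_exists]
  refine forall_congr' fun f => not_congr (Iff.trans ?_ (M.mem_A ..).symm)
  simp only [inv_one, one_mul]

theorem p_true : Cert 𝒞 (fun ω w => ∀ f : s.Mc.Fh,
      ((1, (f : s.Mc.W.G), 1, 1) : (s.Γ (X ω)).G)⁻¹ * (s.Γ (X ω)).ev w ∉ M.A ω)
    fun ω w => 2 * s.cT * s.νΓ (X ω) ((s.Γ (X ω)).ev w) := by
  refine (Cert.not4 (M.nT.comp s.pr_T.to_comp)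
    (B := fun ω w => ∃ f : s.Mc.Fh, (f : s.Mc.W.G)⁻¹ * s.Mc.W.ev (s.pW w) ∈ M.AW ω)
    ((M.nFh.comp s.pr_W.to_comp).of_iff (fun _ _ => not_exists.symm) fun _ _ => le_rfl)
    (M.nF.comp s.pr_F.to_comp) (nG hG)).of_iff (fun ω w => ?_) fun ω w => s.νT_le _ w
  simp only [← exists_and_right, ← exists_and_left, not_exists]
  refine forall_congr' fun f => not_congr (Iff.trans ?_ (M.mem_A ..).symm)
  simp only [inv_one, one_mul]

theorem p_false : Cert 𝒞 (fun ω w => ∀ f : s.Mc.Fh,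
      ((s.πT (X ω) (s.Mc.π f), (f : s.Mc.W.G), 1, 1) : (s.Γ (X ω)).G)⁻¹ * (s.Γ (X ω)).ev w ∉ M.A ω)
    fun ω w => 2 * s.cT * s.νΓ (X ω) ((s.Γ (X ω)).ev w) := by
  have h := cert_graph (𝒞 := 𝒞) (F := fun _ => s.Mc.Fh)
    (fun ω f w => (f : s.Mc.W.G)⁻¹ * s.Mc.W.ev (s.pW w) ∈ M.AW ω)
    (fun ω f w => (s.πT (X ω) (s.Mc.π f))⁻¹ * (s.T (X ω)).ev (s.pT w) ∈ M.AT ω) (fun _ => s.eH)
    (fun ω f f' w h1 h2 h3 => by
      have := M.cπ ω (f'⁻¹ * f) (inv_mul_mem_trans h2 h1)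
      rw [map_mul, map_mul, map_inv, map_inv] at this
      exact inv_mul_mem_of this h3)
    (ν := fun ω w => 2 * s.cT * s.νΓ (X ω) ((s.Γ (X ω)).ev w))
    (ν₃ := fun ω p => s.cT * s.νT (X ω)
      ((s.πT (X ω) (s.Mc.π (s.eH p.2)))⁻¹ * (s.T (X ω)).ev (s.pT p.1)))
    ((M.nFh.comp s.pr_W.to_comp).mono fun _ _ _ => Nat.zero_le _)
    ((M.mW.comp (f := fun p : Word s.ιΓ × Word s.Mc.ιH => (subst s.Mc.hw p.2).inv ++ s.pW p.1)
      (primrec_append' (primrec_inv.comp ((primrec_subst _).comp .snd))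
        (s.pr_W.comp .fst)).to_comp).of_iff (fun ω p => by rw [ev_inv_append, coe_eH])
      fun _ _ => le_rfl)
    ((M.nT.comp (f := fun p : Word s.ιΓ × Word s.Mc.ιH =>
      (subst s.σπ (subst s.Mc.πw p.2)).inv ++ s.pT p.1)
      (primrec_append' (primrec_inv.comp ((primrec_subst _).comp ((primrec_subst _).comp .snd)))
        (s.pr_T.comp .fst)).to_comp).of_iff (fun ω p => by rw [ev_inv_append, π_eH, πT_mk])
      fun ω p => by rw [ev_inv_append, π_eH, πT_mk])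
    (fun ω w f hf => by
      obtain ⟨f', h1, h2⟩ := M.dep ω _ f (inv_mul_mem_symm hf)
      obtain ⟨u, rfl⟩ := s.exists_hw f'
      refine ⟨u, inv_mul_mem_symm h1, ?_⟩
      have h3 := s.νT_πT (X := X ω) h2
      have h4 : IsSN (s.νT (X ω)) := s.Θ.ν_sn _ _
      have h5 := h4.mul (s.πT (X ω) (s.Mc.π (s.eH u)))⁻¹ ((s.T (X ω)).ev (s.pT w))
      rw [h4.inv] at h5
      rw [Γ_ev, νΓ_mk, mul_comm 2, mul_assoc]
      refine Nat.mul_le_mul_left _ ?_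
      simp only [eH] at h5 ⊢
      omega)
  refine (Cert.not3 (A := fun ω w => ∃ f : s.Mc.Fh,
    (f : s.Mc.W.G)⁻¹ * s.Mc.W.ev (s.pW w) ∈ M.AW ω ∧
      (s.πT (X ω) (s.Mc.π f))⁻¹ * (s.T (X ω)).ev (s.pT w) ∈ M.AT ω)
    (h.of_iff (fun _ _ => not_exists.symm) fun _ _ => le_rfl)
    (M.nF.comp s.pr_F.to_comp) (nG hG)).of_iff (fun ω w => ?_) fun ω w => le_rfl
  simp only [← exists_and_right, not_exists]
  refine forall_congr' fun f => not_congr (Iff.trans ?_ (M.mem_A ..).symm)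
  simp only [inv_one, one_mul]
  tauto

omit hG in
theorem clock_graph {G : Type} [Group G] (e : 𝒞.Ω → FreeGroup Bool →* G) (A : 𝒞.Ω → Subgroup G)
    (g : Word s.ιΓ → G) (c : ∀ ω u, s.α (X ω) u ∈ M.AT ω → e ω u ∈ A ω)
    (h : Cert 𝒞 (fun ω (p : Word s.ιΓ × Word Bool) => (e ω (FreeGroup.mk p.2))⁻¹ * g p.1 ∉ A ω)
      fun _ _ => 0) :
    Cert 𝒞 (fun ω w => ¬ ∃ u, (s.α (X ω) u)⁻¹ * (s.T (X ω)).ev (s.pT w) ∈ M.AT ω ∧
        (e ω u)⁻¹ * g w ∈ A ω) fun ω w => 2 * s.cT * s.νΓ (X ω) ((s.Γ (X ω)).ev w) :=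
  (cert_graph (𝒞 := 𝒞) (F := fun _ => FreeGroup Bool)
    (fun ω u w => (s.α (X ω) u)⁻¹ * (s.T (X ω)).ev (s.pT w) ∈ M.AT ω)
    (fun ω u w => (e ω u)⁻¹ * g w ∈ A ω) (fun _ => FreeGroup.mk)
    (fun ω u u' w h1 h2 h3 => by
      have := c ω (u'⁻¹ * u) (by rw [map_mul, map_inv]; exact inv_mul_mem_trans h2 h1)
      rw [map_mul, map_inv] at this
      exact inv_mul_mem_of this h3)
    (M.nα.comp s.pr_T.to_comp)
    ((M.mT.comp (f := fun p : Word s.ιΓ × Word Bool => (subst s.αw p.2).inv ++ s.pT p.1)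
      (primrec_append' (primrec_inv.comp ((primrec_subst _).comp .snd))
        (s.pr_T.comp .fst)).to_comp).of_iff (fun ω p => by rw [ev_inv_append, α_mk])
      fun _ _ => le_rfl) h
    (fun ω w u hu => ⟨u.toWord, by rwa [FreeGroup.mk_toWord], Nat.zero_le _⟩)).of_iff
    (fun _ _ => not_exists.symm) fun ω w => s.νT_le _ w

theorem shift_false : Cert 𝒞 (fun ω w => ∀ u,
      ((s.α (X ω) u, 1, shiftB u, 1) : (s.Γ (X ω)).G)⁻¹ * (s.Γ (X ω)).ev w ∉ M.A ω)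
    fun ω w => 2 * s.cT * s.νΓ (X ω) ((s.Γ (X ω)).ev w) := by
  have h := M.clock_graph (fun _ => shiftB) M.AF (fun w => FreeGroup.mk (s.pF w)) M.cβ
    ((M.nF.comp (f := fun p : Word s.ιΓ × Word Bool => (subst βw p.2).inv ++ s.pF p.1)
      (primrec_append' (primrec_inv.comp ((primrec_subst _).comp .snd))
        (s.pr_F.comp .fst)).to_comp).of_iff (fun ω p => by
          rw [shiftB_mk, FreeGroup.inv_mk, FreeGroup.mul_mk]) fun _ _ => le_rfl)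
  refine (h.not3 (M.nW.comp s.pr_W.to_comp) (nG hG)).of_iff (fun ω w => ?_) fun ω w => le_rfl
  simp only [← exists_and_right, not_exists]
  refine forall_congr' fun f => not_congr (Iff.trans ?_ (M.mem_A ..).symm)
  simp only [inv_one, one_mul]
  tauto

theorem start_false (hj : Cert 𝒞 (fun ω c => c = j ω) fun _ _ => 0) : Cert 𝒞 (fun ω w => ∀ u,
      ((s.α (X ω) u, s.σj (j ω) u, 1, 1) : (s.Γ (X ω)).G)⁻¹ * (s.Γ (X ω)).ev w ∉ M.A ω)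
    fun ω w => 2 * s.cT * s.νΓ (X ω) ((s.Γ (X ω)).ev w) := by
  have h1 : Computable fun p : Nat.Partrec.Code × Word s.ιΓ × Word Bool =>
      subst (fun b => bif b then s.Mc.start p.1 else s.Mc.z) p.2.2 :=
    s.computable_σj.comp (g := fun p : Nat.Partrec.Code × Word s.ιΓ × Word Bool => (p.1, p.2.2))
      (Computable.fst.pair (Computable.snd.comp .snd))
  have h2 : Computable fun p : Nat.Partrec.Code × Word s.ιΓ × Word Bool =>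
      (subst (fun b => bif b then s.Mc.start p.1 else s.Mc.z) p.2.2).inv ++ s.pW p.2.1 :=
    Primrec.list_append.to_comp.comp (primrec_inv.to_comp.comp h1)
      (s.pr_W.comp (Primrec.fst.comp .snd)).to_comp
  have h := M.clock_graph (fun ω => s.σj (j ω)) M.AW (fun w => s.Mc.W.ev (s.pW w)) M.cσ
    ((hj.par M.nW h2).of_iff (fun ω p => by rw [ev_inv_append, σj_mk]) fun _ _ => le_rfl)
  refine (h.not3 (M.nF.comp s.pr_F.to_comp) (nG hG)).of_iff (fun ω w => ?_) fun ω w => le_rfl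
  simp only [← exists_and_right, not_exists]
  refine forall_congr' fun f => not_congr (Iff.trans ?_ (M.mem_A ..).symm)
  simp only [inv_one, one_mul]
  tauto

theorem edge (hj : Cert 𝒞 (fun ω c => c = j ω) fun _ _ => 0) (k : Option Bool) (b : Bool) :
    Cert 𝒞 (fun ω w => ∀ f, (s.Da (j ω) (X ω) (some k) b f)⁻¹ * (s.Γ (X ω)).ev w ∉ M.A ω)
      fun ω w => 2 * s.cT * s.νΓ (X ω) ((s.Γ (X ω)).ev w) := by
  rcases k with _ | _ | _ <;> rcases b with _ | _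
  exacts [M.p_false hG, M.p_true hG, M.shift_false hG, M.one_edge hG _ M.nα, M.start_false hG hj,
    M.one_edge hG _ M.nα]

end Mode

end Setup

end Crest.Agent.R185
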