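import Crest.Agent.R185.PhiCertB

/-!
# Row 185: certificates in the group `Φ`
-/

set_option autoImplicit false

namespace Crest.Agent.R185

theorem cert_finite {𝒞 : Ctx} {ι : Type} [Primcodable ι] {T : Set (Word ι)} (h : T.Finite) :
    Cert 𝒞 (fun _ r => r ∈ T) fun _ _ => 0 :=
  (cert_list h.toFinset.toList).of_iff (fun _ _ => by simp) fun _ _ => le_rfl

theorem cert_eq' {𝒞 : Ctx} {α : Type} [Primcodable α] :
    Cert 𝒞 (fun _ (p : α × α) => p.1 = p.2) fun _ _ => 0 := by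
  classical
  exact Cert.of_re (re_of_primrecPred (Primrec.eq.comp .fst .snd)) _

theorem re_halts {Y : Type} [Primcodable Y] :
    REPred fun p : Nat.Partrec.Code × Word Y × ℕ => halts p.1 p.2.1 p.2.2 :=
  (Nat.Partrec.Code.eval_part.comp Computable.fst (Computable.encode.comp Computable.snd)).dom_re

/-- The word `z⁻ᴹ τ zᴹ`. -/
def cw (M : ℕ) : Word Bool :=
  Word.inv ((List.range M).map fun _ => (false, true)) ++ [(true, true)] ++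
    (List.range M).map fun _ => (false, true)

theorem primrec_cw : Primrec cw := by
  have h : Primrec fun M : ℕ => (List.range M).map fun _ => (false, true) :=
    Primrec.list_map Primrec.list_range (Primrec.const _).to₂
  exact primrec_append' (primrec_append' (primrec_inv.comp h) (.const _)) h

theorem mk_cw (M : ℕ) : FreeGroup.mk (cw M) =
    (FreeGroup.of false ^ M)⁻¹ * FreeGroup.of true * FreeGroup.of false ^ M := by
  have h : ∀ M, FreeGroup.mk ((List.range M).map fun _ => (false, true)) =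
      FreeGroup.of false ^ M := fun M => by
    induction M with
    | zero => rfl
    | succ M ih => rw [List.range_succ, List.map_append, ← FreeGroup.mul_mk, ih, pow_succ]; rfl
  rw [cw, ← FreeGroup.mul_mk, ← FreeGroup.mul_mk, ← FreeGroup.inv_mk, h]; rfl

namespace Setup
variable (s : Setup)

theorem primrec_rjC : Primrec s.rj :=
  primrec_append' (f := fun _ => [(Sum.inr (some (some true)), true)] ++
      ren Sum.inl (ren s.lT (s.αw true)) ++ [(Sum.inr (some (some true)), false)]) (.const _)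
    (primrec_inv.comp ((primrec_ren (Primrec.dom_finite _)).comp
    (primrec_append' (f := fun _ => ren s.lT (s.αw true)) (.const _)
      (primrec_ren (Primrec.dom_finite _)))))

theorem cT_le : s.cC * s.Θ.κ ≤ s.cT := by unfold cT; nlinarith

theorem cT_le' : s.cC * 3 ≤ s.cT := by unfold cT; nlinarith

/-- The hypotheses on a context. -/
structure CH (𝒞 : Ctx) (j : 𝒞.Ω → Nat.Partrec.Code) (X : 𝒞.Ω → MG s.ι) (S : 𝒞.Ω → Set ℕ) :
    Prop where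
  wf : ∀ ω, s.WF (X ω) (S ω)
  snd : ∀ ω, s.Snd (j ω) (X ω) (S ω)
  hG : REPred fun w => s.G.ev w ≠ 1
  hEq : Cert 𝒞 (fun ω w => (X ω).ev w = 1) fun _ _ => 0
  hN1 : Cert 𝒞 (fun ω w => (X ω).ev w ≠ 1) fun ω w => s.Λ * (X ω).wn ((X ω).ev w)
  hNK : Cert 𝒞 (fun ω w => (X ω).ev w ∉ s.K (X ω)) fun ω w => s.Λ * (X ω).wn ((X ω).ev w)
  hj : Cert 𝒞 (fun ω c => c = j ω) fun _ _ => 0
  hS : Cert 𝒞 (fun ω M => M ∈ S ω) fun _ _ => 0
  lim_S : ∀ ω n, 𝒞.lim ω n → S ω = Set.univ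
  lim_acc : ∀ ω n, 𝒞.lim ω n → ∀ a, s.Θ.νV (s.C (X ω)) a ≤ n →
    s.Θ.Sound (s.C (X ω)) (s.KC (X ω)) a →
      ∃ x ∈ s.Acc (j ω) (S ω), (s.Θ.V (s.C (X ω))).ev x = a

namespace CH
variable {s} {𝒞 : Ctx} {j : 𝒞.Ω → Nat.Partrec.Code} {X : 𝒞.Ω → MG s.ι} {S : 𝒞.Ω → Set ℕ}
  (H : s.CH 𝒞 j X S)
include H

theorem acc : Cert 𝒞 (fun ω x => x ∈ s.Acc (j ω) (S ω)) fun _ _ => 0 := by
  have h1 : Computable fun p : Nat.Partrec.Code × Word s.Θ.ιV × ℕ => (p.1, p.2.1, s.Mc.dec p.2.2) :=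
    Computable.fst.pair ((Computable.fst.comp .snd).pair
      (s.Mc.dec_comp.comp (Computable.snd.comp .snd)))
  refine ((H.hS.comp Computable.snd).and (H.hj.par (Cert.of_re re_halts _) h1)).guess
    (fun ω x M h => ⟨M, h⟩) fun ω x n _ _ ⟨M, h⟩ => ⟨M, h, by simp⟩

theorem eqT : Cert 𝒞 (fun ω w => (s.T (X ω)).ev w = 1) fun _ _ => 0 := by
  refine cert_eq_of_pres (fun ω => s.T (X ω)) _ (fun ω => s.Θ.pres _ _)
    (cert_union (cert_union (cert_list _) (cert_image (T := fun ω => (s.C (X ω)).rel)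
      (s.eqC X H.hEq) (primrec_subst _).to_comp)) (cert_finite ?_))
  exact ((List.finite_toSet s.𝒦C).image fun k =>
    s.Θ.g ++ subst s.Θ.σc k ++ s.Θ.g.inv ++ (subst s.Θ.σc k).inv).subset
    (by rintro _ ⟨k, hk, rfl⟩; exact ⟨k, hk, rfl⟩)

theorem memKT : Cert 𝒞 (fun ω w => (s.T (X ω)).ev w ∈ s.KT (j ω) (X ω) (S ω)) fun _ _ => 0 := by
  refine cert_mem_sub (fun ω => s.T (X ω)) _ H.eqT (cert_union (cert_list _) ?_)
  refine (cert_image H.acc (f := fun x => (subst s.Θ.σx x).inv ++ s.Θ.J ++ subst s.Θ.σx x)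
    (primrec_append' (primrec_append' (primrec_inv.comp (primrec_subst _)) (.const _))
      (primrec_subst _)).to_comp).of_iff (fun _ _ => ?_) fun _ _ => le_rfl
  simp only [Set.mem_image, Set.mem_ofPred_eq, eq_comm]

theorem certΘ : Cert 𝒞 (fun ω w => (s.T (X ω)).ev w ∉ (s.Δ (X ω)).range)
      (fun ω w => s.cT * s.νT (X ω) ((s.T (X ω)).ev w)) ∧
    Cert 𝒞 (fun ω w => (s.T (X ω)).ev w ∉ (s.cone (X ω)).range)
      (fun ω w => s.cT * s.νT (X ω) ((s.T (X ω)).ev w)) ∧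
    Cert 𝒞 (fun ω w => ∀ c, (s.Δ (X ω) c)⁻¹ * (s.T (X ω)).ev w ∉ s.KT (j ω) (X ω) (S ω))
      fun ω w => s.cT * s.νT (X ω) ((s.T (X ω)).ev w) := by
  obtain ⟨h1, h2, h3⟩ := s.Θ.cert (𝒞.scale (s.cC - 1)) (fun ω => s.C (X ω)) s.𝒦C
    (fun ω => s.KC (X ω)) (fun ω => s.Acc (j ω) (S ω)) (fun _ => rfl) H.snd
    (fun ω n hn => H.lim_acc ω n (𝒞.lim_anti ω _ _ (Nat.le_mul_of_pos_left _ (Nat.succ_pos _)) hn))
    (H.acc.scale_zero _) ((s.eqC X H.hEq).scale_zero _)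
    ((Cert.scale_iff _).2 ((s.neC X H.hEq H.hN1).mono fun _ _ _ => by rw [cC_eq]))
    ((Cert.scale_iff _).2 ((s.notKC X H.hEq H.hN1 H.hNK).mono fun _ _ _ => by rw [cC_eq]))
  have e : ∀ n, (s.cC - 1 + 1) * (s.Θ.κ * n) ≤ s.cT * n := fun n => by
    rw [cC_eq, ← mul_assoc]; exact Nat.mul_le_mul_right _ s.cT_le
  exact ⟨((Cert.scale_iff _).1 h1).mono fun _ _ _ => e _,
    ((Cert.scale_iff _).1 h2).mono fun _ _ _ => e _, ((Cert.scale_iff _).1 h3).mono fun _ _ _ => e _⟩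

section T
variable (AX : ∀ ω, Subgroup (X ω).G) (AT : ∀ ω, Subgroup (s.T (X ω)).G)
  (hA : Cert 𝒞 (fun ω w => (X ω).ev w ∉ AX ω) fun ω w => s.Λ * (X ω).wn ((X ω).ev w))
  (hΔ : ∀ ω c, s.Δ (X ω) c ∈ AT ω ↔ c ∈ (AX ω).map (s.ιm (X ω)))
  (horb : ∀ ω γ c, γ⁻¹ * s.Δ (X ω) c ∈ AT ω → ∃ c', c'⁻¹ * c ∈ (AX ω).map (s.ιm (X ω)) ∧
    (s.C (X ω)).wn c' ≤ 3 * s.νT (X ω) γ)
  (h₁ : Cert 𝒞 (fun ω w => ∀ c, (s.Δ (X ω) c)⁻¹ * (s.T (X ω)).ev w ∉ AT ω)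
    fun ω w => s.cT * s.νT (X ω) ((s.T (X ω)).ev w))
  (mT : Cert 𝒞 (fun ω w => (s.T (X ω)).ev w ∈ AT ω) fun _ _ => 0)
include hΔ horb h₁ mT

theorem certT (𝒳 : ∀ ω, Set (X ω).G) (h𝒳 : ∀ ω, ∀ x ∈ 𝒳 ω, ∀ k ∈ AX ω, x * k ∈ 𝒳 ω)
    (h : Cert 𝒞 (fun ω w => (X ω).ev w ∉ 𝒳 ω) fun ω w => 3 * (s.Λ * (X ω).wn ((X ω).ev w))) :
    Cert 𝒞 (fun ω w => ∀ x ∈ 𝒳 ω, (s.Δ (X ω) (s.ιm (X ω) x))⁻¹ * (s.T (X ω)).ev w ∉ AT ω)
      fun ω w => s.cT * s.νT (X ω) ((s.T (X ω)).ev w) := by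
  refine (cert_graph (𝒞 := 𝒞) (F := fun ω => (s.C (X ω)).G)
    (fun ω c w => (s.Δ (X ω) c)⁻¹ * (s.T (X ω)).ev w ∈ AT ω)
    (fun ω c _ => c ∈ s.ιm (X ω) '' 𝒳 ω) (fun ω => (s.C (X ω)).ev) ?_ h₁
    ((mT.comp (f := fun p : Word s.Θ.ιT × Word s.ιC => (subst s.Θ.σΔ p.2).inv ++ p.1)
      (primrec_append' (primrec_inv.comp ((primrec_subst _).comp .snd)) .fst).to_comp).of_iff
      (fun ω p => by rw [ev_inv_append, Δ_ev]) fun _ _ => le_rfl)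
    ((s.certC X H.hEq H.hN1 𝒳 h).comp Computable.snd) ?_).of_iff (fun ω w => ?_)
    fun _ _ => le_rfl
  · rintro ω _ c' w h1 h2 ⟨x, hx, rfl⟩
    have := inv_mul_mem_trans h1 h2
    rw [← map_inv, ← map_mul, hΔ] at this
    obtain ⟨k, hk, e⟩ := this
    exact ⟨x * k, h𝒳 ω x hx k hk, by rw [map_mul, e, mul_inv_cancel_left]⟩
  · intro ω w c hc
    obtain ⟨c', h1, h2⟩ := horb ω _ c (inv_mul_mem_symm hc)
    obtain ⟨u, rfl⟩ := (s.C (X ω)).surj c'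
    rw [← hΔ, map_mul, map_inv] at h1
    refine ⟨u, inv_mul_mem_of h1 hc, (Nat.mul_le_mul_left _ h2).trans ?_⟩
    rw [← mul_assoc]
    exact Nat.mul_le_mul_right _ s.cT_le'
  · exact ⟨fun h x hx h' => h _ ⟨h', x, hx, rfl⟩, by rintro h _ ⟨h', x, hx, rfl⟩; exact h x hx h'⟩

include hA

theorem nT : Cert 𝒞 (fun ω w => (s.T (X ω)).ev w ∉ AT ω)
    fun ω w => s.cT * s.νT (X ω) ((s.T (X ω)).ev w) := by
  refine (H.certT AX AT hΔ horb h₁ mT (fun ω => AX ω) (fun ω x hx k hk => mul_mem hx hk)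
    (hA.mono fun _ _ _ => by omega)).of_iff (fun ω w => ⟨fun h h' => ?_, fun h x hx h' => h ?_⟩)
    fun _ _ => le_rfl
  · exact h 1 (one_mem _) (by simpa using h')
  · exact (mul_mem_cancel_left (inv_mem ((hΔ ω _).2 ⟨x, hx, rfl⟩))).1 h'

theorem nα (hb : ∀ ω x u, x⁻¹ * s.m (X ω) u ∈ AX ω →
      ∃ u', x⁻¹ * s.m (X ω) u' ∈ AX ω ∧ u'.norm ≤ 2 * (X ω).wn x) :
    Cert 𝒞 (fun ω w => ∀ u, (s.α (X ω) u)⁻¹ * (s.T (X ω)).ev w ∉ AT ω)
      fun ω w => s.cT * s.νT (X ω) ((s.T (X ω)).ev w) := by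
  refine (H.certT AX AT hΔ horb h₁ mT _ ?_ (s.certF X H.hEq AX hA hb)).of_iff
    (fun ω w => ⟨fun h u => ?_, ?_⟩) fun _ _ => le_rfl
  · rintro ω x ⟨u, hu⟩ k hk
    exact ⟨u, by rw [mul_inv_rev, mul_assoc]; exact mul_mem (inv_mem hk) hu⟩
  · exact h _ ⟨u, by simp⟩
  · rintro h x ⟨u, hu⟩ h'
    have := (hΔ ω _).2 ⟨_, hu, rfl⟩
    rw [map_mul, map_mul, map_inv, map_inv] at this
    exact h u (inv_mul_mem_of (inv_mul_mem_symm this) h')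

end T

omit H in
theorem eqW : Cert 𝒞 (fun _ w => s.Mc.W.ev w = 1) fun _ _ => 0 :=
  cert_eq_of_pres (fun _ => s.Mc.W) _ (fun _ => s.Mc.pres) (cert_list _)

theorem notΔ : Cert 𝒞 (fun ω w => ∀ c, (s.Δ (X ω) c)⁻¹ * (s.T (X ω)).ev w ∉
    (⊥ : Subgroup (s.T (X ω)).G)) fun ω w => s.cT * s.νT (X ω) ((s.T (X ω)).ev w) :=
  H.certΘ.1.of_iff (fun _ _ => by simp [inv_mul_eq_one]) fun _ _ => le_rfl

theorem notCone : Cert 𝒞 (fun ω w => ∀ c, (s.cone (X ω) c)⁻¹ * (s.T (X ω)).ev w ∉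
    (⊥ : Subgroup (s.T (X ω)).G)) fun ω w => s.cT * s.νT (X ω) ((s.T (X ω)).ev w) :=
  H.certΘ.2.1.of_iff (fun _ _ => by simp [inv_mul_eq_one]) fun _ _ => le_rfl

/-- The mode for inequalities. -/
def modeBot : s.Mode 𝒞 j X := by
  have hΔ : ∀ ω c, s.Δ (X ω) c ∈ (⊥ : Subgroup _) ↔ c ∈ (⊥ : Subgroup _).map (s.ιm (X ω)) :=
    fun ω c => by simp [map_eq_one_iff _ (s.Δ_inj _)]
  have horb : ∀ ω γ c, γ⁻¹ * s.Δ (X ω) c ∈ (⊥ : Subgroup _) → ∃ c', c'⁻¹ * c ∈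
      (⊥ : Subgroup _).map (s.ιm (X ω)) ∧ (s.C (X ω)).wn c' ≤ 3 * s.νT (X ω) γ := by
    intro ω γ c h
    obtain rfl := inv_mul_eq_one.1 (Subgroup.mem_bot.1 h)
    exact ⟨c, by simp, (s.Θ.ν_Δ _ _ c).ge.trans (Nat.le_mul_of_pos_left _ (by norm_num))⟩
  exact {
    AT := fun _ => ⊥
    AW := fun _ => ⊥
    AF := fun _ => ⊥
    nT := H.nT (fun _ => ⊥) (fun _ => ⊥) H.hN1 hΔ horb H.notΔ H.eqT
    mT := H.eqT
    nα := H.nα (fun _ => ⊥) (fun _ => ⊥) H.hN1 hΔ horb H.notΔ H.eqT fun ω x u h => by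
      refine ⟨u, h, ?_⟩
      obtain rfl := inv_mul_eq_one.1 (Subgroup.mem_bot.1 h)
      exact (H.wf ω).norm u
    nW := Cert.of_re s.Mc.re_ne _
    mW := eqW
    nFh := (Cert.of_re s.Mc.re_Fh _).of_iff (fun _ w => ⟨fun h f e =>
      h (inv_mul_eq_one.1 (Subgroup.mem_bot.1 e) ▸ f.2), fun h e => h ⟨_, e⟩ (by simp)⟩)
      fun _ _ => le_rfl
    nF := Cert.of_re (re_of_primrecPred (PrimrecPred.not
      (primrecPred_mk_eq.comp (Primrec.id.pair (.const []))))) _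
    cπ := fun ω f hf => by
      obtain rfl : f = 1 := Subtype.ext hf
      simp
    cβ := fun ω u hu => by
      obtain rfl := (map_eq_one_iff _ (s.α_inj (H.wf ω).inj)).1 hu
      simp
    cσ := fun ω u hu => by
      obtain rfl := (map_eq_one_iff _ (s.α_inj (H.wf ω).inj)).1 hu
      simp
    dep := fun ω γ f hf => by
      refine ⟨f, hf, ?_⟩
      obtain rfl := inv_mul_eq_one.1 (Subgroup.mem_bot.1 hf)
      exact s.Mc.dep f }

omit H in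
theorem L_eq (j : Nat.Partrec.Code) (S : Set ℕ) : s.L j S = s.Mc.W.sub ({r | r ∈ s.Mc.pw} ∪
    {w | ∃ M ∈ S, w = subst (fun b => bif b then s.Mc.start j else s.Mc.z) (cw M)}) := by
  rw [MG.sub, L, machL, Set.image_union]
  congr 2
  ext g
  constructor
  · rintro ⟨M, hM, rfl⟩
    exact ⟨_, ⟨M, hM, rfl⟩, by rw [← σj_mk, mk_cw, σj_gen]⟩
  · rintro ⟨_, ⟨M, hM, rfl⟩, rfl⟩
    exact ⟨M, hM, by rw [← σj_mk, mk_cw, σj_gen]⟩

theorem memL : Cert 𝒞 (fun ω w => s.Mc.W.ev w ∈ s.L (j ω) (S ω)) fun _ _ => 0 := by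
  have h0 : Computable fun p : Nat.Partrec.Code × Word s.Mc.ιW × ℕ => (p.1, cw p.2.2) :=
    Computable.fst.pair (primrec_cw.comp (Primrec.snd.comp .snd)).to_comp
  have h0' := s.computable_σj.comp h0
  have h1 : Computable fun p : Nat.Partrec.Code × Word s.Mc.ιW × ℕ =>
      (p.2.1, subst (fun b => bif b then s.Mc.start p.1 else s.Mc.z) (cw p.2.2)) :=
    (Computable.fst.comp .snd).pair h0'
  have h2 : Cert 𝒞 (fun ω w => w ∈ {w | ∃ M ∈ S ω,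
      w = subst (fun b => bif b then s.Mc.start (j ω) else s.Mc.z) (cw M)}) fun _ _ => 0 :=
    ((H.hS.comp Computable.snd).and (H.hj.par cert_eq' h1)).guess
      (fun ω x M h => ⟨M, h⟩) fun ω x n _ _ ⟨M, h⟩ => ⟨M, h, by simp⟩
  simp only [L_eq]
  exact cert_mem_sub (fun _ => s.Mc.W) _ eqW (cert_union (cert_list s.Mc.pw) h2)

/-- The mode for non-membership in `K`. -/
def modeK : s.Mode 𝒞 j X := by
  have hΔ : ∀ ω c, s.Δ (X ω) c ∈ s.KT (j ω) (X ω) (S ω) ↔ c ∈ (s.K (X ω)).map (s.ιm (X ω)) :=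
    fun ω c => by rw [s.Δ_mem_KT (H.snd ω), KC_eq]
  have horb : ∀ ω γ c, γ⁻¹ * s.Δ (X ω) c ∈ s.KT (j ω) (X ω) (S ω) → ∃ c', c'⁻¹ * c ∈
      (s.K (X ω)).map (s.ιm (X ω)) ∧ (s.C (X ω)).wn c' ≤ 3 * s.νT (X ω) γ := by
    intro ω γ c h
    rw [← KC_eq]
    exact s.Θ.orbit _ _ _ (H.snd ω) γ c h
  have hu : ComputablePred (· ∈ (Set.univ : Set ℕ)) := ⟨inferInstance, by
    simpa using Computable.const true⟩
  exact {
    AT := fun ω => s.KT (j ω) (X ω) (S ω)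
    AW := fun ω => s.L (j ω) (S ω)
    AF := fun ω => TT (tick (S ω))
    nT := H.nT _ _ H.hNK hΔ horb H.certΘ.2.2 H.memKT
    mT := H.memKT
    nα := H.nα _ _ H.hNK hΔ horb H.certΘ.2.2 H.memKT fun ω => (H.wf ω).normK
    nW := (H.hj.par (Cert.of_re (s.Mc.re_L _ hu) _) Computable.id).congr
      (fun ω w h h' => h (s.L_mono (Set.subset_univ _) h'))
      fun ω w n hl hn h => ⟨by rw [H.lim_S ω n hl] at h; exact h, hn⟩
    mW := H.memL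
    nFh := (H.hj.par (Cert.of_re (s.Mc.re_FhL _ hu) _) Computable.id).congr
      (fun ω w h f h' => h f f.2 (s.L_mono (Set.subset_univ _) h'))
      fun ω w n hl hn h => ⟨by rw [H.lim_S ω n hl] at h; exact fun f hf => h ⟨f, hf⟩, hn⟩
    nF := (Cert.of_re re_not_TT _).congr (fun ω w h h' => h (TT_mono (Set.subset_univ _) h'))
      fun ω w n hl hn h => ⟨by rwa [H.lim_S ω n hl, tick_univ] at h, hn⟩
    cπ := fun ω f hf => s.πT_mem hf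
    cβ := fun ω u hu => shiftB_mem ((s.α_mem_KT (H.wf ω) (H.snd ω) u).1 hu)
    cσ := fun ω u hu => s.σj_mem ((s.α_mem_KT (H.wf ω) (H.snd ω) u).1 hu)
    dep := fun ω => s.Mc.depK _ _ }

theorem mem_bot_A (ω : 𝒞.Ω) (γ : (s.Γ (X ω)).G) : γ ∈ H.modeBot.A ω ↔ γ = 1 :=
  ⟨fun h => Prod.ext h.1 (Prod.ext h.2.1 (Prod.ext h.2.2.1 h.2.2.2)),
    fun h => h ▸ one_mem _⟩

theorem notE (l : Lt × Bool) :
    Cert 𝒞 (fun ω w => (s.Γ (X ω)).ev w ∉ (s.D (j ω) (X ω) (H.wf ω).inj).E l)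
      fun ω w => 2 * s.cT * s.νΓ (X ω) ((s.Γ (X ω)).ev w) := by
  have : Cert 𝒞 (fun ω w => ∀ f, (s.Da (j ω) (X ω) l.1 l.2 f)⁻¹ * (s.Γ (X ω)).ev w ∉
      H.modeBot.A ω) fun ω w => 2 * s.cT * s.νΓ (X ω) ((s.Γ (X ω)).ev w) := by
    rcases l with ⟨_ | k, b⟩
    · rcases b with _ | _
      · exact H.modeBot.one_edge H.hG _ H.notCone
      · exact H.modeBot.one_edge H.hG _ H.notΔ
    · exact H.modeBot.edge H.hG H.hj k b
  refine this.of_iff (fun ω w => ?_) fun _ _ => le_rfl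
  exact (forall_congr' fun f => ((H.mem_bot_A ω _).trans inv_mul_eq_one).not).trans not_exists.symm

theorem eqΦ : Cert 𝒞 (fun ω w => (s.Φ (j ω) (X ω) (H.wf ω).inj).ev w = 1) fun _ _ => 0 := by
  have h1 : Computable fun p : Nat.Partrec.Code × Word s.ι => (p.2, s.rj (s.Mc.start p.1)) :=
    Computable.snd.pair (s.primrec_rjC.to_comp.comp (s.Mc.start_comp.comp .fst))
  exact cert_eq_of_pres (fun ω => s.Φ (j ω) (X ω) (H.wf ω).inj) _ (fun ω => s.pres_Φ _ _ _)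
    (cert_union (cert_union (cert_finite s.R₀_finite) (H.hj.par cert_eq' h1))
      (cert_image (T := fun ω => (X ω).rel) H.hEq (primrec_subst _).to_comp))

omit H in
theorem size_le {j : Nat.Partrec.Code} {X : MG s.ι} (h : Function.Injective (s.m X))
    (g : (s.Φ j X h).G) : 2 * s.cT * (s.D j X h).nu (s.νΓ X) g ≤ 4 * s.cT * (s.Φ j X h).wn g := by
  refine (Nat.mul_le_mul_left _ (s.nu_le_wn h g)).trans (le_of_eq ?_)
  ring

theorem neΦ : Cert 𝒞 (fun ω w => (s.Φ (j ω) (X ω) (H.wf ω).inj).ev w ≠ 1) fun ω w =>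
    4 * s.cT * (s.Φ (j ω) (X ω) (H.wf ω).inj).wn ((s.Φ (j ω) (X ω) (H.wf ω).inj).ev w) := by
  refine (cert_hnn (fun ω => s.Γ (X ω)) (fun ω => s.D (j ω) (X ω) (H.wf ω).inj) (fun _ => {1})
    (fun ω γ => 2 * s.cT * s.νΓ (X ω) γ)
    (fun ω g => 2 * s.cT * (s.D (j ω) (X ω) (H.wf ω).inj).nu (s.νΓ (X ω)) g) (fun ω g => ?_)
    H.notE ((H.modeBot.base H.hG).of_iff (fun ω w => (H.mem_bot_A ω _).not) fun _ _ => le_rfl)
    H.eqΦ).of_iff (fun ω w => ?_) fun ω w => size_le _ _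
  · obtain ⟨l, γ, h1, h2, h3, h4⟩ := HD.bnf _ (s.isSN_νΓ _) (s.edge_norm (H.wf ω)) g
    exact ⟨l, γ, h1, h2, fun p hp => Nat.mul_le_mul_left _ (h3 p hp), Nat.mul_le_mul_left _ h4⟩
  · rw [Set.image_singleton, map_one]
    rfl

theorem notKΦ : Cert 𝒞 (fun ω w => (s.Φ (j ω) (X ω) (H.wf ω).inj).ev w ∉
      s.K (s.Φ (j ω) (X ω) (H.wf ω).inj)) fun ω w =>
    4 * s.cT * (s.Φ (j ω) (X ω) (H.wf ω).inj).wn ((s.Φ (j ω) (X ω) (H.wf ω).inj).ev w) := by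
  refine (cert_hnn_K (fun ω => s.Γ (X ω)) (fun ω => s.D (j ω) (X ω) (H.wf ω).inj)
    (fun ω => s.KΓ (j ω) (X ω) (S ω)) fix (fun ω => s.fixes (H.wf ω) (H.snd ω)) (fun _ => {1})
    (fun ω γ => 2 * s.cT * s.νΓ (X ω) γ)
    (fun ω g => 2 * s.cT * (s.D (j ω) (X ω) (H.wf ω).inj).nu (s.νΓ (X ω)) g) (fun ω g => ?_)
    H.notE ?_ ((H.modeK.base H.hG).of_iff (fun ω w => ?_) fun _ _ => le_rfl) ?_).of_iff
    (fun ω w => ?_) fun ω w => size_le _ _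
  · obtain ⟨l, γ, h1, h2, h3, h4⟩ := HD.bnf_K _ (s.fixes (H.wf ω) (H.snd ω)) (s.isSN_νΓ _)
      (s.edge_norm (H.wf ω)) (s.link_norm (H.wf ω) (H.snd ω)) g
    exact ⟨l, γ, h1, h2, fun p hp => Nat.mul_le_mul_left _ (h3 p hp), Nat.mul_le_mul_left _ h4⟩
  · rintro ⟨_ | k, b⟩ hl
    · exact absurd rfl hl
    · exact (H.modeK.edge H.hG H.hj k b).of_iff (fun ω w => ⟨by
        rintro h _ ⟨f, rfl⟩; exact h f, fun h f => h _ ⟨f, rfl⟩⟩) fun _ _ => le_rfl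
  · simp only [Set.mem_singleton_iff, forall_eq]
    exact iff_of_eq (congrArg (· ∉ s.KΓ (j ω) (X ω) (S ω)) 
      (eq_inv_mul_iff_mul_eq.2 (one_mul ((s.Γ (X ω)).ev w))))
  · refine (cert_mem_sub _ (fun _ => {k | k ∈ s.𝒦}) H.eqΦ (cert_list _)).of_iff (fun ω w => ?_)
      fun _ _ => le_rfl
    exact iff_of_eq (congrArg (_ ∈ ·) (s.K_eq (H.wf ω)))
  · simp only [Set.mem_singleton_iff, forall_eq, map_one, inv_one, one_mul]
    rw [s.K_eq (H.wf ω)]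
    rfl

end CH

end Setup

end Crest.Agent.R185
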