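import Crest.Agent.R185.Ext2
import Crest.Agent.R185.HNN

/-!
# Row 185: the functor `Φ`, definitions
-/

set_option autoImplicit false

namespace Crest.Agent.R185

/-- The ingredients which do not depend on the alphabet of `Φ`. -/
structure Setup₀ where
  ιG : Type
  [pcG : Primcodable ιG]
  [finG : Finite ιG]
  G : MG ιG
  RG : List (Word ιG)
  presG : Pres G {r | r ∈ RG}
  ιC : Type
  [pcC : Primcodable ιC]
  [finC : Finite ιC]
  κP : ℕ
  P : GadPkg (Fin 3) ιC κP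
  Θ : ThetaPkg ιC
  Mc : MachPkg Θ.ιV

attribute [instance] Setup₀.pcG Setup₀.finG Setup₀.pcC Setup₀.finC

/-- The stable letters: `none` is `δ`, `some none` is `p`, `some (some b)` are the clock letters. -/
abbrev Lt : Type := Option (Option Bool)

abbrev Setup₀.ιΓ (s : Setup₀) : Type := s.Θ.ιT ⊕ (s.Mc.ιW ⊕ (Bool ⊕ s.ιG))

abbrev Setup₀.ι (s : Setup₀) : Type := s.ιΓ ⊕ Lt

/-- All ingredients. -/
structure Setup extends Setup₀ where
  Λ : ℕ
  St : ExtPkg toSetup₀.ι (Fin 3) Λ 2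
  hΛ : 18 ≤ Λ

/-- The subgroup of the free group on `z = false`, `τ = true` generated by `z⁻ᴹ τ zᴹ`, `M ∈ S`. -/
def TT (S : Set ℕ) : Subgroup (FreeGroup Bool) :=
  Subgroup.closure {g | ∃ M ∈ S, g = (FreeGroup.of false ^ M)⁻¹ * FreeGroup.of true *
    FreeGroup.of false ^ M}

/-- The next clock set. -/
def tick (S : Set ℕ) : Set ℕ := insert 0 (Nat.succ '' S)

/-- The shift of the clock. -/
def shiftB : FreeGroup Bool →* FreeGroup Bool :=
  (MulAut.conj (FreeGroup.of false)⁻¹ : MulAut (FreeGroup Bool))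

theorem shiftB_apply (u : FreeGroup Bool) :
    shiftB u = (FreeGroup.of false)⁻¹ * u * FreeGroup.of false := by
  simp [shiftB]

namespace Setup
variable (s : Setup)

abbrev C (X : MG s.ι) : MG s.ιC := s.P.obj (s.St.obj X)

def ιm (X : MG s.ι) : X.G →* (s.C X).G := (s.P.f _).comp (s.St.f X)

def σι (i : s.ι) : Word s.ιC := subst s.P.σ (s.St.σ i)

theorem ιm_gen (X : MG s.ι) (i : s.ι) : s.ιm X (X.gen i) = (s.C X).ev (s.σι i) := by
  rw [σι, ← s.P.f_ev, ← s.St.f_gen]; rfl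

theorem ιm_inj (X : MG s.ι) : Function.Injective (s.ιm X) :=
  (s.P.inj _).comp (s.St.inj X)

theorem ιm_norm (X : MG s.ι) (x : X.G) : s.Λ * X.wn x ≤ (s.C X).wn (s.ιm X x) :=
  (s.St.norm X x).trans (by have := s.P.norm _ (s.St.f X x); rwa [one_mul] at this)

def lT (i : s.Θ.ιT) : s.ιΓ := .inl i
def lW (i : s.Mc.ιW) : s.ιΓ := .inr (.inl i)
def lF (i : Bool) : s.ιΓ := .inr (.inr (.inl i))
def lG (i : s.ιG) : s.ιΓ := .inr (.inr (.inr i))

/-- Words generating the subgroup `K`. -/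
def 𝒦 : List (Word s.ι) :=
  s.Θ.K₀.map (fun k => ren .inl (ren s.lT k)) ++ s.Mc.pw.map (fun k => ren .inl (ren s.lW k)) ++
    [[(.inl (s.lF true), true)], [(.inr (some none), true)], [(.inr (some (some false)), true)],
      [(.inr (some (some true)), true)]]

def K (X : MG s.ι) : Subgroup X.G := X.sub {k | k ∈ s.𝒦}

def 𝒦C : List (Word s.ιC) := s.𝒦.map (subst s.σι)

def KC (X : MG s.ι) : Subgroup (s.C X).G := (s.C X).sub {k | k ∈ s.𝒦C}

theorem KC_eq (X : MG s.ι) : s.KC X = (s.K X).map (s.ιm X) := by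
  rw [K, ← map_sub (s.ιm_gen X), KC]
  congr 1
  ext k
  simp [𝒦C]

theorem ιm_mem_KC (X : MG s.ι) (x : X.G) : s.ιm X x ∈ s.KC X ↔ x ∈ s.K X := by
  rw [KC_eq, Subgroup.mem_map_iff_mem (s.ιm_inj X)]

abbrev T (X : MG s.ι) : MG s.Θ.ιT := s.Θ.T (s.C X) (s.KC X)

abbrev Γ' (X : MG s.ι) : MG s.ιΓ := (s.T X).prod (s.Mc.W.prod ((MG.free Bool).prod s.G))

/-- The base group of `Φ`. -/
abbrev Γ (X : MG s.ι) : MG s.ιΓ where
  G := (s.T X).G × s.Mc.W.G × FreeGroup Bool × s.G.G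
  gen := (s.Γ' X).gen
  surj := (s.Γ' X).surj

def Δ (X : MG s.ι) : (s.C X).G →* (s.T X).G := s.Θ.Δ _ _

def cone (X : MG s.ι) : (s.C X).G →* (s.T X).G := s.Θ.cone _ _

def νT (X : MG s.ι) : (s.T X).G → ℕ := s.Θ.ν _ _

theorem Δ_inj (X : MG s.ι) : Function.Injective (s.Δ X) := by
  rw [injective_iff_map_eq_one]
  intro c hc
  apply MG.eq_one_of_wn
  rw [← s.Θ.ν_Δ _ (s.KC X), show s.Θ.Δ _ _ c = 1 from hc, (s.Θ.ν_sn _ _).one]

theorem cone_inj (X : MG s.ι) : Function.Injective (s.cone X) := by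
  rw [injective_iff_map_eq_one]
  intro c hc
  apply MG.eq_one_of_wn
  rw [← s.Θ.ν_cone _ (s.KC X), show s.Θ.cone _ _ c = 1 from hc, (s.Θ.ν_sn _ _).one]

/-- The marked free subgroup of rank two. -/
def m (X : MG s.ι) : FreeGroup Bool →* X.G := FreeGroup.lift fun b => X.gen (.inl (s.lF b))

theorem m_mk (X : MG s.ι) (u : Word Bool) :
    s.m X (FreeGroup.mk u) = X.ev (ren .inl (ren s.lF u)) := by
  rw [MG.ev, evW_ren, evW_ren]; rfl

def α (X : MG s.ι) : FreeGroup Bool →* (s.T X).G := (s.Δ X).comp ((s.ιm X).comp (s.m X))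

def σj (j : Nat.Partrec.Code) : FreeGroup Bool →* s.Mc.W.G :=
  FreeGroup.lift fun b => s.Mc.W.ev (bif b then s.Mc.start j else s.Mc.z)

/-- The substitution defining `πT`. -/
def σπ : Option s.Θ.ιV → Word s.Θ.ιT
  | none => s.Θ.J
  | some y => s.Θ.σx y

def πT (X : MG s.ι) : FreeGroup (Option s.Θ.ιV) →* (s.T X).G :=
  FreeGroup.lift fun o => (s.T X).ev (s.σπ o)

/-- Homomorphisms into `Γ`. -/
def mk4 {X : MG s.ι} {F : Type} [Group F] (f₁ : F →* (s.T X).G) (f₂ : F →* s.Mc.W.G)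
    (f₃ : F →* FreeGroup Bool) : F →* (s.Γ X).G :=
  f₁.prod (f₂.prod (f₃.prod (1 : F →* s.G.G)))

theorem mk4_apply {X : MG s.ι} {F : Type} [Group F] (f₁ : F →* (s.T X).G) (f₂ : F →* s.Mc.W.G)
    (f₃ : F →* FreeGroup Bool) (x : F) : s.mk4 f₁ f₂ f₃ x = (f₁ x, f₂ x, f₃ x, 1) := rfl

/-- The edge groups. -/
def DF (X : MG s.ι) : Lt → Type
  | none => (s.C X).G
  | some none => s.Mc.Fh
  | some (some _) => FreeGroup Bool

instance (X : MG s.ι) : ∀ k, Group (s.DF X k)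
  | none => inferInstanceAs (Group (s.C X).G)
  | some none => inferInstanceAs (Group s.Mc.Fh)
  | some (some _) => inferInstanceAs (Group (FreeGroup Bool))

/-- The edge maps. -/
def Da (j : Nat.Partrec.Code) (X : MG s.ι) : ∀ k, Bool → s.DF X k →* (s.Γ X).G
  | none, true => s.mk4 (s.Δ X) 1 1
  | none, false => s.mk4 (s.cone X) 1 1
  | some none, true => s.mk4 1 s.Mc.Fh.subtype 1
  | some none, false => s.mk4 ((s.πT X).comp s.Mc.π) s.Mc.Fh.subtype 1
  | some (some _), true => s.mk4 (s.α X) 1 1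
  | some (some false), false => s.mk4 (s.α X) 1 shiftB
  | some (some true), false => s.mk4 (s.α X) (s.σj j) 1

theorem α_inj {X : MG s.ι} (h : Function.Injective (s.m X)) : Function.Injective (s.α X) :=
  (s.Δ_inj X).comp ((s.ιm_inj X).comp h)

/-- The HNN data of `Φ`. -/
def D (j : Nat.Partrec.Code) (X : MG s.ι) (h : Function.Injective (s.m X)) : HD (s.Γ X).G Lt where
  F := s.DF X
  a := s.Da j X
  inj := by
    rintro (_ | _ | _ | _) (_ | _) a b e
    · exact s.cone_inj X (congrArg Prod.fst e)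
    · exact s.Δ_inj X (congrArg Prod.fst e)
    · exact Subtype.ext (congrArg (fun x => x.2.1) e)
    · exact Subtype.ext (congrArg (fun x => x.2.1) e)
    all_goals exact s.α_inj h (congrArg Prod.fst e)

/-- The functor `Φ`. -/
abbrev Φ (j : Nat.Partrec.Code) (X : MG s.ι) (h : Function.Injective (s.m X)) : MG s.ι where
  G := (s.D j X h).MH
  gen := ((s.Γ X).hnn (s.D j X h)).gen
  surj := ((s.Γ X).hnn (s.D j X h)).surj

theorem Φ_ev_inl (j : Nat.Partrec.Code) (X : MG s.ι) (h : Function.Injective (s.m X))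
    (w : Word s.ιΓ) : (s.Φ j X h).ev (ren Sum.inl w) = (s.D j X h).of ((s.Γ X).ev w) :=
  MG.hnn_ev_inl (s.Γ X) (s.D j X h) w

/-- The accepted codes. -/
def Acc (j : Nat.Partrec.Code) (S : Set ℕ) : Set (Word s.Θ.ιV) :=
  {x | ∃ M ∈ S, halts j x (s.Mc.dec M)}

def KT (j : Nat.Partrec.Code) (X : MG s.ι) (S : Set ℕ) : Subgroup (s.T X).G :=
  (s.T X).sub (ktWords s.Θ.K₀ s.Θ.σx s.Θ.J (s.Acc j S))

def L (j : Nat.Partrec.Code) (S : Set ℕ) : Subgroup s.Mc.W.G :=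
  machL s.Mc.W s.Mc.pw s.Mc.z (s.Mc.start j) S

def KΓ (j : Nat.Partrec.Code) (X : MG s.ι) (S : Set ℕ) : Subgroup (s.Γ X).G :=
  (s.KT j X S).prod ((s.L j S).prod ((TT (tick S)).prod (⊥ : Subgroup s.G.G)))

theorem mem_KΓ {j : Nat.Partrec.Code} {X : MG s.ι} {S : Set ℕ} {γ : (s.Γ X).G} :
    γ ∈ s.KΓ j X S ↔ γ.1 ∈ s.KT j X S ∧ γ.2.1 ∈ s.L j S ∧
      γ.2.2.1 ∈ TT (tick S) ∧ γ.2.2.2 = 1 := Iff.rfl

/-- The letters fixing the base point. -/
def fix : Set Lt := {k | k ≠ none}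

/-- All accepted codes are sound. -/
def Snd (j : Nat.Partrec.Code) (X : MG s.ι) (S : Set ℕ) : Prop :=
  ∀ x ∈ s.Acc j S, s.Θ.Sound (s.C X) (s.KC X) ((s.Θ.V (s.C X)).ev x)

/-- The invariants of the approximants. -/
structure WF (X : MG s.ι) (S : Set ℕ) : Prop where
  inj : Function.Injective (s.m X)
  clock : ∀ u, s.m X u ∈ s.K X ↔ u ∈ TT S
  norm : ∀ u, u.norm ≤ 2 * X.wn (s.m X u)
  normK : ∀ x u, x⁻¹ * s.m X u ∈ s.K X → ∃ u', x⁻¹ * s.m X u' ∈ s.K X ∧ u'.norm ≤ 2 * X.wn x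

/-- The embedding `Θ → Φ`. -/
def iT (j : Nat.Partrec.Code) (X : MG s.ι) (h : Function.Injective (s.m X)) :
    (s.T X).G →* (s.Φ j X h).G :=
  (s.D j X h).of.comp (MonoidHom.inl _ _)

/-- The embedding `θ`. -/
def θ (j : Nat.Partrec.Code) (X : MG s.ι) (h : Function.Injective (s.m X)) :
    X.G →* (s.Φ j X h).G :=
  (s.iT j X h).comp ((s.Δ X).comp (s.ιm X))

/-- The substitution defining `θ`. -/
def σ (i : s.ι) : Word s.ι := ren .inl (ren s.lT (subst s.Θ.σΔ (s.σι i)))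

end Setup

end Crest.Agent.R185
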