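import Crest.Agent.R185.PhiK
import Crest.Agent.R185.Lim
import Crest.Agent.R185.Final

/-!
# Row 185: from a good fixed point of `Φ` to the simple group
-/

set_option autoImplicit false

namespace Crest.Agent.R185

theorem PhiFin_mem_sub {ι : Type} {X Y : MG ι} (e : X.G ≃* Y.G) (he : ∀ w, e (X.ev w) = Y.ev w)
    (T : Set (Word ι)) (x : X.G) : e x ∈ Y.sub T ↔ x ∈ X.sub T := by
  have h : Y.sub T = (X.sub T).map (e : X.G →* Y.G) := by
    rw [MG.sub, MG.sub, MonoidHom.map_closure, Set.image_image]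
    congr 1
    exact Set.image_congr fun w _ => (he w).symm
  rw [h]
  exact Subgroup.mem_map_iff_mem (f := (e : X.G →* Y.G)) e.injective

namespace Setup
variable (s : Setup)

/-- The approximants for the program `j`. -/
abbrev B (j : Nat.Partrec.Code) (m : ℕ∞) : MG s.ι := stg s.σ (s.R j) m

theorem final (j : Nat.Partrec.Code) (hw : s.WF (s.B j ⊤) Set.univ)
    (hs : s.Snd j (s.B j ⊤) Set.univ)
    (hc : ∀ a, s.Θ.Sound (s.C (s.B j ⊤)) (s.KC (s.B j ⊤)) a →
      ∃ x ∈ s.Acc j Set.univ, (s.Θ.V (s.C (s.B j ⊤))).ev x = a) :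
    ∃ (H : Type) (_ : Group H) (f : s.G.G →* H),
      Group.IsFinitelyPresented H ∧ FPinf H ∧ IsSimpleGroup H ∧ Function.Injective f := by
  obtain ⟨D, e, e', he, he', hθ⟩ := exists_finalData s.σ (s.R j) (s.R_finite j)
    (s.pres_Φ j (s.B j ⊤) hw.inj) (s.θ j (s.B j ⊤) hw.inj) (s.θ_inj j _ hw.inj)
    (s.θ_gen j _ hw.inj)
    ((s.P.gad (s.St.obj (s.B j ⊤))).comp (s.St.f (s.B j ⊤))
      ((s.iT j (s.B j ⊤) hw.inj).comp (s.Δ (s.B j ⊤))))
  let ε : (s.T (s.B j ⊤)).G →* D.A.G := e.toMonoidHom.comp (s.iT j (s.B j ⊤) hw.inj)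
  have hε : ∀ γ, ε γ ∈ s.K D.A ↔ γ ∈ s.KT j (s.B j ⊤) Set.univ := fun γ =>
    (PhiFin_mem_sub e he _ _).trans (s.iT_mem_K hw hs γ)
  have he'K : ∀ a, e' a ∈ s.K D.A ↔ a ∈ s.K (s.B j ⊤) := fun a => PhiFin_mem_sub e' he' _ a
  let μ : D.A.G →* (s.C (s.B j ⊤)).G := (s.ιm (s.B j ⊤)).comp e'.symm.toMonoidHom
  have hθ' : ∀ a, D.θ a = ε (s.Δ _ (μ a)) := fun a => by
    have := hθ (e'.symm a)
    rwa [e'.apply_symm_apply] at this
  have hμ : ∀ a, μ a ∈ s.KC (s.B j ⊤) ↔ a ∈ s.K D.A := fun a => by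
    refine (s.ιm_mem_KC _ _).trans ((he'K _).symm.trans ?_)
    change e' (e'.symm a) ∈ _ ↔ _
    rw [e'.apply_symm_apply]
  let E : ActData D :=
    { K := s.K D.A
      K_θ := fun a => by
        rw [hθ', hε, s.Δ_mem_KT hs, hμ]
      trans := fun n => by
        obtain ⟨r, h1, h2, h3⟩ := s.Θ.trans (s.C (s.B j ⊤)) (s.KC (s.B j ⊤))
          (s.Acc j Set.univ) hs hc n
        refine ⟨fun i => ε (r i), fun a i => ?_, fun i i' hi => ?_, fun c hc' => ?_⟩
        · rw [hθ', ← map_inv, ← map_mul, ← map_mul, hε]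
          exact h1 _ i
        · rw [← map_inv, ← map_mul, hε]
          exact h2 i i' hi
        · obtain ⟨h, h4, h5⟩ := h3 (fun i => μ (c i)) fun i i' hi => by
            rw [← map_inv, ← map_mul, hμ]
            exact hc' i i' hi
          refine ⟨ε h, fun i => ?_, fun a ha => ?_⟩
          · rw [hθ', ← map_inv, ← map_mul, ← map_mul, hε]
            exact h4 i
          · rw [hθ']
            refine (h5 (μ a) fun i => ?_).map ε
            rw [← map_inv, ← map_mul, ← map_mul, hμ]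
            exact ha i
      faith := fun a ha => by
        have h1 : s.St.f (s.B j ⊤) (e'.symm a) ≠ 1 := fun h =>
          ha (e'.symm.injective ((s.St.inj _ (h.trans (map_one _).symm)).trans (map_one _).symm))
        obtain ⟨y, hy⟩ := s.P.noncentral _ _ h1
        obtain ⟨γ, hγ⟩ := s.Θ.faith (s.C (s.B j ⊤)) (s.KC (s.B j ⊤)) (s.Acc j Set.univ) hs
          (μ a) y hy
        refine ⟨ε γ, ?_⟩
        rw [hθ', ← map_inv, ← map_mul, ← map_mul, hε]
        exact hγ }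
  obtain ⟨H, _, g, h1, h2, h3, h4⟩ := final_simple D E
  let u : s.G.G →* (s.Γ (s.B j ⊤)).G :=
    (MonoidHom.inr _ _).comp ((MonoidHom.inr _ _).comp (MonoidHom.inr _ _))
  refine ⟨H, inferInstance, g.comp (e.toMonoidHom.comp
    ((s.D j (s.B j ⊤) hw.inj).of.comp u)), h1, h2, h3, ?_⟩
  exact h4.comp (e.injective.comp ((s.D j (s.B j ⊤) hw.inj).of_injective.comp
    fun a b h => congrArg (fun x => x.2.2.2) h))

end Setup

end Crest.Agent.R185
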