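import Crest.Agent.R185.PhiPres

/-!
# Row 185: the subgroup `K` of `Φ`
-/

set_option autoImplicit false

namespace Crest.Agent.R185

theorem TT_mono {S S' : Set ℕ} (h : S ⊆ S') : TT S ≤ TT S' :=
  Subgroup.closure_mono fun _ ⟨M, hM, e⟩ => ⟨M, h hM, e⟩

theorem shiftB_gen (M : ℕ) : shiftB ((FreeGroup.of false ^ M)⁻¹ * FreeGroup.of true *
    FreeGroup.of false ^ M) = (FreeGroup.of false ^ (M + 1))⁻¹ * FreeGroup.of true *
    FreeGroup.of false ^ (M + 1) := by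
  rw [shiftB_apply]; group

theorem shiftB_mem {S : Set ℕ} {u : FreeGroup Bool} (hu : u ∈ TT S) : shiftB u ∈ TT (tick S) := by
  refine (Subgroup.closure_le (K := (TT (tick S)).comap shiftB)).2 ?_ hu
  rintro _ ⟨M, hM, rfl⟩
  exact Subgroup.subset_closure ⟨M + 1, Or.inr ⟨M, hM, rfl⟩, shiftB_gen M⟩

theorem norm_shiftB (u : FreeGroup Bool) : (shiftB u).norm ≤ u.norm + 2 := by
  rw [shiftB_apply]
  refine (FreeGroup.norm_mul_le _ _).trans ?_
  have := FreeGroup.norm_mul_le (FreeGroup.of false)⁻¹ u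
  simp only [FreeGroup.norm_inv_eq, FreeGroup.norm_of] at this ⊢
  omega

theorem isSN_norm {α : Type} [DecidableEq α] : IsSN (FreeGroup.norm : FreeGroup α → ℕ) :=
  ⟨FreeGroup.norm_one, FreeGroup.norm_mul_le, fun _ => FreeGroup.norm_inv_eq⟩

namespace Setup
variable (s : Setup) {j : Nat.Partrec.Code} {X : MG s.ι} {S : Set ℕ}

theorem σj_gen (j : Nat.Partrec.Code) (M : ℕ) :
    s.σj j ((FreeGroup.of false ^ M)⁻¹ * FreeGroup.of true * FreeGroup.of false ^ M) =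
      (s.Mc.W.ev s.Mc.z ^ M)⁻¹ * s.Mc.W.ev (s.Mc.start j) * s.Mc.W.ev s.Mc.z ^ M := by
  simp [σj]

theorem σj_mem {u : FreeGroup Bool} (hu : u ∈ TT S) : s.σj j u ∈ s.L j S := by
  refine (Subgroup.closure_le (K := (s.L j S).comap (s.σj j))).2 ?_ hu
  rintro _ ⟨M, hM, rfl⟩
  exact Subgroup.subset_closure (Or.inr ⟨M, hM, s.σj_gen j M⟩)

theorem L_mono {S S' : Set ℕ} (h : S ⊆ S') : s.L j S ≤ s.L j S' :=
  Subgroup.closure_mono (Set.union_subset_union_right _ fun _ ⟨M, hM, e⟩ => ⟨M, h hM, e⟩)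

theorem ν_σj (u : FreeGroup Bool) : s.Mc.ν (s.σj j u) = 0 := by
  induction u using Quot.inductionOn with
  | h w =>
    have := s.Mc.ν_sn.evW_le (z := fun b => s.Mc.W.ev (bif b then s.Mc.start j else s.Mc.z))
      (c := 0) (by rintro (_ | _); exacts [s.Mc.ν_z.le, (s.Mc.ν_start j).le]) w
    rw [zero_mul, Nat.le_zero] at this
    exact this

theorem πT_some (X : MG s.ι) (x : Word s.Θ.ιV) :
    s.πT X (FreeGroup.mk (ren some x)) = (s.T X).ev (subst s.Θ.σx x) := by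
  rw [πT_mk, MG.ev, MG.ev, evW_subst, evW_subst, evW_ren]; rfl

theorem πT_Jx (X : MG s.ι) (x : Word s.Θ.ιV) :
    s.πT X (Jx x) = (s.T X).ev ((subst s.Θ.σx x).inv ++ s.Θ.J ++ subst s.Θ.σx x) := by
  simp only [Jx, map_mul, map_inv, πT_some, evW_append, evW_inv]
  simp [πT, σπ]

theorem πT_mem {f : s.Mc.Fh} (hf : (f : s.Mc.W.G) ∈ s.L j S) :
    s.πT X (s.Mc.π f) ∈ s.KT j X S := by
  refine (Subgroup.closure_le (K := (s.KT j X S).comap (s.πT X))).2 ?_ (s.Mc.sound j S f hf)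
  rintro _ ⟨M, hM, x, hx, rfl⟩
  exact Subgroup.subset_closure ⟨_, Or.inr ⟨x, ⟨M, hM, hx⟩, rfl⟩, (s.πT_Jx X x).symm⟩

theorem νT_πT {g : FreeGroup (Option s.Θ.ιV)} {n : ℕ} (h : Dep g n) :
    s.νT X (s.πT X g) ≤ 2 * n := by
  obtain ⟨g', hg', x, hx, rfl⟩ := h
  rw [map_mul, πT_some]
  refine s.Θ.dep _ _ n _ ?_ x hx
  refine (Subgroup.closure_le (K := Subgroup.comap (s.πT X) ((s.T X).sub _))).2 ?_ hg'
  rintro _ ⟨y, hy, rfl⟩
  exact Subgroup.subset_closure ⟨_, Or.inr ⟨y, hy, rfl⟩, (s.πT_Jx X y).symm⟩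

theorem Δ_mem_KT (hs : s.Snd j X S) (c : (s.C X).G) : s.Δ X c ∈ s.KT j X S ↔ c ∈ s.KC X := by
  refine ⟨fun h => ?_, fun h => s.Θ.K_le _ _ _ c h⟩
  obtain ⟨c', h1, h2⟩ := s.Θ.orbit _ _ _ hs 1 c (by rw [inv_one, one_mul]; exact h)
  rw [(s.Θ.ν_sn _ _).one] at h2
  rw [MG.eq_one_of_wn _ (Nat.le_zero.1 h2)] at h1
  simpa using h1

theorem α_mem_KT (hw : s.WF X S) (hs : s.Snd j X S) (u : FreeGroup Bool) :
    s.α X u ∈ s.KT j X S ↔ u ∈ TT S :=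
  (s.Δ_mem_KT hs _).trans ((s.ιm_mem_KC X _).trans (hw.clock u))

theorem νT_α (hw : s.WF X S) (u : FreeGroup Bool) : s.Λ * u.norm ≤ 2 * s.νT X (s.α X u) := by
  refine le_trans (Nat.mul_le_mul_left _ (hw.norm u)) ?_
  rw [mul_left_comm]
  exact Nat.mul_le_mul_left _ ((s.ιm_norm X _).trans (s.Θ.ν_Δ _ _ _).ge)

theorem orbit_ιm (hs : s.Snd j X S) {γ : (s.T X).G} {x : X.G}
    (h : γ⁻¹ * s.Δ X (s.ιm X x) ∈ s.KT j X S) :
    ∃ x', x'⁻¹ * x ∈ s.K X ∧ s.Λ * X.wn x' ≤ 3 * s.νT X γ := by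
  obtain ⟨c', h1, h2⟩ := s.Θ.orbit _ _ _ hs γ _ h
  rw [KC_eq] at h1
  obtain ⟨k, hk, e⟩ := h1
  have : c' = s.ιm X (x * k⁻¹) := by rw [map_mul, map_inv, e]; group
  refine ⟨x * k⁻¹, by simpa using hk, (s.ιm_norm X _).trans ?_⟩
  rw [← this]; exact h2

theorem orbit_α (hw : s.WF X S) (hs : s.Snd j X S) {γ : (s.T X).G} {u : FreeGroup Bool}
    (h : γ⁻¹ * s.α X u ∈ s.KT j X S) :
    ∃ u', u'⁻¹ * u ∈ TT S ∧ s.Λ * u'.norm ≤ 6 * s.νT X γ := by
  obtain ⟨x, h1, h2⟩ := s.orbit_ιm hs h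
  obtain ⟨u', h3, h4⟩ := hw.normK x u h1
  refine ⟨u', (hw.clock _).1 ?_, (Nat.mul_le_mul_left _ h4).trans (by
    rw [mul_left_comm]; omega)⟩
  have := mul_mem (inv_mem h3) h1
  simpa [mul_assoc] using this

theorem fixes (hw : s.WF X S) (hs : s.Snd j X S) :
    (s.D j X hw.inj).Fixes (s.KΓ j X S) fix := by
  rintro (_ | _ | _ | _) hk f
  · exact absurd rfl hk
  · exact ⟨fun h => ⟨s.πT_mem h.2.1, h.2⟩, fun h => ⟨one_mem _, h.2⟩⟩
  · exact ⟨fun h => ⟨h.1, h.2.1, shiftB_mem ((s.α_mem_KT hw hs f).1 h.1), rfl⟩,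
      fun h => ⟨h.1, h.2.1, one_mem _, rfl⟩⟩
  · exact ⟨fun h => ⟨h.1, s.σj_mem ((s.α_mem_KT hw hs f).1 h.1), h.2.2⟩,
      fun h => ⟨h.1, one_mem _, h.2.2⟩⟩

theorem Φ_ev_letter (h : Function.Injective (s.m X)) (k : Lt) :
    (s.Φ j X h).ev [(.inr k, true)] = (s.D j X h).t k := evW_true _ _

theorem K_eq (hw : s.WF X S) :
    s.K (s.Φ j X hw.inj) = (s.D j X hw.inj).Kt (s.KΓ j X S) fix := by
  apply le_antisymm
  · refine (Subgroup.closure_le _).2 ?_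
    rintro _ ⟨k, hk, rfl⟩
    simp only [𝒦, List.mem_append, List.mem_map, List.mem_cons, List.not_mem_nil, or_false,
      Set.mem_ofPred_eq] at hk
    rcases hk with (⟨k, hk, rfl⟩ | ⟨k, hk, rfl⟩) | rfl | rfl | rfl | rfl
    · rw [Φ_ev_inl, Γ_ev_lT]
      refine Subgroup.subset_closure (Or.inl ⟨_, ?_, rfl⟩)
      exact ⟨Subgroup.subset_closure ⟨k, Or.inl hk, rfl⟩, one_mem _, one_mem _, rfl⟩
    · rw [Φ_ev_inl, Γ_ev_lW]
      refine Subgroup.subset_closure (Or.inl ⟨_, ?_, rfl⟩)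
      exact ⟨one_mem _, Subgroup.subset_closure (Or.inl ⟨k, hk, rfl⟩), one_mem _, rfl⟩
    · have := s.Φ_ev_inl j X hw.inj (ren s.lF [(true, true)])
      rw [Γ_ev_lF] at this
      refine Subgroup.subset_closure (Or.inl ⟨_, ?_, this.symm⟩)
      exact ⟨one_mem _, one_mem _, Subgroup.subset_closure ⟨0, Or.inl rfl, by simp; rfl⟩, rfl⟩
    all_goals
      rw [Φ_ev_letter]
      exact Subgroup.subset_closure (Or.inr ⟨_, by simp [fix], rfl⟩)
  · set H := s.K (s.Φ j X hw.inj) with hH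
    have ht : ∀ k ∈ fix, (s.D j X hw.inj).t k ∈ H := by
      intro k hk
      rw [← Φ_ev_letter]
      refine Subgroup.subset_closure ⟨_, ?_, rfl⟩
      rcases k with _ | _ | _ | _
      · exact absurd rfl hk
      all_goals simp [𝒦]
    have hK₀ : ∀ k ∈ s.Θ.K₀, s.iT j X hw.inj ((s.T X).ev k) ∈ H := fun k hk => by
      rw [iT_ev]
      refine Subgroup.subset_closure ⟨_, ?_, rfl⟩
      simp only [𝒦, List.mem_append, List.mem_map, Set.mem_ofPred_eq]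
      exact Or.inl (Or.inl ⟨k, hk, rfl⟩)
    have hα : ∀ u ∈ TT S, s.iT j X hw.inj (s.α X u) ∈ H := fun u hu => by
      have h1 := s.Θ.K_le _ _ ∅ _ ((s.ιm_mem_KC X _).2 ((hw.clock u).2 hu))
      refine (Subgroup.closure_le (K := H.comap (s.iT j X hw.inj))).2 ?_ h1
      rintro _ ⟨k, hk | ⟨x, hx, -⟩, rfl⟩
      exacts [hK₀ k hk, hx.elim]
    have hconj : ∀ k ∈ fix, ∀ f, (s.D j X hw.inj).of ((s.D j X hw.inj).a k true f) ∈ H →
        (s.D j X hw.inj).of ((s.D j X hw.inj).a k false f) ∈ H := fun k hk f hf => by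
      rw [← (s.D j X hw.inj).t_conj]
      exact mul_mem (mul_mem (ht k hk) hf) (inv_mem (ht k hk))
    have hW : ∀ w ∈ s.L j S, (s.D j X hw.inj).of (1, w, 1, 1) ∈ H := fun w hw' => by
      refine (Subgroup.closure_le (K := H.comap ((s.D j X hw.inj).of.comp
        (s.mk4 (X := X) 1 (MonoidHom.id _) 1)))).2 ?_ hw'
      rintro _ (⟨k, hk, rfl⟩ | ⟨M, hM, rfl⟩)
      · have := s.Φ_ev_inl j X hw.inj (ren s.lW k)
        rw [Γ_ev_lW] at this
        refine Subgroup.subset_closure ⟨_, ?_, this⟩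
        simp only [𝒦, List.mem_append, List.mem_map, Set.mem_ofPred_eq]
        exact Or.inl (Or.inr ⟨k, hk, rfl⟩)
      · have hu : _ ∈ TT S := Subgroup.subset_closure ⟨M, hM, rfl⟩
        have h1 := mul_mem (inv_mem (hα _ hu)) (hconj (some (some true)) (by simp [fix]) _ (hα _ hu))
        rw [← s.σj_gen]
        generalize (FreeGroup.of false ^ M)⁻¹ * FreeGroup.of true * FreeGroup.of false ^ M = u at h1
        change ((s.D j X hw.inj).of (s.α X u, 1, 1, 1))⁻¹ *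
          (s.D j X hw.inj).of (s.α X u, s.σj j u, 1, 1) ∈ H at h1
        rw [← map_inv, ← map_mul] at h1
        change (s.D j X hw.inj).of (1, s.σj j u, 1, 1) ∈ H
        simpa using h1
    have hF : ∀ u ∈ TT (tick S), (s.D j X hw.inj).of (1, 1, u, 1) ∈ H := fun u hu => by
      refine (Subgroup.closure_le (K := H.comap ((s.D j X hw.inj).of.comp
        (s.mk4 (X := X) 1 1 (MonoidHom.id _))))).2 ?_ hu
      rintro _ ⟨M, rfl | ⟨M, hM, rfl⟩, rfl⟩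
      · have := s.Φ_ev_inl j X hw.inj (ren s.lF [(true, true)])
        rw [Γ_ev_lF] at this
        simp only [pow_zero, inv_one, one_mul, mul_one]
        refine Subgroup.subset_closure ⟨_, ?_, this⟩
        simp [𝒦, ren]
      · have hu : _ ∈ TT S := Subgroup.subset_closure ⟨M, hM, rfl⟩
        have h1 := mul_mem (inv_mem (hα _ hu))
          (hconj (some (some false)) (by simp [fix]) _ (hα _ hu))
        rw [Nat.succ_eq_add_one, ← shiftB_gen]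
        generalize (FreeGroup.of false ^ M)⁻¹ * FreeGroup.of true * FreeGroup.of false ^ M = u at h1
        change ((s.D j X hw.inj).of (s.α X u, 1, 1, 1))⁻¹ *
          (s.D j X hw.inj).of (s.α X u, 1, shiftB u, 1) ∈ H at h1
        rw [← map_inv, ← map_mul] at h1
        change (s.D j X hw.inj).of (1, 1, shiftB u, 1) ∈ H
        simpa using h1
    have hT : ∀ γ ∈ s.KT j X S, s.iT j X hw.inj γ ∈ H := fun γ hγ => by
      refine (Subgroup.closure_le (K := H.comap (s.iT j X hw.inj))).2 ?_ hγ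
      rintro _ ⟨k, hk | ⟨x, ⟨M, hM, hx⟩, rfl⟩, rfl⟩
      · exact hK₀ k hk
      · obtain ⟨f, hf, e⟩ := s.Mc.complete M j x hx
        have hf' := hW f (s.L_mono (Set.singleton_subset_iff.2 hM) hf)
        have h1 := mul_mem (hconj (some none) (by simp [fix]) f hf') (inv_mem hf')
        rw [← s.πT_Jx, ← e]
        change (s.D j X hw.inj).of (s.πT X (s.Mc.π f), (f : s.Mc.W.G), 1, 1) *
          ((s.D j X hw.inj).of (1, (f : s.Mc.W.G), 1, 1))⁻¹ ∈ H at h1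
        rw [← map_inv, ← map_mul] at h1
        change (s.D j X hw.inj).of (s.πT X (s.Mc.π f), 1, 1, 1) ∈ H
        simpa using h1
    refine (Subgroup.closure_le _).2 ?_
    rintro _ (⟨⟨a, b, c, d⟩, ⟨h1, h2, h3, h4⟩, rfl⟩ | ⟨k, hk, rfl⟩)
    · obtain rfl : d = 1 := h4
      have := mul_mem (mul_mem (hT a h1) (hW b h2)) (hF c h3)
      change (s.D j X hw.inj).of (a, 1, 1, 1) * _ * _ ∈ H at this
      rw [← map_mul, ← map_mul] at this
      simp only [Prod.mk_mul_mk, one_mul, mul_one] at this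
      exact this
    · exact ht k hk

theorem of_mem_K (hw : s.WF X S) (hs : s.Snd j X S) (γ : (s.Γ X).G) :
    (s.D j X hw.inj).of γ ∈ s.K (s.Φ j X hw.inj) ↔ γ ∈ s.KΓ j X S := by
  rw [s.K_eq hw]
  exact HD.of_mem_Kt _ (s.fixes hw hs) γ

theorem iT_mem_K (hw : s.WF X S) (hs : s.Snd j X S) (γ : (s.T X).G) :
    s.iT j X hw.inj γ ∈ s.K (s.Φ j X hw.inj) ↔ γ ∈ s.KT j X S :=
  (s.of_mem_K hw hs _).trans ⟨fun h => h.1, fun h => ⟨h, one_mem _, one_mem _, rfl⟩⟩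

theorem θ_mem_K (hw : s.WF X S) (hs : s.Snd j X S) (a : X.G) :
    s.θ j X hw.inj a ∈ s.K (s.Φ j X hw.inj) ↔ a ∈ s.K X :=
  (s.iT_mem_K hw hs _).trans ((s.Δ_mem_KT hs _).trans (s.ιm_mem_KC X a))

/-- The norm on `Γ`. -/
noncomputable def νΓ (X : MG s.ι) (γ : (s.Γ X).G) : ℕ :=
  max (s.νT X γ.1) (max (2 * s.Mc.ν γ.2.1) γ.2.2.1.norm)

theorem isSN_νΓ (X : MG s.ι) : IsSN (s.νΓ X) := by
  have h1 : IsSN (s.νT X) := s.Θ.ν_sn _ _
  have h2 := s.Mc.ν_sn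
  have h3 := isSN_norm (α := Bool)
  refine ⟨?_, fun a b => ?_, fun a => ?_⟩
  · simp [νΓ, h1.one, h2.one]
  · have a1 := h1.mul a.1 b.1
    have a2 := h2.mul a.2.1 b.2.1
    have a3 := h3.mul a.2.2.1 b.2.2.1
    change max (s.νT X (a.1 * b.1)) (max (2 * s.Mc.ν (a.2.1 * b.2.1))
      (a.2.2.1 * b.2.2.1).norm) ≤ _
    simp only [νΓ]
    omega
  · change max (s.νT X a.1⁻¹) (max (2 * s.Mc.ν a.2.1⁻¹)
      (a.2.2.1⁻¹).norm) = _
    rw [h1.inv, h2.inv, h3.inv]; rfl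

theorem νΓ_mk (a : (s.T X).G) (b : s.Mc.W.G) (c : FreeGroup Bool) (d : s.G.G) :
    s.νΓ X (a, b, c, d) = max (s.νT X a) (max (2 * s.Mc.ν b) c.norm) := rfl

theorem νT_one : s.νT X 1 = 0 := (s.Θ.ν_sn _ _).one

theorem νΓ_gen (i : s.ιΓ) : s.νΓ X ((s.Γ X).gen i) ≤ 2 := by
  rcases i with i | i | i | i
  · change s.νΓ X ((s.T X).gen i, 1, 1, 1) ≤ 2
    have : s.νT X ((s.T X).gen i) ≤ 1 := s.Θ.ν_gen (s.C X) (s.KC X) i
    simp only [νΓ_mk, s.Mc.ν_sn.one, FreeGroup.norm_one]; omega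
  · change s.νΓ X (1, s.Mc.W.gen i, 1, 1) ≤ 2
    have := s.Mc.ν_gen i
    simp only [νΓ_mk, νT_one, FreeGroup.norm_one]; omega
  · change s.νΓ X (1, 1, FreeGroup.of i, 1) ≤ 2
    simp [νΓ_mk, νT_one, s.Mc.ν_sn.one]
  · change s.νΓ X (1, 1, 1, _) ≤ 2
    simp [νΓ_mk, νT_one, s.Mc.ν_sn.one]

theorem edge_norm (hw : s.WF X S) (k : Lt) (b : Bool) (f : (s.D j X hw.inj).F k) :
    s.νΓ X ((s.D j X hw.inj).a k (!b) f) ≤ s.νΓ X ((s.D j X hw.inj).a k b f) + 2 := by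
  have hΛ := s.hΛ
  rcases k with _ | _ | _ | _ <;> rcases b with _ | _
  · change s.νΓ X (s.Δ X f, 1, 1, 1) ≤ s.νΓ X (s.cone X f, 1, 1, 1) + 2
    simp [νΓ_mk, νT, Δ, cone, s.Θ.ν_Δ, s.Θ.ν_cone]
  · change s.νΓ X (s.cone X f, 1, 1, 1) ≤ s.νΓ X (s.Δ X f, 1, 1, 1) + 2
    simp [νΓ_mk, νT, Δ, cone, s.Θ.ν_Δ, s.Θ.ν_cone]
  · change s.νΓ X (1, _, 1, 1) ≤ s.νΓ X (_, _, 1, 1) + 2
    simp only [νΓ_mk, νT_one]; omega
  · change s.Mc.Fh at f
    change s.νΓ X (s.πT X (s.Mc.π f), (f : s.Mc.W.G), 1, 1) ≤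
      s.νΓ X (1, (f : s.Mc.W.G), 1, 1) + 2
    have := s.νT_πT (X := X) (s.Mc.dep f)
    simp only [νΓ_mk, νT_one]; omega
  · change s.νΓ X (_, 1, 1, 1) ≤ s.νΓ X (_, 1, _, 1) + 2
    simp only [νΓ_mk, FreeGroup.norm_one]; omega
  · change FreeGroup Bool at f
    change s.νΓ X (s.α X f, 1, shiftB f, 1) ≤ s.νΓ X (s.α X f, 1, 1, 1) + 2
    have h1 := s.νT_α hw f
    have h2 := norm_shiftB f
    have h3 : 18 * f.norm ≤ s.Λ * f.norm := Nat.mul_le_mul_right _ hΛ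
    simp only [νΓ_mk] at *; omega
  · change s.νΓ X (_, 1, 1, 1) ≤ s.νΓ X (_, _, 1, 1) + 2
    simp only [νΓ_mk, s.Mc.ν_sn.one]; omega
  · change s.νΓ X (s.α X f, s.σj j f, 1, 1) ≤ s.νΓ X (s.α X f, 1, 1, 1) + 2
    simp only [νΓ_mk, ν_σj]; omega

theorem link_norm (hw : s.WF X S) (hs : s.Snd j X S) : ∀ k ∈ fix, ∀ b f γ,
    γ⁻¹ * (s.D j X hw.inj).a k b f ∈ s.KΓ j X S →
      ∃ γ', γ'⁻¹ * (s.D j X hw.inj).a k (!b) f ∈ s.KΓ j X S ∧ s.νΓ X γ' ≤ s.νΓ X γ + 1 := by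
  have hΛ := s.hΛ
  rintro (_ | _ | _ | _) hk (_ | _) f ⟨a, b, c, d⟩ h
  · exact absurd rfl hk
  · exact absurd rfl hk
  · refine ⟨(1, b, c, d), ⟨(show (1 : (s.T X).G)⁻¹ * 1 ∈ s.KT j X S by simp), h.2⟩, ?_⟩
    simp only [νΓ_mk, νT_one]; omega
  · change s.Mc.Fh at f
    obtain ⟨f', h1, h2⟩ := s.Mc.depK j S b f h.2.1
    refine ⟨(s.πT X (s.Mc.π f'), b, c, d), ⟨?_, h.2⟩, ?_⟩
    · have : ((f'⁻¹ * f : s.Mc.Fh) : s.Mc.W.G) ∈ s.L j S := by
        have := mul_mem (inv_mem h1) h.2.1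
        change (b⁻¹ * (f' : s.Mc.W.G))⁻¹ * (b⁻¹ * (f : s.Mc.W.G)) ∈ s.L j S at this
        simpa [mul_assoc] using this
      have := s.πT_mem (X := X) this
      rw [map_mul, map_mul, map_inv, map_inv] at this
      exact this
    · have := s.νT_πT (X := X) h2
      simp only [νΓ_mk]; omega
  · refine ⟨(a, b, 1, d), ⟨h.1, h.2.1,
      (show (1 : FreeGroup Bool)⁻¹ * 1 ∈ TT (tick S) by simp), h.2.2.2⟩, ?_⟩
    simp only [νΓ_mk, FreeGroup.norm_one]; omega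
  · obtain ⟨u', h1, h2⟩ := s.orbit_α hw hs h.1
    refine ⟨(a, b, shiftB u', d), ⟨h.1, h.2.1, ?_, h.2.2.2⟩, ?_⟩
    · have := shiftB_mem h1
      rw [map_mul, map_inv] at this
      exact this
    · have h3 : (shiftB u').norm ≤ s.νT X a := by
        by_cases hu : u' = 1
        · simp [hu]
        · have h4 := norm_shiftB u'
          have h5 : u'.norm ≠ 0 := by simpa using hu
          have h6 : 18 * u'.norm ≤ s.Λ * u'.norm := Nat.mul_le_mul_right _ hΛ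
          simp only at h2
          omega
      simp only [νΓ_mk]; omega
  · refine ⟨(a, 1, c, d), ⟨h.1, (show (1 : s.Mc.W.G)⁻¹ * 1 ∈ s.L j S by simp), h.2.2⟩, ?_⟩
    simp only [νΓ_mk, s.Mc.ν_sn.one]; omega
  · refine ⟨(a, s.σj j f, c, d), ⟨h.1, ?_, h.2.2⟩, ?_⟩
    · change (s.σj j f)⁻¹ * s.σj j f ∈ _
      simp
    · simp only [νΓ_mk, ν_σj]; omega

theorem nu_le_wn (h : Function.Injective (s.m X)) (g : (s.Φ j X h).G) :
    (s.D j X h).nu (s.νΓ X) g ≤ 2 * (s.Φ j X h).wn g := by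
  obtain ⟨w, rfl, hw⟩ := (s.Φ j X h).exists_wn g
  rw [← hw]
  refine (HD.isSN_nu _ (s.isSN_νΓ X)).evW_le ?_ w
  rintro (i | k)
  · exact (HD.nu_of_le _ _).trans (s.νΓ_gen i)
  · exact (HD.nu_t_le _ (s.isSN_νΓ X) k).trans one_le_two

theorem m_Φ (h : Function.Injective (s.m X)) (u : FreeGroup Bool) :
    s.m (s.Φ j X h) u = (s.D j X h).of (1, 1, u, 1) := by
  induction u using Quot.inductionOn with
  | h w =>
    change s.m _ (FreeGroup.mk w) = _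
    rw [m_mk, Φ_ev_inl, Γ_ev_lF]; rfl

theorem wf_Φ (hw : s.WF X S) (hs : s.Snd j X S) : s.WF (s.Φ j X hw.inj) (tick S) where
  inj a b e := by
    rw [m_Φ, m_Φ] at e
    exact congrArg (fun x => x.2.2.1) ((s.D j X hw.inj).of_injective e)
  clock u := by
    rw [m_Φ, s.of_mem_K hw hs]
    exact ⟨fun h => h.2.2.1, fun h => ⟨one_mem _, one_mem _, h, rfl⟩⟩
  norm u := by
    refine le_trans ?_ (s.nu_le_wn hw.inj _)
    rw [m_Φ, HD.nu_of _ (s.isSN_νΓ X) (s.edge_norm hw), νΓ_mk]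
    omega
  normK x u h := by
    change (s.D j X hw.inj).MH at x
    obtain ⟨l, γ, h1, h2, -, h3⟩ := HD.bnf_K _ (s.fixes hw hs) (s.isSN_νΓ X) (s.edge_norm hw)
      (s.link_norm hw hs) x
    replace h : x⁻¹ * (s.D j X hw.inj).of (1, 1, u, 1) ∈
        (s.D j X hw.inj).Kt (s.KΓ j X S) fix := by
      rw [s.K_eq hw, m_Φ] at h; exact h
    have h4 := inv_mem (mul_mem h2 h)
    have hl : l = [] := by
      by_contra hl
      refine HD.britton_K _ (s.fixes hw hs) hl h1 (1, 1, u, 1) ?_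
      simpa [mul_assoc] using h4
    subst hl
    refine ⟨γ.2.2.1, ?_, ?_⟩
    · rw [s.K_eq hw, m_Φ]
      have h5 : ((1, 1, u, 1) : (s.Γ X).G)⁻¹ * γ ∈ s.KΓ j X S := by
        rw [← HD.of_mem_Kt _ (s.fixes hw hs), map_mul, map_inv]
        simpa [mul_assoc] using h4
      have h6 : ((1, 1, u, 1) : (s.Γ X).G)⁻¹ * (1, 1, γ.2.2.1, 1) ∈ s.KΓ j X S :=
        ⟨by simp, by simp, h5.2.2.1, by simp⟩
      rw [← HD.of_mem_Kt _ (s.fixes hw hs), map_mul, map_inv] at h6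
      have h7 := mul_mem h h6
      rw [mul_assoc, mul_inv_cancel_left] at h7
      exact h7
    · refine le_trans ?_ (h3.trans (s.nu_le_wn hw.inj x))
      exact (le_max_right _ _).trans (le_max_right _ _)

end Setup

end Crest.Agent.R185
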