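import Crest.Agent.R185.PhiDef

/-!
# Row 185: the relative presentation of `Φ`
-/

set_option autoImplicit false

namespace Crest.Agent.R185

theorem ren_ren {ι ι' ι'' : Type} (f : ι → ι') (g : ι' → ι'') (w : Word ι) :
    ren g (ren f w) = ren (fun i => g (f i)) w := by
  simp [ren]

namespace Setup
variable (s : Setup)

theorem Γ_ev_lT (X : MG s.ι) (w : Word s.Θ.ιT) :
    (s.Γ X).ev (ren s.lT w) = ((s.T X).ev w, 1, 1, 1) :=
  MG.prod_ev_inl _ _ w

theorem Γ_ev_lW (X : MG s.ι) (w : Word s.Mc.ιW) :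
    (s.Γ X).ev (ren s.lW w) = (1, s.Mc.W.ev w, 1, 1) := by
  rw [show ren s.lW w = ren Sum.inr (ren Sum.inl w) by rw [ren_ren]; rfl]
  refine (MG.prod_ev_inr _ _ _).trans ?_
  rw [MG.prod_ev_inl]
  rfl

theorem Γ_ev_lF (X : MG s.ι) (w : Word Bool) :
    (s.Γ X).ev (ren s.lF w) = (1, 1, FreeGroup.mk w, 1) := by
  rw [show ren s.lF w = ren Sum.inr (ren Sum.inr (ren Sum.inl w)) by rw [ren_ren, ren_ren]; rfl]
  refine (MG.prod_ev_inr _ _ _).trans ?_
  rw [MG.prod_ev_inr, MG.prod_ev_inl, MG.free_ev]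
  rfl

theorem Γ_ev_lG (X : MG s.ι) (w : Word s.ιG) :
    (s.Γ X).ev (ren s.lG w) = (1, 1, 1, s.G.ev w) := by
  rw [show ren s.lG w = ren Sum.inr (ren Sum.inr (ren Sum.inr w)) by rw [ren_ren, ren_ren]; rfl]
  refine (MG.prod_ev_inr _ _ _).trans ?_
  rw [MG.prod_ev_inr, MG.prod_ev_inr]
  rfl

theorem Δ_ev (X : MG s.ι) (w : Word s.ιC) :
    s.Δ X ((s.C X).ev w) = (s.T X).ev (subst s.Θ.σΔ w) := hom_ev (s.Θ.Δ_gen _ _) w

theorem cone_ev (X : MG s.ι) (w : Word s.ιC) :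
    s.cone X ((s.C X).ev w) = (s.T X).ev (subst s.Θ.σc w) := hom_ev (s.Θ.cone_gen _ _) w

variable (j : Nat.Partrec.Code) (X : MG s.ι) (h : Function.Injective (s.m X))

theorem iT_ev (w : Word s.Θ.ιT) :
    s.iT j X h ((s.T X).ev w) = (s.Φ j X h).ev (ren .inl (ren s.lT w)) := by
  rw [Φ_ev_inl, Γ_ev_lT]; rfl

theorem iT_inj : Function.Injective (s.iT j X h) := fun _ _ e =>
  congrArg Prod.fst ((s.D j X h).of_injective e)

theorem θ_gen (i : s.ι) : s.θ j X h (X.gen i) = (s.Φ j X h).ev (s.σ i) := by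
  rw [σ, ← iT_ev, ← Δ_ev, ← ιm_gen]; rfl

theorem θ_inj : Function.Injective (s.θ j X h) :=
  (s.iT_inj j X h).comp ((s.Δ_inj X).comp (s.ιm_inj X))

/-- Words for `α`. -/
def αw (b : Bool) : Word s.Θ.ιT := subst s.Θ.σΔ (s.σι (.inl (s.lF b)))

theorem α_of (b : Bool) : s.α X (FreeGroup.of b) = (s.T X).ev (s.αw b) := by
  rw [αw, ← Δ_ev, ← ιm_gen]
  simp [α, m]

theorem α_mk (u : Word Bool) : s.α X (FreeGroup.mk u) = (s.T X).ev (subst s.αw u) := by
  rw [← evW_of, map_evW, MG.ev, evW_subst]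
  simp only [α_of]

/-- Words for the shift. -/
def βw (b : Bool) : Word Bool := [(false, false), (b, true), (false, true)]

theorem shiftB_of (b : Bool) : shiftB (FreeGroup.of b) = FreeGroup.mk (βw b) := by
  rw [shiftB_apply, ← evW_of]
  simp [βw, evW_cons, mul_assoc]

theorem πT_mk (u : Word (Option s.Θ.ιV)) :
    s.πT X (FreeGroup.mk u) = (s.T X).ev (subst s.σπ u) := by
  rw [MG.ev, evW_subst]; rfl

/-- Generating pairs of the edge maps which do not depend on the program. -/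
def gw₀ : Lt → Set (Word s.ιΓ × Word s.ιΓ)
  | none => Set.range fun i => (ren s.lT (s.Θ.σΔ i), ren s.lT (s.Θ.σc i))
  | some none => Set.range fun i => (ren s.lW (s.Mc.hw i),
      ren s.lT (subst s.σπ (s.Mc.πw i)) ++ ren s.lW (s.Mc.hw i))
  | some (some false) => Set.range fun b => (ren s.lT (s.αw b), ren s.lT (s.αw b) ++ ren s.lF (βw b))
  | some (some true) => {(ren s.lT (s.αw false), ren s.lT (s.αw false) ++ ren s.lW s.Mc.z)}

/-- The generating pair depending on the program. -/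
def gwj (st : Word s.Mc.ιW) : Word s.ιΓ × Word s.ιΓ :=
  (ren s.lT (s.αw true), ren s.lT (s.αw true) ++ ren s.lW st)

/-- The relator attached to a generating pair. -/
def hn (k : Lt) (p : Word s.ιΓ × Word s.ιΓ) : Word s.ι :=
  [(Sum.inr k, true)] ++ ren Sum.inl p.1 ++ [(Sum.inr k, false)] ++ (ren Sum.inl p.2).inv

def gw (k : Lt) : Set (Word s.ιΓ × Word s.ιΓ) :=
  s.gw₀ k ∪ {p | k = some (some true) ∧ p = s.gwj (s.Mc.start j)}

theorem gw₀_finite (k : Lt) : (s.gw₀ k).Finite := by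
  rcases k with _ | _ | _ | _
  exacts [Set.finite_range _, Set.finite_range _, Set.finite_range _, Set.finite_singleton _]

theorem hw_mem (i : s.Mc.ιH) : s.Mc.W.ev (s.Mc.hw i) ∈ s.Mc.Fh := by
  rw [s.Mc.Fh_eq]; exact Subgroup.subset_closure ⟨i, rfl⟩

theorem closure_hw : Subgroup.closure (Set.range fun i => (⟨_, s.hw_mem i⟩ : s.Mc.Fh)) = ⊤ := by
  apply Subgroup.map_injective s.Mc.Fh.subtype_injective
  rw [MonoidHom.map_closure, ← Set.range_comp, ← MonoidHom.range_eq_map, Subgroup.range_subtype]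
  exact s.Mc.Fh_eq.symm

theorem exists_hw (f : s.Mc.Fh) :
    ∃ u : Word s.Mc.ιH, evW (fun i => (⟨_, s.hw_mem i⟩ : s.Mc.Fh)) u = f := by
  rw [← mem_closure_range_iff, closure_hw]; trivial

theorem gw_spec (k : Lt) : ∀ p ∈ s.gw j k, ∃ f, (s.Γ X).ev p.1 = (s.D j X h).a k true f ∧
    (s.Γ X).ev p.2 = (s.D j X h).a k false f := by
  rintro p (hp | ⟨rfl, rfl⟩)
  · rcases k with _ | _ | _ | _
    · obtain ⟨i, rfl⟩ := hp
      refine ⟨(s.C X).gen i, ?_, ?_⟩
      · rw [Γ_ev_lT, ← s.Θ.Δ_gen]; rfl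
      · rw [Γ_ev_lT, ← s.Θ.cone_gen]; rfl
    · obtain ⟨i, rfl⟩ := hp
      refine ⟨⟨_, s.hw_mem i⟩, ?_, ?_⟩
      · rw [Γ_ev_lW]; rfl
      · rw [MG.ev, evW_append, ← MG.ev, ← MG.ev, Γ_ev_lT, Γ_ev_lW, ← πT_mk,
          ← s.Mc.π_gen i (s.hw_mem i)]
        exact Prod.ext (mul_one _) (Prod.ext (one_mul _) (mul_one _))
    · obtain ⟨b, rfl⟩ := hp
      refine ⟨FreeGroup.of b, ?_, ?_⟩
      · rw [Γ_ev_lT, ← α_of]; rfl
      · rw [MG.ev, evW_append, ← MG.ev, ← MG.ev, Γ_ev_lT, Γ_ev_lF, ← α_of, ← shiftB_of]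
        exact Prod.ext (mul_one _) (Prod.ext (one_mul _) (one_mul _))
    · obtain rfl := hp
      refine ⟨FreeGroup.of false, ?_, ?_⟩
      · rw [Γ_ev_lT, ← α_of]; rfl
      · rw [MG.ev, evW_append, ← MG.ev, ← MG.ev, Γ_ev_lT, Γ_ev_lW, ← α_of]
        refine Prod.ext (mul_one _) (Prod.ext ((one_mul _).trans ?_) (one_mul _))
        exact (FreeGroup.lift_apply_of (f := fun b => s.Mc.W.ev (bif b then s.Mc.start j else s.Mc.z))
          (x := false)).symm
  · refine ⟨FreeGroup.of true, ?_, ?_⟩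
    · rw [gwj, Γ_ev_lT, ← α_of]; rfl
    · rw [gwj, MG.ev, evW_append, ← MG.ev, ← MG.ev, Γ_ev_lT, Γ_ev_lW, ← α_of]
      refine Prod.ext (mul_one _) (Prod.ext ((one_mul _).trans ?_) (one_mul _))
      exact (FreeGroup.lift_apply_of (f := fun b => s.Mc.W.ev (bif b then s.Mc.start j else s.Mc.z))
        (x := true)).symm

theorem gw_gen (k : Lt) :
    Subgroup.closure {f | ∃ p ∈ s.gw j k, (s.Γ X).ev p.1 = (s.D j X h).a k true f} = ⊤ := by
  rw [eq_top_iff]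
  rcases k with _ | _ | b
  · rintro c -
    obtain ⟨w, rfl⟩ := (s.C X).surj c
    refine Subgroup.closure_mono ?_ ((mem_closure_range_iff (s.C X).gen _).2 ⟨w, rfl⟩)
    rintro _ ⟨i, rfl⟩
    exact ⟨_, Or.inl ⟨i, rfl⟩, by rw [Γ_ev_lT, ← s.Θ.Δ_gen]; rfl⟩
  · refine s.closure_hw.ge.trans (Subgroup.closure_mono ?_)
    rintro _ ⟨i, rfl⟩
    exact ⟨_, Or.inl ⟨i, rfl⟩, by rw [Γ_ev_lW]; rfl⟩
  · refine (FreeGroup.closure_range_of Bool).ge.trans (Subgroup.closure_mono ?_)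
    rintro _ ⟨b', rfl⟩
    have e : (s.Γ X).ev (ren s.lT (s.αw b')) =
        (s.D j X h).a (some (some b)) true (FreeGroup.of b') := by
      rw [Γ_ev_lT, ← α_of]; rfl
    rcases b with _ | _
    · exact ⟨_, Or.inl ⟨b', rfl⟩, e⟩
    · rcases b' with _ | _
      · exact ⟨_, Or.inl rfl, e⟩
      · exact ⟨_, Or.inr ⟨rfl, rfl⟩, e⟩

/-- Relators of `Γ`. -/
def TΓ (A : Set (Word s.ιC)) : Set (Word s.ιΓ) :=
  ren Sum.inl '' ({r | r ∈ s.Θ.R} ∪ subst s.Θ.σc '' A ∪ {r | ∃ k ∈ {k | k ∈ s.𝒦C},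
      r = s.Θ.g ++ subst s.Θ.σc k ++ s.Θ.g.inv ++ (subst s.Θ.σc k).inv}) ∪
    ren Sum.inr '' (ren Sum.inl '' {r | r ∈ s.Mc.R} ∪
      ren Sum.inr '' (ren Sum.inl '' ∅ ∪ ren Sum.inr '' {r | r ∈ s.RG} ∪
        {r | ∃ i i', r = comm [(Sum.inl i, true)] [(Sum.inr i', true)]}) ∪
      {r | ∃ i i', r = comm [(Sum.inl i, true)] [(Sum.inr i', true)]}) ∪
    {r | ∃ i i', r = comm [(Sum.inl i, true)] [(Sum.inr i', true)]}

theorem pres_Γ : Pres (s.Γ X) (s.TΓ (s.C X).rel) :=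
  pres_prod (s.Θ.pres _ _) (pres_prod s.Mc.pres (pres_prod (pres_free _) s.presG))

theorem finite_comm (ι ι' : Type) [Finite ι] [Finite ι'] : {r : Word (ι ⊕ ι') |
    ∃ i i', r = comm [(Sum.inl i, true)] [(Sum.inr i', true)]}.Finite :=
  (Set.finite_range fun p : ι × ι' => comm [(Sum.inl p.1, true)] [(Sum.inr p.2, true)]).subset
    (by rintro _ ⟨i, i', rfl⟩; exact ⟨(i, i'), rfl⟩)

theorem TΓ_finite : (s.TΓ ∅).Finite := by
  refine ((((List.finite_toSet _).union (by simp)).union ?_).image _ |>.union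
    ((((List.finite_toSet _).image _).union (((((Set.finite_empty.image _).union
    ((List.finite_toSet _).image _)).union (finite_comm _ _)).image _))).union
    (finite_comm _ _) |>.image _)).union (finite_comm _ _)
  exact ((List.finite_toSet s.𝒦C).image fun k =>
    s.Θ.g ++ subst s.Θ.σc k ++ s.Θ.g.inv ++ (subst s.Θ.σc k).inv).subset
    (by rintro _ ⟨k, hk, rfl⟩; exact ⟨k, hk, rfl⟩)

theorem TΓ_eq (A : Set (Word s.ιC)) :
    s.TΓ A = s.TΓ ∅ ∪ ren Sum.inl '' (subst s.Θ.σc '' A) := by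
  simp only [TΓ, Set.image_union, Set.image_empty, Set.union_empty]
  ac_rfl

/-- The relators independent of the program. -/
def R₀ : Set (Word s.ι) :=
  ren Sum.inl '' s.TΓ ∅ ∪ {r | ∃ k, ∃ p ∈ s.gw₀ k, r = s.hn k p} ∪
    (fun r => ren .inl (ren s.lT (subst s.Θ.σΔ r))) '' {r | r ∈ s.P.R} ∪
    (fun r => ren .inl (ren s.lT (subst s.Θ.σΔ (subst s.P.σ r)))) '' {r | r ∈ s.St.R}

theorem R₀_finite : s.R₀.Finite := by
  refine (((s.TΓ_finite.image _).union ?_).union ((List.finite_toSet _).image _)).union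
    ((List.finite_toSet _).image _)
  refine (Set.finite_iUnion fun k => (s.gw₀_finite k).image (s.hn k)).subset ?_
  rintro _ ⟨k, p, hp, rfl⟩
  exact Set.mem_iUnion.2 ⟨k, p, hp, rfl⟩

/-- The relator depending on the program. -/
def rj (st : Word s.Mc.ιW) : Word s.ι := s.hn (some (some true)) (s.gwj st)

/-- All relators. -/
def R : Set (Word s.ι) := s.R₀ ∪ {s.rj (s.Mc.start j)}

theorem R_finite : (s.R j).Finite := s.R₀_finite.union (Set.finite_singleton _)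

theorem pres_Φ : Pres (s.Φ j X h) (s.R j ∪ subst s.σ '' X.rel) := by
  have h0 : Pres (s.Φ j X h) _ := pres_hnn (s.Γ X) (s.D j X h) (s.pres_Γ X) (s.gw j) (s.gw_spec j X h) (s.gw_gen j X h)
  refine h0.of_imp ?_ ?_
  · rintro r (((((⟨r, hr, rfl⟩ | ⟨k, p, hp, rfl⟩) | ⟨r, hr, rfl⟩) | ⟨r, hr, rfl⟩) | rfl) |
      ⟨w, hw, rfl⟩)
    · exact h0.1 _ (Or.inl ⟨r, by rw [TΓ_eq]; exact Or.inl hr, rfl⟩)
    · exact h0.1 _ (Or.inr ⟨k, p, Or.inl hp, rfl⟩)
    · rw [← iT_ev, ← Δ_ev, (s.P.pres _).1 r (Or.inl hr), map_one, map_one]; rfl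
    · rw [← iT_ev, ← Δ_ev, ← s.P.f_ev, (s.St.pres _).1 r (Or.inl hr), map_one, map_one, map_one]
      rfl
    · exact h0.1 _ (Or.inr ⟨_, _, Or.inr ⟨rfl, rfl⟩, rfl⟩)
    · rw [← hom_ev (s.θ_gen j X h), show X.ev w = 1 from hw, map_one]; rfl
  · intro Z _ z hz
    rintro r (⟨r, hr, rfl⟩ | ⟨k, p, hp | ⟨rfl, rfl⟩, rfl⟩)
    · rw [TΓ_eq] at hr
      rcases hr with hr | ⟨_, ⟨w, hw, rfl⟩, rfl⟩
      · exact hz _ (Or.inl (Or.inl (Or.inl (Or.inl (Or.inl ⟨r, hr, rfl⟩)))))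
      · have hΔ : evW (fun i => evW z (ren .inl (ren s.lT (s.Θ.σΔ i)))) w = 1 := by
          refine (s.P.pres _).2 Z _ ?_ w hw
          rintro r (hr | ⟨v, hv, rfl⟩)
          · have := hz _ (Or.inl (Or.inl (Or.inl (Or.inr ⟨r, hr, rfl⟩))))
            simpa only [evW_ren, evW_subst] using this
          · rw [evW_subst]
            refine (s.St.pres _).2 Z _ ?_ v hv
            rintro r (hr | ⟨v, hv, rfl⟩)
            · have := hz _ (Or.inl (Or.inl (Or.inr ⟨r, hr, rfl⟩)))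
              simpa only [evW_ren, evW_subst] using this
            · have := hz _ (Or.inr ⟨v, hv, rfl⟩)
              simpa only [σ, σι, evW_ren, evW_subst] using this
        have hδ : ∀ i, evW z (ren .inl (ren s.lT (s.Θ.σc i))) = MulAut.conj (z (.inr none))
            (evW z (ren .inl (ren s.lT (s.Θ.σΔ i)))) := fun i => by
          have := hz _ (Or.inl (Or.inl (Or.inl (Or.inl (Or.inr
            ⟨none, _, ⟨i, rfl⟩, rfl⟩)))))
          simp only [hn, evW_append, evW_true, evW_false, evW_inv, mul_inv_eq_one] at this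
          exact this.symm
        have := map_evW ((MulAut.conj (z (.inr none)) : MulAut Z) : Z →* Z)
          (fun i => evW z (ren .inl (ren s.lT (s.Θ.σΔ i)))) w
        rw [hΔ, map_one] at this
        rw [evW_ren, evW_ren, evW_subst, this]
        congr 1
        funext i
        have h2 := hδ i
        rw [evW_ren, evW_ren] at h2
        exact h2
    · exact hz _ (Or.inl (Or.inl (Or.inl (Or.inl (Or.inr ⟨k, p, hp, rfl⟩)))))
    · exact hz _ (Or.inl (Or.inr rfl))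

end Setup

end Crest.Agent.R185
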