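import Crest.Agent.R185.PhiK
import Crest.Agent.R185.Lim

/-!
# Row 185: the invariants at stage `0`, under isomorphism and in the limit
-/

set_option autoImplicit false

namespace Crest.Agent.R185

theorem wf_exists_hom {ι : Type} {X X' : MG ι} (h : X.rel ⊆ X'.rel) :
    ∃ f : X.G →* X'.G, ∀ w, f (X.ev w) = X'.ev w :=
  X.exists_hom X'.gen fun _ hw => h hw

theorem wf_sub_hom {ι : Type} {X X' : MG ι} {f : X.G →* X'.G} (hf : ∀ w, f (X.ev w) = X'.ev w)
    (T : Set (Word ι)) {x : X.G} (hx : x ∈ X.sub T) : f x ∈ X'.sub T := by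
  refine (Subgroup.closure_le (K := (X'.sub T).comap f)).2 ?_ hx
  rintro _ ⟨k, hk, rfl⟩
  exact Subgroup.subset_closure ⟨k, hk, (hf k).symm⟩

theorem wf_wn_hom {ι : Type} {X X' : MG ι} {f : X.G →* X'.G} (hf : ∀ w, f (X.ev w) = X'.ev w)
    (x : X.G) : X'.wn (f x) ≤ X.wn x := by
  obtain ⟨w, rfl, hw⟩ := X.exists_wn x
  rw [← hw, hf]
  exact X'.wn_le w

theorem TT_univ_cont {u : FreeGroup Bool} (hu : u ∈ TT Set.univ) :
    ∃ k : ℕ, u ∈ TT {M | M ≤ k} := by
  induction hu using Subgroup.closure_induction with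
  | mem x hx =>
    obtain ⟨M, -, rfl⟩ := hx
    exact ⟨M, Subgroup.subset_closure ⟨M, le_refl M, rfl⟩⟩
  | one => exact ⟨0, one_mem _⟩
  | mul x y _ _ hx hy =>
    obtain ⟨k, hk⟩ := hx
    obtain ⟨k', hk'⟩ := hy
    refine ⟨max k k', mul_mem (TT_mono ?_ hk) (TT_mono ?_ hk')⟩
    · exact fun M (hM : M ≤ k) => hM.trans (le_max_left _ _)
    · exact fun M (hM : M ≤ k') => hM.trans (le_max_right _ _)
  | inv x _ hx =>
    obtain ⟨k, hk⟩ := hx
    exact ⟨k, inv_mem hk⟩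

theorem wf_choose_list {α γ : Type} {P : α → Prop} {Q : γ → Prop} {r : γ → α → Prop}
    (L : List α) (h : ∀ x ∈ L, P x ∨ ∃ v, Q v ∧ r v x) :
    ∃ V : List γ, (∀ v ∈ V, Q v) ∧ ∀ x ∈ L, P x ∨ ∃ v ∈ V, r v x := by
  induction L with
  | nil => exact ⟨[], by simp, by simp⟩
  | cons x L ih =>
    obtain ⟨V, hV, hL⟩ := ih fun y hy => h y (List.mem_cons_of_mem _ hy)
    rcases h x List.mem_cons_self with hx | ⟨v, hv, hx⟩
    · refine ⟨V, hV, fun y hy => ?_⟩
      rcases List.mem_cons.1 hy with rfl | hy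
      exacts [Or.inl hx, hL y hy]
    · refine ⟨v :: V, fun v' hv' => ?_, fun y hy => ?_⟩
      · rcases List.mem_cons.1 hv' with rfl | hv'
        exacts [hv, hV v' hv']
      · rcases List.mem_cons.1 hy with rfl | hy
        · exact Or.inr ⟨v, List.mem_cons_self, hx⟩
        · rcases hL y hy with h' | ⟨v', hv', h'⟩
          exacts [Or.inl h', Or.inr ⟨v', List.mem_cons_of_mem _ hv', h'⟩]

/-- The rule which derives the relations of the finite stages. -/
def stgRule {ι β : Type} (σ : ι → Word ι) (R : β → Set (Word ι))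
    (q : ((β × ℕ) × Word ι) × List ((β × ℕ) × Word ι)) : Prop :=
  ∃ L : List (Word ι × Word ι × Bool), FreeGroup.mk q.1.2 = FreeGroup.mk (clConjProd L) ∧
    ∀ x ∈ L, 0 < q.1.1.2 ∧ (x.2.1 ∈ R q.1.1.1 ∨
      ∃ v, ((q.1.1.1, q.1.1.2 - 1), v) ∈ q.2 ∧ x.2.1 = subst σ v)

theorem der_stgRule {ι β : Type} (σ : ι → Word ι) (R : β → Set (Word ι))
    (p : (β × ℕ) × Word ι) : Der (stgRule σ R) p ↔ p.2 ∈ stgRel σ (R p.1.1) p.1.2 := by
  constructor
  · intro h
    induction h with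
    | mk a D hR _ ih =>
      obtain ⟨⟨b, k⟩, w⟩ := a
      obtain ⟨L, e, hL⟩ := hR
      dsimp only at e hL ⊢
      rcases k with _ | k
      · rw [stgRel_zero]
        exact (cl_eq_one_iff (pres_ofRel _) w).2 ⟨L, fun x hx => absurd (hL x hx).1 (lt_irrefl 0), e⟩
      · rw [stgRel_succ]
        refine (cl_eq_one_iff (pres_ofRel _) w).2 ⟨L, fun x hx => ?_, e⟩
        rcases (hL x hx).2 with h | ⟨v, hv, h⟩
        · exact Or.inl h
        · exact Or.inr ⟨v, ih _ hv, h.symm⟩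
  · obtain ⟨⟨b, k⟩, w⟩ := p
    dsimp only
    intro h
    induction k generalizing w with
    | zero =>
      rw [stgRel_zero] at h
      obtain ⟨L, hL, e⟩ := (cl_eq_one_iff (pres_ofRel _) w).1 h
      exact Der.mk _ [] ⟨L, e, fun x hx => (hL x hx).elim⟩ (by simp)
    | succ k ih =>
      rw [stgRel_succ] at h
      obtain ⟨L, hL, e⟩ := (cl_eq_one_iff (pres_ofRel _) w).1 h
      obtain ⟨V, hV, hL'⟩ := wf_choose_list (P := fun x : Word ι × Word ι × Bool => x.2.1 ∈ R b)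
        (Q := fun v => v ∈ stgRel σ (R b) k) (r := fun v x => x.2.1 = subst σ v) L (by
          intro x hx
          rcases hL x hx with h | ⟨v, hv, h⟩
          exacts [Or.inl h, Or.inr ⟨v, hv, h.symm⟩])
      refine Der.mk _ (V.map fun v => ((b, k), v)) ⟨L, e, fun x hx => ⟨Nat.succ_pos k, ?_⟩⟩ ?_
      · rcases hL' x hx with h | ⟨v, hv, h⟩
        · exact Or.inl h
        · exact Or.inr ⟨v, List.mem_map.2 ⟨v, hv, rfl⟩, h⟩
      · intro d hd
        obtain ⟨v, hv, rfl⟩ := List.mem_map.1 hd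
        exact ih v (hV v hv)

theorem re_stgRule {ι β : Type} [Primcodable ι] [Finite ι] [Primcodable β] (σ : ι → Word ι)
    (R : β → Set (Word ι)) (hR : REPred fun p : β × Word ι => p.2 ∈ R p.1) :
    REPred (stgRule σ R) := by
  let Q := ((β × ℕ) × Word ι) × List ((β × ℕ) × Word ι)
  let E := Word ι × Word ι × Bool
  have h1 : REPred fun v : Q × List E => FreeGroup.mk v.1.1.2 = FreeGroup.mk (clConjProd v.2) :=
    re_of_primrecPred (primrecPred_mk_eq.comp
      ((Primrec.snd.comp (Primrec.fst.comp Primrec.fst)).pair (cl_primrec_conjProd.comp Primrec.snd)))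
  have pb : Primrec fun q : Q => q.1.1.1 := Primrec.fst.comp (Primrec.fst.comp Primrec.fst)
  have pk : Primrec fun q : Q => q.1.1.2 := Primrec.snd.comp (Primrec.fst.comp Primrec.fst)
  have px : Primrec fun x : E => x.2.1 := Primrec.fst.comp Primrec.snd
  have h2 : REPred fun v : Q × E => 0 < v.1.1.1.2 :=
    re_of_primrecPred (Primrec.nat_lt.comp (Primrec.const 0) (pk.comp Primrec.fst))
  have h3 : REPred fun v : Q × E => v.2.2.1 ∈ R v.1.1.1.1 :=
    re_comp hR (f := fun v : Q × E => (v.1.1.1.1, v.2.2.1))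
      ((pb.comp Primrec.fst).pair (px.comp Primrec.snd)).to_comp
  have h4 : REPred fun u : (Q × E) × Word ι =>
      ((u.1.1.1.1.1, u.1.1.1.1.2 - 1), u.2) ∈ u.1.1.2 ∧ u.1.2.2.1 = subst σ u.2 := by
    refine re_and (re_of_primrecPred ?_) (re_of_primrecPred ?_)
    · exact cl_primrecRel_mem.comp
        (((pb.comp (Primrec.fst.comp Primrec.fst)).pair
          (Primrec.nat_sub.comp (pk.comp (Primrec.fst.comp Primrec.fst)) (Primrec.const 1))).pair
          Primrec.snd) (Primrec.snd.comp (Primrec.fst.comp Primrec.fst))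
    · exact Primrec.eq.comp (px.comp (Primrec.snd.comp Primrec.fst))
        ((primrec_subst σ).comp Primrec.snd)
  have h5 := re_and h2 (re_or h3 (re_exists h4))
  have h6 : REPred fun v : Q × List E => ∀ x ∈ v.2, 0 < v.1.1.1.2 ∧ (x.2.1 ∈ R v.1.1.1.1 ∨
      ∃ w, ((v.1.1.1.1, v.1.1.1.2 - 1), w) ∈ v.1.2 ∧ x.2.1 = subst σ w) :=
    re_forall_mem (p := fun u : (Q × List E) × E => 0 < u.1.1.1.1.2 ∧ (u.2.2.1 ∈ R u.1.1.1.1.1 ∨
      ∃ w, ((u.1.1.1.1.1, u.1.1.1.1.2 - 1), w) ∈ u.1.1.2 ∧ u.2.2.1 = subst σ w))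
      (re_comp h5 (f := fun u : (Q × List E) × E => (u.1.1, u.2))
        ((Primrec.fst.comp Primrec.fst).pair Primrec.snd).to_comp) Computable.snd
  exact re_exists (re_and h1 h6)

theorem re_stgRel_of {ι β : Type} [Primcodable ι] [Finite ι] [Primcodable β] (σ : ι → Word ι)
    (R : β → Set (Word ι)) (hR : REPred fun p : β × Word ι => p.2 ∈ R p.1) :
    REPred fun p : (β × ℕ) × Word ι => p.2 ∈ stgRel σ (R p.1.1) p.1.2 :=
  (re_der (re_stgRule σ R hR)).of_eq (der_stgRule σ R)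

namespace Setup
variable (s : Setup)

theorem m_hom {X X' : MG s.ι} {f : X.G →* X'.G} (hf : ∀ w, f (X.ev w) = X'.ev w)
    (u : FreeGroup Bool) : f (s.m X u) = s.m X' u := by
  induction u using Quot.inductionOn with
  | h w =>
    change f (s.m X (FreeGroup.mk w)) = s.m X' (FreeGroup.mk w)
    rw [m_mk, m_mk, hf]

theorem K_hom {X X' : MG s.ι} {f : X.G →* X'.G} (hf : ∀ w, f (X.ev w) = X'.ev w) {x : X.G}
    (hx : x ∈ s.K X) : f x ∈ s.K X' := wf_sub_hom hf _ hx

theorem mem_K_mono {X X' : MG s.ι} (h : X.rel ⊆ X'.rel) {w : Word s.ι}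
    (hw : X.ev w ∈ s.K X) : X'.ev w ∈ s.K X' := by
  obtain ⟨f, hf⟩ := wf_exists_hom h
  rw [← hf]
  exact s.K_hom hf hw

theorem wf_congr {X X' : MG s.ι} {S : Set ℕ} (h : X.rel = X'.rel) (hw : s.WF X S) :
    s.WF X' S := by
  obtain ⟨f, hf⟩ := wf_exists_hom h.le
  obtain ⟨g, hg⟩ := wf_exists_hom h.ge
  have hfg : ∀ x, f (g x) = x := fun x => by
    obtain ⟨w, rfl⟩ := X'.surj x
    exact (congrArg f (hg w)).trans (hf w)
  refine ⟨fun a b e => hw.inj ?_, fun u => ⟨fun hu => (hw.clock u).1 ?_, fun hu => ?_⟩,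
    fun u => ?_, fun x u hx => ?_⟩
  · rw [← s.m_hom hg, ← s.m_hom hg, e]
  · rw [← s.m_hom hg]
    exact s.K_hom hg hu
  · rw [← s.m_hom hf]
    exact s.K_hom hf ((hw.clock u).2 hu)
  · refine (hw.norm u).trans (Nat.mul_le_mul_left _ ?_)
    rw [← s.m_hom hg]
    exact wf_wn_hom hg _
  · have h1 := s.K_hom hg hx
    rw [map_mul, map_inv, s.m_hom hg] at h1
    obtain ⟨u', h2, h3⟩ := hw.normK _ _ h1
    refine ⟨u', ?_, h3.trans (Nat.mul_le_mul_left _ (wf_wn_hom hg x))⟩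
    have h4 := s.K_hom hf h2
    rwa [map_mul, map_inv, s.m_hom hf, hfg] at h4

/-- The images of the letters under the retraction onto the marked free subgroup. -/
def ρz : s.ι → FreeGroup Bool :=
  Sum.elim (Sum.elim (fun _ => 1) (Sum.elim (fun _ => 1) (Sum.elim FreeGroup.of fun _ => 1)))
    fun _ => 1

/-- The retraction onto the marked free subgroup. -/
def ρ : (MG.free s.ι).G →* FreeGroup Bool := FreeGroup.lift s.ρz

theorem ρ_ev (w : Word s.ι) : s.ρ ((MG.free s.ι).ev w) = evW s.ρz w := by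
  rw [MG.free_ev]; rfl

theorem evW_const_one {ι G : Type} [Group G] (w : Word ι) : evW (fun _ => (1 : G)) w = 1 := by
  induction w with
  | nil => simp
  | cons x w ih => rw [evW_cons, ih]; rcases x with ⟨i, _ | _⟩ <;> simp

theorem ρ_m (u : FreeGroup Bool) : s.ρ (s.m (MG.free s.ι) u) = u := by
  induction u using Quot.inductionOn with
  | h w =>
    change s.ρ (s.m _ (FreeGroup.mk w)) = FreeGroup.mk w
    rw [m_mk, ρ_ev, evW_ren, evW_ren]
    exact evW_of w

theorem ρ_K {x : (MG.free s.ι).G} (hx : x ∈ s.K (MG.free s.ι)) : s.ρ x ∈ TT {0} := by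
  refine (Subgroup.closure_le (K := (TT {0}).comap s.ρ)).2 ?_ hx
  rintro _ ⟨k, hk, rfl⟩
  simp only [𝒦, List.mem_append, List.mem_map, List.mem_cons, List.not_mem_nil, or_false,
    Set.mem_ofPred_eq] at hk
  change s.ρ _ ∈ TT {0}
  rw [ρ_ev]
  rcases hk with (⟨k, hk, rfl⟩ | ⟨k, hk, rfl⟩) | rfl | rfl | rfl | rfl
  · rw [evW_ren, evW_ren]
    exact (congrArg (· ∈ TT {0}) (evW_const_one (G := FreeGroup Bool) k)).mpr (one_mem _)
  · rw [evW_ren, evW_ren]
    exact (congrArg (· ∈ TT {0}) (evW_const_one (G := FreeGroup Bool) k)).mpr (one_mem _)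
  · rw [evW_true]
    exact Subgroup.subset_closure ⟨0, rfl, by simp; rfl⟩
  all_goals
    rw [evW_true]
    exact one_mem _

theorem m_mem_K_zero (X : MG s.ι) {u : FreeGroup Bool} (hu : u ∈ TT {0}) : s.m X u ∈ s.K X := by
  refine (Subgroup.closure_le (K := (s.K X).comap (s.m X))).2 ?_ hu
  rintro _ ⟨M, rfl, rfl⟩
  simp only [pow_zero, inv_one, one_mul, mul_one]
  refine Subgroup.subset_closure ⟨[(.inl (s.lF true), true)], by simp [𝒦], ?_⟩
  simp [m]

theorem norm_ρ (x : (MG.free s.ι).G) : (s.ρ x).norm ≤ (MG.free s.ι).wn x := by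
  have h := isSN_norm (α := Bool)
  refine IsSN.le_wn (MG.free s.ι) (ν := fun x => (s.ρ x).norm) ⟨?_, fun a b => ?_, fun a => ?_⟩
    (fun i => ?_) x
  · rw [map_one, h.one]
  · rw [map_mul]; exact h.mul _ _
  · rw [map_inv, h.inv]
  · have : s.ρ ((MG.free s.ι).gen i) = s.ρz i := FreeGroup.lift_apply_of
    rw [this]
    rcases i with (i | i | i | i) | i
    · exact h.one.le.trans zero_le_one
    · exact h.one.le.trans zero_le_one
    · exact (FreeGroup.norm_of i).le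
    · exact h.one.le.trans zero_le_one
    · exact h.one.le.trans zero_le_one

theorem wf_free : s.WF (MG.free s.ι) {0} := by
  refine ⟨fun a b e => ?_, fun u => ⟨fun hu => ?_, s.m_mem_K_zero _⟩, fun u => ?_,
    fun x u hx => ⟨s.ρ x, ?_, ?_⟩⟩
  · rw [← s.ρ_m a, e, ρ_m]
  · rw [← s.ρ_m u]
    exact s.ρ_K hu
  · have := s.norm_ρ (s.m _ u)
    rw [ρ_m] at this
    omega
  · have h1 := s.ρ_K hx
    rw [map_mul, map_inv, ρ_m] at h1
    have h2 := s.m_mem_K_zero (MG.free s.ι) h1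
    rw [map_mul, map_inv] at h2
    have h3 := mul_mem hx (inv_mem h2)
    simpa [mul_assoc] using h3
  · have := s.norm_ρ x
    omega

theorem K_cont (σ : s.ι → Word s.ι) (R : Set (Word s.ι)) {m : ℕ∞} {w : Word s.ι}
    (h : (stg σ R m).ev w ∈ s.K (stg σ R m)) :
    ∃ k : ℕ, (k : ℕ∞) ≤ m ∧ (stg σ R k).ev w ∈ s.K (stg σ R k) := by
  obtain ⟨L, hL, e⟩ := (cl_mem_closure_iff (stg σ R m).gen _ _).1 h
  have h1 : (stg σ R m).ev (w.inv ++ clProd L) = 1 := by
    rw [MG.ev, evW_append, evW_inv, e, inv_mul_cancel]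
  obtain ⟨k, hk, h2⟩ := stg_cont σ R h1
  rw [MG.ev, evW_append, evW_inv, inv_mul_eq_one] at h2
  exact ⟨k, hk, (cl_mem_closure_iff (stg σ R k).gen _ _).2 ⟨L, hL, h2.symm⟩⟩

theorem wf_lim (σ : s.ι → Word s.ι) (R : Set (Word s.ι))
    (h : ∀ k : ℕ, s.WF (stg σ R k) {M | M ≤ k}) : s.WF (stg σ R ⊤) Set.univ := by
  have hf : ∀ k : ℕ, ∃ f : (stg σ R k).G →* (stg σ R ⊤).G,
      ∀ w, f ((stg σ R k).ev w) = (stg σ R ⊤).ev w := fun k =>
    wf_exists_hom fun _ hw => stg_mono σ R le_top hw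
  choose f hf using hf
  have hmk : ∀ u : FreeGroup Bool, ∃ v : Word s.ι, ∀ X : MG s.ι, s.m X u = X.ev v := fun u => by
    induction u using Quot.inductionOn with
    | h w => exact ⟨_, fun X => s.m_mk X w⟩
  refine ⟨(injective_iff_map_eq_one _).2 fun u hu => ?_, fun u => ⟨fun hu => ?_, fun hu => ?_⟩,
    fun u => ?_, fun x u hx => ?_⟩
  · obtain ⟨v, hv⟩ := hmk u
    rw [hv] at hu
    obtain ⟨k, -, hk⟩ := stg_cont σ R hu
    rw [← hv] at hk
    exact (injective_iff_map_eq_one _).1 (h k).inj u hk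
  · obtain ⟨v, hv⟩ := hmk u
    rw [hv] at hu
    obtain ⟨k, -, hk⟩ := s.K_cont σ R hu
    rw [← hv] at hk
    exact TT_mono (Set.subset_univ _) (((h k).clock u).1 hk)
  · obtain ⟨k, hk⟩ := TT_univ_cont hu
    rw [← s.m_hom (hf k)]
    exact s.K_hom (hf k) (((h k).clock u).2 hk)
  · obtain ⟨v, hv⟩ := hmk u
    obtain ⟨w, hw, hl⟩ := (stg σ R ⊤).exists_wn (s.m _ u)
    have h1 : (stg σ R ⊤).ev (w.inv ++ v) = 1 := by
      rw [MG.ev, evW_append, evW_inv, inv_mul_eq_one]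
      exact hw.trans (hv _)
    obtain ⟨k, -, hk⟩ := stg_cont σ R h1
    rw [MG.ev, evW_append, evW_inv, inv_mul_eq_one] at hk
    refine ((h k).norm u).trans (Nat.mul_le_mul_left _ ?_)
    rw [← hl, hv, MG.ev, ← hk]
    exact MG.wn_le _ w
  · obtain ⟨v, hv⟩ := hmk u
    obtain ⟨w, rfl, hl⟩ := (stg σ R ⊤).exists_wn x
    have h1 : (stg σ R ⊤).ev (w.inv ++ v) ∈ s.K (stg σ R ⊤) := by
      rw [MG.ev, evW_append, evW_inv]
      rwa [hv] at hx
    obtain ⟨k, -, hk⟩ := s.K_cont σ R h1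
    rw [MG.ev, evW_append, evW_inv] at hk
    obtain ⟨u', h2, h3⟩ := (h k).normK ((stg σ R k).ev w) u (by rw [hv]; exact hk)
    refine ⟨u', ?_, h3.trans (Nat.mul_le_mul_left _ ?_)⟩
    · have h4 := s.K_hom (hf k) h2
      rwa [map_mul, map_inv, s.m_hom (hf k), hf] at h4
    · rw [← hl]
      exact MG.wn_le _ w

theorem primrec_rj : Primrec s.rj := by
  have h1 : Primrec fun st : Word s.Mc.ιW => (ren (Sum.inl : s.ιΓ → s.ι)
      (ren s.lT (s.αw true) ++ ren s.lW st)).inv :=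
    primrec_inv.comp ((primrec_ren Primrec.sumInl).comp
      (Primrec.list_append.comp (Primrec.const _) (primrec_ren (Primrec.dom_finite _))))
  exact (Primrec.list_append.comp (Primrec.const ([(Sum.inr (some (some true)), true)] ++
    ren Sum.inl (ren s.lT (s.αw true)) ++ [(Sum.inr (some (some true)), false)])) h1).of_eq
    fun _ => rfl

theorem re_R : REPred fun p : Nat.Partrec.Code × Word s.ι => p.2 ∈ s.R p.1 := by
  have h1 : REPred fun p : Nat.Partrec.Code × Word s.ι => p.2 ∈ s.R₀_finite.toFinset.toList :=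
    re_of_primrecPred (cl_primrecRel_mem.comp Primrec.snd (Primrec.const _))
  have h2 : REPred fun p : Nat.Partrec.Code × Word s.ι => p.2 = s.rj (s.Mc.start p.1) :=
    re_comp (re_of_primrecPred (p := fun q : Word s.ι × Word s.ι => q.1 = q.2)
      (Primrec.eq.comp Primrec.fst Primrec.snd))
      (f := fun p : Nat.Partrec.Code × Word s.ι => (p.2, s.rj (s.Mc.start p.1)))
      (Computable.snd.pair (s.primrec_rj.to_comp.comp (s.Mc.start_comp.comp Computable.fst)))
  refine (re_or h1 h2).of_eq fun p => ?_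
  rw [Finset.mem_toList, Set.Finite.mem_toFinset]
  rfl

/-- The relations of the finite stages are uniformly recursively enumerable. -/
theorem re_stgRel : REPred fun p : (Nat.Partrec.Code × ℕ) × Word s.ι =>
    p.2 ∈ stgRel s.σ (s.R p.1.1) p.1.2 :=
  re_stgRel_of s.σ s.R s.re_R

end Setup

end Crest.Agent.R185
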