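import Crest.Agent.R185.PhiCertC
import Crest.Agent.R185.PhiWF
import Crest.Agent.R185.PhiFin

/-!
# Row 185: the self-referential program and the good fixed point
-/

set_option autoImplicit false

namespace Crest.Agent.R185

open Nat.Partrec (Code)

theorem exists_fixed_code {α : Type} [Primcodable α] {P : Code × α → Prop} (h : REPred P) :
    ∃ j : Code, ∀ a, (j.eval (Encodable.encode a)).Dom ↔ P (j, a) := by
  have h1 : REPred fun p : (Code × ℕ) × α => p.1.2 = Encodable.encode p.2 ∧ P (p.1.1, p.2) :=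
    re_and (re_of_primrecPred (Primrec.eq.comp (Primrec.snd.comp .fst) (Primrec.encode.comp .snd)))
      (re_comp h ((Primrec.fst.comp .fst).pair .snd).to_comp)
  obtain ⟨j, hj⟩ := Nat.Partrec.Code.fixed_point₂ (f := fun c n =>
    (Part.assert (∃ a, n = Encodable.encode a ∧ P (c, a)) fun _ => Part.some ()).map fun _ => 0)
    (Partrec.map (re_exists h1) (Computable.const 0).to₂)
  refine ⟨j, fun a => ?_⟩
  rw [hj]
  simp [Part.assert]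

/-- The clock at stage `m`. -/
def clk (m : ℕ∞) : Set ℕ := {M | (M : ℕ∞) ≤ m}

theorem clk_top : clk ⊤ = Set.univ := by simp [clk]

theorem clk_coe (k : ℕ) : clk k = {M | M ≤ k} := by simp [clk]

theorem clk_down {m : ℕ∞} {M N : ℕ} (h : M ≤ N) (h' : N ∈ clk m) : M ∈ clk m :=
  le_trans (b := (N : ℕ∞)) (Nat.cast_le.2 h) h'

theorem clk_zero : clk (0 : ℕ) = {0} := by
  rw [clk_coe]
  ext n
  simp

theorem tick_clk (k : ℕ) : tick (clk k) = clk (k + 1 : ℕ) := by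
  rw [clk_coe, clk_coe]
  ext (_ | n) <;> simp [tick]

namespace Setup
variable (s : Setup)

/-- Base facts. -/
abbrev Ft : Type := (Bool × Word s.ι) ⊕ (Code × ℕ)

/-- Negative facts. -/
def neg (X : MG s.ι) (φ : Bool × Word s.ι) : Prop :=
  bif φ.1 then X.ev φ.2 ∉ s.K X else X.ev φ.2 ≠ 1

theorem neg_anti {X X' : MG s.ι} (h : X.rel ⊆ X'.rel) {φ : Bool × Word s.ι} (h' : s.neg X' φ) :
    s.neg X φ := by
  rcases φ with ⟨_ | _, w⟩
  exacts [fun e => h' (h e), fun e => h' (s.mem_K_mono h e)]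

theorem neg_wn {X : MG s.ι} {φ : Bool × Word s.ι} (h : s.neg X φ) : X.wn (X.ev φ.2) ≠ 0 := by
  intro e
  have e' := X.eq_one_of_wn e
  rcases φ with ⟨_ | _, w⟩
  · exact h e'
  · exact h (show X.ev w ∈ s.K X from e' ▸ one_mem _)

theorem CH.negΦ {s : Setup} {𝒞 : Ctx} {j : 𝒞.Ω → Code} {X : 𝒞.Ω → MG s.ι} {S : 𝒞.Ω → Set ℕ}
    (H : s.CH 𝒞 j X S) : Cert 𝒞 (fun ω φ => s.neg (s.Φ (j ω) (X ω) (H.wf ω).inj) φ) fun ω φ =>
      4 * s.cT * (s.Φ (j ω) (X ω) (H.wf ω).inj).wn ((s.Φ (j ω) (X ω) (H.wf ω).inj).ev φ.2) :=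
  Cert.finite (κ := Bool) (P := fun b ω w => s.neg (s.Φ (j ω) (X ω) (H.wf ω).inj) (b, w))
    (ν := fun _ ω w => 4 * s.cT * (s.Φ (j ω) (X ω) (H.wf ω).inj).wn
      ((s.Φ (j ω) (X ω) (H.wf ω).inj).ev w)) (by rintro (_ | _); exacts [H.neΦ, H.notKΦ])

def holds (j : Code) (m : ℕ∞) : s.Ft → Prop :=
  Sum.elim (s.neg (s.B j m)) fun p => p.1 = j ∧ p.2 ∈ clk m

/-- The contexts. -/
noncomputable def ctx (good : Code → ℕ∞ → Prop) (lim : Code → ℕ → Prop)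
    (anti : ∀ j m n, m ≤ n → lim j n → lim j m) : Ctx where
  Ω := {p : Code × ℕ∞ // good p.1 p.2}
  F := s.Ft
  holds ω := s.holds ω.1.1 ω.1.2
  size ω := Sum.elim (fun φ => s.Λ * (s.B ω.1.1 ω.1.2).wn ((s.B ω.1.1 ω.1.2).ev φ.2)) fun _ => 0
  lim ω n := ω.1.2 = ⊤ ∧ lim ω.1.1 n
  lim_anti _ m n h h' := ⟨h'.1, anti _ m n h h'.2⟩

section
variable (good : Code → ℕ∞ → Prop) (lim : Code → ℕ → Prop)
  (anti : ∀ j m n, m ≤ n → lim j n → lim j m)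

theorem ctx_j : Cert (s.ctx good lim anti) (fun ω c => c = ω.1.1) fun _ _ => 0 :=
  ((Cert.base (s.ctx good lim anti)).comp (f := fun c : Code => (Sum.inr (c, 0) : s.Ft))
    (Primrec.sumInr.comp (Primrec.id.pair (.const 0))).to_comp).of_iff
    (fun _ _ => ⟨fun h => h.1, fun h => ⟨h, by simp [clk]⟩⟩) fun _ _ => le_rfl

theorem ctx_S : Cert (s.ctx good lim anti) (fun ω M => M ∈ clk ω.1.2) fun _ _ => 0 :=
  ((Cert.base (s.ctx good lim anti)).comp (f := fun p : ℕ × Code => (Sum.inr (p.2, p.1) : s.Ft))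
    (Primrec.sumInr.comp (Primrec.snd.pair .fst)).to_comp).guess (fun _ _ _ h => h.2)
    fun ω _ _ _ hn h => ⟨ω.1.1, ⟨rfl, h⟩, hn⟩

theorem ctx_eq : Cert (s.ctx good lim anti) (fun ω w => (s.B ω.1.1 ω.1.2).ev w = 1)
    fun _ _ => 0 := by
  have h1 : Computable fun p : Code × Word s.ι × ℕ => ((p.1, p.2.2), p.2.1) :=
    ((Primrec.fst.pair (Primrec.snd.comp .snd)).pair (Primrec.fst.comp .snd)).to_comp
  refine (((s.ctx_S good lim anti).comp Computable.snd).and ((s.ctx_j good lim anti).par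
    (Cert.of_re s.re_stgRel _) h1)).guess (fun ω w k h => (mem_stg_rel _ _ _ _).2 ⟨k, h⟩) ?_
  intro ω w n _ _ h
  obtain ⟨k, hk⟩ := (mem_stg_rel _ _ _ _).1 h
  exact ⟨k, hk, by simp⟩

theorem ctx_neg (b : Bool) : Cert (s.ctx good lim anti) (fun ω w => s.neg (s.B ω.1.1 ω.1.2) (b, w))
    fun ω w => s.Λ * (s.B ω.1.1 ω.1.2).wn ((s.B ω.1.1 ω.1.2).ev w) :=
  (Cert.base (s.ctx good lim anti)).comp (f := fun w : Word s.ι => (Sum.inl (b, w) : s.Ft))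
    (Primrec.sumInl.comp ((Primrec.const b).pair .id)).to_comp

end

/-- All sound elements of norm at most `n` are accepted in the limit. -/
def Cpl (j : Code) (n : ℕ) : Prop :=
  ∀ a, s.Θ.νV (s.C (s.B j ⊤)) a ≤ n → s.Θ.Sound (s.C (s.B j ⊤)) (s.KC (s.B j ⊤)) a →
    ∃ x ∈ s.Acc j Set.univ, (s.Θ.V (s.C (s.B j ⊤))).ev x = a

def Good (j : Code) (m : ℕ∞) : Prop := s.WF (s.B j m) (clk m) ∧ s.Snd j (s.B j m) (clk m)

/-- The size of a fact in the limit. -/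
noncomputable def size (j : Code) : s.Ft → ℕ :=
  Sum.elim (fun φ => s.Λ * (s.B j ⊤).wn ((s.B j ⊤).ev φ.2)) fun _ => 0

theorem exists_snd : ∃ R : Word s.Θ.ιV × List s.Ft → Prop, REPred R ∧
    (∀ j m x D, R (x, D) → (∀ φ ∈ D, s.holds j m φ) →
      s.Θ.Sound (s.C (s.B j m)) (s.KC (s.B j m)) ((s.Θ.V (s.C (s.B j m))).ev x)) ∧
    ∀ j x, s.Θ.Sound (s.C (s.B j ⊤)) (s.KC (s.B j ⊤)) ((s.Θ.V (s.C (s.B j ⊤))).ev x) →
      ∃ D, R (x, D) ∧ ∀ φ ∈ D, s.holds j ⊤ φ ∧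
        s.size j φ ≤ s.cT * s.Θ.νV (s.C (s.B j ⊤)) ((s.Θ.V (s.C (s.B j ⊤))).ev x) := by
  obtain ⟨R, h1, h2, h3⟩ := s.cert_sound (𝒞 := s.ctx (fun _ _ => True) (fun _ _ => True)
    fun _ _ _ _ _ => trivial) (fun ω => s.B ω.1.1 ω.1.2) (s.ctx_eq _ _ _) (s.ctx_neg _ _ _ false)
    (s.ctx_neg _ _ _ true)
  exact ⟨R, h1, fun j m => h2 ⟨(j, m), trivial⟩,
    fun j x => h3 ⟨(j, ⊤), trivial⟩ x _ ⟨rfl, trivial⟩ le_rfl⟩

theorem rel_Φ (j : Code) (m : ℕ∞) (h : Function.Injective (s.m (s.B j m))) :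
    (s.Φ j (s.B j m) h).rel = (s.B j (m + 1)).rel :=
  stg_succ_rel _ _ m (s.pres_Φ j _ h)

theorem ch (hG : REPred fun w => s.G.ev w ≠ 1) :
    s.CH (s.ctx s.Good s.Cpl fun _ _ _ h h' a ha => h' a (ha.trans h)) (fun ω => ω.1.1)
      (fun ω => s.B ω.1.1 ω.1.2) fun ω => clk ω.1.2 where
  wf ω := ω.2.1
  snd ω := ω.2.2
  hG := hG
  hEq := s.ctx_eq _ _ _
  hN1 := s.ctx_neg _ _ _ false
  hNK := s.ctx_neg _ _ _ true
  hj := s.ctx_j _ _ _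
  hS := s.ctx_S _ _ _
  lim_S ω n h := by rw [h.1, clk_top]
  lim_acc := by
    rintro ⟨⟨j, m⟩, hω⟩ n ⟨rfl, h⟩
    simp only [clk_top]
    exact h

theorem exists_top (hG : REPred fun w => s.G.ev w ≠ 1) :
    ∃ R : (Bool × Word s.ι) × List s.Ft → Prop, REPred R ∧
    (∀ j m φ D, s.Good j m → R (φ, D) → (∀ ψ ∈ D, s.holds j m ψ) → s.neg (s.B j (m + 1)) φ) ∧
    ∀ j φ, s.Good j ⊤ → s.Cpl j (4 * s.cT * (s.B j ⊤).wn ((s.B j ⊤).ev φ.2)) →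
      s.neg (s.B j ⊤) φ → ∃ D, R (φ, D) ∧ ∀ ψ ∈ D, s.holds j ⊤ ψ ∧
        s.size j ψ ≤ 4 * s.cT * (s.B j ⊤).wn ((s.B j ⊤).ev φ.2) := by
  have h0 := (s.ch hG).negΦ
  obtain ⟨R, h1, h2, h3⟩ := h0
  refine ⟨R, h1, fun j m φ D hg h h' => ?_, fun j φ hg hc h => ?_⟩
  · exact s.neg_anti (s.rel_Φ j m hg.1.inj).ge (h2 ⟨(j, m), hg⟩ φ D h h')
  have e : (s.Φ j (s.B j ⊤) hg.1.inj).rel = (s.B j ⊤).rel := s.rel_Φ j ⊤ hg.1.inj
  have h4 : (s.Φ j (s.B j ⊤) hg.1.inj).wn ((s.Φ j (s.B j ⊤) hg.1.inj).ev φ.2) ≤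
      (s.B j ⊤).wn ((s.B j ⊤).ev φ.2) := by
    obtain ⟨f, hf⟩ := wf_exists_hom e.ge
    rw [← hf]
    exact wf_wn_hom hf _
  exact h3 ⟨(j, ⊤), hg⟩ φ _ ⟨rfl, hc⟩ (Nat.mul_le_mul_left _ h4) (s.neg_anti e.le h)

/-- The rule for deriving facts with a clock. -/
def Rule (R : (Bool × Word s.ι) × List s.Ft → Prop)
    (p : ((Code × ℕ) × s.Ft) × List ((Code × ℕ) × s.Ft)) : Prop :=
  (∃ M, M ≤ p.1.1.2 ∧ p.1.2 = .inr (p.1.1.1, M)) ∨
    ∃ q : ℕ × (Bool × Word s.ι) × List s.Ft, q.1 < p.1.1.2 ∧ p.1.2 = .inl q.2.1 ∧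
      p.2 = q.2.2.map (fun ψ => ((p.1.1.1, q.1), ψ)) ∧ R q.2

theorem re_Rule {R : (Bool × Word s.ι) × List s.Ft → Prop} (h : REPred R) : REPred (s.Rule R) := by
  classical
  have a1 : Primrec fun p : ((Code × ℕ) × s.Ft) × List ((Code × ℕ) × s.Ft) => p.1.1.1 :=
    Primrec.fst.comp (Primrec.fst.comp .fst)
  have a2 : Primrec fun p : ((Code × ℕ) × s.Ft) × List ((Code × ℕ) × s.Ft) => p.1.1.2 :=
    Primrec.snd.comp (Primrec.fst.comp .fst)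
  have a3 : Primrec fun p : ((Code × ℕ) × s.Ft) × List ((Code × ℕ) × s.Ft) => p.1.2 :=
    Primrec.snd.comp .fst
  refine re_or (re_exists (p := fun v : (((Code × ℕ) × s.Ft) × List ((Code × ℕ) × s.Ft)) × ℕ =>
    v.2 ≤ v.1.1.1.2 ∧ v.1.1.2 = .inr (v.1.1.1.1, v.2)) (re_of_primrecPred ?_))
    (re_exists (p := fun v : (((Code × ℕ) × s.Ft) × List ((Code × ℕ) × s.Ft)) ×
      ℕ × (Bool × Word s.ι) × List s.Ft => v.2.1 < v.1.1.1.2 ∧ v.1.1.2 = .inl v.2.2.1 ∧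
      v.1.2 = v.2.2.2.map (fun ψ => ((v.1.1.1.1, v.2.1), ψ)) ∧ R v.2.2) ?_)
  · exact (Primrec.nat_le.comp .snd (a2.comp .fst)).and (Primrec.eq.comp (a3.comp .fst)
      (Primrec.sumInr.comp ((a1.comp .fst).pair .snd)))
  · refine re_and (re_of_primrecPred (Primrec.nat_lt.comp (Primrec.fst.comp .snd) (a2.comp .fst)))
      (re_and (re_of_primrecPred (Primrec.eq.comp (a3.comp .fst)
        (Primrec.sumInl.comp (Primrec.fst.comp (Primrec.snd.comp .snd)))))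
      (re_and (re_of_primrecPred (Primrec.eq.comp (Primrec.snd.comp .fst) ?_))
        (re_comp h (Primrec.snd.comp .snd).to_comp)))
    exact Primrec.list_map (Primrec.snd.comp (Primrec.snd.comp .snd))
      (((((a1.comp .fst).pair (Primrec.fst.comp .snd)).comp .fst).pair .snd).to₂)

theorem der_iff {R : (Bool × Word s.ι) × List s.Ft → Prop} (j : Code) (M : ℕ) (ψ : s.Ft) :
    Der (s.Rule R) ((j, M), ψ) ↔ (∃ M' ≤ M, ψ = .inr (j, M')) ∨ ∃ M' < M, ∃ φ D, ψ = .inl φ ∧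
      R (φ, D) ∧ ∀ χ ∈ D, Der (s.Rule R) ((j, M'), χ) := by
  constructor
  · rintro ⟨_, E, h | ⟨⟨M', φ, D⟩, h1, h2, e, h3⟩, h'⟩
    · exact Or.inl h
    · obtain rfl : E = D.map fun χ => ((j, M'), χ) := e
      exact Or.inr ⟨M', h1, φ, D, h2, h3, fun χ hχ => h' _ (List.mem_map_of_mem hχ)⟩
  · rintro (h | ⟨M', h1, φ, D, h2, h3, h4⟩)
    · exact ⟨_, [], Or.inl h, by simp⟩
    · refine ⟨_, D.map fun χ => ((j, M'), χ), Or.inr ⟨(M', φ, D), h1, h2, rfl, h3⟩, fun b hb => ?_⟩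
      obtain ⟨χ, hχ, rfl⟩ := List.mem_map.1 hb
      exact h4 χ hχ

theorem der_mono {R : (Bool × Word s.ι) × List s.Ft → Prop} {j : Code} {M N : ℕ} {ψ : s.Ft}
    (h : M ≤ N) (h' : Der (s.Rule R) ((j, M), ψ)) : Der (s.Rule R) ((j, N), ψ) := by
  rw [der_iff] at h' ⊢
  exact h'.imp (fun ⟨M', h1, h2⟩ => ⟨M', h1.trans h, h2⟩)
    fun ⟨M', h1, h2⟩ => ⟨M', h1.trans_le h, h2⟩

theorem exists_good (hG : REPred fun w => s.G.ev w ≠ 1) (hΛ : 4 * s.cT * s.cT < s.Λ) :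
    ∃ j, s.Good j ⊤ ∧ ∀ n, s.Cpl j n := by
  obtain ⟨Rs, s1, s2, s3⟩ := s.exists_snd
  obtain ⟨R, t1, t2, t3⟩ := s.exists_top hG
  have hacc : REPred fun p : Code × Word s.Θ.ιV × ℕ =>
      ∃ D, Rs (p.2.1, D) ∧ ∀ ψ ∈ D, Der (s.Rule R) ((p.1, p.2.2), ψ) := by
    refine re_exists (p := fun v : (Code × Word s.Θ.ιV × ℕ) × List s.Ft =>
      Rs (v.1.2.1, v.2) ∧ ∀ ψ ∈ v.2, Der (s.Rule R) ((v.1.1, v.1.2.2), ψ)) (re_and
      (re_comp s1 ((Primrec.fst.comp (Primrec.snd.comp .fst)).pair .snd).to_comp)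
      (re_forall_mem (p := fun v : ((Code × Word s.Θ.ιV × ℕ) × List s.Ft) × s.Ft =>
        Der (s.Rule R) ((v.1.1.1, v.1.1.2.2), v.2)) (re_comp (re_der (s.re_Rule t1)) ?_)
        Computable.snd))
    exact (((Primrec.fst.comp (Primrec.fst.comp .fst)).pair
      (Primrec.snd.comp (Primrec.snd.comp (Primrec.fst.comp .fst)))).pair .snd).to_comp
  obtain ⟨j, hj⟩ := exists_fixed_code hacc
  replace hj : ∀ x M, halts j x M ↔ ∃ D, Rs (x, D) ∧ ∀ ψ ∈ D, Der (s.Rule R) ((j, M), ψ) :=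
    fun x M => hj (x, M)
  let Inv : ℕ∞ → Prop := fun m => s.WF (s.B j m) (clk m) ∧
    ∀ M ∈ clk m, ∀ ψ, Der (s.Rule R) ((j, M), ψ) → s.holds j m ψ
  have good : ∀ m, Inv m → s.Good j m := fun m h => ⟨h.1, by
    rintro x ⟨M, hM, hx⟩
    obtain ⟨D, h1, h2⟩ := (hj _ _).1 hx
    exact s2 j m x D h1 fun ψ hψ => h.2 _ (clk_down (s.Mc.dec_le M) hM) ψ (h2 ψ hψ)⟩
  have inv : ∀ k : ℕ, Inv k := fun k => by
    induction k with
    | zero =>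
      refine ⟨s.wf_congr (stg_zero _ _).symm (clk_zero ▸ s.wf_free), fun M hM ψ h => ?_⟩
      rcases (s.der_iff ..).1 h with ⟨M', h1, rfl⟩ | ⟨M', h1, -⟩
      · exact ⟨rfl, clk_down h1 hM⟩
      · rw [clk_coe] at hM
        exact absurd (h1.trans_le hM) (Nat.not_lt_zero _)
    | succ k ih =>
      have hg := good _ ih
      refine ⟨s.wf_congr (s.rel_Φ j k hg.1.inj) (tick_clk k ▸ s.wf_Φ hg.1 hg.2), fun M hM ψ h => ?_⟩
      rcases (s.der_iff ..).1 h with ⟨M', h1, rfl⟩ | ⟨M', h1, φ, D, rfl, h2, h3⟩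
      · exact ⟨rfl, clk_down h1 hM⟩
      · rw [clk_coe] at hM
        refine t2 j k φ D hg h2 fun χ hχ => ih.2 M' ?_ χ (h3 χ hχ)
        rw [clk_coe]
        exact Nat.le_of_lt_succ (h1.trans_le hM)
  have hg : s.Good j ⊤ := by
    refine good _ ⟨clk_top ▸ s.wf_lim _ _ fun k => clk_coe k ▸ (inv k).1, fun M _ ψ h => ?_⟩
    have h1 : ∀ k : ℕ, s.holds j (max k M : ℕ) ψ := fun k =>
      (inv _).2 M (by rw [clk_coe]; exact le_max_right k M) ψ h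
    have h2 : ∀ k : ℕ, (s.B j k).rel ⊆ (s.B j (max k M : ℕ)).rel := fun k _ =>
      stg_mono _ _ (Nat.cast_le.2 (le_max_left _ _))
    rcases ψ with ⟨_ | _, w⟩ | p
    · intro e
      obtain ⟨k, -, hk⟩ := stg_cont _ _ e
      exact h1 k (h2 k hk)
    · intro e
      obtain ⟨k, -, hk⟩ := s.K_cont _ _ e
      exact h1 k (s.mem_K_mono (h2 k) hk)
    · exact ⟨(h1 0).1, clk_top ▸ trivial⟩
  let P : ℕ → Prop := fun N => ∀ φ, s.neg (s.B j ⊤) φ → (s.B j ⊤).wn ((s.B j ⊤).ev φ.2) < N →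
    ∃ M, Der (s.Rule R) ((j, M), .inl φ)
  have prem : ∀ N, P N → ∀ D : List s.Ft, (∀ ψ ∈ D, s.holds j ⊤ ψ ∧ s.size j ψ < s.Λ * N) →
      ∃ M, ∀ ψ ∈ D, Der (s.Rule R) ((j, M), ψ) := fun N hN D => by
    induction D with
    | nil => exact fun _ => ⟨0, by simp⟩
    | cons ψ D ih =>
      intro h
      obtain ⟨M, hM⟩ := ih fun χ hχ => h χ (List.mem_cons_of_mem _ hχ)
      obtain ⟨h1, h2⟩ := h ψ List.mem_cons_self
      obtain ⟨M', hM'⟩ : ∃ M, Der (s.Rule R) ((j, M), ψ) := by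
        rcases ψ with φ | ⟨c, M'⟩
        · exact hN φ h1 (Nat.lt_of_mul_lt_mul_left h2)
        · obtain rfl : c = j := h1.1
          exact ⟨M', (s.der_iff ..).2 (Or.inl ⟨M', le_rfl, rfl⟩)⟩
      exact ⟨max M M', List.forall_mem_cons.2 ⟨s.der_mono (le_max_right _ _) hM',
        fun χ hχ => s.der_mono (le_max_left _ _) (hM χ hχ)⟩⟩
  have cpl : ∀ N n, P N → s.cT * n < s.Λ * N → s.Cpl j n := fun N n hN hn a ha h => by
    obtain ⟨x, rfl⟩ := (s.Θ.V _).surj a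
    obtain ⟨D, h1, h2⟩ := s3 j x h
    obtain ⟨M, hM⟩ := prem N hN D fun ψ hψ => ⟨(h2 ψ hψ).1,
      ((h2 ψ hψ).2.trans (Nat.mul_le_mul_left _ ha)).trans_lt hn⟩
    obtain ⟨M', rfl⟩ := s.Mc.dec_surj M
    exact ⟨x, ⟨M', trivial, (hj _ _).2 ⟨D, h1, hM⟩⟩, rfl⟩
  have hc : 1 ≤ s.cT := by unfold cT cC; nlinarith
  have hΛ' : 4 * s.cT < s.Λ := (Nat.le_mul_of_pos_right _ hc).trans_lt hΛ
  have all : ∀ N, P N := fun N => by
    induction N with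
    | zero => exact fun _ _ h => absurd h (Nat.not_lt_zero _)
    | succ N ih =>
      intro φ h1 h2
      rcases (Nat.le_of_lt_succ h2).eq_or_lt with e | h2
      · have h3 : 0 < N := Nat.pos_of_ne_zero (e ▸ s.neg_wn h1)
        have h4 : 4 * s.cT * s.cT * N < s.Λ * N := Nat.mul_lt_mul_of_pos_right hΛ h3
        obtain ⟨D, h5, h6⟩ := t3 j φ hg (cpl N _ ih (by rw [e]; nlinarith)) h1
        obtain ⟨M, hM⟩ := prem N ih D fun ψ hψ => ⟨(h6 ψ hψ).1, (h6 ψ hψ).2.trans_lt (by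
          rw [e]; exact Nat.mul_lt_mul_of_pos_right hΛ' h3)⟩
        exact ⟨M + 1, (s.der_iff ..).2 (Or.inr ⟨M, M.lt_succ_self, φ, D, rfl, h5, hM⟩)⟩
      · exact ih φ h1 h2
  exact ⟨j, hg, fun n => cpl (n + 1) n (all _) (by
    have := Nat.mul_le_mul_right n (show s.cT ≤ s.Λ by omega)
    rw [Nat.mul_succ]; omega)⟩

theorem exists_simple (hG : REPred fun w => s.G.ev w ≠ 1) (hΛ : 4 * s.cT * s.cT < s.Λ) :
    ∃ (H : Type) (_ : Group H) (f : s.G.G →* H),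
      Group.IsFinitelyPresented H ∧ FPinf H ∧ IsSimpleGroup H ∧ Function.Injective f := by
  obtain ⟨j, h1, h2⟩ := s.exists_good hG hΛ
  rw [Good, clk_top] at h1
  exact s.final j h1.1 h1.2 fun a => h2 _ a le_rfl

end Setup

end Crest.Agent.R185
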