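import Crest.Agent.R185.PhiK

/-!
# Row 185: membership in `TT univ` is decidable
-/

set_option autoImplicit false

namespace Crest.Agent.R185

/-- Walk along a word from the right: number of letters `z`, of letters `z⁻¹`, and whether all
letters `τ` occur at nonnegative positions. -/
def walk (w : Word Bool) : ℕ × ℕ × Bool :=
  w.foldr (fun x p => bif x.1 then (p.1, p.2.1, p.2.2 && decide (p.2.1 ≤ p.1))
    else bif x.2 then (p.1 + 1, p.2.1, p.2.2) else (p.1, p.2.1 + 1, p.2.2)) (0, 0, true)

theorem walk_cons (x : Bool × Bool) (w : Word Bool) : walk (x :: w) =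
    bif x.1 then ((walk w).1, (walk w).2.1, (walk w).2.2 && decide ((walk w).2.1 ≤ (walk w).1))
    else bif x.2 then ((walk w).1 + 1, (walk w).2.1, (walk w).2.2)
      else ((walk w).1, (walk w).2.1 + 1, (walk w).2.2) := rfl

theorem primrec_walk : Primrec walk := by
  have h1 : Primrec fun q : Word Bool × (Bool × Bool) × ℕ × ℕ × Bool => q.2.2.1 :=
    Primrec.fst.comp (Primrec.snd.comp .snd)
  have h2 : Primrec fun q : Word Bool × (Bool × Bool) × ℕ × ℕ × Bool => q.2.2.2.1 :=
    Primrec.fst.comp (Primrec.snd.comp (Primrec.snd.comp .snd))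
  have h3 : Primrec fun q : Word Bool × (Bool × Bool) × ℕ × ℕ × Bool => q.2.2.2.2 :=
    Primrec.snd.comp (Primrec.snd.comp (Primrec.snd.comp .snd))
  refine Primrec.list_foldr Primrec.id (Primrec.const _) (h := fun _ (q : (Bool × Bool) × ℕ × ℕ × Bool) =>
    bif q.1.1 then
    (q.2.1, q.2.2.1, q.2.2.2 && decide (q.2.2.1 ≤ q.2.1))
    else bif q.1.2 then (q.2.1 + 1, q.2.2.1, q.2.2.2) else (q.2.1, q.2.2.1 + 1, q.2.2.2)) ?_
  refine Primrec.cond (Primrec.fst.comp (Primrec.fst.comp .snd))
    (h1.pair (h2.pair (Primrec.and.comp h3 (Primrec.nat_le.decide.comp h2 h1)))) ?_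
  exact Primrec.cond (Primrec.snd.comp (Primrec.fst.comp .snd))
    ((Primrec.succ.comp h1).pair (h2.pair h3)) (h1.pair ((Primrec.succ.comp h2).pair h3))

/-- The position after the walk. -/
def pos (w : Word Bool) : ℤ := ((walk w).1 : ℤ) - (walk w).2.1

/-- All letters `τ` occur at positions `≥ -p`. -/
def okAt (p : ℤ) : Word Bool → Prop
  | [] => True
  | x :: w => (x.1 = true → 0 ≤ p + pos w) ∧ okAt p w

theorem okAt_anchor : type_of% @okAt.eq_def := @okAt.eq_def

@[simp] theorem pos_nil : pos [] = 0 := rfl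

theorem pos_cons (x : Bool × Bool) (w : Word Bool) :
    pos (x :: w) = pos w + bif x.1 then 0 else bif x.2 then 1 else -1 := by
  rcases x with ⟨_ | _, _ | _⟩ <;> simp [pos, walk_cons] <;> ring

theorem pos_append (v w : Word Bool) : pos (v ++ w) = pos v + pos w := by
  induction v with
  | nil => simp
  | cons x v ih => rw [List.cons_append, pos_cons, pos_cons, ih]; ring

theorem okAt_zero (w : Word Bool) : okAt 0 w ↔ (walk w).2.2 = true := by
  induction w with
  | nil => simp [okAt, walk]
  | cons x w ih =>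
    rcases x with ⟨_ | _, _ | _⟩ <;> simp [okAt, walk_cons, ih, pos, and_comm]

theorem okAt_append (p : ℤ) (v w : Word Bool) :
    okAt p (v ++ w) ↔ okAt (p + pos w) v ∧ okAt p w := by
  induction v with
  | nil => simp [okAt]
  | cons x v ih =>
    rw [List.cons_append, okAt, okAt, ih, pos_append, and_assoc,
      show p + (pos v + pos w) = p + pos w + pos v by ring]

theorem pos_inv (w : Word Bool) : pos w.inv = -pos w := by
  induction w with
  | nil => simp [Word.inv]
  | cons x w ih =>
    rw [Word.inv, FreeGroup.invRev_cons, pos_append, ih, pos_cons]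
    rcases x with ⟨_ | _, _ | _⟩ <;> simp [FreeGroup.invRev, pos_cons] <;> ring

theorem okAt_inv (p : ℤ) (w : Word Bool) (h : okAt p w) : okAt (p + pos w) w.inv := by
  induction w with
  | nil => simp [Word.inv, okAt]
  | cons x w ih =>
    rw [Word.inv, FreeGroup.invRev_cons, okAt_append]
    have h1 := ih h.2
    have h2 := h.1
    rcases x with ⟨_ | _, _ | _⟩ <;>
      simp [FreeGroup.invRev, pos_cons, okAt, add_assoc] at h1 h2 ⊢ <;>
      first | exact h1 | exact ⟨h1, h2⟩

theorem good_red {v w : Word Bool} (h : FreeGroup.Red v w) (h1 : okAt 0 v) (h2 : pos v = 0) :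
    okAt 0 w ∧ pos w = 0 := by
  induction h with
  | refl => exact ⟨h1, h2⟩
  | tail _ hs ih =>
    obtain ⟨h1, h2⟩ := ih
    rcases hs with @⟨L₁, L₂, x, b⟩
    have e : pos ((x, b) :: (x, !b) :: L₂) = pos L₂ := by
      rcases x with _ | _ <;> rcases b with _ | _ <;> simp [pos_cons]
    rw [okAt_append, e] at h1
    rw [pos_append, e] at h2
    rw [okAt_append, pos_append]
    exact ⟨⟨h1.1, h1.2.2.2⟩, h2⟩

theorem good_of_mem {u : FreeGroup Bool} (hu : u ∈ TT Set.univ) :
    ∃ w, FreeGroup.mk w = u ∧ okAt 0 w ∧ pos w = 0 := by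
  induction hu using Subgroup.closure_induction with
  | mem x hx =>
    obtain ⟨M, -, rfl⟩ := hx
    have h1 : ∀ M, FreeGroup.mk (List.replicate M (false, true)) = FreeGroup.of false ^ M ∧
        pos (List.replicate M (false, true)) = M ∧ ∀ p, okAt p (List.replicate M (false, true)) := by
      intro M
      induction M with
      | zero => exact ⟨rfl, rfl, fun _ => trivial⟩
      | succ M ih =>
        refine ⟨?_, ?_, fun p => ⟨by simp, ih.2.2 p⟩⟩
        · rw [List.replicate_succ, pow_succ', ← ih.1]; rfl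
        · rw [List.replicate_succ, pos_cons, ih.2.1]; simp
    refine ⟨Word.inv (List.replicate M (false, true)) ++ ((true, true) ::
      List.replicate M (false, true)), ?_, ?_, ?_⟩
    · rw [← FreeGroup.mul_mk, Word.inv, ← FreeGroup.inv_mk, (h1 M).1, mul_assoc, ← (h1 M).1]; rfl
    · rw [okAt_append, pos_cons]
      refine ⟨by simpa using okAt_inv 0 _ ((h1 M).2.2 0), fun _ => ?_, (h1 M).2.2 0⟩
      simp [(h1 M).2.1]
    · rw [pos_append, pos_inv, pos_cons]; simp
  | one => exact ⟨[], rfl, trivial, rfl⟩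
  | mul x y _ _ hx hy =>
    obtain ⟨v, rfl, h1, h2⟩ := hx
    obtain ⟨w, rfl, h3, h4⟩ := hy
    exact ⟨v ++ w, FreeGroup.mul_mk.symm, by rw [okAt_append, h4]; exact ⟨h1, h3⟩,
      by rw [pos_append, h2, h4]; rfl⟩
  | inv x _ hx =>
    obtain ⟨v, rfl, h1, h2⟩ := hx
    exact ⟨Word.inv v, FreeGroup.inv_mk.symm, by simpa [h2] using okAt_inv 0 v h1,
      by rw [pos_inv, h2]; rfl⟩

theorem mem_of_okAt (w : Word Bool) (h : okAt 0 w) :
    (FreeGroup.of false ^ pos w)⁻¹ * FreeGroup.mk w ∈ TT Set.univ := by
  induction w with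
  | nil => simpa [← FreeGroup.one_eq_mk] using one_mem _
  | cons x w ih =>
    have h1 := ih h.2
    have e : FreeGroup.mk (x :: w) = FreeGroup.mk [x] * FreeGroup.mk w :=
      (FreeGroup.mul_mk (L₁ := [x])).symm
    rw [e, pos_cons]
    rcases x with ⟨_ | _, b⟩
    · convert h1 using 1
      rcases b with _ | _
      · rw [show FreeGroup.mk [(false, false)] = (FreeGroup.of false)⁻¹ from rfl]
        simp only [cond_false]; group
      · rw [show FreeGroup.mk [(false, true)] = FreeGroup.of false from rfl]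
        simp only [cond_false, cond_true]; group
    · obtain ⟨M, hM⟩ := Int.eq_ofNat_of_zero_le (by simpa using h.1 rfl : 0 ≤ pos w)
      have h2 : (FreeGroup.of false ^ M)⁻¹ * FreeGroup.of true * FreeGroup.of false ^ M ∈
          TT Set.univ := Subgroup.subset_closure ⟨M, trivial, rfl⟩
      rw [hM, zpow_natCast] at h1
      simp only [cond_true, add_zero, hM, zpow_natCast]
      rcases b with _ | _
      · rw [show FreeGroup.mk [(true, false)] = (FreeGroup.of true)⁻¹ from rfl]
        convert mul_mem (inv_mem h2) h1 using 1; group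
      · rw [show FreeGroup.mk [(true, true)] = FreeGroup.of true from rfl]
        convert mul_mem h2 h1 using 1; group

theorem mem_TT_univ (w : Word Bool) : FreeGroup.mk w ∈ TT Set.univ ↔
    (walk (FreeGroup.reduce w)).2.2 = true ∧
      (walk (FreeGroup.reduce w)).1 = (walk (FreeGroup.reduce w)).2.1 := by
  rw [← okAt_zero]
  constructor
  · intro h
    obtain ⟨v, e, h1, h2⟩ := good_of_mem h
    rw [← FreeGroup.reduce.sound e]
    obtain ⟨h3, h4⟩ := good_red FreeGroup.reduce.red h1 h2
    exact ⟨h3, by unfold pos at h4; omega⟩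
  · rintro ⟨h1, h2⟩
    have := mem_of_okAt _ h1
    rw [show pos (FreeGroup.reduce w) = 0 by unfold pos; omega, FreeGroup.reduce.self] at this
    simpa using this

theorem re_not_TT : REPred fun w : Word Bool => FreeGroup.mk w ∉ TT Set.univ := by
  have h := primrec_walk.comp primrec_reduce
  refine (re_of_primrecPred (PrimrecPred.not (PrimrecPred.and
    (Primrec.eq.comp (Primrec.snd.comp (Primrec.snd.comp h)) (Primrec.const true))
    (Primrec.eq.comp (Primrec.fst.comp h) (Primrec.fst.comp (Primrec.snd.comp h)))))).of_eq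
    fun w => ?_
  rw [mem_TT_univ]

theorem tick_univ : tick Set.univ = Set.univ := by
  ext (_ | n) <;> simp [tick]

end Crest.Agent.R185
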