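import Crest.Agent.R185.Basic
import Crest.Agent.R185.FPDef

/-!
# Row 185: interfaces between the parts of the construction
-/

set_option autoImplicit false

namespace Crest.Agent.R185

/-- A functorial, relatively finitely presented extension of marked groups which stretches the
word norm by `Λ`. -/
structure ExtPkg (ι ι' : Type) [Primcodable ι] [Primcodable ι'] (Λ κ : ℕ) where
  obj : MG ι → MG ι'
  σ : ι → Word ι'
  R : List (Word ι')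
  f : ∀ X : MG ι, X.G →* (obj X).G
  f_gen : ∀ X i, f X (X.gen i) = (obj X).ev (σ i)
  inj : ∀ X, Function.Injective (f X)
  norm : ∀ X x, Λ * X.wn x ≤ (obj X).wn (f X x)
  pres : ∀ X, Pres (obj X) ({r | r ∈ R} ∪ subst σ '' X.rel)
  cert : ∀ (𝒞 : Ctx) (X : 𝒞.Ω → MG ι), Cert 𝒞 (fun ω w => (X ω).ev w = 1) (fun _ _ => 0) →
    Cert 𝒞 (fun ω w => (X ω).ev w ≠ 1) (fun ω w => Λ * (X ω).wn ((X ω).ev w)) →
    Cert 𝒞 (fun ω w => (obj (X ω)).ev w ∉ (f (X ω)).range)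
      fun ω w => κ * (obj (X ω)).wn ((obj (X ω)).ev w)

/-- The extension carrying the killing gadget. -/
structure GadPkg (ι ι' : Type) [Primcodable ι] [Primcodable ι'] (κ : ℕ)
    extends ExtPkg ι ι' 1 κ where
  gad : ∀ X, Gadget (f X)
  noncentral : ∀ X x, x ≠ 1 → ∃ y, ¬ Commute (f X x) y

/-- The words `x⁻¹ J x` for the accepted codes `x`, together with `K₀`. -/
def ktWords {ιV ιT : Type} (K₀ : List (Word ιT)) (σx : ιV → Word ιT) (J : Word ιT)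
    (Acc : Set (Word ιV)) : Set (Word ιT) :=
  {k | k ∈ K₀} ∪ {r | ∃ x ∈ Acc, r = (subst σx x).inv ++ J ++ subst σx x}

/-- The group `Θ = ⟨V(C), g, η⟩` which makes the action highly transitive. -/
structure ThetaPkg (ι : Type) [Primcodable ι] where
  ιV : Type
  [pcV : Primcodable ιV]
  [finV : Finite ιV]
  ιT : Type
  [pcT : Primcodable ιT]
  [finT : Finite ιT]
  κ : ℕ
  V : MG ι → MG ιV
  νV : ∀ X, (V X).G → ℕ
  Sound : ∀ X : MG ι, Subgroup X.G → (V X).G → Prop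
  T : ∀ X : MG ι, Subgroup X.G → MG ιT
  ν : ∀ X K, (T X K).G → ℕ
  ν_sn : ∀ X K, IsSN (ν X K)
  ν_gen : ∀ X K i, ν X K ((T X K).gen i) ≤ 1
  Δ : ∀ X K, X.G →* (T X K).G
  cone : ∀ X K, X.G →* (T X K).G
  σΔ : ι → Word ιT
  σc : ι → Word ιT
  Δ_gen : ∀ X K i, Δ X K (X.gen i) = (T X K).ev (σΔ i)
  cone_gen : ∀ X K i, cone X K (X.gen i) = (T X K).ev (σc i)
  ν_Δ : ∀ X K c, ν X K (Δ X K c) = X.wn c
  ν_cone : ∀ X K c, ν X K (cone X K c) = X.wn c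
  σx : ιV → Word ιT
  J : Word ιT
  dep : ∀ X K (n : ℕ), ∀ g ∈ (T X K).sub (ktWords [] σx J {x | x.length ≤ n}),
    ∀ x : Word ιV, x.length ≤ n → ν X K (g * (T X K).ev (subst σx x)) ≤ 2 * n
  K₀ : List (Word ιT)
  g : Word ιT
  R : List (Word ιT)
  pres : ∀ (X : MG ι) (𝒦 : Set (Word ι)), Pres (T X (X.sub 𝒦))
    ({r | r ∈ R} ∪ subst σc '' X.rel ∪ {r | ∃ k ∈ 𝒦, r = g ++ subst σc k ++ g.inv ++ (subst σc k).inv})
  K_le : ∀ X K Acc, ∀ c ∈ K, Δ X K c ∈ (T X K).sub (ktWords K₀ σx J Acc)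
  orbit : ∀ X K (Acc : Set (Word ιV)), (∀ x ∈ Acc, Sound X K ((V X).ev x)) → ∀ γ c,
    γ⁻¹ * Δ X K c ∈ (T X K).sub (ktWords K₀ σx J Acc) →
      ∃ c', c'⁻¹ * c ∈ K ∧ X.wn c' ≤ 3 * ν X K γ
  trans : ∀ X K (Acc : Set (Word ιV)), (∀ x ∈ Acc, Sound X K ((V X).ev x)) →
    (∀ a, Sound X K a → ∃ x ∈ Acc, (V X).ev x = a) → ∀ n : ℕ, ∃ r : Fin n → (T X K).G,
    (∀ c i, (r i)⁻¹ * Δ X K c * r i ∈ (T X K).sub (ktWords K₀ σx J Acc)) ∧
    (∀ i j, i ≠ j → (r i)⁻¹ * r j ∉ (T X K).sub (ktWords K₀ σx J Acc)) ∧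
    ∀ c : Fin n → X.G, (∀ i j, i ≠ j → (c i)⁻¹ * c j ∉ K) → ∃ h : (T X K).G,
      (∀ i, (r i)⁻¹ * (h * Δ X K (c i)) ∈ (T X K).sub (ktWords K₀ σx J Acc)) ∧
      ∀ a, (∀ i, (c i)⁻¹ * a * c i ∈ K) → Commute h (Δ X K a)
  faith : ∀ X K (Acc : Set (Word ιV)), (∀ x ∈ Acc, Sound X K ((V X).ev x)) → ∀ c c',
    ¬ Commute c c' → ∃ γ, γ⁻¹ * Δ X K c * γ ∉ (T X K).sub (ktWords K₀ σx J Acc)
  cert_sound : ∀ (𝒞 : Ctx) (X : 𝒞.Ω → MG ι) (K : ∀ ω, Subgroup (X ω).G),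
    Cert 𝒞 (fun ω w => (X ω).ev w = 1) (fun _ _ => 0) →
    Cert 𝒞 (fun ω w => (X ω).ev w ∉ K ω) (fun ω w => (X ω).wn ((X ω).ev w)) →
    Cert 𝒞 (fun ω x => Sound (X ω) (K ω) ((V (X ω)).ev x))
      fun ω x => κ * νV (X ω) ((V (X ω)).ev x)
  cert : ∀ (𝒞 : Ctx) (X : 𝒞.Ω → MG ι) (𝒦 : List (Word ι)) (K : ∀ ω, Subgroup (X ω).G)
    (Acc : 𝒞.Ω → Set (Word ιV)), (∀ ω, K ω = (X ω).sub {k | k ∈ 𝒦}) →
    (∀ ω, ∀ x ∈ Acc ω, Sound (X ω) (K ω) ((V (X ω)).ev x)) →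
    (∀ ω n, 𝒞.lim ω n → ∀ a, νV (X ω) a ≤ n → Sound (X ω) (K ω) a →
      ∃ x ∈ Acc ω, (V (X ω)).ev x = a) →
    Cert 𝒞 (fun ω x => x ∈ Acc ω) (fun _ _ => 0) →
    Cert 𝒞 (fun ω w => (X ω).ev w = 1) (fun _ _ => 0) →
    Cert 𝒞 (fun ω w => (X ω).ev w ≠ 1) (fun ω w => (X ω).wn ((X ω).ev w)) →
    Cert 𝒞 (fun ω w => (X ω).ev w ∉ K ω) (fun ω w => (X ω).wn ((X ω).ev w)) →
    Cert 𝒞 (fun ω w => (T (X ω) (K ω)).ev w ∉ (Δ (X ω) (K ω)).range)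
      (fun ω w => κ * ν (X ω) (K ω) ((T (X ω) (K ω)).ev w)) ∧
    Cert 𝒞 (fun ω w => (T (X ω) (K ω)).ev w ∉ (cone (X ω) (K ω)).range)
      (fun ω w => κ * ν (X ω) (K ω) ((T (X ω) (K ω)).ev w)) ∧
    Cert 𝒞 (fun ω w => ∀ c, (Δ (X ω) (K ω) c)⁻¹ * (T (X ω) (K ω)).ev w ∉
        (T (X ω) (K ω)).sub (ktWords K₀ σx J (Acc ω)))
      fun ω w => κ * ν (X ω) (K ω) ((T (X ω) (K ω)).ev w)

attribute [instance] ThetaPkg.pcV ThetaPkg.finV ThetaPkg.pcT ThetaPkg.finT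

/-- The program `j` accepts the word `x` with clock value `M`. -/
def halts {Y : Type} [Primcodable Y] (j : Nat.Partrec.Code) (x : Word Y) (M : ℕ) : Prop :=
  (j.eval (Encodable.encode (x, M))).Dom

/-- The conjugate `x⁻¹ J x` in the free group on `Y` and one more letter `J = none`. -/
def Jx {Y : Type} (x : Word Y) : FreeGroup (Option Y) :=
  (FreeGroup.mk (ren some x))⁻¹ * FreeGroup.of none * FreeGroup.mk (ren some x)

/-- `g` has depth at most `n`. -/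
def Dep {Y : Type} (g : FreeGroup (Option Y)) (n : ℕ) : Prop :=
  ∃ g' ∈ Subgroup.closure {h | ∃ x : Word Y, x.length ≤ n ∧ h = Jx x},
    ∃ x : Word Y, x.length ≤ n ∧ g = g' * FreeGroup.mk (ren some x)

/-- The subgroup generated by the machine letters and the start configurations in `S`. -/
def machL {ιW : Type} (W : MG ιW) (pw : List (Word ιW)) (z s : Word ιW) (S : Set ℕ) :
    Subgroup W.G :=
  Subgroup.closure (W.ev '' {p | p ∈ pw} ∪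
    {g | ∃ M ∈ S, g = (W.ev z ^ M)⁻¹ * W.ev s * W.ev z ^ M})

/-- The group of a universal modular machine which reads words in `Y`. -/
structure MachPkg (Y : Type) [Primcodable Y] where
  ιW : Type
  [pcW : Primcodable ιW]
  [finW : Finite ιW]
  W : MG ιW
  R : List (Word ιW)
  pres : Pres W {r | r ∈ R}
  z : Word ιW
  start : Nat.Partrec.Code → Word ιW
  start_comp : Computable start
  pw : List (Word ιW)
  ιH : Type
  [pcH : Primcodable ιH]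
  [finH : Finite ιH]
  hw : ιH → Word ιW
  πw : ιH → Word (Option Y)
  Fh : Subgroup W.G
  Fh_eq : Fh = Subgroup.closure (Set.range fun i => W.ev (hw i))
  π : Fh →* FreeGroup (Option Y)
  π_gen : ∀ i (h : W.ev (hw i) ∈ Fh), π ⟨W.ev (hw i), h⟩ = FreeGroup.mk (πw i)
  dec : ℕ → ℕ
  dec_le : ∀ M, dec M ≤ M
  dec_surj : Function.Surjective dec
  dec_comp : Computable dec
  sound : ∀ j S (f : Fh), (f : W.G) ∈ machL W pw z (start j) S →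
    π f ∈ Subgroup.closure {h | ∃ M ∈ S, ∃ x, halts j x (dec M) ∧ h = Jx x}
  complete : ∀ M j x, halts j x (dec M) →
    ∃ f : Fh, (f : W.G) ∈ machL W pw z (start j) {M} ∧ π f = Jx x
  ν : W.G → ℕ
  ν_sn : IsSN ν
  ν_gen : ∀ i, ν (W.gen i) ≤ 1
  ν_z : ν (W.ev z) = 0
  ν_start : ∀ j, ν (W.ev (start j)) = 0
  dep : ∀ f : Fh, Dep (π f) (ν f)
  depK : ∀ j S (γ : W.G) (f : Fh), γ⁻¹ * (f : W.G) ∈ machL W pw z (start j) S →
    ∃ f' : Fh, γ⁻¹ * (f' : W.G) ∈ machL W pw z (start j) S ∧ Dep (π f') (ν γ)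
  re_ne : REPred fun w => W.ev w ≠ 1
  re_Fh : REPred fun w => W.ev w ∉ Fh
  re_L : ∀ S : Set ℕ, ComputablePred (· ∈ S) →
    REPred fun p : Nat.Partrec.Code × Word ιW => W.ev p.2 ∉ machL W pw z (start p.1) S
  re_FhL : ∀ S : Set ℕ, ComputablePred (· ∈ S) → REPred fun p : Nat.Partrec.Code × Word ιW =>
    ∀ f ∈ Fh, f⁻¹ * W.ev p.2 ∉ machL W pw z (start p.1) S

attribute [instance] MachPkg.pcW MachPkg.finW MachPkg.pcH MachPkg.finH

/-- A marked group with an injective endomorphism, finitely presented up to the endomorphism,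
with a killing gadget. -/
structure FinalData (ι : Type) where
  A : MG ι
  σ : ι → Word ι
  R : Set (Word ι)
  R_fin : R.Finite
  θ : A.G →* A.G
  θ_gen : ∀ i, θ (A.gen i) = A.ev (σ i)
  θ_inj : Function.Injective θ
  R_rel : ∀ r ∈ R, A.ev r = 1
  min : ∀ (Z : Type) [Group Z] (z : ι → Z), (∀ r ∈ R, evW z r = 1) →
    (∀ w, evW z w = 1 → evW z (subst σ w) = 1) → ∀ w, A.ev w = 1 → evW z w = 1
  gad : Gadget θ

/-- A subgroup defining a faithful highly transitive action of the ascending HNN extension. -/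
structure ActData {ι : Type} (D : FinalData ι) where
  K : Subgroup D.A.G
  K_θ : ∀ a, D.θ a ∈ K ↔ a ∈ K
  trans : ∀ n : ℕ, ∃ r : Fin n → D.A.G, (∀ a i, (r i)⁻¹ * D.θ a * r i ∈ K) ∧
    (∀ i j, i ≠ j → (r i)⁻¹ * r j ∉ K) ∧
    ∀ c : Fin n → D.A.G, (∀ i j, i ≠ j → (c i)⁻¹ * c j ∉ K) → ∃ h : D.A.G,
      (∀ i, (r i)⁻¹ * (h * D.θ (c i)) ∈ K) ∧
      ∀ a, (∀ i, (c i)⁻¹ * a * c i ∈ K) → Commute h (D.θ a)
  faith : ∀ a, a ≠ 1 → ∃ γ, γ⁻¹ * D.θ a * γ ∉ K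

end Crest.Agent.R185
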