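import Mathlib

/-!
# Row 185: homology and flat connections on posets, definitions

Chains are finitely supported integer functions on lists; `Chn A k` consists of the chains
supported on weakly increasing lists of length `k` with entries in `A` (length `0`: the
augmentation).  `Acyc A n`: reduced homology vanishes for lists of length `≤ n`.
-/

set_option autoImplicit false

namespace Crest.Agent.R185

section
variable {P : Type}

/-- The boundary of a list: alternating sum of the faces. -/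
noncomputable def bdL : List P → (List P →₀ ℤ)
  | [] => 0
  | a :: l => Finsupp.single l 1 - Finsupp.mapDomain (List.cons a) (bdL l)

theorem bdL_anchor : type_of% @bdL.eq_def := @bdL.eq_def
@[simp] theorem bdL_nil : bdL ([] : List P) = 0 := rfl
theorem bdL_cons (a : P) (l : List P) :
    bdL (a :: l) = Finsupp.single l 1 - Finsupp.mapDomain (List.cons a) (bdL l) := rfl

/-- The boundary operator on chains. -/
noncomputable def bd : (List P →₀ ℤ) →+ (List P →₀ ℤ) :=
  Finsupp.liftAddHom fun l => (zmultiplesHom _ (bdL l) : ℤ →+ (List P →₀ ℤ))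

variable [Preorder P]

/-- Weakly increasing lists of length `k` in `A`. -/
def IsChn (A : Set P) (k : ℕ) (l : List P) : Prop :=
  l.length = k ∧ l.Pairwise (· ≤ ·) ∧ ∀ a ∈ l, a ∈ A

/-- Chains supported on weakly increasing lists of length `k` in `A`. -/
def Chn (A : Set P) (k : ℕ) : AddSubgroup (List P →₀ ℤ) where
  carrier := {c | ∀ l ∈ c.support, IsChn A k l}
  zero_mem' := by simp
  add_mem' := by
    classical
    intro a b ha hb l hl
    rcases Finset.mem_union.1 (Finsupp.support_add hl) with h | h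
    exacts [ha l h, hb l h]
  neg_mem' := by
    intro a ha l hl
    exact ha l (by simpa using hl)

/-- Reduced homology of `A` vanishes for lists of length at most `n`
(`Acyc A 0`: nonempty; `Acyc A 1`: nonempty and connected). -/
def Acyc (A : Set P) (n : ℕ) : Prop :=
  ∀ k, k ≤ n → ∀ z ∈ Chn A k, bd z = 0 → ∃ y ∈ Chn A (k + 1), bd y = z

/-- Every cycle of length at most `n` in `B` is homologous in `B` to a cycle in `A`. -/
def HSurj (A B : Set P) (n : ℕ) : Prop :=
  ∀ k, k ≤ n → ∀ z ∈ Chn B k, bd z = 0 → ∃ y ∈ Chn B (k + 1), z - bd y ∈ Chn A k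

/-- A flat connection on `A` with values in the group `Z`. -/
def Flat {Z : Type} [Group Z] (A : Set P) (c : P → P → Z) : Prop :=
  ∀ a ∈ A, ∀ b ∈ A, ∀ d ∈ A, a ≤ b → b ≤ d → c a d = c b d * c a b

/-- The connection `c` is trivial on `A`. -/
def Trivial {Z : Type} [Group Z] (A : Set P) (c : P → P → Z) : Prop :=
  ∃ t : P → Z, ∀ a ∈ A, ∀ b ∈ A, a ≤ b → c a b = t b * (t a)⁻¹

/-- Every flat connection on `A` is trivial. -/
def SConn (A : Set P) : Prop :=
  ∀ (Z : Type) [Group Z] (c : P → P → Z), Flat A c → Trivial A c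

/-- `A` collapses downwards onto a subset with a greatest element. -/
def Conical (A : Set P) : Prop :=
  ∃ (f : P → P) (m : P), m ∈ A ∧ MonotoneOn f A ∧ ∀ a ∈ A, f a ∈ A ∧ f a ≤ a ∧ f a ≤ m

/-- `B` is obtained from `A` by adding pairwise incomparable families `W i` with conical stars
`St i` whose links `St i ∩ A` are acyclic up to length `n`. -/
def Step (A B : Set P) (n : ℕ) : Prop :=
  A ⊆ B ∧ ∃ (I : Type) (W St : I → Set P),
    (∀ b ∈ B, b ∉ A → ∃ i, b ∈ W i) ∧
    (∀ i, W i ⊆ St i ∧ St i ⊆ B ∧ Disjoint (W i) A ∧ St i ⊆ A ∪ W i) ∧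
    (∀ i j, ∀ a ∈ W i, ∀ b ∈ W j, a ≤ b → i = j) ∧
    (∀ i, ∀ a ∈ W i, ∀ b ∈ B, (a ≤ b ∨ b ≤ a) → b ∈ St i) ∧
    (∀ i, Conical (St i)) ∧ ∀ i, Acyc (St i ∩ A) n

end

/-- An abstract expansion system: `Exp c B` means that the finite set `B` of charts is an
expansion of the chart `c`. -/
structure ExpSys (Ch Pt : Type) [DecidableEq Ch] where
  supp : Ch → Set Pt
  supp_ne : ∀ c, (supp c).Nonempty
  Exp : Ch → Finset Ch → Prop
  exp_disj : ∀ c B, Exp c B → (B : Set Ch).PairwiseDisjoint supp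
  exp_union : ∀ c B, Exp c B → ⋃ b ∈ B, supp b = supp c
  exp_refl : ∀ c, Exp c {c}
  exp_trans : ∀ c B (D : Ch → Finset Ch), Exp c B → (∀ b ∈ B, Exp b (D b)) → Exp c (B.biUnion D)
  exp_single : ∀ c c', Exp c {c'} → c' = c
  merge : ∀ x y, Disjoint (supp x) (supp y) → ∃ c, Exp c {x, y}
  /-- elementary expansions: the grids below `B` form a Boolean lattice -/
  core : ∀ c B, Exp c B → ∃ (T : Type) (_ : DecidableEq T) (_ : Fintype T)
    (gr : Finset T → Finset Ch), gr ∅ = {c} ∧ (∀ F, Exp c (gr F) ∧ (gr F).card = 2 ^ F.card) ∧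
    (∀ F F', F ⊆ F' ↔ ∃ D : Ch → Finset Ch, (∀ b ∈ gr F, Exp b (D b)) ∧
      gr F' = (gr F).biUnion D) ∧
    (∃ D : Ch → Finset Ch, (∀ b ∈ gr Finset.univ, Exp b (D b)) ∧ B = (gr Finset.univ).biUnion D) ∧
    ∀ u, Exp c u → u ≠ {c} → (∃ D : Ch → Finset Ch, (∀ b ∈ u, Exp b (D b)) ∧ B = u.biUnion D) →
      ∃ F₀ : Finset T, F₀.Nonempty ∧ ∀ F, F ⊆ F₀ ↔
        ∃ D : Ch → Finset Ch, (∀ b ∈ gr F, Exp b (D b)) ∧ u = (gr F).biUnion D

namespace ExpSys
variable {Ch Pt : Type} [DecidableEq Ch] (E : ExpSys Ch Pt)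

/-- Prevertices: finite sets of charts with pairwise disjoint supports. -/
@[ext] structure PV where
  s : Finset Ch
  disj : (s : Set Ch).PairwiseDisjoint E.supp

/-- Prevertices are ordered by expansion. -/
instance : Preorder E.PV where
  le w v := ∃ D : Ch → Finset Ch, (∀ b ∈ w.s, E.Exp b (D b)) ∧ v.s = w.s.biUnion D
  le_refl w := ⟨fun b => {b}, fun b _ => E.exp_refl b, by simp⟩
  le_trans u w v := by
    rintro ⟨D, h1, h2⟩ ⟨D', h3, h4⟩
    refine ⟨fun b => (D b).biUnion D', fun b hb => E.exp_trans _ _ _ (h1 b hb) fun b' hb' =>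
      h3 b' ?_, ?_⟩
    · rw [h2]; exact Finset.mem_biUnion.2 ⟨b, hb, hb'⟩
    · rw [h4, h2, Finset.biUnion_biUnion]

theorem le_def (w v : E.PV) :
    w ≤ v ↔ ∃ D : Ch → Finset Ch, (∀ b ∈ w.s, E.Exp b (D b)) ∧ v.s = w.s.biUnion D := Iff.rfl

/-- The descending link. -/
def Q (v : E.PV) : Set E.PV := {w | w ≤ v ∧ w ≠ v}

/-- Vertices with at most `m` charts. -/
def Vert (m : ℕ) : Set E.PV := {v | ⋃ b ∈ v.s, E.supp b = Set.univ ∧ v.s.card ≤ m}

end ExpSys

end Crest.Agent.R185
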