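import Crest.Agent.R185.PosetDef

/-!
# Row 185: chain-level calculus for the homology of posets
-/

set_option autoImplicit false

namespace Crest.Agent.R185

namespace PH

open Finsupp

section Basic

variable {P P' : Type}

/-- chains supported on lists satisfying `p`. -/
def Sup (p : List P → Prop) : AddSubgroup (List P →₀ ℤ) where
  carrier := {c | ∀ l ∈ c.support, p l}
  zero_mem' := by simp
  add_mem' := by
    classical
    intro a b ha hb l hl
    rcases Finset.mem_union.1 (Finsupp.support_add hl) with h | h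
    exacts [ha l h, hb l h]
  neg_mem' := by
    intro a ha l hl
    exact ha l (by simpa using hl)

theorem mem_Sup {p : List P → Prop} {c : List P →₀ ℤ} : c ∈ Sup p ↔ ∀ l ∈ c.support, p l :=
  Iff.rfl

theorem single_mem_Sup {p : List P → Prop} {l : List P} (h : p l) (n : ℤ) :
    single l n ∈ Sup p := by
  intro l' hl'
  rw [Finset.mem_singleton.1 (support_single_subset hl')]
  exact h

theorem Sup_mono {p q : List P → Prop} (h : ∀ l, p l → q l) {c : List P →₀ ℤ} (hc : c ∈ Sup p) :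
    c ∈ Sup q := fun l hl => h l (hc l hl)

theorem map_mem {M : Type} [AddCommGroup M] (φ : (List P →₀ ℤ) →+ M) (H : AddSubgroup M)
    {p : List P → Prop} (h : ∀ l, p l → φ (single l 1) ∈ H) {c : List P →₀ ℤ} (hc : c ∈ Sup p) :
    φ c ∈ H := by
  rw [← Finsupp.sum_single c, Finsupp.sum, map_sum]
  refine H.sum_mem fun l hl => ?_
  have : single l (c l) = c l • single l (1 : ℤ) := by simp
  rw [this, map_zsmul]
  exact H.zsmul_mem (h l (hc l hl)) _

theorem map_eq {M : Type} [AddCommGroup M] (φ ψ : (List P →₀ ℤ) →+ M)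
    {p : List P → Prop} (h : ∀ l, p l → φ (single l 1) = ψ (single l 1)) {c : List P →₀ ℤ}
    (hc : c ∈ Sup p) : φ c = ψ c := by
  have := map_mem (φ - ψ) ⊥ (p := p) (fun l hl => by simp [h l hl]) hc
  simpa [sub_eq_zero] using this

theorem map_eq' {M : Type} [AddCommGroup M] (φ ψ : (List P →₀ ℤ) →+ M)
    (h : ∀ l, φ (single l 1) = ψ (single l 1)) (c : List P →₀ ℤ) : φ c = ψ c :=
  map_eq φ ψ (p := fun _ => True) (fun l _ => h l) (fun _ _ => trivial)

/-- the additive extension of a function on lists. -/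
noncomputable def lft {M : Type} [AddCommGroup M] (g : List P → M) : (List P →₀ ℤ) →+ M :=
  Finsupp.liftAddHom fun l => (zmultiplesHom _ (g l) : ℤ →+ M)

@[simp] theorem lft_single {M : Type} [AddCommGroup M] (g : List P → M) (l : List P) :
    lft g (single l 1) = g l := by
  simp [lft]

@[simp] theorem bd_single (l : List P) : bd (single l 1) = bdL l := lft_single _ l

/-- prepend an element. -/
noncomputable def cn (a : P) : (List P →₀ ℤ) →+ (List P →₀ ℤ) :=
  mapDomain.addMonoidHom (List.cons a)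

/-- apply a map entrywise. -/
noncomputable def mp (f : P → P') : (List P →₀ ℤ) →+ (List P' →₀ ℤ) :=
  mapDomain.addMonoidHom (List.map f)

theorem mp_apply (f : P → P') (c : List P →₀ ℤ) : mp f c = mapDomain (List.map f) c := rfl

@[simp] theorem cn_single (a : P) (l : List P) (n : ℤ) : cn a (single l n) = single (a :: l) n :=
  mapDomain_single

@[simp] theorem mp_single (f : P → P') (l : List P) (n : ℤ) :
    mp f (single l n) = single (l.map f) n := mapDomain_single

theorem bdL_cons' (a : P) (l : List P) : bdL (a :: l) = single l 1 - cn a (bdL l) := rfl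

theorem bd_cn (a : P) (c : List P →₀ ℤ) : bd (cn a c) = c - cn a (bd c) :=
  map_eq' (bd.comp (cn a)) (AddMonoidHom.id _ - (cn a).comp bd) (fun l => by simp [bdL_cons']) c

theorem mp_cn (f : P → P') (a : P) (c : List P →₀ ℤ) : mp f (cn a c) = cn (f a) (mp f c) :=
  map_eq' ((mp f).comp (cn a)) ((cn (f a)).comp (mp f)) (fun l => by simp) c

theorem mp_bdL (f : P → P') (l : List P) : mp f (bdL l) = bdL (l.map f) := by
  induction l with
  | nil => simp
  | cons a l ih => simp [bdL_cons', mp_cn, ih]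

theorem bd_mp (f : P → P') (c : List P →₀ ℤ) : bd (mp f c) = mp f (bd c) :=
  map_eq' (bd.comp (mp f)) ((mp f).comp bd) (fun l => by simp [mp_bdL]) c

theorem bd_bdL (l : List P) : bd (bdL l) = 0 := by
  induction l with
  | nil => simp
  | cons a l ih => simp [bdL_cons', bd_cn, ih]

theorem bd_bd (c : List P →₀ ℤ) : bd (bd c) = 0 :=
  map_eq' (bd.comp bd) 0 (fun l => by simp [bd_bdL]) c

theorem bdL_mem (l : List P) :
    bdL l ∈ Sup fun l' => l'.Sublist l ∧ l'.length + 1 = l.length := by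
  induction l with
  | nil => exact AddSubgroup.zero_mem _
  | cons a l ih =>
    rw [bdL_cons']
    refine AddSubgroup.sub_mem _ (single_mem_Sup ⟨List.sublist_cons_self a l, rfl⟩ 1) ?_
    refine map_mem (cn a) _ (fun l' hl' => ?_) ih
    rw [cn_single]
    exact single_mem_Sup ⟨hl'.1.cons_cons a, by simp [hl'.2]⟩ 1

theorem bd_mem_Sup {p q : List P → Prop}
    (h : ∀ l l', p l → l'.Sublist l → l'.length + 1 = l.length → q l') {c : List P →₀ ℤ}
    (hc : c ∈ Sup p) : bd c ∈ Sup q :=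
  map_mem bd _ (fun l hl => by
    rw [bd_single]
    exact Sup_mono (fun l' hl' => h l l' hl hl'.1 hl'.2) (bdL_mem l)) hc

/-- The prism operator on lists. -/
noncomputable def prL (f g : P → P') : List P → (List P' →₀ ℤ)
  | [] => 0
  | a :: l => single (f a :: g a :: l.map g) 1 - cn (f a) (prL f g l)

theorem prL_anchor : type_of% @prL.eq_def := @prL.eq_def

theorem prL_cons (f g : P → P') (a : P) (l : List P) :
    prL f g (a :: l) = single (f a :: g a :: l.map g) 1 - cn (f a) (prL f g l) := rfl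

theorem pr_cn (f g : P → P') (a : P) (c : List P →₀ ℤ) :
    lft (prL f g) (cn a c) = cn (f a) (cn (g a) (mp g c)) - cn (f a) (lft (prL f g) c) :=
  map_eq' ((lft (prL f g)).comp (cn a))
    ((cn (f a)).comp ((cn (g a)).comp (mp g)) - (cn (f a)).comp (lft (prL f g)))
    (fun l => by simp [prL_cons]) c

theorem bd_prL (f g : P → P') (l : List P) :
    bd (prL f g l) + lft (prL f g) (bdL l) = single (l.map g) 1 - single (l.map f) 1 := by
  induction l with
  | nil => simp [prL]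
  | cons a l ih =>
    have h1 : cn (f a) (bd (prL f g l)) + cn (f a) (lft (prL f g) (bdL l)) =
        single (f a :: l.map g) 1 - single (f a :: l.map f) 1 := by
      rw [← map_add, ih, map_sub, cn_single, cn_single]
    rw [prL_cons, bdL_cons', map_sub, map_sub, bd_single, bd_cn, lft_single, pr_cn, bdL_cons',
      bdL_cons', map_sub, mp_bdL, cn_single, List.map_cons, List.map_cons]
    rw [eq_sub_of_add_eq h1]
    abel

theorem bd_pr (f g : P → P') (c : List P →₀ ℤ) :
    bd (lft (prL f g) c) + lft (prL f g) (bd c) = mp g c - mp f c :=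
  map_eq' (bd.comp (lft (prL f g)) + (lft (prL f g)).comp bd) (mp g - mp f)
    (fun l => by simp [bd_prL]) c

theorem mp_id (c : List P →₀ ℤ) : mp id c = c :=
  map_eq' (mp id) (AddMonoidHom.id _) (fun l => by simp) c

end Basic

section Order

variable {P P' : Type} [Preorder P] [Preorder P']

theorem chn_iff {A : Set P} {k : ℕ} {c : List P →₀ ℤ} : c ∈ Chn A k ↔ c ∈ Sup (IsChn A k) :=
  Iff.rfl

theorem chn_eq (A : Set P) (k : ℕ) : Chn A k = Sup (IsChn A k) := rfl

theorem single_mem {A : Set P} {k : ℕ} {l : List P} (h : IsChn A k l) (n : ℤ) :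
    single l n ∈ Chn A k := single_mem_Sup h n

theorem chn_mono {A B : Set P} (h : A ⊆ B) {k : ℕ} {c : List P →₀ ℤ} (hc : c ∈ Chn A k) :
    c ∈ Chn B k := fun l hl => ⟨(hc l hl).1, (hc l hl).2.1, fun a ha => h ((hc l hl).2.2 a ha)⟩

theorem chn_zero {A B : Set P} {c : List P →₀ ℤ} (hc : c ∈ Chn A 0) : c ∈ Chn B 0 :=
  fun l hl => ⟨(hc l hl).1, (hc l hl).2.1, fun a ha => by
    rw [List.length_eq_zero_iff.1 (hc l hl).1] at ha
    simp at ha⟩

theorem bd_mem {A : Set P} {k : ℕ} {c : List P →₀ ℤ} (hc : c ∈ Chn A (k + 1)) :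
    bd c ∈ Chn A k :=
  bd_mem_Sup (q := IsChn A k) (fun l l' hl h1 h2 =>
    ⟨by have := hl.1; omega, hl.2.1.sublist h1, fun a ha => hl.2.2 a (h1.subset ha)⟩) hc

theorem pairwise_map {A : Set P} {f : P → P'} (hf : MonotoneOn f A) {l : List P}
    (h1 : l.Pairwise (· ≤ ·)) (h2 : ∀ a ∈ l, a ∈ A) : (l.map f).Pairwise (· ≤ ·) := by
  rw [List.pairwise_map]
  exact h1.imp_of_mem fun ha hb hab => hf (h2 _ ha) (h2 _ hb) hab

theorem mp_mem {A : Set P} {B : Set P'} {f : P → P'} (hf : MonotoneOn f A)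
    (hB : ∀ a ∈ A, f a ∈ B) {k : ℕ} {c : List P →₀ ℤ} (hc : c ∈ Chn A k) : mp f c ∈ Chn B k :=
  map_mem (mp f) _ (fun l hl => by
    rw [mp_single]
    refine single_mem ⟨by simp [hl.1], pairwise_map hf hl.2.1 hl.2.2, ?_⟩ 1
    intro b hb
    obtain ⟨a, ha, rfl⟩ := List.mem_map.1 hb
    exact hB a (hl.2.2 a ha)) hc

omit [Preorder P'] in
theorem mp_mp {A : Set P} {f : P → P'} {g : P' → P} (h : ∀ a ∈ A, g (f a) = a) {k : ℕ}
    {c : List P →₀ ℤ} (hc : c ∈ Chn A k) : mp g (mp f c) = c :=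
  map_eq ((mp g).comp (mp f)) (AddMonoidHom.id _) (p := IsChn A k) (fun l hl => by
    simp only [AddMonoidHom.comp_apply, mp_single, AddMonoidHom.id_apply, List.map_map]
    congr 1
    conv_rhs => rw [← List.map_id l]
    exact List.map_congr_left fun a ha => h a (hl.2.2 a ha)) hc

theorem cn_mem {A B : Set P} {m : P} (hm : m ∈ B) (hAB : A ⊆ B) (h : ∀ a ∈ A, m ≤ a) {k : ℕ}
    {c : List P →₀ ℤ} (hc : c ∈ Chn A k) : cn m c ∈ Chn B (k + 1) :=
  map_mem (cn m) _ (fun l hl => by
    rw [cn_single]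
    refine single_mem ⟨by simp [hl.1], List.pairwise_cons.2
      ⟨fun a ha => h a (hl.2.2 a ha), hl.2.1⟩, ?_⟩ 1
    intro a ha
    rcases List.mem_cons.1 ha with rfl | ha
    · exact hm
    · exact hAB (hl.2.2 a ha)) hc

theorem prL_mem {A : Set P} {f g : P → P'} (hf : MonotoneOn f A) (hg : MonotoneOn g A)
    (hfg : ∀ a ∈ A, f a ≤ g a) (l : List P) (h1 : l.Pairwise (· ≤ ·)) (h2 : ∀ a ∈ l, a ∈ A) :
    prL f g l ∈ Chn {x | ∃ a ∈ l, x = f a ∨ x = g a} (l.length + 1) := by
  induction l with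
  | nil => exact AddSubgroup.zero_mem _
  | cons a l ih =>
    have ha : a ∈ A := h2 a List.mem_cons_self
    have h3 : ∀ b ∈ l, b ∈ A := fun b hb => h2 b (List.mem_cons_of_mem _ hb)
    have h4 := List.pairwise_cons.1 h1
    rw [prL_cons]
    refine AddSubgroup.sub_mem _ (single_mem ⟨by simp, ?_, ?_⟩ 1) ?_
    · refine List.pairwise_cons.2 ⟨?_, pairwise_map hg h1 h2⟩
      intro x hx
      rcases List.mem_cons.1 hx with rfl | hx
      · exact hfg a ha
      · obtain ⟨b, hb, rfl⟩ := List.mem_map.1 hx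
        exact (hfg a ha).trans (hg ha (h3 b hb) (h4.1 b hb))
    · intro x hx
      rcases List.mem_cons.1 hx with rfl | hx
      · exact ⟨a, List.mem_cons_self, Or.inl rfl⟩
      · rw [← List.map_cons] at hx
        obtain ⟨b, hb, rfl⟩ := List.mem_map.1 hx
        exact ⟨b, hb, Or.inr rfl⟩
    · refine cn_mem (B := {x | ∃ b ∈ a :: l, x = f b ∨ x = g b})
        ⟨a, List.mem_cons_self, Or.inl rfl⟩ ?_ ?_ (ih h4.2 h3)
      · rintro x ⟨b, hb, h⟩
        exact ⟨b, List.mem_cons_of_mem _ hb, h⟩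
      · rintro x ⟨b, hb, rfl | rfl⟩
        · exact hf ha (h3 b hb) (h4.1 b hb)
        · exact (hfg a ha).trans (hg ha (h3 b hb) (h4.1 b hb))

/-- The prism operator. -/
theorem prism {A : Set P} {B : Set P'} {f g : P → P'} (hf : MonotoneOn f A) (hg : MonotoneOn g A)
    (hfg : ∀ a ∈ A, f a ≤ g a) (hfB : ∀ a ∈ A, f a ∈ B) (hgB : ∀ a ∈ A, g a ∈ B) {k : ℕ}
    {z : List P →₀ ℤ} (hz : z ∈ Chn A k) (h0 : bd z = 0) :
    ∃ y ∈ Chn B (k + 1), bd y = mp g z - mp f z := by
  refine ⟨lft (prL f g) z, map_mem _ _ (fun l hl => ?_) hz, ?_⟩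
  · rw [lft_single, ← hl.1]
    refine chn_mono ?_ (prL_mem hf hg hfg l hl.2.1 hl.2.2)
    rintro x ⟨a, ha, rfl | rfl⟩
    · exact hfB a (hl.2.2 a ha)
    · exact hgB a (hl.2.2 a ha)
  · rw [← bd_pr, h0, map_zero, add_zero]

theorem acyc_transfer {A : Set P} {A' : Set P'} {f : P → P'} {g : P' → P} (hf : MonotoneOn f A)
    (hg : MonotoneOn g A') (hfA : ∀ a ∈ A, f a ∈ A') (hgA : ∀ a ∈ A', g a ∈ A)
    (hgf : ∀ a ∈ A, g (f a) = a) {n : ℕ} (h : Acyc A' n) : Acyc A n := by
  intro k hk z hz h0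
  obtain ⟨y, hy, e⟩ := h k hk (mp f z) (mp_mem hf hfA hz) (by rw [bd_mp, h0, map_zero])
  exact ⟨mp g y, mp_mem hg hgA hy, by rw [bd_mp, e, mp_mp hgf hz]⟩

theorem hsurj_transfer {A B : Set P} {A' B' : Set P'} {f : P → P'} {g : P' → P}
    (hf : MonotoneOn f B) (hg : MonotoneOn g B') (hAB : A' ⊆ B') (hfB : ∀ a ∈ B, f a ∈ B')
    (hgB : ∀ a ∈ B', g a ∈ B) (hgA : ∀ a ∈ A', g a ∈ A) (hgf : ∀ a ∈ B, g (f a) = a) {n : ℕ}
    (h : HSurj A' B' n) : HSurj A B n := by
  intro k hk z hz h0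
  obtain ⟨y, hy, e⟩ := h k hk (mp f z) (mp_mem hf hfB hz) (by rw [bd_mp, h0, map_zero])
  refine ⟨mp g y, mp_mem hg hgB hy, ?_⟩
  have := mp_mem (hg.mono hAB) hgA e
  rwa [map_sub, mp_mp hgf hz, ← bd_mp] at this

theorem nonempty {A : Set P} {n : ℕ} (h : Acyc A n) : A.Nonempty := by
  obtain ⟨y, hy, e⟩ := h 0 (Nat.zero_le n) (single [] 1)
    (single_mem ⟨rfl, List.Pairwise.nil, by simp⟩ 1) (by simp)
  have hy0 : y ≠ 0 := by
    rintro rfl
    rw [map_zero] at e
    exact one_ne_zero (single_eq_zero.1 e.symm)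
  obtain ⟨l, hl⟩ := support_nonempty_iff.2 hy0
  obtain ⟨h1, -, h3⟩ := hy l hl
  obtain ⟨a, rfl⟩ := List.length_eq_one_iff.1 h1
  exact ⟨a, h3 a List.mem_cons_self⟩

theorem bounds_of_zigzag {A B : Set P} (f : P → P) (m : P) (hf : MonotoneOn f A) (hAB : A ⊆ B)
    (hm : m ∈ B) (hfA : ∀ a ∈ A, f a ∈ B ∧ f a ≤ a ∧ f a ≤ m) {k : ℕ} {z : List P →₀ ℤ}
    (hz : z ∈ Chn A k) (h0 : bd z = 0) : ∃ y ∈ Chn B (k + 1), bd y = z := by
  obtain ⟨y₁, h₁, e₁⟩ := prism (B := B) (g := id) hf monotoneOn_id (fun a ha => (hfA a ha).2.1)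
    (fun a ha => (hfA a ha).1) hAB hz h0
  obtain ⟨y₂, h₂, e₂⟩ := prism (B := B) (g := fun _ => m) hf monotoneOn_const
    (fun a ha => (hfA a ha).2.2) (fun a ha => (hfA a ha).1) (fun _ _ => hm) hz h0
  have h₃ : cn m (mp (fun _ => m) z) ∈ Chn B (k + 1) :=
    cn_mem (A := {m}) hm (Set.singleton_subset_iff.2 hm) (fun a ha => (Set.mem_singleton_iff.1 ha).ge)
      (mp_mem monotoneOn_const (fun _ _ => Set.mem_singleton m) hz)
  refine ⟨y₁ - y₂ + cn m (mp (fun _ => m) z), add_mem (sub_mem h₁ h₂) h₃, ?_⟩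
  rw [map_add, map_sub, e₁, e₂, bd_cn, bd_mp, h0, mp_id]
  simp

theorem conical_acyc {A : Set P} (h : Conical A) (n : ℕ) : Acyc A n := by
  obtain ⟨f, m, hm, hf, h⟩ := h
  exact fun k _ z hz h0 => bounds_of_zigzag f m hf subset_rfl hm h hz h0

/-- The relative homology of a step vanishes. -/
theorem step_key {A B : Set P} {n : ℕ} (h : Step A B n) {k : ℕ} (hk : k ≤ n)
    {y : List P →₀ ℤ} (hy : y ∈ Chn B (k + 1)) (hb : bd y ∈ Chn A k) :
    ∃ w ∈ Chn B (k + 2), y - bd w ∈ Chn A (k + 1) := by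
  classical
  obtain ⟨hAB, I, W, St, h1, h2, h3, h4, h5, h6⟩ := h
  have cmp : ∀ {l : List P}, l.Pairwise (· ≤ ·) → ∀ a ∈ l, ∀ b ∈ l, a ≤ b ∨ b ≤ a := by
    intro l hl
    induction l with
    | nil => simp
    | cons c l ih =>
      obtain ⟨hc, hl⟩ := List.pairwise_cons.1 hl
      intro a ha b hb
      rcases List.mem_cons.1 ha with rfl | ha' <;> rcases List.mem_cons.1 hb with rfl | hb'
      · exact Or.inl le_rfl
      · exact Or.inl (hc b hb')
      · exact Or.inr (hc a ha')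
      · exact ih hl a ha' b hb'
  have key : ∀ (s : Finset I) (y : List P →₀ ℤ), y ∈ Chn B (k + 1) → bd y ∈ Chn A k →
      (∀ l ∈ y.support, ∀ i, (∃ a ∈ l, a ∈ W i) → i ∈ s) →
      ∃ w ∈ Chn B (k + 2), y - bd w ∈ Chn A (k + 1) := by
    intro s
    induction s using Finset.induction_on with
    | empty =>
      intro y hy _ hs
      refine ⟨0, zero_mem _, ?_⟩
      rw [map_zero, sub_zero]
      intro l hl
      refine ⟨(hy l hl).1, (hy l hl).2.1, fun a ha => ?_⟩
      by_contra haA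
      obtain ⟨i, hi⟩ := h1 a ((hy l hl).2.2 a ha) haA
      exact absurd (hs l hl i ⟨a, ha, hi⟩) (Finset.notMem_empty _)
    | insert i s _ ih =>
      intro y hy hb hs
      set yi := y.filter (fun l => ∃ a ∈ l, a ∈ W i) with hyi
      set yr := y.filter (fun l => ¬ ∃ a ∈ l, a ∈ W i) with hyr
      have hsum : yi + yr = y := filter_add_filter_not y _
      have hyiS : yi ∈ Chn (St i) (k + 1) := by
        intro l hl
        rw [hyi, support_filter, Finset.mem_filter] at hl
        obtain ⟨hl, a, ha, hai⟩ := hl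
        refine ⟨(hy l hl).1, (hy l hl).2.1, fun b hb => ?_⟩
        exact h4 i a hai b ((hy l hl).2.2 b hb) (cmp (hy l hl).2.1 a ha b hb)
      have hyrS : yr ∈ Sup fun l => l ∈ y.support ∧ ¬ ∃ a ∈ l, a ∈ W i := by
        intro l hl
        rwa [hyr, support_filter, Finset.mem_filter] at hl
      have hbr : bd yr ∈ Sup fun l => ¬ ∃ a ∈ l, a ∈ W i :=
        bd_mem_Sup (fun l l' hl hs _ ⟨a, ha, hai⟩ => hl.2 ⟨a, hs.subset ha, hai⟩) hyrS
      have hbi : bd yi ∈ Chn (St i ∩ A) k := by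
        intro l hl
        obtain ⟨e1, e2, e3⟩ := bd_mem hyiS l hl
        refine ⟨e1, e2, fun a ha => ⟨e3 a ha, ?_⟩⟩
        by_contra haA
        have haW : a ∈ W i := ((h2 i).2.2.2 (e3 a ha)).resolve_left haA
        have e4 : bd yr l = 0 := by
          by_contra hne
          exact hbr l (mem_support_iff.2 hne) ⟨a, ha, haW⟩
        have e5 : l ∈ (bd y).support := by
          rw [← hsum, map_add, mem_support_iff, Finsupp.add_apply, e4, add_zero]
          exact mem_support_iff.1 hl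
        exact haA ((hb l e5).2.2 a ha)
      obtain ⟨u, hu, eu⟩ := h6 i k hk _ hbi (bd_bd _)
      obtain ⟨wi, hwi, ewi⟩ := conical_acyc (h5 i) (k + 1) (k + 1) le_rfl (yi - u)
        (sub_mem hyiS (chn_mono Set.inter_subset_left hu)) (by rw [map_sub, eu, sub_self])
      have huB : u ∈ Chn B (k + 1) := chn_mono (Set.inter_subset_right.trans hAB) hu
      have hyrB : yr ∈ Chn B (k + 1) := fun l hl => hy l (hyrS l hl).1
      obtain ⟨w, hw, ew⟩ := ih (yr + u) (add_mem hyrB huB)
        (by rw [map_add, eu, ← map_add, add_comm, hsum]; exact hb)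
        (by
          intro l hl j hj
          rcases Finset.mem_union.1 (support_add hl) with hl | hl
          · rcases Finset.mem_insert.1 (hs l (hyrS l hl).1 j hj) with rfl | hjs
            · exact absurd hj (hyrS l hl).2
            · exact hjs
          · obtain ⟨a, ha, haj⟩ := hj
            exact absurd ((hu l hl).2.2 a ha).2 (Set.disjoint_left.1 (h2 j).2.2.1 haj))
      refine ⟨wi + w, add_mem (chn_mono (h2 i).2.1 hwi) hw, ?_⟩
      have : y - bd (wi + w) = yr + u - bd w := by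
        rw [map_add, ewi, ← hsum]; abel
      rw [this]
      exact ew
  have hfin : (⋃ l ∈ (y.support : Set (List P)), {i | ∃ a ∈ l, a ∈ W i}).Finite := by
    refine y.support.finite_toSet.biUnion fun l hl => Set.Subsingleton.finite ?_
    rintro i ⟨a, ha, hai⟩ j ⟨b, hb', hbj⟩
    rcases cmp (hy l hl).2.1 a ha b hb' with h | h
    · exact h3 i j a hai b hbj h
    · exact (h3 j i b hbj a hai h).symm
  refine key hfin.toFinset y hy hb fun l hl i hi => ?_
  rw [Set.Finite.mem_toFinset]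
  exact Set.mem_biUnion hl hi

end Order

end PH

end Crest.Agent.R185
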