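import Crest.Agent.R185.PosetHom
import Crest.Agent.R185.FPres

/-!
# Row 185: auxiliary material for Brown's criteria
-/

set_option autoImplicit false

namespace Crest.Agent.R185

namespace PPi

section orbits
variable (G : Type) {X : Type} [Group G] [MulAction G X]

/-- orbit representatives and translating elements -/
theorem exists_rep : ∃ (rp : X → X) (tr : X → G), (∀ x, tr x • rp x = x) ∧
    ∀ (g : G) x, rp (g • x) = rp x := by
  have h : ∀ x : X, ∃ g : G, g • (Quotient.mk (MulAction.orbitRel G X) x).out = x := by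
    intro x
    have : (MulAction.orbitRel G X) x (Quotient.mk (MulAction.orbitRel G X) x).out :=
      (MulAction.orbitRel G X).symm (Quotient.mk_out (s := MulAction.orbitRel G X) x)
    exact this
  choose tr htr using h
  refine ⟨fun x => (Quotient.mk (MulAction.orbitRel G X) x).out, tr, htr, fun g x => ?_⟩
  have : Quotient.mk (MulAction.orbitRel G X) (g • x) = Quotient.mk (MulAction.orbitRel G X) x :=
    Quotient.sound ⟨g, rfl⟩
  simp only [this]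

end orbits

variable {P : Type}

/-- sections over finitely many finitely presented subgroups -/
theorem exists_sections {G : Type} [Group G] (H : P → Subgroup G) {V : Set P} (hV : V.Finite)
    (h : ∀ v ∈ V, Group.IsFinitelyPresented (H v)) :
    ∃ (Γ : Type) (_ : Group Γ) (π : Γ →* G) (s : P → G → Γ), Group.IsFinitelyPresented Γ ∧
      ∀ v ∈ V, (∀ x ∈ H v, π (s v x) = x) ∧ ∀ x ∈ H v, ∀ y ∈ H v, s v (x * y) = s v x * s v y := by
  classical
  induction V, hV using Set.Finite.induction_on with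
  | empty => exact ⟨Unit, inferInstance, 1, fun _ _ => 1, inferInstance, by simp⟩
  | @insert a V _ _ ih =>
    obtain ⟨Γ, _, π, s, hΓ, hs⟩ := ih fun v hv => h v (Or.inr hv)
    have := h a (Or.inl rfl)
    refine ⟨Monoid.Coprod Γ (H a), inferInstance, Monoid.Coprod.lift π (H a).subtype,
      fun v x => if v = a then (if hx : x ∈ H a then Monoid.Coprod.inr ⟨x, hx⟩ else 1)
        else Monoid.Coprod.inl (s v x), inferInstance, fun v hv => ?_⟩
    by_cases hva : v = a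
    · subst hva
      refine ⟨fun x hx => by simp [hx], fun x hx y hy => ?_⟩
      simp only [if_true, hx, hy, (H v).mul_mem hx hy, dif_pos]
      rw [← map_mul]; rfl
    · have hv' : v ∈ V := hv.resolve_left hva
      refine ⟨fun x hx => by simp [hva, (hs v hv').1 x hx], fun x hx y hy => ?_⟩
      simp only [if_neg hva]
      rw [(hs v hv').2 x hx y hy, map_mul]

/-- adding finitely many free generators -/
theorem exists_free {G Γ X : Type} [Group G] [Group Γ] (hΓ : Group.IsFinitelyPresented Γ)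
    (π : Γ →* G) {E : Set X} (hE : E.Finite) (f : X → G) :
    ∃ (Γ' : Type) (_ : Group Γ') (i : Γ →* Γ') (π' : Γ' →* G) (ε : X → Γ'),
      Group.IsFinitelyPresented Γ' ∧ (∀ x, π' (i x) = π x) ∧ ∀ e ∈ E, π' (ε e) = f e := by
  classical
  have : Finite E := hE
  refine ⟨Monoid.Coprod Γ (FreeGroup E), inferInstance, Monoid.Coprod.inl,
    Monoid.Coprod.lift π (FreeGroup.lift fun e => f e.1),
    fun x => if hx : x ∈ E then Monoid.Coprod.inr (FreeGroup.of ⟨x, hx⟩) else 1, inferInstance,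
    fun x => rfl, fun e he => by simp [he]⟩

variable [Preorder P]

/-- A cocycle on the action groupoid together with an equivariant flat connection gives a
section. -/
theorem fp_of_cocycle {G Γ : Type} [Group G] [Group Γ] [MulAction G P] {A : Set P}
    (hmono : ∀ (g : G) (a b : P), a ≤ b → g • a ≤ g • b) (hinv : ∀ g : G, ∀ a ∈ A, g • a ∈ A)
    (hconn : Acyc A 1) (hsc : SConn A) (hΓ : Group.IsFinitelyPresented Γ) (π : Γ →* G)
    (tr : P → G) (j : P → G → Γ) (c : P → P → Γ)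
    (hj : ∀ a ∈ A, ∀ g h, j a (h * g) = j (g • a) h * j a g)
    (hπj : ∀ a ∈ A, ∀ g, π (j a g) = (tr (g • a))⁻¹ * g * tr a)
    (hc : ∀ a ∈ A, ∀ b ∈ A, a ≤ b → ∀ g, c (g • a) (g • b) * j a g = j b g * c a b)
    (hπc : ∀ a ∈ A, ∀ b ∈ A, a ≤ b → π (c a b) = (tr b)⁻¹ * tr a) (hflat : Flat A c) :
    Group.IsFinitelyPresented G := by
  obtain ⟨t, ht⟩ := hsc Γ c hflat
  obtain ⟨a₀, ha₀⟩ := hconn.nonempty
  have h1 : ∀ g, ∀ a ∈ A, ∀ b ∈ A, (t (g • a))⁻¹ * j a g * t a = (t (g • b))⁻¹ * j b g * t b := by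
    intro g
    refine hconn.const (fun a => (t (g • a))⁻¹ * j a g * t a) fun a ha b hb hab => ?_
    have := hc a ha b hb hab g
    rw [ht _ (hinv g a ha) _ (hinv g b hb) (hmono g a b hab), ht a ha b hb hab] at this
    calc (t (g • a))⁻¹ * j a g * t a
        = (t (g • b))⁻¹ * (t (g • b) * (t (g • a))⁻¹ * j a g) * t a := by group
      _ = (t (g • b))⁻¹ * j b g * t b := by rw [this]; group
  have h2 : ∀ a ∈ A, ∀ b ∈ A, tr a * π (t a) = tr b * π (t b) := by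
    refine hconn.const (fun a => tr a * π (t a)) fun a ha b hb hab => ?_
    have := hπc a ha b hb hab
    rw [ht a ha b hb hab, map_mul, map_inv] at this
    calc tr a * π (t a) = tr b * ((tr b)⁻¹ * tr a) * π (t a) := by group
      _ = tr b * π (t b) := by rw [← this]; group
  let ψ : G →* Γ := MonoidHom.mk' (fun g => (t (g • a₀))⁻¹ * j a₀ g * t a₀) fun h g => by
    rw [h1 h a₀ ha₀ _ (hinv g a₀ ha₀), hj a₀ ha₀, mul_smul]
    group
  refine fp_of_retract hΓ ((MulAut.conj (tr a₀ * π (t a₀))).toMonoidHom.comp π) ψ fun g => ?_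
  show tr a₀ * π (t a₀) * π ((t (g • a₀))⁻¹ * j a₀ g * t a₀) * (tr a₀ * π (t a₀))⁻¹ = g
  rw [map_mul, map_mul, map_inv, hπj a₀ ha₀]
  calc _ = (tr a₀ * π (t a₀)) * (tr (g • a₀) * π (t (g • a₀)))⁻¹ * g := by group
    _ = g := by rw [h2 a₀ ha₀ _ (hinv g a₀ ha₀)]; group

theorem brown_fp {G : Type} [Group G] [MulAction G P] (A : Set P)
    (hmono : ∀ (g : G) (a b : P), a ≤ b → g • a ≤ g • b) (hinv : ∀ g : G, ∀ a ∈ A, g • a ∈ A)
    (hconn : Acyc A 1) (hsc : SConn A)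
    (hfin : ∃ T : Set (List P), T.Finite ∧
      ∀ l, IsChn A 3 l → ∃ g : G, l.map (fun a => g • a) ∈ T)
    (hv : ∀ a ∈ A, Group.IsFinitelyPresented (MulAction.stabilizer G a))
    (he : ∀ a ∈ A, ∀ b ∈ A, a ≤ b →
      (MulAction.stabilizer G a ⊓ MulAction.stabilizer G b).FG) :
    Group.IsFinitelyPresented G := by
  classical
  obtain ⟨T, hT, hTl⟩ := hfin
  -- triples
  obtain ⟨T3, hT3, hT3l⟩ : ∃ T3 : Set (P × P × P), T3.Finite ∧ ∀ a ∈ A, ∀ b ∈ A, ∀ d ∈ A,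
      a ≤ b → b ≤ d → ∃ g : G, (g • a, g • b, g • d) ∈ T3 := by
    refine ⟨(fun p : P × P × P => [p.1, p.2.1, p.2.2]) ⁻¹' T,
      hT.preimage fun p _ q _ h => ?_, fun a ha b hb d hd hab hbd => ?_⟩
    · simp only [List.cons.injEq, and_true] at h
      exact Prod.ext h.1 (Prod.ext h.2.1 h.2.2)
    · obtain ⟨g, hg⟩ := hTl [a, b, d] ⟨rfl, by simp [hab, hbd, hab.trans hbd], by simp [ha, hb, hd]⟩
      exact ⟨g, hg⟩
  obtain ⟨rp, tr, htr, hrp⟩ := exists_rep G (X := P)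
  obtain ⟨rq, tq, htq, hrq⟩ := exists_rep G (X := P × P)
  have hrpA : ∀ a ∈ A, rp a ∈ A := fun a ha => by
    have := hinv (tr a)⁻¹ a ha
    rwa [show (tr a)⁻¹ • a = rp a from inv_smul_eq_iff.2 (htr a).symm] at this
  have hV : (rp '' A).Finite := by
    refine ((hT3.image fun p => p.1).image rp).subset ?_
    rintro _ ⟨a, ha, rfl⟩
    obtain ⟨g, hg⟩ := hT3l a ha a ha a ha le_rfl le_rfl
    exact ⟨_, ⟨_, hg, rfl⟩, hrp g a⟩
  obtain ⟨B, hB⟩ : ∃ B : Set (P × P), ∀ p, p ∈ B ↔ p.1 ∈ A ∧ p.2 ∈ A ∧ p.1 ≤ p.2 :=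
    ⟨{p | p.1 ∈ A ∧ p.2 ∈ A ∧ p.1 ≤ p.2}, fun _ => Iff.rfl⟩
  have hBinv : ∀ g : G, ∀ p ∈ B, g • p ∈ B := fun g p hp => by
    rw [hB] at hp ⊢
    exact ⟨hinv g _ hp.1, hinv g _ hp.2.1, hmono g _ _ hp.2.2⟩
  have hrqB : ∀ a ∈ B, rq a ∈ B := fun a ha => by
    have := hBinv (tq a)⁻¹ a ha
    rwa [show (tq a)⁻¹ • a = rq a from inv_smul_eq_iff.2 (htq a).symm] at this
  have hE : (rq '' B).Finite := by
    refine ((hT3.image fun p => (p.1, p.2.1)).image rq).subset ?_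
    rintro _ ⟨p, hp, rfl⟩
    rw [hB] at hp
    obtain ⟨g, hg⟩ := hT3l _ hp.1 _ hp.2.1 _ hp.2.1 hp.2.2 le_rfl
    exact ⟨_, ⟨_, hg, rfl⟩, hrq g p⟩
  -- stage 0: vertex groups
  obtain ⟨Γ₀, _, π₀, s, hΓ₀, hs⟩ := exists_sections (fun v => MulAction.stabilizer G v) hV
    (by rintro _ ⟨a, ha, rfl⟩; exact hv _ (hrpA a ha))
  have hst : ∀ (a : P) (g : G), (tr (g • a))⁻¹ * g * tr a ∈ MulAction.stabilizer G (rp a) := by
    intro a g
    rw [MulAction.mem_stabilizer_iff, mul_smul, mul_smul, htr, inv_smul_eq_iff, ← hrp g a, htr]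
  obtain ⟨j₀, hj₀⟩ : ∃ j₀ : P → G → Γ₀, ∀ a g, j₀ a g = s (rp a) ((tr (g • a))⁻¹ * g * tr a) :=
    ⟨_, fun _ _ => rfl⟩
  have hj₀m : ∀ a ∈ A, ∀ g h, j₀ a (h * g) = j₀ (g • a) h * j₀ a g := by
    intro a ha g h
    rw [hj₀, hj₀, hj₀, hrp, ← (hs _ ⟨a, ha, rfl⟩).2 _ (hrp g a ▸ hst (g • a) h) _ (hst a g),
      mul_smul]
    congr 1
    group
  have hj₀π : ∀ a ∈ A, ∀ g, π₀ (j₀ a g) = (tr (g • a))⁻¹ * g * tr a := by
    intro a ha g
    rw [hj₀, (hs _ ⟨a, ha, rfl⟩).1 _ (hst a g)]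
  -- stage 1: edge generators
  obtain ⟨Γ₁, _, i₁, π₁, ε₁, hΓ₁, hi₁, hε₁⟩ := exists_free hΓ₀ π₀ hE fun p => (tr p.2)⁻¹ * tr p.1
  -- stage 2: edge relations
  have hgen : ∀ p : P × P, ∃ S : Set G, S.Finite ∧ (p ∈ B →
      Subgroup.closure S = MulAction.stabilizer G p.1 ⊓ MulAction.stabilizer G p.2) := by
    intro p
    by_cases hp : p ∈ B
    · have hp' := (hB p).1 hp
      obtain ⟨S, h1, h2⟩ := (Subgroup.fg_iff _).1 (he _ hp'.1 _ hp'.2.1 hp'.2.2)
      exact ⟨S, h2, fun _ => h1⟩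
    · exact ⟨∅, Set.finite_empty, fun h => (hp h).elim⟩
  choose S hSf hS using hgen
  obtain ⟨Γ₂, _, q₂, π₂, hΓ₂, -, hq₂, hR₂⟩ := fp_kill hΓ₁ π₁
    (⋃ p ∈ rq '' B, (fun x => ε₁ p * i₁ (j₀ p.1 x) * (i₁ (j₀ p.2 x) * ε₁ p)⁻¹) '' S p)
    (hE.biUnion fun p _ => (hSf p).image _) (by
      simp only [Set.mem_iUnion]
      rintro _ ⟨p, hp, x, hx, rfl⟩
      have hpB : p ∈ B := by obtain ⟨p', hp', rfl⟩ := hp; exact hrqB _ hp'
      have hx' : x ∈ MulAction.stabilizer G p.1 ⊓ MulAction.stabilizer G p.2 :=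
        hS p hpB ▸ Subgroup.subset_closure hx
      have hp' := (hB p).1 hpB
      simp only [map_mul, map_inv, hi₁, hε₁ p hp, hj₀π _ hp'.1, hj₀π _ hp'.2.1]
      rw [MulAction.mem_stabilizer_iff.1 hx'.1, MulAction.mem_stabilizer_iff.1 hx'.2]
      group)
  obtain ⟨j, hj⟩ : ∃ j : P → G → Γ₂, ∀ a g, j a g = q₂ (i₁ (j₀ a g)) := ⟨_, fun _ _ => rfl⟩
  obtain ⟨ε, hε⟩ : ∃ ε : P × P → Γ₂, ∀ p, ε p = q₂ (ε₁ p) := ⟨_, fun _ => rfl⟩
  have hjm : ∀ a ∈ A, ∀ g h, j a (h * g) = j (g • a) h * j a g := by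
    intro a ha g h
    rw [hj, hj, hj, hj₀m a ha, map_mul, map_mul]
  have hjπ : ∀ a ∈ A, ∀ g, π₂ (j a g) = (tr (g • a))⁻¹ * g * tr a := by
    intro a ha g
    rw [hj, hq₂, hi₁, hj₀π a ha]
  have hj1 : ∀ a ∈ A, j a 1 = 1 := by
    intro a ha
    have := hjm a ha 1 1
    simpa using this
  have hedge : ∀ p ∈ rq '' B, ∀ x, x • p = p → ε p * j p.1 x = j p.2 x * ε p := by
    intro p hp x hx
    have hpB : p ∈ B := by obtain ⟨p', hp', rfl⟩ := hp; exact hrqB _ hp'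
    have hp' := (hB p).1 hpB
    have hx' : x ∈ Subgroup.closure (S p) := by
      rw [hS p hpB]
      exact ⟨congrArg Prod.fst hx, congrArg Prod.snd hx⟩
    have hst' : ∀ y ∈ Subgroup.closure (S p), y • p.1 = p.1 ∧ y • p.2 = p.2 := by
      intro y hy
      rw [hS p hpB] at hy
      exact hy
    clear hx
    induction hx' using Subgroup.closure_induction with
    | mem y hy =>
      have := hR₂ _ (Set.mem_biUnion hp ⟨y, hy, rfl⟩)
      simp only [map_mul, map_inv, mul_inv_eq_one] at this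
      rw [hε, hj, hj, this]
    | one => rw [hj1 _ hp'.1, hj1 _ hp'.2.1, mul_one, one_mul]
    | mul y z hy hz ihy ihz =>
      rw [hjm _ hp'.1, hjm _ hp'.2.1, (hst' z hz).1, (hst' z hz).2, ← mul_assoc, ihy, mul_assoc,
        ihz, mul_assoc]
    | inv y hy ihy =>
      have e1 := hjm _ hp'.1 y y⁻¹
      have e2 := hjm _ hp'.2.1 y y⁻¹
      rw [inv_mul_cancel, hj1 _ hp'.1, (hst' y hy).1] at e1
      rw [inv_mul_cancel, hj1 _ hp'.2.1, (hst' y hy).2] at e2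
      rw [eq_inv_of_mul_eq_one_left e1.symm, eq_inv_of_mul_eq_one_left e2.symm]
      calc _ = (j p.2 y)⁻¹ * (j p.2 y * ε p) * (j p.1 y)⁻¹ := by group
        _ = _ := by rw [← ihy]; group
  obtain ⟨c, hc⟩ : ∃ c : P → P → Γ₂, ∀ a b, c a b =
      j (rq (a, b)).2 (tq (a, b)) * ε (rq (a, b)) * (j (rq (a, b)).1 (tq (a, b)))⁻¹ :=
    ⟨_, fun _ _ => rfl⟩
  have hceq : ∀ a ∈ A, ∀ b ∈ A, a ≤ b → ∀ g, c (g • a) (g • b) * j a g = j b g * c a b := by
    intro a ha b hb hab g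
    have hp : (a, b) ∈ B := (hB _).2 ⟨ha, hb, hab⟩
    have hr := (hB _).1 (hrqB _ hp)
    have e0 : rq (g • a, g • b) = rq (a, b) := hrq g (a, b)
    rw [hc, hc, e0]
    obtain ⟨r, hr'⟩ : ∃ r, r = rq (a, b) := ⟨_, rfl⟩
    obtain ⟨u, hu⟩ : ∃ u, u = tq (a, b) := ⟨_, rfl⟩
    obtain ⟨w, hw⟩ : ∃ w, w = tq (g • a, g • b) := ⟨_, rfl⟩
    have hu' : u • r = (a, b) := by rw [hu, hr', htq]
    have hw' : w • r = g • (a, b) := by rw [hw, hr', ← e0, htq]; rfl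
    have hx : (w⁻¹ * (g * u)) • r = r := by
      rw [mul_smul, mul_smul, hu', ← hw', inv_smul_smul]
    have hed := hedge r ⟨_, hp, hr'.symm⟩ _ hx
    rw [← hr'] at hr
    rw [← hr', ← hu, ← hw]
    have f1 : j r.1 (g * u) = j r.1 w * j r.1 (w⁻¹ * (g * u)) := by
      have := hjm _ hr.1 (w⁻¹ * (g * u)) w
      rwa [mul_inv_cancel_left, show (w⁻¹ * (g * u)) • r.1 = r.1 from congrArg Prod.fst hx] at this
    have f2 : j r.2 (g * u) = j r.2 w * j r.2 (w⁻¹ * (g * u)) := by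
      have := hjm _ hr.2.1 (w⁻¹ * (g * u)) w
      rwa [mul_inv_cancel_left, show (w⁻¹ * (g * u)) • r.2 = r.2 from congrArg Prod.snd hx] at this
    have f3 : j r.1 (g * u) = j a g * j r.1 u := by
      have := hjm _ hr.1 u g
      rwa [show u • r.1 = a from congrArg Prod.fst hu'] at this
    have f4 : j r.2 (g * u) = j b g * j r.2 u := by
      have := hjm _ hr.2.1 u g
      rwa [show u • r.2 = b from congrArg Prod.snd hu'] at this
    have f5 : j a g = j r.1 w * j r.1 (w⁻¹ * (g * u)) * (j r.1 u)⁻¹ := by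
      rw [← f1, f3]; group
    have f6 : j b g = j r.2 w * j r.2 (w⁻¹ * (g * u)) * (j r.2 u)⁻¹ := by
      rw [← f2, f4]; group
    rw [f5, f6]
    calc _ = j r.2 w * (ε r * j r.1 (w⁻¹ * (g * u))) * (j r.1 u)⁻¹ := by group
      _ = _ := by rw [hed]; group
  have hcπ : ∀ a ∈ A, ∀ b ∈ A, a ≤ b → π₂ (c a b) = (tr b)⁻¹ * tr a := by
    intro a ha b hb hab
    have hp : (a, b) ∈ B := (hB _).2 ⟨ha, hb, hab⟩
    have hr := (hB _).1 (hrqB _ hp)
    rw [hc, map_mul, map_mul, map_inv, hjπ _ hr.1, hjπ _ hr.2.1, hε, hq₂, hε₁ _ ⟨_, hp, rfl⟩,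
      show tq (a, b) • (rq (a, b)).1 = a from congrArg Prod.fst (htq (a, b)),
      show tq (a, b) • (rq (a, b)).2 = b from congrArg Prod.snd (htq (a, b))]
    group
  -- stage 3: triangle relations
  obtain ⟨Γ₃, _, q₃, π₃, hΓ₃, -, hq₃, hR₃⟩ := fp_kill hΓ₂ π₂
    ((fun p : P × P × P => c p.1 p.2.2 * (c p.2.1 p.2.2 * c p.1 p.2.1)⁻¹) ''
      (T3 ∩ {p | p.1 ∈ A ∧ p.2.1 ∈ A ∧ p.2.2 ∈ A ∧ p.1 ≤ p.2.1 ∧ p.2.1 ≤ p.2.2}))
    ((hT3.subset Set.inter_subset_left).image _) (by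
      rintro _ ⟨⟨a, b, d⟩, ⟨-, ha, hb, hd, hab, hbd⟩, rfl⟩
      simp only [map_mul, map_inv]
      rw [hcπ a ha d hd (hab.trans hbd), hcπ b hb d hd hbd, hcπ a ha b hb hab]
      group)
  refine fp_of_cocycle hmono hinv hconn hsc hΓ₃ π₃ tr (fun a g => q₃ (j a g))
    (fun a b => q₃ (c a b)) (fun a ha g h => by rw [hjm a ha, map_mul])
    (fun a ha g => by rw [hq₃, hjπ a ha])
    (fun a ha b hb hab g => by rw [← map_mul, hceq a ha b hb hab, map_mul])
    (fun a ha b hb hab => by rw [hq₃, hcπ a ha b hb hab]) ?_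
  intro a ha b hb d hd hab hbd
  obtain ⟨g, hg⟩ := hT3l a ha b hb d hd hab hbd
  have h0 := hR₃ _ ⟨_, ⟨hg, hinv g a ha, hinv g b hb, hinv g d hd, hmono g _ _ hab,
    hmono g _ _ hbd⟩, rfl⟩
  simp only [map_mul, map_inv, mul_inv_eq_one] at h0
  have e1 := congrArg q₃ (hceq a ha b hb hab g)
  have e2 := congrArg q₃ (hceq b hb d hd hbd g)
  have e3 := congrArg q₃ (hceq a ha d hd (hab.trans hbd) g)
  simp only [map_mul] at e1 e2 e3
  show q₃ (c a d) = q₃ (c b d) * q₃ (c a b)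
  rw [h0, mul_assoc, e1, ← mul_assoc, e2, mul_assoc] at e3
  exact (mul_left_cancel e3).symm

end PPi

end Crest.Agent.R185
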