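import Crest.Agent.R185.PosetHom
import Crest.Agent.R185.FPAlg
import Crest.Agent.R185.FPres
import Crest.Agent.R185.PosetPiAux

/-!
# Row 185: flat connections on posets and Brown's criteria
-/

set_option autoImplicit false

namespace Crest.Agent.R185

variable {P : Type} [Preorder P]

theorem trivial_of_zigzag {Z : Type} [Group Z] {A B : Set P} {c : P → P → Z} (hc : Flat B c)
    (f : P → P) (m : P) (hf : MonotoneOn f A) (hAB : A ⊆ B) (hm : m ∈ B)
    (hfA : ∀ a ∈ A, f a ∈ B ∧ f a ≤ a ∧ f a ≤ m) : Trivial A c := by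
  refine ⟨fun a => c (f a) a * (c (f a) m)⁻¹, fun a ha b hb hab => ?_⟩
  obtain ⟨h1, h2, h3⟩ := hfA a ha
  obtain ⟨h4, h5, h6⟩ := hfA b hb
  have e1 := hc _ h1 _ h4 _ hm (hf ha hb hab) h6
  have e2 := hc _ h1 _ h4 _ (hAB hb) (hf ha hb hab) h5
  have e3 := hc _ h1 _ (hAB ha) _ (hAB hb) h2 hab
  show c a b = c (f b) b * (c (f b) m)⁻¹ * (c (f a) a * (c (f a) m)⁻¹)⁻¹
  rw [e1]
  calc c a b = (c a b * c (f a) a) * (c (f a) a)⁻¹ := by group
    _ = _ := by rw [← e3, e2]; group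

theorem Step.trivial {Z : Type} [Group Z] {A B : Set P} (h : Step A B 1) {c : P → P → Z}
    (hc : Flat B c) (hA : Trivial A c) : Trivial B c := by
  classical
  obtain ⟨hAB, I, W, St, h1, h2, h3, h4, h5, h6⟩ := h
  obtain ⟨t, ht⟩ := hA
  have key : ∀ i, ∃ u : P → Z, (∀ a ∈ St i, ∀ b ∈ St i, a ≤ b → c a b = u b * (u a)⁻¹) ∧
      ∀ a ∈ St i, a ∈ A → u a = t a := by
    intro i
    obtain ⟨f, m, hm, hf, hfA⟩ := h5 i
    obtain ⟨u, hu⟩ := trivial_of_zigzag hc f m hf (h2 i).2.1 ((h2 i).2.1 hm)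
      fun a ha => ⟨(h2 i).2.1 (hfA a ha).1, (hfA a ha).2⟩
    obtain ⟨a₀, ha₀⟩ := (h6 i).nonempty
    have hconst := (h6 i).const (fun a => (u a)⁻¹ * t a) fun a ha b hb hab => by
      have := (hu a ha.1 b hb.1 hab).symm.trans (ht a ha.2 b hb.2 hab)
      calc (u a)⁻¹ * t a = (u b)⁻¹ * (u b * (u a)⁻¹) * t a := by group
        _ = (u b)⁻¹ * t b := by rw [this]; group
    refine ⟨fun a => u a * ((u a₀)⁻¹ * t a₀), fun a ha b hb hab => ?_, fun a ha ha' => ?_⟩
    · rw [hu a ha b hb hab]; group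
    · show u a * ((u a₀)⁻¹ * t a₀) = t a
      rw [← hconst a ⟨ha, ha'⟩ a₀ ha₀]; group
  choose u hu hut using key
  let t' : P → Z := fun b => if h : ∃ i, b ∈ W i then u h.choose b else t b
  have ht' : ∀ i, ∀ a ∈ St i, t' a = u i a := by
    intro i a ha
    by_cases h : ∃ i, a ∈ W i
    · have hs := h.choose_spec
      rcases (h2 i).2.2.2 ha with h' | h'
      · exact (Set.disjoint_left.1 (h2 _).2.2.1 hs h').elim
      · simp only [t', dif_pos h]
        rw [h3 _ _ a hs a h' le_rfl]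
    · simp only [t', dif_neg h]
      rcases (h2 i).2.2.2 ha with h' | h'
      · exact (hut i a ha h').symm
      · exact (h ⟨i, h'⟩).elim
  have ht'' : ∀ a ∈ A, t' a = t a := by
    intro a ha
    have : ¬ ∃ i, a ∈ W i := fun ⟨i, hi⟩ => Set.disjoint_left.1 (h2 _).2.2.1 hi ha
    simp only [t', dif_neg this]
  refine ⟨t', fun a ha b hb hab => ?_⟩
  by_cases haA : a ∈ A
  · by_cases hbA : b ∈ A
    · rw [ht'' a haA, ht'' b hbA, ht a haA b hbA hab]
    · obtain ⟨i, hi⟩ := h1 b hb hbA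
      have e1 := h4 i b hi a ha (Or.inr hab)
      have e2 := (h2 i).1 hi
      rw [ht' i a e1, ht' i b e2, hu i a e1 b e2 hab]
  · obtain ⟨i, hi⟩ := h1 a ha haA
    have e1 := h4 i a hi b hb (Or.inl hab)
    have e2 := (h2 i).1 hi
    rw [ht' i a e2, ht' i b e1, hu i a e2 b e1 hab]

/-- Flat connections extend over cones on simply connected links. -/
theorem Flat.extend {Z : Type} [Group Z] {A B : Set P} (hAB : A ⊆ B)
    (hmax : ∀ v ∈ B, v ∉ A → ∀ b ∈ B, v ≤ b → b = v)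
    (hL : ∀ v ∈ B, v ∉ A → SConn {a | a ∈ A ∧ a ≤ v}) {c : P → P → Z} (hc : Flat A c) :
    ∃ c' : P → P → Z, Flat B c' ∧ ∀ a ∈ A, ∀ b ∈ A, c' a b = c a b := by
  classical
  have key : ∀ v, ∃ t : P → Z, v ∈ B → v ∉ A →
      ∀ a ∈ A, ∀ b ∈ A, a ≤ b → b ≤ v → c a b = t b * (t a)⁻¹ := by
    intro v
    by_cases hv : v ∈ B ∧ v ∉ A
    · obtain ⟨t, ht⟩ := hL v hv.1 hv.2 Z c fun a ha b hb d hd => hc a ha.1 b hb.1 d hd.1
      exact ⟨t, fun _ _ a ha b hb hab hbv => ht a ⟨ha, hab.trans hbv⟩ b ⟨hb, hbv⟩ hab⟩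
    · exact ⟨fun _ => 1, fun h1 h2 => (hv ⟨h1, h2⟩).elim⟩
  choose t ht using key
  refine ⟨fun a b => if a ∈ A then (if b ∈ A then c a b else (t b a)⁻¹) else 1,
    fun a ha b hb d hd hab hbd => ?_, fun a ha b hb => by simp [ha, hb]⟩
  by_cases haA : a ∈ A
  · by_cases hbA : b ∈ A
    · by_cases hdA : d ∈ A
      · simp only [haA, hbA, hdA, if_true]
        exact hc a haA b hbA d hdA hab hbd
      · simp only [haA, hbA, hdA, if_true, if_false]
        rw [ht d hd hdA a haA b hbA hab hbd]; group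
    · obtain rfl := hmax b hb hbA d hd hbd
      simp [haA, hbA]
  · obtain rfl := hmax a ha haA b hb hab
    simp [haA]

theorem sconn_of_directed {A : Set P} (h : ∀ a ∈ A, ∀ b ∈ A, ∃ u ∈ A, a ≤ u ∧ b ≤ u) :
    SConn A := by
  intro Z _ c hc
  rcases A.eq_empty_or_nonempty with rfl | ⟨a₀, ha₀⟩
  · exact ⟨fun _ => 1, by simp⟩
  have key : ∀ a, ∃ u, a ∈ A → u ∈ A ∧ a ≤ u ∧ a₀ ≤ u := by
    intro a
    by_cases ha : a ∈ A
    · obtain ⟨u, hu⟩ := h a ha a₀ ha₀
      exact ⟨u, fun _ => hu⟩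
    · exact ⟨a, fun h => (ha h).elim⟩
  choose u hu using key
  refine ⟨fun a => (c a (u a))⁻¹ * c a₀ (u a), fun a ha b hb hab => ?_⟩
  obtain ⟨h1, h2, h3⟩ := hu a ha
  obtain ⟨h4, h5, h6⟩ := hu b hb
  obtain ⟨w, hw, h7, h8⟩ := h _ h1 _ h4
  have e1 := hc a ha _ h1 w hw h2 h7
  have e2 := hc b hb _ h4 w hw h5 h8
  have e3 := hc a₀ ha₀ _ h1 w hw h3 h7
  have e4 := hc a₀ ha₀ _ h4 w hw h6 h8
  have e5 := hc a ha b hb w hw hab (h5.trans h8)
  have f1 : (c a (u a))⁻¹ * c a₀ (u a) = (c a w)⁻¹ * c a₀ w := by rw [e1, e3]; group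
  have f2 : (c b (u b))⁻¹ * c a₀ (u b) = (c b w)⁻¹ * c a₀ w := by rw [e2, e4]; group
  show c a b = (c b (u b))⁻¹ * c a₀ (u b) * ((c a (u a))⁻¹ * c a₀ (u a))⁻¹
  rw [f1, f2, e5]; group

/-- Brown's criterion for finite presentability. -/
theorem brown_fp {G : Type} [Group G] [MulAction G P] (A : Set P)
    (hmono : ∀ (g : G) (a b : P), a ≤ b → g • a ≤ g • b) (hinv : ∀ g : G, ∀ a ∈ A, g • a ∈ A)
    (hconn : Acyc A 1) (hsc : SConn A)
    (hfin : ∃ T : Set (List P), T.Finite ∧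
      ∀ l, IsChn A 3 l → ∃ g : G, l.map (fun a => g • a) ∈ T)
    (hv : ∀ a ∈ A, Group.IsFinitelyPresented (MulAction.stabilizer G a))
    (he : ∀ a ∈ A, ∀ b ∈ A, a ≤ b →
      (MulAction.stabilizer G a ⊓ MulAction.stabilizer G b).FG) :
    Group.IsFinitelyPresented G :=
  PPi.brown_fp A hmono hinv hconn hsc hfin hv he

namespace PPi

open Finsupp

/-- inclusion of chains on a subtype -/
noncomputable def inc (p : List P → Prop) : ({l // p l} →₀ ℤ) →+ (List P →₀ ℤ) :=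
  Finsupp.mapDomain.addMonoidHom Subtype.val

/-- restriction of chains to a subtype -/
noncomputable def res (p : List P → Prop) : (List P →₀ ℤ) →+ ({l // p l} →₀ ℤ) :=
  Finsupp.subtypeDomainAddMonoidHom

omit [Preorder P] in
theorem inc_inj (p : List P → Prop) : Function.Injective (inc p) :=
  Finsupp.mapDomain_injective Subtype.val_injective

omit [Preorder P] in
theorem inc_mem (p : List P → Prop) (c : {l // p l} →₀ ℤ) : ∀ l ∈ (inc p c).support, p l := by
  classical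
  intro l hl
  obtain ⟨x, -, rfl⟩ := Finset.mem_image.1 (Finsupp.mapDomain_support hl)
  exact x.2

omit [Preorder P] in
theorem inc_res (p : List P → Prop) {c : List P →₀ ℤ} (hc : ∀ l ∈ c.support, p l) :
    inc p (res p c) = c := by
  ext l
  by_cases hl : p l
  · exact Finsupp.mapDomain_apply Subtype.val_injective (res p c) ⟨l, hl⟩
  · have h1 : l ∉ (inc p (res p c)).support := fun h => hl (inc_mem p _ l h)
    have h2 : l ∉ c.support := fun h => hl (hc l h)
    rw [Finsupp.notMem_support_iff.1 h1, Finsupp.notMem_support_iff.1 h2]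

theorem eq_zero_of_chn_zero {A : Set P} {c : List P →₀ ℤ} (hc : c ∈ Chn A 0) (h : c [] = 0) :
    c = 0 := by
  ext l
  by_contra hl
  have := (hc l (Finsupp.mem_support_iff.2 hl)).1
  obtain rfl := List.length_eq_zero_iff.1 this
  exact hl h

end PPi

/-- Brown's criterion for `FPn`. -/
theorem brown_fpn {G : Type} [Group G] [MulAction G P] (A : Set P)
    (hmono : ∀ (g : G) (a b : P), a ≤ b → g • a ≤ g • b) (hinv : ∀ g : G, ∀ a ∈ A, g • a ∈ A)
    (n : ℕ) (hA : Acyc A (n + 1))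
    (hfin : ∀ k, ∃ T : Set (List P), T.Finite ∧
      ∀ l, IsChn A k l → ∃ g : G, l.map (fun a => g • a) ∈ T)
    (hst : ∀ k l, IsChn A (k + 1) l →
      FPn (⨅ a ∈ l, MulAction.stabilizer G a : Subgroup G) n) : FPn G n := by
  have hchn : ∀ (g : G) k l, IsChn A k l → IsChn A k (l.map fun a => g • a) := by
    intro g k l hl
    refine ⟨by simpa using hl.1, List.pairwise_map.2 (hl.2.1.imp fun h => hmono g _ _ h), ?_⟩
    intro a ha
    obtain ⟨b, hb, rfl⟩ := List.mem_map.1 ha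
    exact hinv g b (hl.2.2 b hb)
  letI inst : ∀ i, MulAction G {l // IsChn A (i + 1) l} := fun i =>
    { smul := fun g l => ⟨l.1.map fun a => g • a, hchn g _ _ l.2⟩
      one_smul := fun l => Subtype.ext (by
        show l.1.map (fun a => (1 : G) • a) = l.1
        simp)
      mul_smul := fun g h l => Subtype.ext (by
        show l.1.map (fun a => (g * h) • a) = (l.1.map fun a => h • a).map fun a => g • a
        simp [mul_smul]) }
  have hsm : ∀ i (g : G) (l : {l // IsChn A (i + 1) l}), (g • l).1 = l.1.map fun a => g • a :=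
    fun _ _ _ => rfl
  have hinc : ∀ i (g : G) (c : {l // IsChn A (i + 1) l} →₀ ℤ),
      PPi.inc _ (chAct g c) = PH.mp (fun a => g • a) (PPi.inc _ c) := by
    intro i g c
    show Finsupp.mapDomain _ (Finsupp.mapDomain _ c) = Finsupp.mapDomain _ (Finsupp.mapDomain _ c)
    rw [← Finsupp.mapDomain_comp, ← Finsupp.mapDomain_comp]
    rfl
  have hmem : ∀ i (c : {l // IsChn A (i + 1) l} →₀ ℤ), PPi.inc _ c ∈ Chn A (i + 1) :=
    fun i c => PPi.inc_mem _ c
  let d : ∀ i, ({l // IsChn A (i + 1 + 1) l} →₀ ℤ) →+ ({l // IsChn A (i + 1) l} →₀ ℤ) :=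
    fun i => (PPi.res _).comp (bd.comp (PPi.inc _))
  have hd : ∀ i c, PPi.inc _ (d i c) = bd (PPi.inc _ c) := fun i c =>
    PPi.inc_res _ (bd_mem (hmem _ c))
  have hex : ∀ i, i ≤ n → ∀ c : {l // IsChn A (i + 1) l} →₀ ℤ,
      bd (PPi.inc _ c) = 0 ↔ c ∈ Set.range (d i) := by
    intro i hi c
    constructor
    · intro h
      obtain ⟨y, hy, e⟩ := hA (i + 1) (by omega) _ (hmem i c) h
      refine ⟨PPi.res _ y, PPi.inc_inj _ ?_⟩
      rw [hd, PPi.inc_res _ hy, e]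
    · rintro ⟨y, rfl⟩
      rw [hd, bd_bd]
  refine fpn_of_complex (fun i => {l // IsChn A (i + 1) l}) d
    ((Finsupp.applyAddHom []).comp (bd.comp (PPi.inc _))) n (fun i _ g c => PPi.inc_inj _ ?_)
    (fun g c => ?_) (fun m => ?_) (fun c => ?_) (fun i hi c => ?_) (fun i _ => ?_) fun i _ x => ?_
  · rw [hd, hinc, hinc, hd, PH.bd_mp]
  · show bd (PPi.inc _ (chAct g c)) [] = bd (PPi.inc _ c) []
    rw [hinc, PH.bd_mp]
    exact Finsupp.mapDomain_apply (List.map_injective_iff.2 (MulAction.injective g)) _ []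
  · obtain ⟨y, hy, e⟩ := hA 0 (by omega) (Finsupp.single [] m)
      (PH.single_mem ⟨rfl, List.Pairwise.nil, by simp⟩ m) (by
        rw [← mul_one m, ← smul_eq_mul, ← Finsupp.smul_single, map_zsmul, PH.bd_single]
        simp)
    refine ⟨PPi.res _ y, ?_⟩
    show bd (PPi.inc _ (PPi.res _ y)) [] = m
    rw [PPi.inc_res _ hy, e]
    simp
  · rw [← hex 0 (by omega)]
    show bd (PPi.inc _ c) [] = 0 ↔ _
    exact ⟨PPi.eq_zero_of_chn_zero (bd_mem (hmem 0 c)), fun h => by rw [h]; rfl⟩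
  · rw [← hex (i + 1) hi, ← hd]
    exact ⟨fun h => by rw [h, map_zero], fun h => PPi.inc_inj _ (by rw [h, map_zero])⟩
  · obtain ⟨T, hT, hTl⟩ := hfin (i + 1)
    have : Finite (Subtype.val ⁻¹' T : Set {l // IsChn A (i + 1) l}) :=
      hT.preimage Subtype.val_injective.injOn
    refine Finite.of_surjective
      (fun x : (Subtype.val ⁻¹' T : Set {l // IsChn A (i + 1) l}) => Quotient.mk _ x.1) ?_
    rintro ⟨x⟩
    obtain ⟨g, hg⟩ := hTl x.1 x.2
    exact ⟨⟨g • x, hg⟩, Quotient.sound ⟨g, rfl⟩⟩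
  · have : MulAction.stabilizer G x = ⨅ a ∈ x.1, MulAction.stabilizer G a := by
      ext g
      simp only [MulAction.mem_stabilizer_iff, Subgroup.mem_iInf]
      rw [Subtype.ext_iff, hsm]
      conv_lhs => rw [← List.map_id x.1, List.map_map, List.map_inj_left]
      simp
    rw [this]
    exact hst i x.1 x.2

end Crest.Agent.R185
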