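import Crest.Agent.R185.SVDef

/-!
# Row 185: bricks, grids and compactness
-/

set_option autoImplicit false

namespace Crest.Agent.R185

open Set Filter Topology

theorem pre_apply_lt (p : List Bool) (ξ : Cantor) {n : ℕ} (h : n < p.length) :
    pre p ξ n = p[n] := by
  induction p generalizing n with
  | nil => simp at h
  | cons b p ih =>
    cases n with
    | zero => simp
    | succ n => simp [ih (by simpa using h)]

theorem pre_apply_add (p : List Bool) (ξ : Cantor) (n : ℕ) : pre p ξ (n + p.length) = ξ n := by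
  induction p with
  | nil => simp
  | cons b p ih => rw [List.length_cons, ← add_assoc, pre_cons_succ, ih]

theorem mem_range_pre {p : List Bool} {ξ : Cantor} :
    ξ ∈ range (pre p) ↔ ∀ (i : ℕ) (h : i < p.length), ξ i = p[i] := by
  constructor
  · rintro ⟨η, rfl⟩ i h
    exact pre_apply_lt p η h
  · intro h
    refine ⟨fun n => ξ (n + p.length), funext fun n => ?_⟩
    by_cases hn : n < p.length
    · rw [pre_apply_lt p _ hn, h n hn]
    · obtain ⟨m, rfl⟩ : ∃ m, n = m + p.length := ⟨n - p.length, by omega⟩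
      rw [pre_apply_add]

theorem continuous_pre (p : List Bool) : Continuous (pre p) := by
  refine continuous_pi fun n => ?_
  by_cases hn : n < p.length
  · simp only [pre_apply_lt p _ hn]; exact continuous_const
  · obtain ⟨m, rfl⟩ : ∃ m, n = m + p.length := ⟨n - p.length, by omega⟩
    simp only [pre_apply_add]; exact continuous_apply m

variable {S : Type}

theorem Brick.mem_range {β : Brick S} {y : Cube S} :
    y ∈ range β.pre ↔ ∀ (s : S) (i : ℕ) (h : i < (β.p s).length), y s i = (β.p s)[i] := by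
  simp only [← mem_range_pre]
  constructor
  · rintro ⟨z, rfl⟩ s
    exact ⟨z s, rfl⟩
  · intro h
    choose z hz using h
    exact ⟨z, funext hz⟩

theorem Brick.continuous_pre (β : Brick S) : Continuous β.pre :=
  continuous_pi fun s => (R185.continuous_pre _).comp (continuous_apply s)

/-- The left inverse of `Brick.pre`. -/
def Brick.unpre (β : Brick S) (y : Cube S) : Cube S := fun s n => y s (n + (β.p s).length)

@[simp] theorem Brick.unpre_pre (β : Brick S) (y : Cube S) : β.unpre (β.pre y) = y := by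
  funext s n; exact pre_apply_add _ _ _

theorem Brick.continuous_unpre (β : Brick S) : Continuous β.unpre := by
  unfold Brick.unpre; fun_prop

theorem Brick.isClopen_range (β : Brick S) : IsClopen (range β.pre) := by
  have : range β.pre = ⋂ s ∈ {s | β.p s ≠ []}, ⋂ i : Fin (β.p s).length,
      {y : Cube S | y s i = (β.p s)[i]} := by
    ext y
    simp only [Brick.mem_range, mem_iInter, mem_ofPred_eq]
    constructor
    · intro h s _ i; exact h s i i.2
    · intro h s i hi
      exact h s (by rintro h0; simp [h0] at hi) ⟨i, hi⟩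
  rw [this]
  refine β.fin.isClopen_biInter fun s _ => isClopen_iInter_of_finite fun i => ?_
  exact (isClopen_discrete {(β.p s)[i]}).preimage (f := fun y : Cube S => y s i) (by fun_prop)

theorem Brick.range_append_subset (β γ : Brick S) : range (β.append γ).pre ⊆ range β.pre := by
  rintro _ ⟨y, rfl⟩
  exact ⟨_, (β.append_pre γ y).symm⟩

/-- The cell of the grid `(F, d)` containing `y`. -/
noncomputable def gridB (F : Finset S) (d : ℕ) (y : Cube S) : Brick S := by
  classical
  exact ⟨fun s => if s ∈ F then List.ofFn fun i : Fin d => y s i else [],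
    F.finite_toSet.subset fun s hs => by
      by_contra h
      exact hs (if_neg h)⟩

theorem gridB_length {F : Finset S} (d : ℕ) (y : Cube S) {s : S} (hs : s ∈ F) :
    ((gridB F d y).p s).length = d := by
  simp [gridB, hs]

theorem gridB_of_notMem {F : Finset S} (d : ℕ) (y : Cube S) {s : S} (hs : s ∉ F) :
    (gridB F d y).p s = [] := by
  simp [gridB, hs]

theorem mem_gridB {F : Finset S} {d : ℕ} {y z : Cube S} :
    z ∈ range (gridB F d y).pre ↔ ∀ s ∈ F, ∀ i < d, z s i = y s i := by
  rw [Brick.mem_range]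
  refine forall_congr' fun s => ?_
  by_cases hs : s ∈ F
  · simp [gridB, hs]
  · simp [gridB, hs]

theorem self_mem_gridB (F : Finset S) (d : ℕ) (y : Cube S) : y ∈ range (gridB F d y).pre :=
  mem_gridB.2 fun _ _ _ _ => rfl

theorem gridB_eq {F : Finset S} {d : ℕ} {y z : Cube S} (h : z ∈ range (gridB F d y).pre) :
    gridB F d z = gridB F d y := by
  rw [mem_gridB] at h
  ext1; funext s
  by_cases hs : s ∈ F
  · simp only [gridB, if_pos hs]
    congr 1; funext i; exact h s hs i i.2
  · rw [gridB_of_notMem _ _ hs, gridB_of_notMem _ _ hs]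

theorem finite_range_gridB (F : Finset S) (d : ℕ) : (range (gridB F d)).Finite := by
  classical
  let e : (F → Fin d → Bool) → Cube S := fun a s n =>
    if h : s ∈ F ∧ n < d then a ⟨s, h.1⟩ ⟨n, h.2⟩ else false
  refine (finite_range fun a => gridB F d (e a)).subset ?_
  rintro _ ⟨y, rfl⟩
  refine ⟨fun s i => y s i, gridB_eq (mem_gridB.2 fun s hs i hi => ?_)⟩
  simp [e, hs, hi]

theorem exists_gridB_subset {U : Set (Cube S)} {y : Cube S} (hU : U ∈ 𝓝 y) :
    ∃ F d, range (gridB F d y).pre ⊆ U := by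
  rw [nhds_pi, Filter.mem_pi'] at hU
  obtain ⟨F, t, ht, hF⟩ := hU
  have : ∀ s, ∃ d, ∀ ξ : Cantor, (∀ i < d, ξ i = y s i) → ξ ∈ t s := by
    intro s
    have h := ht s
    rw [nhds_pi, Filter.mem_pi'] at h
    obtain ⟨I, u, hu, hI⟩ := h
    refine ⟨I.sup id + 1, fun ξ hξ => hI fun i hi => ?_⟩
    rw [hξ i (Nat.lt_succ_of_le (Finset.le_sup (f := id) hi))]
    exact mem_of_mem_nhds (hu i)
  choose d hd using this
  refine ⟨F, F.sup d, fun z hz => hF fun s hs => hd s _ fun i hi => ?_⟩
  exact mem_gridB.1 hz s hs i (hi.trans_le (Finset.le_sup hs))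

theorem exists_append_subset {U : Set (Cube S)} (hU : IsOpen U) {y : Cube S} (hy : y ∈ U)
    {β : Brick S} (hβ : y ∈ range β.pre) :
    ∃ γ : Brick S, y ∈ range (β.append γ).pre ∧ range (β.append γ).pre ⊆ U := by
  obtain ⟨z, rfl⟩ := hβ
  obtain ⟨F, d, h⟩ := exists_gridB_subset ((hU.preimage β.continuous_pre).mem_nhds hy)
  obtain ⟨x, hx⟩ := self_mem_gridB F d z
  refine ⟨gridB F d z, ⟨x, by rw [Brick.append_pre, hx]⟩, ?_⟩
  rintro _ ⟨w, rfl⟩
  rw [Brick.append_pre]
  exact h ⟨w, rfl⟩

theorem Brick.exists_append_of_length {β γ : Brick S} {y : Cube S} (h : β.pre y ∈ range γ.pre)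
    (hl : ∀ s, (γ.p s).length ≤ (β.p s).length) : ∃ δ, β = γ.append δ := by
  obtain ⟨z, hz⟩ := h
  obtain ⟨γ', β', x, e, -, -⟩ := Brick.pre_eq_pre hz
  refine ⟨⟨fun s => (β.p s).drop (γ.p s).length, β.fin.subset fun s hs h0 => hs (by simp [h0])⟩,
    Brick.ext (funext fun s => ?_)⟩
  have e1 : γ.p s ++ γ'.p s = β.p s ++ β'.p s := congrFun (congrArg Brick.p e) s
  have : γ.p s <+: β.p s :=
    List.prefix_of_prefix_length_le ⟨_, e1⟩ (List.prefix_append _ _) (hl s)
  exact (List.prefix_iff_eq_append.1 this).symm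

theorem exists_finite_cover {U : Set (Cube S)} (hU : IsClosed U) (f : Cube S → Brick S)
    (hf : ∀ y ∈ U, y ∈ range (f y).pre) :
    ∃ T : Finset (Cube S), (∀ t ∈ T, t ∈ U) ∧ ∀ y ∈ U, ∃ t ∈ T, y ∈ range (f t).pre := by
  obtain ⟨T, h1, h2⟩ := hU.isCompact.elim_nhds_subcover (fun y => range (f y).pre)
    fun y hy => (f y).isClopen_range.isOpen.mem_nhds (hf y hy)
  exact ⟨T, h1, fun y hy => by simpa using h2 hy⟩

/-- A hereditary property of bricks which holds near every point holds for all deep bricks. -/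
theorem exists_grid_of_hered {P : Brick S → Prop} (hP : ∀ β γ, P β → P (β.append γ))
    (h : ∀ y, ∃ β, y ∈ range β.pre ∧ P β) :
    ∃ (F : Finset S) (d : ℕ), ∀ β : Brick S, (∀ s ∈ F, d ≤ (β.p s).length) → P β := by
  classical
  choose f hf hPf using h
  obtain ⟨T, -, hT⟩ := exists_finite_cover isClosed_univ f fun y _ => hf y
  let F : Finset S := T.biUnion fun t => (f t).fin.toFinset
  refine ⟨F, T.sup fun t => F.sup fun s => ((f t).p s).length, fun β hβ => ?_⟩
  obtain ⟨t, ht, hy⟩ := hT (β.pre fun _ _ => false) (mem_univ _)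
  obtain ⟨δ, rfl⟩ := Brick.exists_append_of_length hy fun s => by
    by_cases h0 : (f t).p s = []
    · simp [h0]
    · have hs : s ∈ F := Finset.mem_biUnion.2 ⟨t, ht, by simpa using h0⟩
      refine le_trans ?_ (hβ s hs)
      exact le_trans (Finset.le_sup (f := fun s => ((f t).p s).length) hs)
        (Finset.le_sup (f := fun t => F.sup fun s => ((f t).p s).length) ht)
  exact hP _ _ (hPf t)

theorem exists_grid_clopen {U : Set (Cube S)} (hU : IsClopen U) :
    ∃ (F : Finset S) (d : ℕ), ∀ β : Brick S, (∀ s ∈ F, d ≤ (β.p s).length) →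
      range β.pre ⊆ U ∨ range β.pre ⊆ Uᶜ := by
  refine exists_grid_of_hered (fun β γ h => h.imp (β.range_append_subset γ).trans
    (β.range_append_subset γ).trans) fun y => ?_
  by_cases hy : y ∈ U
  · obtain ⟨F, d, h⟩ := exists_gridB_subset (hU.isOpen.mem_nhds hy)
    exact ⟨_, self_mem_gridB F d y, Or.inl h⟩
  · obtain ⟨F, d, h⟩ := exists_gridB_subset (hU.compl.isOpen.mem_nhds hy)
    exact ⟨_, self_mem_gridB F d y, Or.inr h⟩

/-- Induction over clopen sets, adding one deep brick at a time. -/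
theorem clopen_induction (F₀ : Finset S) (d₀ : ℕ) {P : Set (Cube S) → Prop} (h0 : P ∅)
    (h1 : ∀ (β : Brick S) (U : Set (Cube S)), (∀ s ∈ F₀, d₀ ≤ (β.p s).length) → IsClopen U →
      Disjoint (range β.pre) U → P U → P (range β.pre ∪ U))
    {U : Set (Cube S)} (hU : IsClopen U) : P U := by
  classical
  obtain ⟨F₁, d₁, hF⟩ := exists_grid_clopen hU
  have key : ∀ T : Set (Brick S), T.Finite → T ⊆ range (gridB (F₀ ∪ F₁) (max d₀ d₁)) →
      P (⋃ β ∈ T, range β.pre) := by
    intro T hT
    induction T, hT using Set.Finite.induction_on with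
    | empty => intro _; simpa using h0
    | @insert β T hβ hT ih =>
      intro hsub
      rw [biUnion_insert]
      obtain ⟨y, rfl⟩ := hsub (mem_insert _ _)
      refine h1 _ _ (fun s hs => ?_) (hT.isClopen_biUnion fun β _ => β.isClopen_range) ?_
        (ih ((subset_insert _ _).trans hsub))
      · rw [gridB_length _ _ (Finset.mem_union_left _ hs)]; exact le_max_left _ _
      · rw [Set.disjoint_left]
        intro z hz hz'
        obtain ⟨γ, hγ, hzγ⟩ := mem_iUnion₂.1 hz'
        obtain ⟨w, rfl⟩ := hsub (mem_insert_of_mem _ hγ)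
        rw [← gridB_eq hz, gridB_eq hzγ] at hβ
        exact hβ hγ
  have e : U = ⋃ β ∈ gridB (F₀ ∪ F₁) (max d₀ d₁) '' U, range β.pre := by
    refine Subset.antisymm (fun y hy => mem_biUnion (mem_image_of_mem _ hy)
      (self_mem_gridB _ _ y)) (iUnion₂_subset ?_)
    rintro _ ⟨y, hy, rfl⟩
    refine (hF _ fun s hs => ?_).resolve_right fun h => h (self_mem_gridB _ _ y) hy
    rw [gridB_length _ _ (Finset.mem_union_right _ hs)]; exact le_max_right _ _
  rw [e]
  exact key _ ((finite_range_gridB _ _).subset (image_subset_range _ _)) (image_subset_range _ _)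

/-- The half cube with first bit `b` in the coordinate `s`. -/
noncomputable def halfB (s : S) (b : Bool) : Brick S := by
  classical
  exact ⟨fun t => if t = s then [b] else [], (finite_singleton s).subset fun t ht => by
    by_contra h
    exact ht (if_neg h)⟩

theorem halfB_self (s : S) (b : Bool) : (halfB s b).p s = [b] := by simp [halfB]

theorem halfB_ne {s t : S} (h : t ≠ s) (b : Bool) : (halfB s b).p t = [] := by simp [halfB, h]

theorem mem_halfB {s : S} {b : Bool} {y : Cube S} : y ∈ range (halfB s b).pre ↔ y s 0 = b := by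
  rw [Brick.mem_range]
  constructor
  · intro h
    simpa [halfB_self] using h s 0 (by simp [halfB_self])
  · intro h t i hi
    by_cases ht : t = s
    · subst ht
      have : i = 0 := by simpa [halfB_self] using hi
      subst this
      simpa [halfB_self] using h
    · simp [halfB_ne ht] at hi

/-! ### Untwisted local equivalences -/

/-- `σ` is locally a prefix replacement at the points of `U`. -/
def LocU (U : Set (Cube S)) (σ : Cube S → Cube S) : Prop :=
  ∀ y ∈ U, ∃ β β' : Brick S, y ∈ range β.pre ∧ ∀ x, σ (β.pre x) = β'.pre x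

theorem LocU.exists_subset {U V : Set (Cube S)} {σ : Cube S → Cube S} (h : LocU U σ)
    (hV : IsOpen V) {y : Cube S} (hy : y ∈ U) (hy' : y ∈ V) :
    ∃ β β' : Brick S, y ∈ range β.pre ∧ range β.pre ⊆ V ∧ ∀ x, σ (β.pre x) = β'.pre x := by
  obtain ⟨β, β', h1, h2⟩ := h y hy
  obtain ⟨γ, h3, h4⟩ := exists_append_subset hV hy' h1
  exact ⟨_, β'.append γ, h3, h4, fun x => by rw [Brick.append_pre, h2, Brick.append_pre]⟩

/-- Equivalence of subsets of the cube by prefix replacements. -/
def UEq (U V : Set (Cube S)) : Prop := ∃ σ, BijOn σ U V ∧ LocU U σ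

theorem UEq.trans {U V W : Set (Cube S)} (h : UEq U V) (h' : UEq V W) : UEq U W := by
  obtain ⟨σ, hσ, hl⟩ := h
  obtain ⟨τ, hτ, hl'⟩ := h'
  refine ⟨τ ∘ σ, hτ.comp hσ, fun y hy => ?_⟩
  obtain ⟨β, β', ⟨y₀, rfl⟩, h1⟩ := hl y hy
  obtain ⟨γ, γ', ⟨z, hz⟩, h2⟩ := hl' _ (hσ.mapsTo hy)
  rw [h1] at hz
  obtain ⟨γ₁, β₁, x, e1, e2, e3⟩ := Brick.pre_eq_pre hz
  refine ⟨β.append β₁, γ'.append γ₁, ⟨x, by rw [Brick.append_pre, e3]⟩, fun w => ?_⟩
  rw [Function.comp_apply, Brick.append_pre, h1, ← Brick.append_pre, ← e1, Brick.append_pre, h2,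
    Brick.append_pre]

theorem UEq.symm {U V : Set (Cube S)} (h : UEq U V) (hU : IsOpen U) : UEq V U := by
  obtain ⟨σ, hσ, hl⟩ := h
  refine ⟨Function.invFunOn σ U, hσ.invOn_invFunOn.symm.bijOn hσ.surjOn.mapsTo_invFunOn
    hσ.mapsTo, fun z hz => ?_⟩
  obtain ⟨y, hy, rfl⟩ := hσ.surjOn hz
  obtain ⟨β, β', ⟨x, rfl⟩, h1, h2⟩ := hl.exists_subset hU hy hy
  refine ⟨β', β, ⟨x, (h2 x).symm⟩, fun w => ?_⟩
  rw [← h2]
  exact hσ.injOn.leftInvOn_invFunOn (h1 ⟨w, rfl⟩)

theorem UEq.union {U V U' V' : Set (Cube S)} (h : UEq U V) (h' : UEq U' V') (hU : IsOpen U)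
    (hU' : IsOpen U') (hd : Disjoint U U') (hd' : Disjoint V V') : UEq (U ∪ U') (V ∪ V') := by
  classical
  obtain ⟨σ, hσ, hl⟩ := h
  obtain ⟨τ, hτ, hl'⟩ := h'
  have e1 : EqOn σ (U.piecewise σ τ) U := (piecewise_eqOn U σ τ).symm
  have e2 : EqOn τ (U.piecewise σ τ) U' := fun y hy =>
    (piecewise_eq_of_notMem U σ τ (hd.notMem_of_mem_right hy)).symm
  refine ⟨U.piecewise σ τ, (hσ.congr e1).union (hτ.congr e2) ?_, fun y hy => ?_⟩
  · refine (injOn_union hd).2 ⟨hσ.injOn.congr e1, hτ.injOn.congr e2, fun x hx y hy h => ?_⟩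
    rw [← e1 hx, ← e2 hy] at h
    exact hd'.notMem_of_mem_left (hσ.mapsTo hx) (h ▸ hτ.mapsTo hy)
  · rcases hy with hy | hy
    · obtain ⟨β, β', h1, h2, h3⟩ := hl.exists_subset hU hy hy
      exact ⟨β, β', h1, fun x => by rw [← e1 (h2 ⟨x, rfl⟩), h3]⟩
    · obtain ⟨β, β', h1, h2, h3⟩ := hl'.exists_subset hU' hy hy
      exact ⟨β, β', h1, fun x => by rw [← e2 (h2 ⟨x, rfl⟩), h3]⟩

theorem uEq_univ_brick (β : Brick S) : UEq univ (range β.pre) :=
  ⟨β.pre, by rw [← image_univ]; exact β.pre_injective.injOn.bijOn_image,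
    fun y _ => ⟨Brick.nil S, β, ⟨y, rfl⟩, fun _ => rfl⟩⟩

theorem uEq_univ [Nonempty S] {U : Set (Cube S)} (hU : IsClopen U) (hne : U.Nonempty) :
    UEq U univ := by
  obtain ⟨s⟩ := ‹Nonempty S›
  refine clopen_induction ∅ 0 (P := fun U => U.Nonempty → UEq U univ) (by simp)
    (fun β U _ hU hd ih _ => ?_) hU hne
  have h1 := (uEq_univ_brick β).symm isOpen_univ
  rcases U.eq_empty_or_nonempty with rfl | hne
  · simpa using h1
  · have := (h1.trans (uEq_univ_brick (halfB s false))).union
      ((ih hne).trans (uEq_univ_brick (halfB s true))) β.isClopen_range.isOpen hU.isOpen hd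
      (by rw [Set.disjoint_left]; intro y h1 h2; rw [mem_halfB] at h1 h2; simp [h1] at h2)
    convert this
    refine (eq_univ_of_forall fun y => ?_).symm
    simp only [mem_union, mem_halfB]
    cases y s 0 <;> simp

end Crest.Agent.R185
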