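import Crest.Agent.R185.SVAux

/-!
# Row 185: basic tools for twisted Brin–Thompson groups
-/

set_option autoImplicit false

namespace Crest.Agent.R185

variable {G S : Type} [Group G] [MulAction G S]

theorem Brick.isClopen (β : Brick S) : IsClopen (Set.range β.pre) :=
  β.isClopen_range

theorem exists_brick_subset {U : Set (Cube S)} (hU : IsOpen U) {y : Cube S} (hy : y ∈ U) :
    ∃ β : Brick S, y ∈ Set.range β.pre ∧ Set.range β.pre ⊆ U := by
  obtain ⟨F, d, h⟩ := exists_gridB_subset (hU.mem_nhds hy)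
  exact ⟨_, self_mem_gridB F d y, h⟩

/-- `σ` is locally standard at the points of `U`. -/
def LocStdOn (U : Set (Cube S)) (σ : Cube S × G → Cube S × G) : Prop :=
  ∀ y ∈ U, ∃ (β β' : Brick S) (g : G), y ∈ Set.range β.pre ∧ StdOn σ β β' g

theorem LocStdOn.exists_subset {U V : Set (Cube S)} {σ : Cube S × G → Cube S × G}
    (h : LocStdOn U σ) (hV : IsOpen V) {y : Cube S} (hy : y ∈ U) (hy' : y ∈ V) :
    ∃ (β β' : Brick S) (g : G), y ∈ Set.range β.pre ∧ Set.range β.pre ⊆ V ∧ StdOn σ β β' g := by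
  obtain ⟨β, β', g, h1, h2⟩ := h y hy
  obtain ⟨γ, h3, h4⟩ := exists_append_subset hV hy' h1
  exact ⟨_, _, g, h3, h4, h2.refine γ⟩

/-- Compactness: a locally standard map is standard on all sufficiently deep bricks. -/
theorem LocStd.exists_grid {σ : Cube S × G → Cube S × G} (hσ : LocStd σ) :
    ∃ (F : Finset S) (d : ℕ), ∀ β : Brick S, (∀ s ∈ F, d ≤ (β.p s).length) →
      ∃ (β' : Brick S) (g : G), StdOn σ β β' g :=
  exists_grid_of_hered (P := fun β => ∃ (β' : Brick S) (g : G), StdOn σ β β' g)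
    (fun _ γ ⟨_, g, h⟩ => ⟨_, g, h.refine γ⟩)
    fun y => let ⟨β, β', g, h1, h2⟩ := hσ y; ⟨β, h1, β', g, h2⟩

/-- Compactness: a clopen set is a union of bricks of any sufficiently fine grid. -/
theorem exists_grid_of_isClopen {U : Set (Cube S)} (hU : IsClopen U) :
    ∃ (F : Finset S) (d : ℕ), ∀ β : Brick S, (∀ s ∈ F, d ≤ (β.p s).length) →
      Set.range β.pre ⊆ U ∨ Set.range β.pre ⊆ Uᶜ :=
  exists_grid_clopen hU

/-- The image of a clopen set under an injective locally standard map is clopen. -/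
theorem LocStdOn.isClopen_image {U : Set (Cube S)} (hU : IsClopen U)
    {σ : Cube S × G → Cube S × G} (hσ : LocStdOn U σ) :
    ∃ U' : Set (Cube S), IsClopen U' ∧ σ '' (U ×ˢ Set.univ) = U' ×ˢ Set.univ := by
  have h : ∀ y, ∃ (β β' : Brick S) (g : G), y ∈ U →
      y ∈ Set.range β.pre ∧ Set.range β.pre ⊆ U ∧ StdOn σ β β' g := by
    intro y
    by_cases hy : y ∈ U
    · obtain ⟨β, β', g, h⟩ := hσ.exists_subset hU.isOpen hy hy
      exact ⟨β, β', g, fun _ => h⟩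
    · exact ⟨Brick.nil S, Brick.nil S, 1, fun h => absurd h hy⟩
  choose f f' g hf using h
  obtain ⟨T, hTU, hT⟩ := exists_finite_cover hU.isClosed f fun y hy => (hf y hy).1
  refine ⟨⋃ t ∈ T, Set.range (f' t).pre,
    T.finite_toSet.isClopen_biUnion fun t _ => (f' t).isClopen, Set.Subset.antisymm ?_ ?_⟩
  · rintro _ ⟨⟨y, h⟩, ⟨hy, -⟩, rfl⟩
    obtain ⟨t, ht, z, rfl⟩ := hT y hy
    rw [(hf t (hTU t ht)).2.2]
    exact ⟨Set.mem_biUnion ht ⟨_, rfl⟩, trivial⟩
  · rintro ⟨z, h⟩ ⟨hz, -⟩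
    obtain ⟨t, ht, x, rfl⟩ := Set.mem_iUnion₂.1 hz
    obtain ⟨-, h2, h3⟩ := hf t (hTU t ht)
    refine ⟨((f t).pre (tw (g t)⁻¹ x), (g t)⁻¹ * h), ⟨h2 ⟨_, rfl⟩, trivial⟩, ?_⟩
    rw [h3, ← tw_mul]; simp

variable (G) in
/-- Any two nonempty clopen sets are related by an untwisted locally standard bijection. -/
theorem exists_untw_bij [Nonempty S] {U U' : Set (Cube S)} (hU : IsClopen U) (hU' : IsClopen U')
    (hne : U.Nonempty) (hne' : U'.Nonempty) :
    ∃ σ : Cube S → Cube S, Set.BijOn σ U U' ∧ LocStdOn U (Prod.map σ (id : G → G)) := by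
  obtain ⟨σ, h1, h2⟩ := (uEq_univ hU hne).trans ((uEq_univ hU' hne').symm hU'.isOpen)
  refine ⟨σ, h1, fun y hy => ?_⟩
  obtain ⟨β, β', h3, h4⟩ := h2 y hy
  exact ⟨β, β', 1, h3, fun x h => by simp [h4]⟩

/-- Gluing locally standard bijections along clopen partitions. -/
theorem exists_glue {ι : Type} (U U' : ι → Set (Cube S)) (hU : ∀ i, IsClopen (U i))
    (hcov : ∀ y, ∃! i, y ∈ U i) (hcov' : ∀ y, ∃! i, y ∈ U' i)
    (σ : ι → Cube S × G → Cube S × G) (hσ : ∀ i, LocStdOn (U i) (σ i))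
    (hb : ∀ i, Set.BijOn (σ i) (U i ×ˢ Set.univ) (U' i ×ˢ Set.univ)) :
    ∃ τ : SV G S, ∀ i, ∀ x ∈ U i ×ˢ (Set.univ : Set G),
      (τ : Equiv.Perm (Cube S × G)) x = σ i x := by
  choose idx hidx huniq using hcov
  let τ : Cube S × G → Cube S × G := fun x => σ (idx x.1) x
  have hτ : ∀ i, ∀ x ∈ U i ×ˢ (Set.univ : Set G), τ x = σ i x := fun i x hx => by
    simp only [τ, ← huniq x.1 i hx.1]
  have hmem : ∀ x : Cube S × G, x ∈ U (idx x.1) ×ˢ (Set.univ : Set G) := fun x =>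
    ⟨hidx x.1, trivial⟩
  have hbij : Function.Bijective τ := by
    constructor
    · intro x x' h
      have h1 := ((hb _).mapsTo (hmem x)).1
      have h2 := ((hb _).mapsTo (hmem x')).1
      change (τ x).1 ∈ _ at h1
      change (τ x').1 ∈ _ at h2
      rw [← h] at h2
      have e : idx x.1 = idx x'.1 := (hcov' _).unique h1 h2
      refine (hb (idx x.1)).injOn (hmem x) (e ▸ hmem x') ?_
      rw [← hτ _ _ (hmem x), ← hτ _ _ (e ▸ hmem x'), h]
    · intro z
      obtain ⟨i, hi, -⟩ := hcov' z.1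
      obtain ⟨x, hx, e⟩ := (hb i).surjOn (show z ∈ U' i ×ˢ Set.univ from ⟨hi, trivial⟩)
      exact ⟨x, by rw [hτ i x hx, e]⟩
  refine ⟨⟨Equiv.ofBijective τ hbij, fun y => ?_⟩, hτ⟩
  obtain ⟨β, β', g, h1, h2, h3⟩ := (hσ _).exists_subset (hU _).isOpen (hidx y) (hidx y)
  refine ⟨β, β', g, h1, fun w h => ?_⟩
  rw [← h3]
  exact hτ _ _ ⟨h2 ⟨w, rfl⟩, trivial⟩

/-- Extension lemma. -/
theorem exists_extend [Nonempty S] {U : Set (Cube S)} (hU : IsClopen U) (hne : U ≠ Set.univ)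
    {σ : Cube S × G → Cube S × G} (hσ : LocStdOn U σ) (hi : Set.InjOn σ (U ×ˢ Set.univ))
    (hne' : σ '' (U ×ˢ Set.univ) ≠ Set.univ) :
    ∃ τ : SV G S, ∀ x ∈ U ×ˢ (Set.univ : Set G), (τ : Equiv.Perm (Cube S × G)) x = σ x := by
  obtain ⟨U', hU', e⟩ := hσ.isClopen_image hU
  have hne'' : U' ≠ Set.univ := by
    rintro rfl
    exact hne' (by rw [e, Set.univ_prod_univ])
  obtain ⟨ρ, hρ, hl⟩ := exists_untw_bij G hU.compl hU'.compl (Set.nonempty_compl.2 hne)
    (Set.nonempty_compl.2 hne'')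
  have hcov : ∀ (V : Set (Cube S)) y, ∃! b : Bool, y ∈ cond b V Vᶜ := by
    intro V y
    by_cases hy : y ∈ V
    · exact ⟨true, hy, fun b hb => by cases b <;> simp_all⟩
    · exact ⟨false, hy, fun b hb => by cases b <;> simp_all⟩
  obtain ⟨τ, hτ⟩ := exists_glue (fun b : Bool => cond b U Uᶜ) (fun b : Bool => cond b U' U'ᶜ)
    (fun b => by cases b; exacts [hU.compl, hU]) (hcov U) (hcov U')
    (fun b => cond b σ (Prod.map ρ id)) (fun b => by cases b; exacts [hl, hσ])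
    (fun b => by
      cases b
      · exact hρ.prodMap (Set.bijOn_id _)
      · exact e ▸ hi.bijOn_image)
  exact ⟨τ, hτ true⟩

end Crest.Agent.R185
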