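import Mathlib

/-!
# Row 185: abstract twisted Brin–Thompson groups, definitions

For a group `G` acting on a set `S`, `SV G S` is the group of permutations of
`Cube S × G` (`Cube S = S → ℕ → Bool`) which are locally of the form
`(p·y, h) ↦ (p'·(g·y), g h)` for bricks (finitely supported families of prefixes) `p`, `p'`.
-/

set_option autoImplicit false

namespace Crest.Agent.R185

abbrev Cantor : Type := ℕ → Bool

/-- Concatenation of a finite prefix and an infinite word. -/
def pre : List Bool → Cantor → Cantor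
  | [], ξ => ξ
  | b :: p, ξ => fun n => Nat.casesOn n b (pre p ξ)

theorem pre_anchor : type_of% @pre.eq_def := @pre.eq_def
@[simp] theorem pre_nil (ξ : Cantor) : pre [] ξ = ξ := rfl
@[simp] theorem pre_cons_zero (b : Bool) (p : List Bool) (ξ : Cantor) : pre (b :: p) ξ 0 = b := rfl
@[simp] theorem pre_cons_succ (b : Bool) (p : List Bool) (ξ : Cantor) (n : ℕ) :
    pre (b :: p) ξ (n + 1) = pre p ξ n := rfl

theorem pre_append (p q : List Bool) (ξ : Cantor) : pre (p ++ q) ξ = pre p (pre q ξ) := by
  induction p with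
  | nil => rfl
  | cons b p ih => funext n; cases n <;> simp [ih]

theorem pre_injective (p : List Bool) : Function.Injective (pre p) := by
  induction p with
  | nil => exact fun _ _ h => h
  | cons b p ih =>
    intro ξ η h
    apply ih
    funext n
    simpa using congrFun h (n + 1)

/-- Two prefixes of the same infinite word are comparable: a common refinement. -/
theorem pre_eq_pre {p q : List Bool} {ξ η : Cantor} (h : pre p ξ = pre q η) :
    ∃ (p' q' : List Bool) (ζ : Cantor), p ++ p' = q ++ q' ∧ ξ = pre p' ζ ∧ η = pre q' ζ ∧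
      (p' = [] ∨ q' = []) := by
  induction p generalizing q with
  | nil => exact ⟨q, [], η, by simp, h, rfl, Or.inr rfl⟩
  | cons b p ih =>
    cases q with
    | nil => exact ⟨[], b :: p, ξ, by simp, rfl, h.symm, Or.inl rfl⟩
    | cons c q =>
      have hb : b = c := by simpa using congrFun h 0
      have ht : pre p ξ = pre q η := by
        funext n
        simpa using congrFun h (n + 1)
      obtain ⟨p', q', ζ, h1, h2, h3, h4⟩ := ih ht
      exact ⟨p', q', ζ, by simp [hb, h1], h2, h3, h4⟩

abbrev Cube (S : Type) : Type := S → Cantor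

/-- A brick: a finitely supported family of prefixes. -/
@[ext] structure Brick (S : Type) where
  p : S → List Bool
  fin : {s | p s ≠ []}.Finite

/-- The canonical parametrisation of a brick. -/
def Brick.pre {S : Type} (β : Brick S) (y : Cube S) : Cube S := fun s => R185.pre (β.p s) (y s)

theorem Brick.pre_injective {S : Type} (β : Brick S) : Function.Injective β.pre := by
  intro y y' h
  funext s
  exact R185.pre_injective _ (congrFun h s)

/-- The whole cube. -/
def Brick.nil (S : Type) : Brick S := ⟨fun _ => [], by simp⟩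

@[simp] theorem Brick.nil_pre {S : Type} (y : Cube S) : (Brick.nil S).pre y = y := rfl

/-- Concatenation of bricks. -/
def Brick.append {S : Type} (β γ : Brick S) : Brick S :=
  ⟨fun s => β.p s ++ γ.p s, (β.fin.union γ.fin).subset fun s hs => by
    by_contra hn
    simp only [Set.mem_union, Set.mem_ofPred_eq, not_or, not_not] at hn
    exact hs (by simp [hn.1, hn.2])⟩

theorem Brick.append_pre {S : Type} (β γ : Brick S) (y : Cube S) :
    (β.append γ).pre y = β.pre (γ.pre y) := by
  funext s
  exact pre_append _ _ _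

theorem Brick.pre_eq_pre {S : Type} {β γ : Brick S} {y z : Cube S} (h : β.pre y = γ.pre z) :
    ∃ (β' γ' : Brick S) (x : Cube S), β.append β' = γ.append γ' ∧ y = β'.pre x ∧ z = γ'.pre x := by
  choose p' q' ζ h1 h2 h3 h4 using fun s => R185.pre_eq_pre (congrFun h s)
  have hp : {s | p' s ≠ []}.Finite := by
    refine γ.fin.subset fun s hs => ?_
    intro hγ
    have hq : q' s = [] := (h4 s).resolve_left hs
    have := h1 s
    rw [hγ, hq] at this
    exact hs (List.append_eq_nil_iff.1 this).2
  have hq : {s | q' s ≠ []}.Finite := by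
    refine β.fin.subset fun s hs => ?_
    intro hβ
    have hp' : p' s = [] := (h4 s).resolve_right hs
    have := (h1 s).symm
    rw [hβ, hp'] at this
    exact hs (List.append_eq_nil_iff.1 this).2
  exact ⟨⟨p', hp⟩, ⟨q', hq⟩, ζ, Brick.ext (funext h1), funext h2, funext h3⟩

section
variable {G S : Type} [Group G] [MulAction G S]

/-- `g` permutes the coordinates of the cube. -/
def tw (g : G) (y : Cube S) : Cube S := fun s => y (g⁻¹ • s)

@[simp] theorem tw_one (y : Cube S) : tw (1 : G) y = y := by
  funext s; simp [tw]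

theorem tw_mul (g g' : G) (y : Cube S) : tw (g * g') y = tw g (tw g' y) := by
  funext s; simp [tw, mul_smul]

/-- `g` permutes bricks. -/
def Brick.tw (g : G) (β : Brick S) : Brick S :=
  ⟨fun s => β.p (g⁻¹ • s), (β.fin.image fun s => g • s).subset fun s hs =>
    ⟨g⁻¹ • s, hs, by simp⟩⟩

theorem tw_pre (g : G) (β : Brick S) (y : Cube S) :
    tw g (β.pre y) = (β.tw g).pre (tw g y) := rfl

theorem Brick.tw_tw_inv (g : G) (β : Brick S) : (β.tw g⁻¹).tw g = β := by
  ext1; funext s; simp [Brick.tw]

/-- `σ` is the standard map with label `g` from the brick `β` onto the brick `β'`. -/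
def StdOn (σ : Cube S × G → Cube S × G) (β β' : Brick S) (g : G) : Prop :=
  ∀ y h, σ (β.pre y, h) = (β'.pre (tw g y), g * h)

theorem StdOn.refine {σ : Cube S × G → Cube S × G} {β β' : Brick S} {g : G}
    (h : StdOn σ β β' g) (γ : Brick S) : StdOn σ (β.append γ) (β'.append (γ.tw g)) g := by
  intro y k
  rw [Brick.append_pre, h, Brick.append_pre, tw_pre]

/-- `σ` is locally standard. -/
def LocStd (σ : Cube S × G → Cube S × G) : Prop :=
  ∀ y : Cube S, ∃ (β β' : Brick S) (g : G), y ∈ Set.range β.pre ∧ StdOn σ β β' g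

theorem locStd_id : LocStd (id : Cube S × G → Cube S × G) := fun y =>
  ⟨Brick.nil S, Brick.nil S, 1, ⟨y, rfl⟩, fun _ _ => by simp⟩

theorem LocStd.comp {σ τ : Cube S × G → Cube S × G} (hσ : LocStd σ) (hτ : LocStd τ) :
    LocStd (σ ∘ τ) := by
  intro y
  obtain ⟨β, β', g, ⟨y₀, rfl⟩, h1⟩ := hτ y
  obtain ⟨γ, γ', g', ⟨z, hz⟩, h2⟩ := hσ (β'.pre (tw g y₀))
  obtain ⟨γ₁, β₁, x, e1, e2, e3⟩ := Brick.pre_eq_pre hz
  refine ⟨β.append (β₁.tw g⁻¹), γ'.append (γ₁.tw g'), g' * g, ⟨tw g⁻¹ x, ?_⟩, ?_⟩
  · rw [Brick.append_pre, ← tw_pre, ← e3, ← tw_mul]; simp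
  · intro w k
    have a1 := h1.refine (β₁.tw g⁻¹) w k
    rw [Brick.tw_tw_inv, ← e1] at a1
    have a2 := h2.refine γ₁ (tw g w) (g * k)
    simp only [Function.comp_apply, a1, a2, tw_mul, mul_assoc]

variable (G S) in
/-- The (abstract) twisted Brin–Thompson group. -/
def SV : Subgroup (Equiv.Perm (Cube S × G)) where
  carrier := {σ | LocStd (σ : Cube S × G → Cube S × G)}
  one_mem' := locStd_id
  mul_mem' := fun ha hb => ha.comp hb
  inv_mem' := by
    intro σ hσ y
    obtain ⟨⟨y₀, h₀⟩, e⟩ := σ.surjective (y, 1)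
    obtain ⟨β, β', g, ⟨y₁, rfl⟩, h⟩ := hσ y₀
    refine ⟨β', β, g⁻¹, ⟨tw g y₁, ?_⟩, fun w k => ?_⟩
    · have := h y₁ h₀
      rw [e] at this
      exact (congrArg Prod.fst this).symm
    · rw [Equiv.Perm.inv_eq_iff_eq, h, ← tw_mul]; simp

theorem mem_SV {σ : Equiv.Perm (Cube S × G)} :
    σ ∈ SV G S ↔ LocStd (σ : Cube S × G → Cube S × G) := Iff.rfl

/-- The global twist by `g`. -/
def twPerm (g : G) : Equiv.Perm (Cube S × G) where
  toFun x := (tw g x.1, g * x.2)
  invFun x := (tw g⁻¹ x.1, g⁻¹ * x.2)
  left_inv x := by simp [← tw_mul]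
  right_inv x := by simp [← tw_mul]

variable (G S) in
/-- `G` as a subgroup of `SV G S`. -/
def SV.incl : G →* SV G S where
  toFun g := ⟨twPerm g, fun y => ⟨Brick.nil S, Brick.nil S, g, ⟨y, rfl⟩, fun _ _ => rfl⟩⟩
  map_one' := by
    ext1; ext1 x; simp [twPerm]
  map_mul' g g' := by
    ext1; ext1 x; simp [twPerm, tw_mul, mul_assoc]

theorem SV.incl_injective : Function.Injective (SV.incl G S) := by
  rw [injective_iff_map_eq_one]
  intro g hg
  have := congrArg (fun σ : SV G S => ((σ : Equiv.Perm (Cube S × G)) (fun _ _ => false, 1)).2) hg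
  simpa [SV.incl, twPerm] using this

end

end Crest.Agent.R185
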