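import Crest.Agent.R185.SVPChart
import Crest.Agent.R185.SVBasic

/-!
# Row 185: the action of `SV` on the expansion poset
-/

set_option autoImplicit false

open scoped Classical

namespace Crest.Agent.R185.SVP

theorem finiteIndex_fix {H A : Type} [Group H] [MulAction H A] {s : Set A} (hs : s.Finite)
    (hinv : ∀ h : H, ∀ a ∈ s, h • a ∈ s) : (fixingSubgroup H s).FiniteIndex := by
  have := hs.to_subtype
  have e : fixingSubgroup H s = ⨅ a : s, MulAction.stabilizer H a.1 := by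
    ext h
    simp [mem_fixingSubgroup_iff, Subgroup.mem_iInf]
  rw [e]
  refine Subgroup.finiteIndex_iInf fun a => ⟨?_⟩
  rw [MulAction.index_stabilizer]
  have hf : (MulAction.orbit H a.1).Finite := hs.subset (by
    rintro _ ⟨h, rfl⟩
    exact hinv h _ a.2)
  exact ((Set.ncard_pos hf).2 (MulAction.nonempty_orbit _)).ne'

variable {G S : Type} [Group G] [MulAction G S]

theorem exists_window (h : ∀ n, Finite (MulAction.orbitRel.Quotient G (Fin n → S))) (N : ℕ) :
    ∃ W : Finset S, ∀ F : Finset S, F.card ≤ N → ∃ g : G, ∀ s ∈ F, g • s ∈ W := by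
  have hf : (⋃ n ∈ {n | n ≤ N}, ⋃ q : MulAction.orbitRel.Quotient G (Fin n → S),
      Set.range (Quotient.out q)).Finite :=
    (Set.finite_le_nat N).biUnion fun n _ => by
      have := h n
      exact Set.finite_iUnion fun q => Set.finite_range _
  refine ⟨hf.toFinset, fun F hF => ?_⟩
  let f : Fin F.card → S := fun i => F.equivFin.symm i
  obtain ⟨g, hg⟩ : (Quotient.mk (MulAction.orbitRel G _) f).out ∈ MulAction.orbit G f :=
    MulAction.orbitRel_apply.1 (Quotient.mk_out (s := MulAction.orbitRel G _) f)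
  refine ⟨g, fun s hs => hf.mem_toFinset.2 ?_⟩
  simp only [Set.mem_iUnion]
  refine ⟨F.card, hF, Quotient.mk _ f, F.equivFin ⟨s, hs⟩, ?_⟩
  rw [← hg]
  simp [f]

instance : MulAction (SV G S) (Ch G S) := MulAction.compHom _ cS

theorem sv_smul (τ : SV G S) (x : Ch G S) : τ • x = cS τ • x := rfl

theorem std_iff {c : Chart G S} {β β' : Brick S} {g : G} (h : StdOn c.f β β' g) :
    c * cP β = cP β' * cT g := Chart.ext (funext fun x => h x.1 x.2)

/-- a family of charts whose images partition the space -/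
def IsPart {ι : Type} (c : ι → Chart G S) : Prop :=
  Function.Bijective fun p : ι × (Cube S × G) => (c p.1).f p.2

theorem exists_trans {ι : Type} {c c' : ι → Chart G S} (hc : IsPart c) (hc' : IsPart c') :
    ∃ τ : SV G S, ∀ i, cS τ * c i = c' i := by
  let τ := (Equiv.ofBijective _ hc).symm.trans (Equiv.ofBijective _ hc')
  have hτ : ∀ i x, τ ((c i).f x) = (c' i).f x := fun i x => by
    have : (Equiv.ofBijective _ hc).symm ((c i).f x) = (i, x) :=
      (Equiv.ofBijective _ hc).symm_apply_apply (i, x)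
    simp only [τ, Equiv.trans_apply, this, Equiv.ofBijective_apply]
  refine ⟨⟨τ, locStd_of_local fun y => ?_⟩, fun i => Chart.ext (funext (hτ i))⟩
  obtain ⟨⟨i, z, k⟩, e⟩ := hc.2 (y, 1)
  obtain ⟨β, β', g, ⟨x, rfl⟩, hs⟩ := (c i).std z
  refine ⟨β', ⟨tw g x, congrArg Prod.fst ((hs x k).symm.trans e)⟩, ?_⟩
  convert (c' i * cP β * cT g⁻¹).std
  funext ⟨w, h⟩
  have := hτ i (β.pre (tw g⁻¹ w), g⁻¹ * h)
  rw [hs, ← tw_mul] at this
  simpa using this

theorem part_ext {ι : Type} {c : ι → Chart G S} (hc : IsPart c) {τ τ' : SV G S}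
    (h : ∀ i, cS τ * c i = cS τ' * c i) : τ = τ' := by
  ext1; ext1 x
  obtain ⟨⟨i, z⟩, rfl⟩ := hc.2 x
  exact congrArg (fun e : Chart G S => e.f z) (h i)

theorem IsPart.cT {ι : Type} {c : ι → Chart G S} (hc : IsPart c) (g : ι → G) :
    IsPart fun i => c i * cT (g i) :=
  hc.comp (Equiv.prodCongrRight fun i => twPerm (g i)).bijective

theorem exists_Phi {ι : Type} {c : ι → Chart G S} (hc : IsPart c) :
    ∃ Φ : (ι → G) →* SV G S, Function.Injective Φ ∧ (∀ g i, cS (Φ g) * c i = c i * cT (g i)) ∧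
      ∀ τ : SV G S, (∀ i, τ • mk (c i) = mk (c i)) → ∃ g, Φ g = τ := by
  choose φ hφ using fun g : ι → G => exists_trans hc (hc.cT g)
  refine ⟨MonoidHom.mk' φ fun g g' => part_ext hc fun i => ?_, fun g g' h => funext fun i => ?_,
    hφ, fun τ h => ?_⟩
  · rw [hφ, map_mul, mul_assoc, hφ, ← mul_assoc, hφ, Pi.mul_apply, map_mul, mul_assoc]
  · have h' : φ g = φ g' := h
    exact cT_injective (mul_left_cancel ((hφ g i).symm.trans (h' ▸ hφ g' i)))
  · choose g hg using fun i => mk_eq_mk.1 (h i).symm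
    exact ⟨g, part_ext hc fun i => (hφ g i).trans (hg i).symm⟩

theorem exp_smul (c : Chart G S) {x : Ch G S} {B : Finset (Ch G S)} (h : Exp x B) :
    Exp (c • x) (B.image (c • ·)) := by
  obtain ⟨d, u, rfl, hu, rfl⟩ := h
  exact ⟨c * d, u, rfl, hu, by rw [Finset.image_image]; rfl⟩

variable [Nonempty S]

noncomputable instance instActPV : MulAction (SV G S) (sys G S).PV where
  smul τ v := ⟨v.s.image (τ • ·), by
    intro x hx y hy hxy
    obtain ⟨x, hx', rfl⟩ := Finset.mem_image.1 hx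
    obtain ⟨y, hy', rfl⟩ := Finset.mem_image.1 hy
    have := disjoint_supp.1 (v.disj hx' hy' fun e => hxy (by rw [e]))
    refine disjoint_supp.2 ?_
    rw [sv_smul, sv_smul, rng_smul, rng_smul]
    exact (Set.disjoint_image_iff (cS τ).inj).2 this⟩
  one_smul v := ExpSys.PV.ext (show v.s.image _ = _ by simp)
  mul_smul a b v := ExpSys.PV.ext (show v.s.image _ = (v.s.image _).image _ by
    rw [Finset.image_image]; exact Finset.image_congr fun x _ => mul_smul a b x)

theorem smul_s (τ : SV G S) (v : (sys G S).PV) : (τ • v).s = v.s.image (τ • ·) := rfl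

theorem smul_eq_of_fix {τ : SV G S} {v : (sys G S).PV} (h : ∀ x ∈ v.s, τ • x = x) : τ • v = v :=
  ExpSys.PV.ext (by rw [smul_s, Finset.image_congr (g := id) h, Finset.image_id])

theorem smul_mem_of_stab {τ : SV G S} {v : (sys G S).PV} (h : τ • v = v) {x : Ch G S}
    (hx : x ∈ v.s) : τ • x ∈ v.s := by
  have : τ • x ∈ (τ • v).s := Finset.mem_image_of_mem _ hx
  rwa [h] at this

theorem smul_mono (τ : SV G S) (a b : (sys G S).PV) (h : a ≤ b) : τ • a ≤ τ • b := by
  obtain ⟨D, h1, h2⟩ := h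
  refine ⟨fun x => (D (τ⁻¹ • x)).image (τ • ·), fun x hx => ?_, ?_⟩
  · obtain ⟨x, hx', rfl⟩ := Finset.mem_image.1 hx
    simp only [inv_smul_smul]
    exact exp_smul _ (h1 x hx')
  · rw [smul_s, smul_s, h2, Finset.image_biUnion, Finset.biUnion_image]
    simp only [inv_smul_smul]

theorem mem_vert {m : ℕ} {v : (sys G S).PV} :
    v ∈ (sys G S).Vert m ↔ (∀ z, ∃ x ∈ v.s, z ∈ rng x) ∧ v.s.card ≤ m := by
  refine and_congr_left fun _ => ?_
  simp only [Set.eq_univ_iff_forall, Set.mem_iUnion, mem_rng, exists_prop]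
  exact ⟨fun h z => h z.1, fun h y => h (y, 1)⟩

theorem smul_vert (m : ℕ) (τ : SV G S) (a : (sys G S).PV) (ha : a ∈ (sys G S).Vert m) :
    τ • a ∈ (sys G S).Vert m := by
  rw [mem_vert] at ha ⊢
  refine ⟨fun z => ?_, Finset.card_image_le.trans ha.2⟩
  obtain ⟨z, rfl⟩ := (τ : Equiv.Perm (Cube S × G)).surjective z
  obtain ⟨x, hx, h⟩ := ha.1 z
  exact ⟨_, Finset.mem_image_of_mem _ hx, by rw [sv_smul, rng_smul]; exact ⟨z, h, rfl⟩⟩

/-- the vertex of a guillotine partition -/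
noncomputable def vtx {u : Finset (Brick S)} (hu : Guil u) : (sys G S).PV :=
  ⟨u.image (io 1), (sys G S).exp_disj _ _ ⟨1, u, rfl, hu, rfl⟩⟩

theorem vtx_mem {u : Finset (Brick S)} (hu : Guil u) : vtx hu ∈ (sys G S).Vert u.card := by
  refine mem_vert.2 ⟨fun z => ?_, Finset.card_image_le⟩
  obtain ⟨β, hβ, h⟩ := hu.cover z.1
  exact ⟨_, Finset.mem_image_of_mem _ hβ, (mem_rng_io (c := 1)).2 h⟩

theorem exists_le_vtx {m : ℕ} {v : (sys G S).PV} (hv : v ∈ (sys G S).Vert m) :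
    ∃ (F : Finset S) (d : ℕ), ∀ (u : Finset (Brick S)) (hu : Guil u),
      (∀ β ∈ u, ∀ s ∈ F, d ≤ (β.p s).length) → v ≤ vtx hu := by
  have h1 : ∀ x : Ch G S, ∃ W : Finset (Brick S), Exp x (W.image (io 1)) := by
    intro x
    obtain ⟨c, rfl⟩ := mk_surj x
    obtain ⟨F, d, h⟩ := c.std.exists_grid
    obtain ⟨u, hu, hd⟩ := exists_deep F d
    choose! b g hb using h
    refine ⟨u.image b, exp_mk.2 ⟨u, hu, ?_⟩⟩
    rw [Finset.image_image]
    refine Finset.image_congr fun β hβ => ?_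
    simp only [Function.comp_apply, io, std_iff (hb β (hd β hβ)), mk_mul_cT, one_mul]
  choose W hW using h1
  let V := v.s.biUnion W
  refine ⟨V.biUnion fun α => α.fin.toFinset,
    V.sup fun α => α.fin.toFinset.sup fun s => (α.p s).length, fun u hu hd => ?_⟩
  have h2 : Ref (V.image (io (1 : Chart G S))) (u.image (io 1)) := by
    refine ref_of_le 1 hu (fun y => ?_) fun α hα β hβ s => ?_
    · obtain ⟨x, hx, h⟩ := (mem_vert.1 hv).1 (y, 1)
      have h3 : y ∈ ⋃ b ∈ (W x).image (io 1), (sys G S).supp b := by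
        rw [(sys G S).exp_union x _ (hW x)]; exact h
      simp only [Set.mem_iUnion, Finset.mem_image] at h3
      obtain ⟨_, ⟨α, hα, rfl⟩, h4⟩ := h3
      exact ⟨α, Finset.mem_biUnion.2 ⟨x, hx, hα⟩, (mem_rng_io (c := 1) (h := (1 : G))).1 h4⟩
    · by_cases h0 : α.p s = []
      · simp [h0]
      · have hs : s ∈ α.fin.toFinset := by simpa using h0
        refine le_trans ?_ (hd β hβ s (Finset.mem_biUnion.2 ⟨α, hα, hs⟩))
        exact (Finset.le_sup (f := fun s => (α.p s).length) hs).trans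
          (Finset.le_sup (f := fun α : Brick S => α.fin.toFinset.sup fun s => (α.p s).length) hα)
  obtain ⟨D, hD, e⟩ := h2
  refine ⟨fun x => ((W x).image (io 1)).biUnion D, fun x hx =>
    (sys G S).exp_trans _ _ _ (hW x) fun b hb => hD b ?_, ?_⟩
  · exact Finset.image_subset_image (Finset.subset_biUnion_of_mem W hx) hb
  · change u.image (io 1) = _
    rw [e, Finset.biUnion_image, Finset.biUnion_biUnion]

theorem directed (m : ℕ) (v : (sys G S).PV) (hv : v ∈ (sys G S).Vert m) (w : (sys G S).PV)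
    (hw : w ∈ (sys G S).Vert m) : ∃ m', ∃ u ∈ (sys G S).Vert m', v ≤ u ∧ w ≤ u := by
  obtain ⟨F, d, h⟩ := exists_le_vtx hv
  obtain ⟨F', d', h'⟩ := exists_le_vtx hw
  obtain ⟨u, hu, hd⟩ := exists_deep (F ∪ F') (max d d')
  exact ⟨_, vtx hu, vtx_mem hu,
    h u hu fun β hβ s hs => (le_max_left _ _).trans (hd β hβ s (Finset.mem_union_left _ hs)),
    h' u hu fun β hβ s hs => (le_max_right _ _).trans (hd β hβ s (Finset.mem_union_right _ hs))⟩

theorem exists_enum {m : ℕ} {v : (sys G S).PV} (hv : v ∈ (sys G S).Vert m) :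
    ∃ c : Fin v.s.card → Chart G S, IsPart c ∧ ∀ x, x ∈ v.s ↔ ∃ i, x = mk (c i) := by
  choose c hc using fun i : Fin v.s.card => mk_surj (v.s.equivFin.symm i).1
  have h1 : ∀ x, x ∈ v.s ↔ ∃ i, x = mk (c i) := fun x =>
    ⟨fun hx => ⟨v.s.equivFin ⟨x, hx⟩, by rw [← hc]; simp⟩, by
      rintro ⟨i, rfl⟩; rw [← hc]; exact (v.s.equivFin.symm i).2⟩
  refine ⟨c, ⟨?_, fun z => ?_⟩, h1⟩
  · rintro ⟨i, x⟩ ⟨j, y⟩ e
    obtain rfl : i = j := by
      by_contra hne
      have h2 := disjoint_supp.1 (v.disj (v.s.equivFin.symm i).2 (v.s.equivFin.symm j).2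
        fun h => hne (v.s.equivFin.symm.injective (Subtype.ext h)))
      rw [hc, hc, Set.disjoint_left] at h2
      exact h2 ⟨x, rfl⟩ ⟨y, e.symm⟩
    exact Prod.ext rfl ((c i).inj e)
  · obtain ⟨x, hx, h⟩ := (mem_vert.1 hv).1 z
    obtain ⟨i, rfl⟩ := (h1 x).1 hx
    obtain ⟨y, rfl⟩ := h
    exact ⟨(i, y), rfl⟩

theorem le_elim {ι : Type} {c : ι → Chart G S} {w a : (sys G S).PV}
    (hw : ∀ x, x ∈ w.s ↔ ∃ i, x = mk (c i)) (h : w ≤ a) :
    ∀ x ∈ a.s, ∃ i β, x = io (c i) β ∧ Small a.s.card β := by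
  obtain ⟨D, h1, h2⟩ := h
  intro x hx
  rw [h2] at hx
  obtain ⟨b, hb, hx⟩ := Finset.mem_biUnion.1 hx
  obtain ⟨i, rfl⟩ := (hw b).1 hb
  obtain ⟨u, hu, e⟩ := exp_mk.1 (h1 _ hb)
  have h3 : u.card ≤ a.s.card := by
    rw [← Finset.card_image_of_injective u (io_injective (c i)), ← e, h2]
    exact Finset.card_le_card (Finset.subset_biUnion_of_mem D hb)
  rw [e] at hx
  obtain ⟨β, hβ, rfl⟩ := Finset.mem_image.1 hx
  exact ⟨i, β, rfl, (hu.small β hβ).mono h3⟩

end Crest.Agent.R185.SVP
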