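import Crest.Agent.R185.SVDef

/-!
# Row 185: bricks and guillotine partitions
-/

set_option autoImplicit false

open scoped Classical

namespace Crest.Agent.R185.SVP

variable {S : Type}

scoped instance instMonoidBrick : Monoid (Brick S) where
  mul := Brick.append
  one := Brick.nil S
  mul_assoc _ _ _ := Brick.ext (funext fun _ => List.append_assoc _ _ _)
  one_mul _ := Brick.ext (funext fun _ => List.nil_append _)
  mul_one _ := Brick.ext (funext fun _ => List.append_nil _)

@[simp] theorem mul_p (β γ : Brick S) (s : S) : (β * γ).p s = β.p s ++ γ.p s := rfl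
@[simp] theorem one_p (s : S) : (1 : Brick S).p s = [] := rfl
theorem mul_pre (β γ : Brick S) (y : Cube S) : (β * γ).pre y = β.pre (γ.pre y) :=
  Brick.append_pre _ _ _
theorem pre_apply (β : Brick S) (y : Cube S) (s : S) : β.pre y s = pre (β.p s) (y s) := rfl
@[simp] theorem one_pre (y : Cube S) : (1 : Brick S).pre y = y := rfl

scoped instance instCancelBrick : IsLeftCancelMul (Brick S) where
  mul_left_cancel β γ δ h := Brick.ext (funext fun s => by
    have := congrArg (fun x : Brick S => x.p s) h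
    simpa using this)

/-- half of the cube -/
noncomputable def hb (s : S) (b : Bool) : Brick S :=
  ⟨fun t => if t = s then [b] else [], (Set.finite_singleton s).subset fun t ht => by
    by_contra h
    exact ht (if_neg h)⟩

@[simp] theorem hb_p_self (s : S) (b : Bool) : (hb s b).p s = [b] := if_pos rfl
theorem hb_p_ne {s t : S} (h : t ≠ s) (b : Bool) : (hb s b).p t = [] := if_neg h

theorem exists_hb (s : S) (y : Cube S) : ∃ z, (hb s (y s 0)).pre z = y := by
  refine ⟨Function.update y s (fun n => y s (n + 1)), funext fun t => ?_⟩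
  by_cases h : t = s
  · subst h
    funext n
    cases n <;> simp [pre_apply]
  · simp [pre_apply, hb_p_ne h, h]

theorem hb_pre_zero (s : S) (b : Bool) (z : Cube S) : (hb s b).pre z s 0 = b := by
  simp [pre_apply]

theorem hb_mul_inj {s : S} {b c : Bool} {β γ : Brick S} (h : hb s b * β = hb s c * γ) : b = c := by
  have := congrArg (fun x : Brick S => x.p s) h
  simp at this
  exact this.1

theorem eq_hb_mul {s : S} {b : Bool} {q : List Bool} {α : Brick S} (h : α.p s = b :: q) :
    ∃ α', α = hb s b * α' := by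
  refine ⟨⟨Function.update α.p s q, (α.fin.insert s).subset fun t ht => ?_⟩, Brick.ext (funext fun t => ?_)⟩
  · by_cases e : t = s
    · exact Or.inl e
    · right; simpa [e] using ht
  · by_cases e : t = s
    · subst e; simp [h]
    · simp [hb_p_ne e, e]

theorem hb_comm {s : S} (b : Bool) {α : Brick S} (h : α.p s = []) : hb s b * α = α * hb s b := by
  refine Brick.ext (funext fun t => ?_)
  by_cases e : t = s
  · subst e; simp [h]
  · simp [hb_p_ne e]

theorem prefix_of_pre {p q : List Bool} (h : ∀ b : Bool, ∃ η, pre p (fun _ => b) = pre q η) :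
    q <+: p := by
  by_contra hn
  have key : ∀ b : Bool, ∃ r, q = p ++ b :: r := by
    intro b
    obtain ⟨η, hη⟩ := h b
    obtain ⟨p', q', ζ, h1, h2, -, h4⟩ := pre_eq_pre hη
    cases p' with
    | nil => exact absurd ⟨q', by simpa using h1.symm⟩ hn
    | cons c r =>
      have hq : q' = [] := by simpa using h4
      have hc : b = c := by simpa using congrFun h2 0
      exact ⟨r, by simpa [hq, hc] using h1.symm⟩
  obtain ⟨r, hr⟩ := key false
  obtain ⟨r', hr'⟩ := key true
  rw [hr] at hr'
  simp at hr'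

theorem eq_of_range_eq {β γ : Brick S} (h : Set.range β.pre = Set.range γ.pre) : β = γ := by
  have key : ∀ {β γ : Brick S}, Set.range β.pre ⊆ Set.range γ.pre → ∀ s, γ.p s <+: β.p s := by
    intro β γ h s
    refine prefix_of_pre fun b => ?_
    obtain ⟨z, hz⟩ := h ⟨fun _ _ => b, rfl⟩
    exact ⟨z s, (congrFun hz s).symm⟩
  exact Brick.ext (funext fun s => List.IsPrefix.eq_of_length_le (key h.ge s) (key h.le s).length_le)

theorem dvd_of_pre_eq {α β : Brick S} {y z : Cube S} (h : α.pre y = β.pre z)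
    (hl : ∀ s, (α.p s).length ≤ (β.p s).length) : ∃ γ, β = α * γ := by
  obtain ⟨α', β', -, h1, -, -⟩ := Brick.pre_eq_pre h
  have h2 : ∀ s, ∃ r, α.p s ++ r = β.p s := fun s =>
    List.prefix_of_prefix_length_le (l₃ := (α.append α').p s) (List.prefix_append _ _)
      (h1 ▸ List.prefix_append _ _) (hl s)
  choose r hr using h2
  refine ⟨⟨r, β.fin.subset fun s hs h0 => hs ?_⟩, Brick.ext (funext fun s => (hr s).symm)⟩
  have := hr s
  rw [h0] at this
  exact (List.append_eq_nil_iff.1 this).2

/-- one guillotine cut -/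
noncomputable def cut (s : S) (u : Bool → Finset (Brick S)) : Finset (Brick S) :=
  (u false).image (hb s false * ·) ∪ (u true).image (hb s true * ·)

theorem mem_cut {s : S} {u : Bool → Finset (Brick S)} {β : Brick S} :
    β ∈ cut s u ↔ ∃ b, ∃ γ ∈ u b, β = hb s b * γ := by
  simp [cut, eq_comm]

theorem hb_mul_mem_cut {s : S} {u : Bool → Finset (Brick S)} {b : Bool} {β : Brick S} :
    hb s b * β ∈ cut s u ↔ β ∈ u b := by
  rw [mem_cut]
  constructor
  · rintro ⟨c, γ, hγ, e⟩
    obtain rfl := hb_mul_inj e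
    rwa [mul_left_cancel e]
  · exact fun h => ⟨b, β, h, rfl⟩

theorem card_cut (s : S) (u : Bool → Finset (Brick S)) :
    (cut s u).card = (u false).card + (u true).card := by
  rw [cut, Finset.card_union_of_disjoint, Finset.card_image_of_injective _ (mul_right_injective _),
    Finset.card_image_of_injective _ (mul_right_injective _)]
  rw [Finset.disjoint_left]
  intro β h0 h1
  obtain ⟨γ, -, rfl⟩ := Finset.mem_image.1 h0
  obtain ⟨δ, -, e⟩ := Finset.mem_image.1 h1
  simpa using hb_mul_inj e

/-- guillotine partitions -/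
inductive Guil : Finset (Brick S) → Prop
  | one : Guil {1}
  | node (s : S) (u : Bool → Finset (Brick S)) : (∀ b, Guil (u b)) → Guil (cut s u)

theorem Guil.cover {u : Finset (Brick S)} (hu : Guil u) (y : Cube S) :
    ∃ β ∈ u, y ∈ Set.range β.pre := by
  induction hu generalizing y with
  | one => exact ⟨1, by simp, y, rfl⟩
  | node s u _ ih =>
    obtain ⟨z, hz⟩ := exists_hb s y
    obtain ⟨β, hβ, x, rfl⟩ := ih (y s 0) z
    exact ⟨_, hb_mul_mem_cut.2 hβ, x, by rw [mul_pre, hz]⟩

theorem Guil.nonempty {u : Finset (Brick S)} (hu : Guil u) : u.Nonempty :=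
  let ⟨β, hβ, _⟩ := hu.cover (fun _ _ => false)
  ⟨β, hβ⟩

theorem Guil.disj {u : Finset (Brick S)} (hu : Guil u) {β γ : Brick S} (hβ : β ∈ u) (hγ : γ ∈ u)
    {y z : Cube S} (h : β.pre y = γ.pre z) : β = γ := by
  induction hu generalizing β γ with
  | one => rw [Finset.mem_singleton.1 hβ, Finset.mem_singleton.1 hγ]
  | node s u _ ih =>
    rw [mem_cut] at hβ
    obtain ⟨b, β, hβ, rfl⟩ := hβ
    rw [mem_cut] at hγ
    obtain ⟨c, γ, hγ, rfl⟩ := hγ
    rw [mul_pre, mul_pre] at h
    obtain rfl : b = c := by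
      have := congrFun (congrFun h s) 0
      rwa [hb_pre_zero, hb_pre_zero] at this
    rw [ih b hβ hγ (Brick.pre_injective _ h)]

theorem Guil.first {u : Finset (Brick S)} (hu : Guil u) : u = {1} ∨ ∃ s, ∀ β ∈ u, β.p s ≠ [] := by
  cases hu with
  | one => exact Or.inl rfl
  | node s u _ =>
    refine Or.inr ⟨s, fun β hβ => ?_⟩
    rw [mem_cut] at hβ
    obtain ⟨b, β, -, rfl⟩ := hβ
    simp

theorem Guil.single {β : Brick S} (hu : Guil {β}) : β = 1 := by
  apply eq_of_range_eq
  ext y
  obtain ⟨γ, hγ, h⟩ := hu.cover y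
  rw [Finset.mem_singleton.1 hγ] at h
  exact ⟨fun _ => ⟨y, rfl⟩, fun _ => h⟩

theorem Guil.bind {u : Finset (Brick S)} (hu : Guil u) (D : Brick S → Finset (Brick S))
    (hD : ∀ α ∈ u, Guil (D α)) : Guil (u.biUnion fun α => (D α).image (α * ·)) := by
  induction hu generalizing D with
  | one => simpa using hD 1 (by simp)
  | node s u _ ih =>
    convert Guil.node s _ fun b => ih b (fun α => D (hb s b * α))
      fun α hα => hD _ (hb_mul_mem_cut.2 hα)
    ext β
    simp only [Finset.mem_biUnion, mem_cut, Finset.mem_image]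
    constructor
    · rintro ⟨_, ⟨b, α, hα, rfl⟩, γ, hγ, rfl⟩
      exact ⟨b, _, ⟨α, hα, γ, hγ, rfl⟩, mul_assoc _ _ _⟩
    · rintro ⟨b, _, ⟨α, hα, γ, hγ, rfl⟩, rfl⟩
      exact ⟨_, ⟨b, α, hα, rfl⟩, γ, hγ, mul_assoc _ _ _⟩

/-- the part of a guillotine partition inside a shallow brick is a guillotine partition -/
theorem Guil.quot {u : Finset (Brick S)} (hu : Guil u) (α : Brick S)
    (h : ∀ β ∈ u, ∀ s, (α.p s).length ≤ (β.p s).length) :
    ∃ w, Guil w ∧ ∀ γ, γ ∈ w ↔ α * γ ∈ u := by
  induction hu generalizing α with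
  | one =>
    obtain rfl : α = 1 := Brick.ext (funext fun s => by simpa using h 1 (by simp) s)
    exact ⟨{1}, Guil.one, by simp⟩
  | node s u _ ih =>
    cases hs : α.p s with
    | nil =>
      have : ∀ b, ∃ w, Guil w ∧ ∀ γ, γ ∈ w ↔ α * γ ∈ u b := fun b => ih b α fun β hβ t => by
        by_cases e : t = s
        · simp [e, hs]
        · simpa [hb_p_ne e] using h _ (hb_mul_mem_cut.2 hβ) t
      choose w hw hw' using this
      refine ⟨cut s w, Guil.node s w hw, fun γ => ?_⟩
      constructor
      · intro hγ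
        rw [mem_cut] at hγ
        obtain ⟨b, γ, hγ, rfl⟩ := hγ
        rw [← mul_assoc, ← hb_comm b hs, mul_assoc, hb_mul_mem_cut]
        exact (hw' b γ).1 hγ
      · intro hγ
        obtain ⟨b, β, -, e⟩ := mem_cut.1 hγ
        have h1 : γ.p s = b :: β.p s := by
          simpa [hs] using congrArg (fun x : Brick S => x.p s) e
        obtain ⟨γ, rfl⟩ := eq_hb_mul h1
        rw [← mul_assoc, ← hb_comm b hs, mul_assoc, hb_mul_mem_cut] at hγ
        exact hb_mul_mem_cut.2 ((hw' b γ).2 hγ)
    | cons b q =>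
      obtain ⟨α, rfl⟩ := eq_hb_mul hs
      obtain ⟨w, hw, hw'⟩ := ih b α fun β hβ t => by
        simpa using h _ (hb_mul_mem_cut.2 hβ) t
      exact ⟨w, hw, fun γ => by rw [hw', mul_assoc, hb_mul_mem_cut]⟩

/-- a guillotine partition refines every shallower cover by bricks -/
theorem Guil.refines {u : Finset (Brick S)} (hu : Guil u) (v : Finset (Brick S))
    (hv : ∀ y, ∃ α ∈ v, y ∈ Set.range α.pre)
    (h : ∀ α ∈ v, ∀ β ∈ u, ∀ s, (α.p s).length ≤ (β.p s).length) :
    ∃ D : Brick S → Finset (Brick S), (∀ α ∈ v, Guil (D α)) ∧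
      u = v.biUnion fun α => (D α).image (α * ·) := by
  have : ∀ α, ∃ w, α ∈ v → Guil w ∧ ∀ γ, γ ∈ w ↔ α * γ ∈ u := fun α => by
    by_cases hα : α ∈ v
    · obtain ⟨w, hw⟩ := hu.quot α (h α hα)
      exact ⟨w, fun _ => hw⟩
    · exact ⟨∅, fun h => absurd h hα⟩
  choose D hD using this
  refine ⟨D, fun α hα => (hD α hα).1, ?_⟩
  ext β
  simp only [Finset.mem_biUnion, Finset.mem_image]
  constructor
  · intro hβ
    obtain ⟨α, hα, y, hy⟩ := hv (β.pre fun _ _ => false)
    obtain ⟨γ, rfl⟩ := dvd_of_pre_eq hy (h α hα β hβ)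
    exact ⟨α, hα, γ, ((hD α hα).2 γ).2 hβ, rfl⟩
  · rintro ⟨α, hα, γ, hγ, rfl⟩
    exact ((hD α hα).2 γ).1 hγ

theorem exists_grid (F : Finset S) : ∃ u, Guil u ∧ u.card = 2 ^ F.card ∧
    ∀ β ∈ u, ∀ s, (β.p s).length = if s ∈ F then 1 else 0 := by
  induction F using Finset.induction_on with
  | empty => exact ⟨{1}, Guil.one, by simp, by simp⟩
  | insert s F hs ih =>
    obtain ⟨u, h1, h2, h3⟩ := ih
    refine ⟨cut s fun _ => u, Guil.node s _ fun _ => h1, ?_, fun β hβ t => ?_⟩
    · rw [card_cut, h2, Finset.card_insert_of_notMem hs]; ring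
    · rw [mem_cut] at hβ
      obtain ⟨b, β, hβ, rfl⟩ := hβ
      by_cases e : t = s
      · subst e; simp [h3 β hβ, hs]
      · simp [hb_p_ne e, h3 β hβ, e]

theorem exists_deep (F : Finset S) (d : ℕ) :
    ∃ u, Guil u ∧ ∀ β ∈ u, ∀ s ∈ F, d ≤ (β.p s).length := by
  induction d with
  | zero => exact ⟨{1}, Guil.one, by simp⟩
  | succ d ih =>
    obtain ⟨u, h1, h2⟩ := ih
    obtain ⟨w, h3, -, h4⟩ := exists_grid F
    refine ⟨_, h1.bind (fun _ => w) fun _ _ => h3, fun β hβ s hs => ?_⟩
    simp only [Finset.mem_biUnion, Finset.mem_image] at hβ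
    obtain ⟨α, hα, γ, hγ, rfl⟩ := hβ
    have := h2 α hα s hs
    simp [h4 γ hγ, hs, this]

/-- bricks with few and short prefixes -/
def Small (m : ℕ) (β : Brick S) : Prop := β.fin.toFinset.card < m ∧ ∀ s, (β.p s).length < m

theorem Small.mono {m m' : ℕ} {β : Brick S} (h : Small m β) (hm : m ≤ m') : Small m' β :=
  ⟨h.1.trans_le hm, fun s => (h.2 s).trans_le hm⟩

theorem Guil.small {u : Finset (Brick S)} (hu : Guil u) : ∀ β ∈ u, Small u.card β := by
  induction hu with
  | one =>
    intro β hβ
    rw [Finset.mem_singleton.1 hβ]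
    refine ⟨?_, by simp⟩
    simp
  | node s u hu ih =>
    intro β hβ
    rw [mem_cut] at hβ
    obtain ⟨b, β, hβ, rfl⟩ := hβ
    have h1 : (u b).card < (cut s u).card := by
      have := (hu false).nonempty.card_pos
      have := (hu true).nonempty.card_pos
      rw [card_cut]; cases b <;> omega
    obtain ⟨h2, h3⟩ := ih b β hβ
    constructor
    · have : (hb s b * β).fin.toFinset ⊆ insert s β.fin.toFinset := by
        intro t ht
        by_cases e : t = s
        · simp [e]
        · simpa [e, hb_p_ne e] using ht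
      have := (Finset.card_le_card this).trans (Finset.card_insert_le _ _)
      omega
    · intro t
      have := h3 t
      by_cases e : t = s
      · subst e; simp; omega
      · simp [hb_p_ne e]; omega

theorem finite_bricks (F : Finset S) (m : ℕ) :
    {β : Brick S | (∀ s, β.p s ≠ [] → s ∈ F) ∧ ∀ s, (β.p s).length < m}.Finite := by
  have h1 : (Set.univ.pi fun _ : F => {l : List Bool | l.length < m}).Finite :=
    Set.Finite.pi fun _ => List.finite_length_lt Bool m
  refine Set.Finite.of_finite_image (f := fun β (s : F) => β.p s) (h1.subset ?_) ?_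
  · rintro _ ⟨β, hβ, rfl⟩ s _
    exact hβ.2 s
  · intro β hβ γ hγ h
    refine Brick.ext (funext fun s => ?_)
    by_cases hs : s ∈ F
    · exact congrFun h ⟨s, hs⟩
    · rw [not_not.1 (mt (hβ.1 s) hs), not_not.1 (mt (hγ.1 s) hs)]

section tw
variable {G : Type} [Group G] [MulAction G S]

@[simp] theorem tw_p (g : G) (β : Brick S) (s : S) : (β.tw g).p s = β.p (g⁻¹ • s) := rfl
theorem tw_mul' (g : G) (β γ : Brick S) : (β * γ).tw g = β.tw g * γ.tw g := rfl
theorem tw_one' (g : G) : (1 : Brick S).tw g = 1 := rfl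

theorem tw_hb (g : G) (s : S) (b : Bool) : (hb s b).tw g = hb (g • s) b := by
  refine Brick.ext (funext fun t => ?_)
  simp [hb, inv_smul_eq_iff]

theorem Guil.tw {u : Finset (Brick S)} (hu : Guil u) (g : G) : Guil (u.image (Brick.tw g)) := by
  induction hu with
  | one => simpa [tw_one'] using Guil.one
  | node s u _ ih =>
    convert Guil.node (g • s) _ ih
    simp only [cut, Finset.image_union, Finset.image_image]
    congr 2 <;> funext β <;> simp [tw_mul', tw_hb]

end tw

end Crest.Agent.R185.SVP
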