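import Crest.Agent.R185.SVPBrick
import Crest.Agent.R185.PosetDef

/-!
# Row 185: charts and the expansion system
-/

set_option autoImplicit false

open scoped Classical

namespace Crest.Agent.R185.SVP

variable {G S : Type} [Group G] [MulAction G S]

theorem locStd_right {σ : Cube S × G → Cube S × G} (hσ : LocStd σ) (y : Cube S) (h k : G) :
    σ (y, h * k) = ((σ (y, h)).1, (σ (y, h)).2 * k) := by
  obtain ⟨β, β', g, ⟨z, rfl⟩, hs⟩ := hσ y
  rw [hs, hs, mul_assoc]

theorem locStd_of_local {σ : Cube S × G → Cube S × G}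
    (h : ∀ y, ∃ β : Brick S, y ∈ Set.range β.pre ∧ LocStd (σ ∘ Prod.map β.pre id)) : LocStd σ := by
  intro y
  obtain ⟨β, ⟨z, rfl⟩, hs⟩ := h y
  obtain ⟨γ, γ', g, ⟨x, rfl⟩, hs'⟩ := hs z
  exact ⟨β * γ, γ', g, ⟨x, mul_pre _ _ _⟩, fun w k => by rw [mul_pre]; exact hs' w k⟩

variable (G S) in
/-- injective locally standard maps -/
@[ext] structure Chart where
  f : Cube S × G → Cube S × G
  inj : Function.Injective f
  std : LocStd f

instance : Monoid (Chart G S) where
  mul c d := ⟨c.f ∘ d.f, c.inj.comp d.inj, c.std.comp d.std⟩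
  one := ⟨id, Function.injective_id, locStd_id⟩
  mul_assoc _ _ _ := rfl
  one_mul _ := rfl
  mul_one _ := rfl

@[simp] theorem mul_f (c d : Chart G S) (x : Cube S × G) : (c * d).f x = c.f (d.f x) := rfl
@[simp] theorem one_f (x : Cube S × G) : (1 : Chart G S).f x = x := rfl

instance : IsLeftCancelMul (Chart G S) where
  mul_left_cancel c _ _ h := Chart.ext (funext fun x => c.inj (congrArg (fun e => e.f x) h))

/-- the chart of a brick -/
def cP (β : Brick S) : Chart G S :=
  ⟨Prod.map β.pre id, β.pre_injective.prodMap Function.injective_id, fun y =>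
    ⟨1, β, 1, ⟨y, rfl⟩, fun _ _ => by simp⟩⟩

@[simp] theorem cP_f (β : Brick S) (y : Cube S) (h : G) : (cP β).f (y, h) = (β.pre y, h) := rfl

theorem cP_mul (β γ : Brick S) : (cP (β * γ) : Chart G S) = cP β * cP γ :=
  Chart.ext (funext fun x => by cases x; simp [mul_pre])

theorem cP_one : (cP 1 : Chart G S) = 1 := rfl

/-- elements of `SV` as charts -/
def cS : SV G S →* Chart G S where
  toFun σ := ⟨(σ : Equiv.Perm (Cube S × G)), (σ : Equiv.Perm (Cube S × G)).injective, σ.2⟩
  map_one' := rfl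
  map_mul' _ _ := rfl

/-- global twists as charts -/
def cT : G →* Chart G S := cS.comp (SV.incl G S)

@[simp] theorem cT_f (g : G) (y : Cube S) (h : G) :
    (cT g : Chart G S).f (y, h) = (tw g y, g * h) := rfl

theorem cT_cP (g : G) (β : Brick S) : (cT g * cP β : Chart G S) = cP (β.tw g) * cT g :=
  Chart.ext (funext fun x => by cases x; simp [tw_pre])

theorem cT_injective : Function.Injective (cT : G → Chart G S) := fun g g' h => by
  simpa using congrArg (fun c : Chart G S => (c.f (fun _ _ => false, 1)).2) h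

variable (G S) in
def chSetoid : Setoid (Chart G S) where
  r c d := ∃ g, d = c * cT g
  iseqv := ⟨fun c => ⟨1, by simp⟩, by
    rintro c _ ⟨g, rfl⟩
    exact ⟨g⁻¹, by rw [mul_assoc, ← map_mul]; simp⟩, by
    rintro c _ _ ⟨g, rfl⟩ ⟨g', rfl⟩
    exact ⟨g * g', by rw [mul_assoc, map_mul]⟩⟩

variable (G S) in
/-- charts modulo global twists -/
def Ch : Type := Quotient (chSetoid G S)

def mk (c : Chart G S) : Ch G S := Quotient.mk (chSetoid G S) c

theorem mk_eq_mk {c d : Chart G S} : mk c = mk d ↔ ∃ g, d = c * cT g := Quotient.eq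

theorem mk_surj (x : Ch G S) : ∃ c, x = mk c :=
  let ⟨c, hc⟩ := Quotient.exists_rep x
  ⟨c, hc.symm⟩

theorem mk_mul_cT (c : Chart G S) (g : G) : mk (c * cT g) = mk c := (mk_eq_mk.2 ⟨g, rfl⟩).symm

instance : MulAction (Chart G S) (Ch G S) where
  smul c := Quotient.map (c * ·) (by
    rintro d _ ⟨g, rfl⟩
    exact ⟨g, (mul_assoc _ _ _).symm⟩)
  one_smul x := by obtain ⟨d, rfl⟩ := mk_surj x; rfl
  mul_smul a b x := by obtain ⟨d, rfl⟩ := mk_surj x; rfl

theorem smul_mk (c d : Chart G S) : c • mk d = mk (c * d) := rfl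

/-- the image of a chart -/
def rng : Ch G S → Set (Cube S × G) := Quotient.lift (fun c => Set.range c.f) (by
  rintro c _ ⟨g, rfl⟩
  exact ((twPerm g).surjective.range_comp c.f).symm)

theorem rng_mk (c : Chart G S) : rng (mk c) = Set.range c.f := rfl

theorem rng_smul (c : Chart G S) (x : Ch G S) : rng (c • x) = c.f '' rng x := by
  obtain ⟨d, rfl⟩ := mk_surj x
  exact Set.range_comp c.f d.f

def supp (x : Ch G S) : Set (Cube S) := {y | (y, 1) ∈ rng x}

theorem mem_rng {x : Ch G S} {z : Cube S × G} : z ∈ rng x ↔ z.1 ∈ supp x := by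
  obtain ⟨c, rfl⟩ := mk_surj x
  obtain ⟨y, h⟩ := z
  constructor
  · rintro ⟨⟨w, k⟩, e⟩
    exact ⟨(w, k * h⁻¹), by rw [locStd_right c.std, e]; simp⟩
  · rintro ⟨⟨w, k⟩, e⟩
    exact ⟨(w, k * h), by rw [locStd_right c.std, e]; simp⟩

theorem disjoint_supp {x y : Ch G S} : Disjoint (supp x) (supp y) ↔ Disjoint (rng x) (rng y) := by
  simp only [Set.disjoint_left]
  exact ⟨fun h z h1 h2 => h (mem_rng.1 h1) (mem_rng.1 h2), fun h z h1 h2 => h h1 h2⟩

/-- restriction of a chart to a brick -/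
def io (c : Chart G S) (β : Brick S) : Ch G S := mk (c * cP β)

theorem io_one (c : Chart G S) : io c 1 = mk c := rfl
theorem io_mul (c : Chart G S) (β γ : Brick S) : io c (β * γ) = io (c * cP β) γ := by
  rw [io, io, cP_mul, mul_assoc]
theorem io_cT (c : Chart G S) (g : G) (β : Brick S) : io (c * cT g) β = io c (β.tw g) := by
  rw [io, io, mul_assoc, cT_cP, ← mul_assoc, mk_mul_cT]
theorem smul_io (c d : Chart G S) (β : Brick S) : c • io d β = io (c * d) β := rfl

theorem mem_rng_io {c : Chart G S} {β : Brick S} {y : Cube S} {h : G} :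
    c.f (y, h) ∈ rng (io c β) ↔ y ∈ Set.range β.pre := by
  constructor
  · rintro ⟨⟨w, k⟩, e⟩
    exact ⟨w, congrArg Prod.fst (c.inj e)⟩
  · rintro ⟨w, rfl⟩
    exact ⟨(w, h), rfl⟩

theorem io_injective (c : Chart G S) : Function.Injective (io c) := fun β γ h =>
  eq_of_range_eq (Set.ext fun y => by rw [← mem_rng_io (c := c) (h := 1), h, mem_rng_io])

def Exp (x : Ch G S) (B : Finset (Ch G S)) : Prop :=
  ∃ c u, x = mk c ∧ Guil u ∧ B = u.image (io c)

theorem exp_mk {c : Chart G S} {B : Finset (Ch G S)} :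
    Exp (mk c) B ↔ ∃ u, Guil u ∧ B = u.image (io c) := by
  refine ⟨?_, fun ⟨u, h1, h2⟩ => ⟨c, u, rfl, h1, h2⟩⟩
  rintro ⟨d, u, e, hu, rfl⟩
  obtain ⟨g, rfl⟩ := mk_eq_mk.1 e
  refine ⟨_, hu.tw g, ?_⟩
  rw [Finset.image_image]
  exact Finset.image_congr fun β _ => io_cT c g β

theorem exp_io {c : Chart G S} {α : Brick S} {B : Finset (Ch G S)} :
    Exp (io c α) B ↔ ∃ u, Guil u ∧ B = (u.image (α * ·)).image (io c) := by
  simp only [io, exp_mk, Finset.image_image]
  refine exists_congr fun u => and_congr_right fun _ => ?_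
  rw [show (io c ∘ fun x => α * x) = io (c * cP α) from funext fun β => io_mul c α β]

/-- refinement of finite sets of charts -/
def Ref (w v : Finset (Ch G S)) : Prop :=
  ∃ D : Ch G S → Finset (Ch G S), (∀ b ∈ w, Exp b (D b)) ∧ v = w.biUnion D

theorem bind_image {c : Chart G S} {v : Finset (Brick S)} {D : Ch G S → Finset (Ch G S)}
    (hD : ∀ b ∈ v.image (io c), Exp b (D b)) : ∃ E : Brick S → Finset (Brick S),
    (∀ α ∈ v, Guil (E α)) ∧
      (v.image (io c)).biUnion D = (v.biUnion fun α => (E α).image (α * ·)).image (io c) := by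
  have : ∀ α, ∃ u, α ∈ v → Guil u ∧ D (io c α) = (u.image (α * ·)).image (io c) := fun α => by
    by_cases hα : α ∈ v
    · obtain ⟨u, hu⟩ := exp_io.1 (hD _ (Finset.mem_image_of_mem _ hα))
      exact ⟨u, fun _ => hu⟩
    · exact ⟨∅, fun h => absurd h hα⟩
  choose E hE using this
  refine ⟨E, fun α hα => (hE α hα).1, ?_⟩
  rw [Finset.image_biUnion, Finset.biUnion_image]
  exact Finset.biUnion_congr rfl fun α hα => (hE α hα).2

theorem ref_dvd {c : Chart G S} {v u : Finset (Brick S)}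
    (h : Ref (v.image (io c)) (u.image (io c))) : ∀ β ∈ u, ∃ α ∈ v, ∃ γ, β = α * γ := by
  obtain ⟨D, hD, e⟩ := h
  obtain ⟨E, -, e'⟩ := bind_image hD
  rw [e'] at e
  obtain rfl := Finset.image_injective (io_injective c) e
  intro β hβ
  simp only [Finset.mem_biUnion, Finset.mem_image] at hβ
  obtain ⟨α, hα, γ, -, rfl⟩ := hβ
  exact ⟨α, hα, γ, rfl⟩

theorem ref_of_le (c : Chart G S) {v u : Finset (Brick S)} (hu : Guil u)
    (hv : ∀ y, ∃ α ∈ v, y ∈ Set.range α.pre)
    (h : ∀ α ∈ v, ∀ β ∈ u, ∀ s, (α.p s).length ≤ (β.p s).length) :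
    Ref (v.image (io c)) (u.image (io c)) := by
  obtain ⟨D, hD, e⟩ := hu.refines v hv h
  have : Nonempty (Brick S) := ⟨1⟩
  have hi := Function.leftInverse_invFun (io_injective c)
  refine ⟨fun b => ((D (Function.invFun (io c) b)).image
    (Function.invFun (io c) b * ·)).image (io c), fun b hb => ?_, ?_⟩
  · obtain ⟨α, hα, rfl⟩ := Finset.mem_image.1 hb
    simp only [hi α]
    exact exp_io.2 ⟨_, hD α hα, rfl⟩
  · rw [e, Finset.image_biUnion, Finset.biUnion_image]
    exact Finset.biUnion_congr rfl fun α _ => by simp only [hi α]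

theorem ref_grid (c : Chart G S) {F : Finset S} {v u : Finset (Brick S)} (hv : Guil v)
    (hl : ∀ β ∈ v, ∀ s, (β.p s).length = if s ∈ F then 1 else 0) (hu : Guil u) :
    Ref (v.image (io c)) (u.image (io c)) ↔ ∀ s ∈ F, ∀ β ∈ u, β.p s ≠ [] := by
  constructor
  · intro h s hs β hβ
    obtain ⟨α, hα, γ, rfl⟩ := ref_dvd h β hβ
    intro h0
    have := hl α hα s
    simp_all
  · intro h
    refine ref_of_le c hu hv.cover fun α hα β hβ s => ?_
    rw [hl α hα]
    split_ifs with hs
    · exact List.length_pos_iff.2 (h s hs β hβ)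
    · exact Nat.zero_le _

theorem exists_merge [Nonempty S] {x y : Ch G S} (h : Disjoint (supp x) (supp y)) :
    ∃ c, Exp c {x, y} := by
  obtain ⟨s⟩ := ‹Nonempty S›
  obtain ⟨c0, rfl⟩ := mk_surj x
  obtain ⟨c1, rfl⟩ := mk_surj y
  rw [disjoint_supp, Set.disjoint_left] at h
  choose sh hsh using exists_hb s
  let c : Bool → Chart G S := fun b => cond b c1 c0
  let f : Cube S × G → Cube S × G := fun z => (c (z.1 s 0)).f (sh z.1, z.2)
  have hf : ∀ b, f ∘ Prod.map (hb s b).pre id = (c b).f := by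
    intro b
    funext ⟨z, k⟩
    have h1 := hsh ((hb s b).pre z)
    rw [hb_pre_zero] at h1
    simp only [f, Function.comp_apply, Prod.map_apply, id, hb_pre_zero, Brick.pre_injective _ h1]
  have hinj : Function.Injective f := by
    rintro ⟨z, k⟩ ⟨z', k'⟩ e
    have hb' : z s 0 = z' s 0 := by
      by_contra hne
      simp only [f] at e
      cases h0 : z s 0 <;> cases h1 : z' s 0 <;> rw [h0, h1] at e hne
      · exact hne rfl
      · exact h ⟨_, rfl⟩ ⟨_, e.symm⟩
      · exact h ⟨_, e.symm⟩ ⟨_, rfl⟩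
      · exact hne rfl
    simp only [f, hb'] at e
    obtain ⟨e1, e2⟩ := Prod.ext_iff.1 ((c _).inj e)
    refine Prod.ext ?_ e2
    simp only at e1 ⊢
    rw [← hsh z, ← hsh z', e1, hb']
  let d : Chart G S := ⟨f, hinj, locStd_of_local fun y =>
    ⟨hb s (y s 0), ⟨_, hsh y⟩, by rw [hf]; exact (c _).std⟩⟩
  have hd : ∀ b, io d (hb s b) = mk (c b) := fun b => congrArg mk (Chart.ext (hf b))
  refine ⟨mk d, exp_mk.2 ⟨_, Guil.node s (fun _ => {1}) fun _ => Guil.one, ?_⟩⟩
  simp [cut, hd, c]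

variable (G S) in
/-- the expansion system -/
noncomputable def sys [Nonempty S] : ExpSys (Ch G S) (Cube S) where
  supp := supp
  supp_ne x := by
    obtain ⟨c, rfl⟩ := mk_surj x
    exact ⟨_, mem_rng.1 ⟨(fun _ _ => false, 1), rfl⟩⟩
  Exp := Exp
  exp_disj := by
    rintro _ _ ⟨c, u, rfl, hu, rfl⟩ x hx y hy hxy
    obtain ⟨β, hβ, rfl⟩ := Finset.mem_image.1 hx
    obtain ⟨γ, hγ, rfl⟩ := Finset.mem_image.1 hy
    refine disjoint_supp.2 (Set.disjoint_left.2 ?_)
    rintro _ ⟨⟨w, k⟩, rfl⟩ h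
    obtain ⟨z, hz⟩ := mem_rng_io.1 h
    exact hxy (by rw [hu.disj hγ hβ hz])
  exp_union := by
    rintro _ _ ⟨c, u, rfl, hu, rfl⟩
    ext y
    simp only [Set.mem_iUnion, Finset.mem_image]
    constructor
    · rintro ⟨_, ⟨β, -, rfl⟩, z, hz⟩
      exact ⟨_, hz⟩
    · rintro ⟨⟨w, k⟩, e⟩
      obtain ⟨β, hβ, h⟩ := hu.cover w
      exact ⟨_, ⟨β, hβ, rfl⟩, show (y, (1 : G)) ∈ rng (io c β) from e ▸ mem_rng_io.2 h⟩
  exp_refl x := by
    obtain ⟨c, rfl⟩ := mk_surj x
    exact exp_mk.2 ⟨{1}, Guil.one, by simp [io_one]⟩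
  exp_trans := by
    rintro _ _ D ⟨c, u, rfl, hu, rfl⟩ hD
    obtain ⟨E, h1, h2⟩ := bind_image hD
    exact ⟨c, _, rfl, hu.bind E h1, h2⟩
  exp_single := by
    rintro _ x ⟨c, u, rfl, hu, e⟩
    have h1 : u.card = 1 := by
      rw [← Finset.card_image_of_injective u (io_injective c), ← e, Finset.card_singleton]
    obtain ⟨β, rfl⟩ := Finset.card_eq_one.1 h1
    obtain rfl := hu.single
    simpa [io_one] using e
  merge _ _ h := exists_merge h
  core := by
    rintro _ _ ⟨c, u, rfl, hu, rfl⟩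
    have hfin : {s | ∀ β ∈ u, β.p s ≠ []}.Finite :=
      let ⟨β, hβ⟩ := hu.nonempty
      β.fin.subset fun s hs => hs β hβ
    choose gr h1 h2 h3 using exists_grid (S := S)
    let T := {s // s ∈ hfin.toFinset}
    let e : T ↪ S := Function.Embedding.subtype _
    have key : ∀ (F : Finset T) {w : Finset (Brick S)}, Guil w →
        (Ref ((gr (F.map e)).image (io c)) (w.image (io c)) ↔ ∀ s ∈ F, ∀ β ∈ w, β.p s.1 ≠ []) := by
      intro F w hw
      rw [ref_grid c (h1 _) (h3 _) hw, Finset.forall_mem_map]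
      rfl
    refine ⟨T, inferInstance, inferInstance, fun F => (gr (F.map e)).image (io c), ?_,
      fun F => ⟨exp_mk.2 ⟨_, h1 _, rfl⟩, ?_⟩, fun F F' => ?_, ?_, ?_⟩
    · have h4 := h2 ((∅ : Finset T).map e)
      obtain ⟨β, hβ⟩ := Finset.card_eq_one.1 (show (gr ((∅ : Finset T).map e)).card = 1 by simpa using h4)
      have h5 := h1 ((∅ : Finset T).map e)
      rw [hβ] at h5
      simp only [hβ, h5.single, Finset.image_singleton, io_one]
    · rw [Finset.card_image_of_injective _ (io_injective c), h2, Finset.card_map]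
    · refine Iff.trans ?_ (key F (h1 _)).symm
      constructor
      · intro h s hs β hβ h0
        have := h3 _ β hβ (e s)
        rw [if_pos (Finset.mem_map.2 ⟨s, h hs, rfl⟩)] at this
        exact absurd (h0 ▸ this : ([] : List Bool).length = 1) (by simp)
      · intro h s hs
        obtain ⟨β, hβ⟩ := (h1 (F'.map e)).nonempty
        have := h3 _ β hβ (e s)
        by_contra hn
        rw [if_neg (fun h => hn ((Finset.mem_map' e).1 h))] at this
        exact h s hs β hβ (List.length_eq_zero_iff.1 this)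
    · exact (key _ hu).2 fun s _ => hfin.mem_toFinset.1 s.2
    · intro B hB hne hle
      obtain ⟨w, hw, rfl⟩ := exp_mk.1 hB
      refine ⟨Finset.univ.filter fun s => ∀ β ∈ w, β.p s.1 ≠ [], ?_, fun F => ?_⟩
      · rcases hw.first with rfl | ⟨s, hs⟩
        · exact absurd (by simp [io_one]) hne
        · refine ⟨⟨s, ?_⟩, by simpa using hs⟩
          simp only [Set.Finite.mem_toFinset, Set.mem_ofPred_eq]
          intro β hβ
          obtain ⟨α, hα, γ, rfl⟩ := ref_dvd hle β hβ
          simp [hs α hα]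
      · refine Iff.trans ?_ (key F hw).symm
        simp [Finset.subset_iff]

end Crest.Agent.R185.SVP
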