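import Crest.Agent.R185.SVPAct

/-!
# Row 185: orbits and stabilisers of chains in the expansion poset
-/

set_option autoImplicit false

open scoped Classical

namespace Crest.Agent.R185.SVP

variable {G S : Type} [Group G] [MulAction G S]

theorem tw_eq_of_fix {g : G} {β : Brick S} (h : ∀ s, β.p s ≠ [] → g • s = s) : β.tw g = β := by
  refine Brick.ext (funext fun s => ?_)
  rw [tw_p]
  by_cases h1 : β.p s = []
  · by_contra h2
    have h3 := h (g⁻¹ • s) (h1 ▸ h2)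
    rw [smul_inv_smul] at h3
    exact h2 (by rw [← h3])
  · rw [inv_smul_eq_iff.2 (h s h1).symm]

theorem Phi_io {c : Chart G S} {τ : SV G S} {g : G} (h : cS τ * c = c * cT g) (β : Brick S) :
    τ • io c β = io c (β.tw g) := by
  rw [sv_smul, smul_io, h, io_cT]

theorem finite_lists {A : Type} {Y : Set A} (hY : Y.Finite) (k : ℕ) :
    {l : List A | l.length = k ∧ ∀ a ∈ l, a ∈ Y}.Finite := by
  have := hY.to_subtype
  refine ((List.finite_length_eq Y k).image (List.map Subtype.val)).subset ?_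
  rintro l ⟨h1, h2⟩
  exact ⟨l.attachWith _ h2, by simpa using h1, by simp⟩

variable [Nonempty S]

theorem stabV (m : ℕ) (v : (sys G S).PV) (hv : v ∈ (sys G S).Vert m) :
    ∃ (N : Subgroup (MulAction.stabilizer (SV G S) v)) (n : ℕ),
      N.Normal ∧ N.FiniteIndex ∧ Nonempty (N ≃* (Fin n → G)) := by
  obtain ⟨c, hc, hcv⟩ := exists_enum hv
  obtain ⟨Φ, h1, h2, h3⟩ := exists_Phi hc
  have h4 : ∀ g, ∀ x ∈ v.s, Φ g • x = x := fun g x hx => by
    obtain ⟨i, rfl⟩ := (hcv x).1 hx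
    exact Phi_io (h2 g i) 1
  let Φ' := Φ.codRestrict (MulAction.stabilizer (SV G S) v) fun g => smul_eq_of_fix (h4 g)
  have e : Φ'.range = fixingSubgroup (MulAction.stabilizer (SV G S) v) (v.s : Set (Ch G S)) := by
    ext τ
    rw [mem_fixingSubgroup_iff]
    constructor
    · rintro ⟨g, rfl⟩
      exact h4 g
    · intro h
      obtain ⟨g, hg⟩ := h3 τ fun i => h _ ((hcv _).2 ⟨i, rfl⟩)
      exact ⟨g, Subtype.ext hg⟩
  have hinv : ∀ τ : MulAction.stabilizer (SV G S) v, ∀ x ∈ (v.s : Set (Ch G S)),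
      τ • x ∈ (v.s : Set (Ch G S)) := fun τ x hx => smul_mem_of_stab τ.2 hx
  refine ⟨Φ'.range, _, ?_, ?_, ⟨(MonoidHom.ofInjective
    (fun g g' h => h1 (congrArg Subtype.val h))).symm⟩⟩
  · rw [e]
    refine ⟨fun τ hτ σ => ?_⟩
    rw [mem_fixingSubgroup_iff] at hτ ⊢
    intro x hx
    rw [mul_smul, mul_smul, hτ _ (hinv σ⁻¹ x hx), smul_inv_smul]
  · rw [e]
    exact finiteIndex_fix v.s.finite_toSet hinv

theorem head_le {m k : ℕ} {w : (sys G S).PV} {l : List (sys G S).PV}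
    (hl : IsChn ((sys G S).Vert m) k (w :: l)) : ∀ a ∈ w :: l, w ≤ a := by
  intro a ha
  rcases List.mem_cons.1 ha with rfl | ha
  · exact le_rfl
  · exact List.rel_of_pairwise_cons hl.2.1 ha

theorem stabC (m k : ℕ) (l : List (sys G S).PV) (hl : IsChn ((sys G S).Vert m) (k + 1) l) :
    ∃ (N : Subgroup (⨅ a ∈ l, MulAction.stabilizer (SV G S) a : Subgroup (SV G S))) (n : ℕ)
      (F : Fin n → Finset S),
      N.FiniteIndex ∧ Nonempty (N ≃* ∀ i, fixingSubgroup G (F i : Set S)) := by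
  obtain _ | ⟨w, l⟩ := l
  · exact absurd hl.1 (by simp)
  obtain ⟨c, hc, hcv⟩ := exists_enum (hl.2.2 w (by simp))
  obtain ⟨Φ, h1, h2, h3⟩ := exists_Phi hc
  set H : Subgroup (SV G S) := ⨅ a ∈ w :: l, MulAction.stabilizer (SV G S) a with hH
  have memH : ∀ τ, τ ∈ H ↔ ∀ a ∈ w :: l, τ • a = a := fun τ => by
    simp only [hH, Subgroup.mem_iInf, MulAction.mem_stabilizer_iff]
  let A : Set (Ch G S) := ⋃ a ∈ w :: l, a.s
  have hA : A.Finite := (List.finite_toSet (w :: l)).biUnion fun a _ => a.s.finite_toSet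
  have memA : ∀ x, x ∈ A ↔ ∃ a ∈ w :: l, x ∈ a.s := fun x => by simp only [A, Set.mem_iUnion,
    Finset.mem_coe, exists_prop]
  have hF : ∀ i, {s | ∃ β, io (c i) β ∈ A ∧ β.p s ≠ []}.Finite := fun i => by
    have := (hA.preimage (io_injective (c i)).injOn).biUnion fun β _ => β.fin
    refine this.subset ?_
    rintro s ⟨β, h, h'⟩
    exact Set.mem_biUnion h h'
  let F : _ → Finset S := fun i => (hF i).toFinset
  let Ψ : (∀ i, fixingSubgroup G (F i : Set S)) →* (_ → G) :=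
    MonoidHom.pi fun i => (Subgroup.subtype _).comp (Pi.evalMonoidHom _ i)
  have h4 : ∀ g, Φ (Ψ g) ∈ H := fun g => (memH _).2 fun a ha => smul_eq_of_fix fun x hx => by
    obtain ⟨i, β, rfl, -⟩ := le_elim hcv (head_le hl a ha) x hx
    rw [Phi_io (h2 _ i), tw_eq_of_fix]
    intro s hs
    exact (mem_fixingSubgroup_iff G).1 (g i).2 s
      ((hF i).mem_toFinset.2 ⟨β, (memA _).2 ⟨a, ha, hx⟩, hs⟩)
  let Φ' := (Φ.comp Ψ).codRestrict H h4
  let A' : Set (Ch G S) := {x | ∃ d s β, mk d ∈ w.s ∧ io d β ∈ A ∧ β.p s ≠ [] ∧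
    x = io d (hb s false)}
  have hA' : A'.Finite := by
    refine (Set.finite_iUnion fun i => (hF i).image fun s => io (c i) (hb s false)).subset ?_
    rintro _ ⟨d, s, β, e1, e2, e3, rfl⟩
    obtain ⟨i, e⟩ := (hcv _).1 e1
    obtain ⟨g, rfl⟩ := mk_eq_mk.1 e.symm
    rw [io_cT] at e2
    exact Set.mem_iUnion.2 ⟨i, g • s, ⟨_, e2, by simpa using e3⟩, by rw [io_cT, tw_hb]⟩
  have hfi : (fixingSubgroup H (↑w.s ∪ A')).FiniteIndex := by
    refine finiteIndex_fix (w.s.finite_toSet.union hA') fun τ x hx => ?_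
    have hτ := (memH _).1 τ.2
    rcases hx with hx | ⟨d, s, β, e1, e2, e3, rfl⟩
    · exact Or.inl (smul_mem_of_stab (hτ w (by simp)) hx)
    · obtain ⟨a, ha, e2⟩ := (memA _).1 e2
      exact Or.inr ⟨cS (τ : SV G S) * d, s, β, smul_mem_of_stab (hτ w (by simp)) e1,
        (memA _).2 ⟨a, ha, smul_mem_of_stab (hτ a ha) e2⟩, e3, rfl⟩
  refine ⟨Φ'.range, _, F, Subgroup.finiteIndex_of_le (H := fixingSubgroup H (↑w.s ∪ A')) ?_,
    ⟨(MonoidHom.ofInjective fun g g' h => ?_).symm⟩⟩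
  · intro τ hτ
    rw [mem_fixingSubgroup_iff] at hτ
    obtain ⟨g, hg⟩ := h3 τ fun i => hτ _ (Or.inl ((hcv _).2 ⟨i, rfl⟩))
    refine ⟨fun i => ⟨g i, (mem_fixingSubgroup_iff G).2 fun s hs => ?_⟩, Subtype.ext hg⟩
    obtain ⟨β, e2, e3⟩ := (hF i).mem_toFinset.1 hs
    have e : (τ : SV G S) • io (c i) (hb s false) = io (c i) (hb s false) :=
      hτ _ (Or.inr ⟨c i, s, β, (hcv _).2 ⟨i, rfl⟩, e2, e3, rfl⟩)
    rw [← hg, Phi_io (h2 g i), tw_hb] at e
    have e' := congrArg (fun x : Brick S => x.p s) (io_injective _ e)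
    by_contra hne
    simp [hb_p_ne (Ne.symm hne)] at e'
  · have := h1 (congrArg Subtype.val h)
    exact funext fun i => Subtype.ext (congrFun this i)

theorem fin_orbits (h : ∀ n, Finite (MulAction.orbitRel.Quotient G (Fin n → S))) (m k : ℕ) :
    ∃ T : Set (List (sys G S).PV), T.Finite ∧
      ∀ l, IsChn ((sys G S).Vert m) k l → ∃ g : SV G S, l.map (fun a => g • a) ∈ T := by
  obtain ⟨W, hW⟩ := exists_window h (k * m * m)
  have hstd : ∀ n, ∃ c : Fin n → Chart G S, (∃ c' : Fin n → Chart G S, IsPart c') → IsPart c :=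
    fun n => by
      by_cases h : ∃ c' : Fin n → Chart G S, IsPart c'
      · exact ⟨h.choose, fun _ => h.choose_spec⟩
      · exact ⟨fun _ => 1, fun h' => absurd h' h⟩
  choose std hstd using hstd
  let A : Set (Ch G S) := ⋃ n ∈ {n | n ≤ m}, ⋃ i : Fin n, io (std n i) ''
    {β : Brick S | (∀ s, β.p s ≠ [] → s ∈ W) ∧ ∀ s, (β.p s).length < m}
  have hA : A.Finite := (Set.finite_le_nat m).biUnion fun n _ =>
    Set.finite_iUnion fun i => (finite_bricks W m).image _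
  have hY : {a : (sys G S).PV | (a.s : Set (Ch G S)) ⊆ A}.Finite :=
    hA.finite_subsets.preimage (f := fun a : (sys G S).PV => (a.s : Set (Ch G S)))
      fun a _ b _ e => ExpSys.PV.ext (Finset.coe_injective e)
  refine ⟨_, finite_lists hY k, fun l hl => ?_⟩
  obtain _ | ⟨w, l⟩ := l
  · exact ⟨1, hl.1, by simp⟩
  have hw := hl.2.2 w (by simp)
  obtain ⟨c, hc, hcv⟩ := exists_enum hw
  let B := (w :: l).toFinset.biUnion fun a => a.s
  have hB : B.card ≤ k * m := by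
    refine Finset.card_biUnion_le.trans ((Finset.sum_le_card_nsmul _ _ m fun a ha =>
      (hl.2.2 a (List.mem_toFinset.1 ha)).2).trans ?_)
    exact Nat.mul_le_mul_right m ((List.toFinset_card_le _).trans hl.1.le)
  have h1 : ∀ x : B, ∃ i β, x.1 = io (c i) β ∧ Small m β := fun x => by
    obtain ⟨a, ha, hx⟩ := Finset.mem_biUnion.1 x.2
    have ha' := List.mem_toFinset.1 ha
    obtain ⟨i, β, e, hs⟩ := le_elim hcv (head_le hl a ha') _ hx
    exact ⟨i, β, e, hs.mono (hl.2.2 a ha').2⟩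
  choose ι β h1 h2 using h1
  obtain ⟨g, hg⟩ := hW (Finset.univ.biUnion fun x => (β x).fin.toFinset) (by
    refine Finset.card_biUnion_le.trans ((Finset.sum_le_card_nsmul _ _ m fun x _ =>
      (h2 x).1.le).trans ?_)
    exact Nat.mul_le_mul_right m (by simpa using hB))
  obtain ⟨τ, hτ⟩ := exists_trans hc ((hstd _ ⟨c, hc⟩).cT fun _ => g)
  refine ⟨τ, by simpa using hl.1, fun a ha y hy => ?_⟩
  obtain ⟨a, ha', rfl⟩ := List.mem_map.1 ha
  obtain ⟨x, hx, rfl⟩ := Finset.mem_image.1 hy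
  let x' : B := ⟨x, Finset.mem_biUnion.2 ⟨a, List.mem_toFinset.2 ha', hx⟩⟩
  simp only [A, Set.mem_iUnion]
  refine ⟨w.s.card, hw.2, ι x', (β x').tw g, ⟨fun s hs => ?_, fun s => (h2 x').2 _⟩, ?_⟩
  · have := hg (g⁻¹ • s) (Finset.mem_biUnion.2 ⟨x', Finset.mem_univ _, by simpa using hs⟩)
    simpa using this
  · rw [show x = io (c (ι x')) (β x') from h1 x', sv_smul, smul_io, hτ, io_cT]

end Crest.Agent.R185.SVP
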