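import Crest.Agent.R185.SVBasic
import Crest.Agent.R185.PosetDef
import Crest.Agent.R185.SVPStab

/-!
# Row 185: the expansion system of a twisted Brin–Thompson group
-/

set_option autoImplicit false

namespace Crest.Agent.R185

/-- The expansion poset of `SV G S` with the action of `SV G S`. -/
structure SVSys (G S : Type) [Group G] [MulAction G S] where
  Ch : Type
  [dec : DecidableEq Ch]
  E : ExpSys Ch (Cube S)
  [act : MulAction (SV G S) E.PV]
  mono : ∀ (g : SV G S) (a b : E.PV), a ≤ b → g • a ≤ g • b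
  inv : ∀ (m : ℕ) (g : SV G S), ∀ a ∈ E.Vert m, g • a ∈ E.Vert m
  ne : (E.Vert 1).Nonempty
  dir : ∀ m, ∀ v ∈ E.Vert m, ∀ w ∈ E.Vert m, ∃ m', ∃ u ∈ E.Vert m', v ≤ u ∧ w ≤ u
  fin : (∀ n, Finite (MulAction.orbitRel.Quotient G (Fin n → S))) → ∀ m k,
    ∃ T : Set (List E.PV), T.Finite ∧
      ∀ l, IsChn (E.Vert m) k l → ∃ g : SV G S, l.map (fun a => g • a) ∈ T
  stabV : ∀ m, ∀ v ∈ E.Vert m, ∃ (N : Subgroup (MulAction.stabilizer (SV G S) v)) (n : ℕ),
    N.Normal ∧ N.FiniteIndex ∧ Nonempty (N ≃* (Fin n → G))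
  stabC : ∀ m k l, IsChn (E.Vert m) (k + 1) l →
    ∃ (N : Subgroup (⨅ a ∈ l, MulAction.stabilizer (SV G S) a : Subgroup (SV G S))) (n : ℕ)
      (F : Fin n → Finset S),
      N.FiniteIndex ∧ Nonempty (N ≃* ∀ i, fixingSubgroup G (F i : Set S))

theorem exists_svSys (G S : Type) [Group G] [MulAction G S] [Nonempty S] :
    Nonempty (SVSys G S) :=
  ⟨@SVSys.mk G S _ _ (SVP.Ch G S) (fun a b => Classical.propDecidable (a = b)) (SVP.sys G S)
    SVP.instActPV SVP.smul_mono SVP.smul_vert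
    ⟨_, by simpa using SVP.vtx_mem (G := G) (S := S) SVP.Guil.one⟩ SVP.directed SVP.fin_orbits
    SVP.stabV SVP.stabC⟩

end Crest.Agent.R185
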