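import Crest.Agent.R185.PosetDef

/-!
# Row 185: basic structure of the poset of prevertices
-/

set_option autoImplicit false

namespace Crest.Agent.R185

namespace ExpSys
variable {Ch Pt : Type} [DecidableEq Ch] {E : ExpSys Ch Pt}

theorem svq_sub {c : Ch} {B : Finset Ch} (h : E.Exp c B) {b : Ch} (hb : b ∈ B) :
    E.supp b ⊆ E.supp c := by
  rw [← E.exp_union c B h]
  exact Set.subset_biUnion_of_mem (u := E.supp) hb

theorem svq_cover {c : Ch} {B : Finset Ch} (h : E.Exp c B) {p : Pt} (hp : p ∈ E.supp c) :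
    ∃ b ∈ B, p ∈ E.supp b := by
  rw [← E.exp_union c B h] at hp
  simpa using hp

theorem svq_ne {c : Ch} {B : Finset Ch} (h : E.Exp c B) : B.Nonempty := by
  obtain ⟨p, hp⟩ := E.supp_ne c
  obtain ⟨b, hb, -⟩ := svq_cover h hp
  exact ⟨b, hb⟩

/-- Two charts of a prevertex sharing a point are equal. -/
theorem PV.eq_of_mem (w : E.PV) {a b : Ch} (ha : a ∈ w.s) (hb : b ∈ w.s) {p : Pt}
    (h1 : p ∈ E.supp a) (h2 : p ∈ E.supp b) : a = b := by
  by_contra hne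
  exact Set.disjoint_left.1 (w.disj (Finset.mem_coe.2 ha) (Finset.mem_coe.2 hb) hne) h1 h2

theorem PV.eq_of_sub (w : E.PV) {a b x : Ch} (ha : a ∈ w.s) (hb : b ∈ w.s)
    (h1 : E.supp x ⊆ E.supp a) (h2 : E.supp x ⊆ E.supp b) : a = b := by
  obtain ⟨p, hp⟩ := E.supp_ne x
  exact w.eq_of_mem ha hb (h1 hp) (h2 hp)

open Classical in
/-- The charts of `w` inside `X`. -/
noncomputable def PV.res (w : E.PV) (X : Set Pt) : E.PV :=
  ⟨w.s.filter fun a => E.supp a ⊆ X, w.disj.subset (Finset.coe_subset.2 (Finset.filter_subset _ _))⟩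

theorem PV.mem_res {w : E.PV} {X : Set Pt} {a : Ch} :
    a ∈ (w.res X).s ↔ a ∈ w.s ∧ E.supp a ⊆ X := by
  simp [PV.res]

/-- The block of `w` below the chart `c`. -/
noncomputable abbrev PV.blk (w : E.PV) (c : Ch) : Finset Ch := (w.res (E.supp c)).s

theorem svq_le_iff {w v : E.PV} : w ≤ v ↔
    (∀ b ∈ w.s, E.Exp b (v.blk b)) ∧ ∀ a ∈ v.s, ∃ b ∈ w.s, E.supp a ⊆ E.supp b := by
  constructor
  · rintro ⟨D, h1, h2⟩
    have hc : ∀ a ∈ v.s, ∃ b ∈ w.s, a ∈ D b := by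
      intro a ha
      rw [h2] at ha
      exact Finset.mem_biUnion.1 ha
    refine ⟨fun b hb => ?_, fun a ha => ?_⟩
    · have : v.blk b = D b := by
        ext a
        rw [PV.mem_res]
        constructor
        · rintro ⟨ha, hs⟩
          obtain ⟨b', hb', ha'⟩ := hc a ha
          rw [w.eq_of_sub hb hb' hs (svq_sub (h1 b' hb') ha')]
          exact ha'
        · intro ha
          refine ⟨?_, svq_sub (h1 b hb) ha⟩
          rw [h2]
          exact Finset.mem_biUnion.2 ⟨b, hb, ha⟩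
      rw [this]
      exact h1 b hb
    · obtain ⟨b, hb, ha'⟩ := hc a ha
      exact ⟨b, hb, svq_sub (h1 b hb) ha'⟩
  · rintro ⟨h1, h2⟩
    refine ⟨v.blk, h1, ?_⟩
    ext a
    rw [Finset.mem_biUnion]
    constructor
    · intro ha
      obtain ⟨b, hb, hs⟩ := h2 a ha
      exact ⟨b, hb, PV.mem_res.2 ⟨ha, hs⟩⟩
    · rintro ⟨b, -, ha⟩
      exact (PV.mem_res.1 ha).1

theorem PV.blk_self {w : E.PV} {c : Ch} (hc : c ∈ w.s) : w.blk c = {c} := by
  ext a
  rw [PV.mem_res, Finset.mem_singleton]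
  constructor
  · rintro ⟨ha, hs⟩
    exact w.eq_of_sub ha hc le_rfl hs
  · rintro rfl
    exact ⟨hc, le_rfl⟩

theorem svq_card_eq {w v : E.PV} (h : w ≤ v) : v.s.card = ∑ b ∈ w.s, (v.blk b).card := by
  obtain ⟨h1, h2⟩ := svq_le_iff.1 h
  have : v.s = w.s.biUnion v.blk := by
    ext a
    rw [Finset.mem_biUnion]
    constructor
    · intro ha
      obtain ⟨b, hb, hs⟩ := h2 a ha
      exact ⟨b, hb, PV.mem_res.2 ⟨ha, hs⟩⟩
    · rintro ⟨b, -, ha⟩
      exact (PV.mem_res.1 ha).1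
  conv_lhs => rw [this]
  refine Finset.card_biUnion fun b hb b' hb' hne => ?_
  refine Finset.disjoint_left.2 fun a ha ha' => hne ?_
  exact w.eq_of_sub hb hb' (PV.mem_res.1 ha).2 (PV.mem_res.1 ha').2

theorem svq_card_le {w v : E.PV} (h : w ≤ v) : w.s.card ≤ v.s.card := by
  rw [svq_card_eq h, Finset.card_eq_sum_ones]
  exact Finset.sum_le_sum fun b hb => (svq_ne ((svq_le_iff.1 h).1 b hb)).card_pos

theorem svq_eq_of_card {w v : E.PV} (h : w ≤ v) (hc : v.s.card ≤ w.s.card) : w = v := by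
  obtain ⟨h1, h2⟩ := svq_le_iff.1 h
  have h3 : ∀ b ∈ w.s, (v.blk b).card = 1 := by
    have e : ∑ b ∈ w.s, 1 = ∑ b ∈ w.s, (v.blk b).card := by
      apply le_antisymm
      · exact Finset.sum_le_sum fun b hb => (svq_ne (h1 b hb)).card_pos
      · rw [← svq_card_eq h, ← Finset.card_eq_sum_ones]; exact hc
    intro b hb
    exact ((Finset.sum_eq_sum_iff_of_le
      (fun b hb => (svq_ne (h1 b hb)).card_pos)).1 e b hb).symm
  have h4 : w.s ⊆ v.s := by
    intro b hb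
    obtain ⟨c, hc'⟩ := Finset.card_eq_one.1 (h3 b hb)
    have h5 := h1 b hb
    rw [hc'] at h5
    have h6 := E.exp_single _ _ h5
    subst h6
    have : c ∈ v.blk c := by rw [hc']; simp
    exact (PV.mem_res.1 this).1
  exact PV.ext (Finset.eq_of_subset_of_card_le h4 hc)

instance svq_partialOrder : PartialOrder E.PV :=
  { (inferInstance : Preorder E.PV) with
    le_antisymm := fun _ _ h h' => svq_eq_of_card h (svq_card_le h') }

theorem svq_card_lt {w v : E.PV} (h : w ≤ v) (hne : w ≠ v) : w.s.card < v.s.card :=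
  lt_of_not_ge fun hc => hne (svq_eq_of_card h hc)

theorem svq_union_eq {w v : E.PV} (h : w ≤ v) :
    ⋃ b ∈ w.s, E.supp b = ⋃ b ∈ v.s, E.supp b := by
  obtain ⟨h1, h2⟩ := svq_le_iff.1 h
  ext p
  simp only [Set.mem_iUnion, exists_prop]
  constructor
  · rintro ⟨b, hb, hp⟩
    obtain ⟨a, ha, hp'⟩ := svq_cover (h1 b hb) hp
    exact ⟨a, (PV.mem_res.1 ha).1, hp'⟩
  · rintro ⟨a, ha, hp⟩
    obtain ⟨b, hb, hs⟩ := h2 a ha
    exact ⟨b, hb, hs hp⟩

/-- No chart of `w` straddles the boundary of `X`. -/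
def PV.Sat (w : E.PV) (X : Set Pt) : Prop := ∀ a ∈ w.s, E.supp a ⊆ X ∨ E.supp a ⊆ Xᶜ

theorem PV.Sat.compl {w : E.PV} {X : Set Pt} (h : w.Sat X) : w.Sat Xᶜ := fun a ha => by
  rw [compl_compl]; exact (h a ha).symm

theorem PV.Sat.mono {w v : E.PV} {X : Set Pt} (h : w.Sat X) (hwv : w ≤ v) : v.Sat X := by
  intro a ha
  obtain ⟨b, hb, hs⟩ := (svq_le_iff.1 hwv).2 a ha
  exact (h b hb).imp hs.trans hs.trans

theorem svq_not_sub_both {a : Ch} {X : Set Pt} (h1 : E.supp a ⊆ X) (h2 : E.supp a ⊆ Xᶜ) :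
    False := by
  obtain ⟨p, hp⟩ := E.supp_ne a
  exact h2 hp (h1 hp)

theorem PV.blk_res {w : E.PV} {X : Set Pt} {c : Ch} (hc : E.supp c ⊆ X) :
    (w.res X).blk c = w.blk c := by
  ext a
  simp only [PV.mem_res]
  exact ⟨fun h => ⟨h.1.1, h.2⟩, fun h => ⟨⟨h.1, h.2.trans hc⟩, h.2⟩⟩

theorem PV.res_mono {w v : E.PV} {X : Set Pt} (h : w.Sat X) (hwv : w ≤ v) :
    w.res X ≤ v.res X := by
  obtain ⟨h1, h2⟩ := svq_le_iff.1 hwv
  refine svq_le_iff.2 ⟨fun b hb => ?_, fun a ha => ?_⟩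
  · obtain ⟨hb1, hb2⟩ := PV.mem_res.1 hb
    rw [PV.blk_res hb2]
    exact h1 b hb1
  · obtain ⟨ha1, ha2⟩ := PV.mem_res.1 ha
    obtain ⟨b, hb, hs⟩ := h2 a ha1
    refine ⟨b, PV.mem_res.2 ⟨hb, (h b hb).resolve_right fun h' => ?_⟩, hs⟩
    exact svq_not_sub_both ha2 (hs.trans h')

theorem PV.le_of_res {w v : E.PV} {X : Set Pt} (hw : w.Sat X) (hv : v.Sat X)
    (h1 : w.res X ≤ v.res X) (h2 : w.res Xᶜ ≤ v.res Xᶜ) : w ≤ v := by
  obtain ⟨h3, h4⟩ := svq_le_iff.1 h1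
  obtain ⟨h5, h6⟩ := svq_le_iff.1 h2
  refine svq_le_iff.2 ⟨fun b hb => ?_, fun a ha => ?_⟩
  · rcases hw b hb with h | h
    · rw [← PV.blk_res h]; exact h3 b (PV.mem_res.2 ⟨hb, h⟩)
    · rw [← PV.blk_res h]; exact h5 b (PV.mem_res.2 ⟨hb, h⟩)
  · rcases hv a ha with h | h
    · obtain ⟨b, hb, hs⟩ := h4 a (PV.mem_res.2 ⟨ha, h⟩)
      exact ⟨b, (PV.mem_res.1 hb).1, hs⟩
    · obtain ⟨b, hb, hs⟩ := h6 a (PV.mem_res.2 ⟨ha, h⟩)
      exact ⟨b, (PV.mem_res.1 hb).1, hs⟩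

theorem PV.card_res {w : E.PV} {X : Set Pt} (hw : w.Sat X) :
    w.s.card = (w.res X).s.card + (w.res Xᶜ).s.card := by
  rw [← Finset.card_union_of_disjoint]
  · congr 1
    ext a
    simp only [Finset.mem_union, PV.mem_res]
    exact ⟨fun h => (hw a h).imp (fun h' => ⟨h, h'⟩) fun h' => ⟨h, h'⟩,
      fun h => h.elim And.left And.left⟩
  · exact Finset.disjoint_left.2 fun a h1 h2 =>
      svq_not_sub_both (PV.mem_res.1 h1).2 (PV.mem_res.1 h2).2

/-- Gluing a prevertex inside `X` with a prevertex outside `X`. -/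
theorem PV.exists_glue (u w : E.PV) (X : Set Pt) (hu : ∀ a ∈ u.s, E.supp a ⊆ X)
    (hw : ∀ a ∈ w.s, E.supp a ⊆ Xᶜ) : ∃ z : E.PV, z.Sat X ∧ z.res X = u ∧ z.res Xᶜ = w := by
  refine ⟨⟨u.s ∪ w.s, ?_⟩, ?_, ?_, ?_⟩
  · rw [Finset.coe_union]
    refine u.disj.union w.disj fun a ha b hb _ => ?_
    exact Set.disjoint_of_subset (hu a ha) (hw b hb) disjoint_compl_right
  · intro a ha
    exact (Finset.mem_union.1 ha).imp (hu a) (hw a)
  · ext a
    simp only [PV.mem_res, Finset.mem_union]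
    exact ⟨fun h => h.1.resolve_right fun h' => svq_not_sub_both h.2 (hw a h'),
      fun h => ⟨Or.inl h, hu a h⟩⟩
  · ext a
    simp only [PV.mem_res, Finset.mem_union]
    exact ⟨fun h => h.1.resolve_left fun h' => svq_not_sub_both (hu a h') h.2,
      fun h => ⟨Or.inr h, hw a h⟩⟩

/-- Everything below a prevertex inside `X` is inside `X`. -/
theorem PV.sub_of_le_res {u v : E.PV} {X : Set Pt} (h : u ≤ v.res X) :
    ∀ a ∈ u.s, E.supp a ⊆ X := by
  intro a ha p hp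
  obtain ⟨b, hb, hp'⟩ := svq_cover ((svq_le_iff.1 h).1 a ha) hp
  exact (PV.mem_res.1 (PV.mem_res.1 hb).1).2 hp'

variable (E) in
/-- The prevertex with a single chart. -/
def sing (c : Ch) : E.PV := ⟨{c}, by simp⟩

theorem sing_le_iff {c : Ch} {u : E.PV} : E.sing c ≤ u ↔ E.Exp c u.s := by
  constructor
  · rintro ⟨D, h1, h2⟩
    have : u.s = D c := by simpa [sing] using h2
    rw [this]
    exact h1 c (by simp [sing])
  · intro h
    exact ⟨fun _ => u.s, fun b hb => by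
      obtain rfl : b = c := by simpa [sing] using hb
      exact h, by simp [sing]⟩

theorem PV.sat_of_exp {w : E.PV} {c : Ch} (h : E.Exp c (w.blk c)) : w.Sat (E.supp c) := by
  intro a ha
  by_cases hs : E.supp a ⊆ (E.supp c)ᶜ
  · exact Or.inr hs
  · obtain ⟨p, hp, hp'⟩ := Set.not_subset.1 hs
    obtain ⟨b, hb, hp''⟩ := svq_cover h (not_not.1 hp')
    obtain ⟨hb1, hb2⟩ := PV.mem_res.1 hb
    rw [w.eq_of_mem ha hb1 hp hp'']
    exact Or.inl hb2

theorem PV.exp_of_mem {w : E.PV} {c : Ch} (h : c ∈ w.s) : E.Exp c (w.blk c) := by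
  rw [PV.blk_self h]; exact E.exp_refl c

theorem PV.res_of_mem {w : E.PV} {c : Ch} (h : c ∈ w.s) : w.res (E.supp c) = E.sing c :=
  PV.ext (PV.blk_self h)

theorem PV.exp_mono {w v : E.PV} {c : Ch} (h : E.Exp c (w.blk c)) (hwv : w ≤ v) :
    E.Exp c (v.blk c) :=
  sing_le_iff.1 ((sing_le_iff.2 h).trans (PV.res_mono (PV.sat_of_exp h) hwv))

/-- Replace everything meeting the support of `c` by `c`. -/
noncomputable def PV.ins (c : Ch) (w : E.PV) : E.PV :=
  ⟨insert c (w.res (E.supp c)ᶜ).s, by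
    rw [Finset.coe_insert]
    refine (w.res _).disj.insert fun b hb _ => ?_
    exact Set.disjoint_of_subset_right (PV.mem_res.1 (Finset.mem_coe.1 hb)).2
      disjoint_compl_right⟩

theorem PV.mem_ins {c a : Ch} {w : E.PV} :
    a ∈ (w.ins c).s ↔ a = c ∨ (a ∈ w.s ∧ E.supp a ⊆ (E.supp c)ᶜ) := by
  simp [PV.ins, PV.mem_res]

theorem PV.self_mem_ins (c : Ch) (w : E.PV) : c ∈ (w.ins c).s := PV.mem_ins.2 (Or.inl rfl)

theorem PV.sat_ins (c : Ch) (w : E.PV) : (w.ins c).Sat (E.supp c) :=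
  PV.sat_of_exp (PV.exp_of_mem (PV.self_mem_ins c w))

theorem PV.res_ins (c : Ch) (w : E.PV) :
    (w.ins c).res (E.supp c)ᶜ = w.res (E.supp c)ᶜ := by
  ext a
  simp only [PV.mem_res, PV.mem_ins]
  constructor
  · rintro ⟨rfl | h, h'⟩
    · exact (svq_not_sub_both le_rfl h').elim
    · exact h
  · intro h
    exact ⟨Or.inr h, h.2⟩

theorem PV.ins_le {c : Ch} {w : E.PV} (h : E.Exp c (w.blk c)) : w.ins c ≤ w := by
  refine PV.le_of_res (PV.sat_ins c w) (PV.sat_of_exp h) ?_ ?_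
  · rw [PV.res_of_mem (PV.self_mem_ins c w)]
    exact sing_le_iff.2 h
  · rw [PV.res_ins]

theorem PV.ins_mono {c : Ch} {w v : E.PV} (h : w.Sat (E.supp c)) (hwv : w ≤ v) :
    w.ins c ≤ v.ins c := by
  refine PV.le_of_res (PV.sat_ins c w) (PV.sat_ins c v) ?_ ?_
  · rw [PV.res_of_mem (PV.self_mem_ins c w), PV.res_of_mem (PV.self_mem_ins c v)]
  · rw [PV.res_ins, PV.res_ins]
    exact PV.res_mono h.compl hwv

theorem PV.res_res (w : E.PV) (X : Set Pt) : (w.res X).res X = w.res X := by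
  ext a
  simp only [PV.mem_res]
  tauto

theorem PV.res_eq_self {w : E.PV} {X : Set Pt} (h : ∀ a ∈ w.s, E.supp a ⊆ X) : w.res X = w := by
  ext a
  simp only [PV.mem_res]
  exact ⟨And.left, fun ha => ⟨ha, h a ha⟩⟩

theorem PV.ins_res {c : Ch} {w : E.PV} (h : c ∈ w.s) : (w.res (E.supp c)ᶜ).ins c = w := by
  have hs := PV.sat_of_exp (PV.exp_of_mem h)
  apply le_antisymm
  · refine PV.le_of_res (PV.sat_ins _ _) hs ?_ ?_
    · rw [PV.res_of_mem (PV.self_mem_ins c _), PV.res_of_mem h]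
    · rw [PV.res_ins, PV.res_res]
  · refine PV.le_of_res hs (PV.sat_ins _ _) ?_ ?_
    · rw [PV.res_of_mem (PV.self_mem_ins c _), PV.res_of_mem h]
    · rw [PV.res_ins, PV.res_res]

/-- If the block of `c` in `v` is not larger than the block of a chart `b ⊆ c` then `b = c`. -/
theorem PV.eq_of_blk_card {w v : E.PV} (hwv : w ≤ v) {b c : Ch} (hb : b ∈ w.s)
    (hc : E.Exp c (w.blk c)) (hs : E.supp b ⊆ E.supp c)
    (hcard : (v.blk c).card ≤ (v.blk b).card) : b = c := by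
  have h1 : v.blk b = v.blk c := by
    refine Finset.eq_of_subset_of_card_le (fun a ha => ?_) hcard
    obtain ⟨h2, h3⟩ := PV.mem_res.1 ha
    exact PV.mem_res.2 ⟨h2, h3.trans hs⟩
  have h2 : E.supp c ⊆ E.supp b := by
    intro p hp
    obtain ⟨a, ha, hp'⟩ := svq_cover (PV.exp_mono hc hwv) hp
    rw [← h1] at ha
    exact (PV.mem_res.1 ha).2 hp'
  have h3 : w.blk c = {b} := by
    ext a
    rw [PV.mem_res, Finset.mem_singleton]
    constructor
    · rintro ⟨ha, hs'⟩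
      exact w.eq_of_sub ha hb le_rfl (hs'.trans h2)
    · rintro rfl
      exact ⟨hb, hs⟩
  rw [h3] at hc
  exact E.exp_single _ _ hc

end ExpSys

end Crest.Agent.R185
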