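import Crest.Agent.R185.CertLib
import Crest.Agent.R185.PresLib

/-!
# Row 185: the free group on `a, b` and the conjugates `a^n b^(m+1) a^(-n)`
-/

set_option autoImplicit false

namespace Crest.Agent.R185.St

/-- Translations act on the free group on `ℤ`. -/
def shift : Multiplicative ℤ →* MulAut (FreeGroup ℤ) :=
  MonoidHom.mk' (fun k => FreeGroup.freeGroupCongr (Equiv.addRight k.toAdd)) fun a b => by
    refine MulEquiv.toMonoidHom_injective (FreeGroup.ext_hom _ _ fun j => ?_)
    simp [add_comm, add_left_comm]

theorem shift_apply (k : Multiplicative ℤ) (w : FreeGroup ℤ) :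
    shift k w = FreeGroup.map (fun j => j + k.toAdd) w := rfl

theorem norm_map_le {α β : Type} [DecidableEq α] [DecidableEq β] (f : α → β) (w : FreeGroup α) :
    (FreeGroup.map f w).norm ≤ w.norm := by
  conv_lhs => rw [← FreeGroup.mk_toWord (x := w), FreeGroup.map.mk]
  refine FreeGroup.norm_mk_le.trans ?_
  simp [FreeGroup.norm]

theorem norm_shift (k : Multiplicative ℤ) (w : FreeGroup ℤ) : (shift k w).norm = w.norm := by
  refine le_antisymm (norm_map_le _ _) ?_
  have : w = shift k⁻¹ (shift k w) := by
    rw [← MulAut.mul_apply, ← map_mul, inv_mul_cancel, map_one, MulAut.one_apply]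
  conv_lhs => rw [this]
  exact norm_map_le _ _

/-- The map to the semidirect product. -/
def Φ : FreeGroup Bool →* FreeGroup ℤ ⋊[shift] Multiplicative ℤ :=
  FreeGroup.lift fun c => bif c then SemidirectProduct.inl (FreeGroup.of 0)
    else SemidirectProduct.inr (Multiplicative.ofAdd 1)

/-- The seminorm on the free group of rank two. -/
def νF (g : FreeGroup Bool) : ℕ := (Φ g).left.norm

theorem isSN_νF : IsSN νF := by
  refine ⟨by simp [νF], fun a b => ?_, fun a => ?_⟩
  · rw [νF, map_mul, SemidirectProduct.mul_left]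
    refine (FreeGroup.norm_mul_le _ _).trans ?_
    rw [norm_shift]
    exact le_rfl
  · rw [νF, map_inv, SemidirectProduct.inv_left, norm_shift, FreeGroup.norm_inv_eq]
    rfl

theorem νF_of (c : Bool) : νF (FreeGroup.of c) ≤ 1 := by
  cases c <;> simp [νF, Φ]

theorem νF_mk_le (w : Word Bool) : νF (FreeGroup.mk w) ≤ w.length := by
  have := isSN_νF.evW_le (z := FreeGroup.of) νF_of w
  rwa [evW_of, one_mul] at this

theorem evW_replicate {κ G : Type} [Group G] (z : κ → G) (k : ℕ) (x : κ × Bool) :
    evW z (List.replicate k x) = (bif x.2 then z x.1 else (z x.1)⁻¹) ^ k := by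
  induction k with
  | zero => simp
  | succ k ih => rw [List.replicate_succ, evW_cons, ih, pow_succ']

variable {ι : Type} [Encodable ι] (m : ℕ)

/-- The word `a^n b^(m+1) a^(-n)`. -/
def uW (i : ι) : Word Bool :=
  List.replicate (Encodable.encode i) (false, true) ++ List.replicate (m + 1) (true, true) ++
    List.replicate (Encodable.encode i) (false, false)

theorem evW_uW {G : Type} [Group G] (z : Bool → G) (i : ι) :
    evW z (uW m i) = z false ^ Encodable.encode i * z true ^ (m + 1) *
      (z false ^ Encodable.encode i)⁻¹ := by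
  simp [uW, evW_replicate, mul_assoc]

/-- The embedding of the free group on `ι`. -/
def u : FreeGroup ι →* FreeGroup Bool := FreeGroup.lift fun i => FreeGroup.mk (uW m i)

theorem u_of (i : ι) : u m (FreeGroup.of i) = FreeGroup.mk (uW m i) := by simp [u]

theorem u_mk (U : Word ι) : u m (FreeGroup.mk U) = FreeGroup.mk (subst (uW m) U) := by
  rw [← evW_of (subst _ _), evW_subst]
  simp only [evW_of]
  rfl

/-- The stretched word. -/
def pW (U : Word ι) : Word ℤ :=
  U.flatMap fun x => List.replicate (m + 1) (((Encodable.encode x.1 : ℕ) : ℤ), x.2)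

theorem pW_cons (x : ι × Bool) (U : Word ι) :
    pW m (x :: U) = List.replicate (m + 1) (((Encodable.encode x.1 : ℕ) : ℤ), x.2) ++ pW m U := by
  simp [pW]

theorem length_pW (U : Word ι) : (pW m U).length = (m + 1) * U.length := by
  induction U with
  | nil => simp [pW]
  | cons x U ih => rw [pW_cons, List.length_append, ih, List.length_replicate, List.length_cons]; ring

theorem head?_pW (U : Word ι) :
    (pW m U).head? = U.head?.map fun x => (((Encodable.encode x.1 : ℕ) : ℤ), x.2) := by
  cases U with
  | nil => simp [pW]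
  | cons x U => rw [pW_cons, List.replicate_succ]; rfl

theorem isReduced_pW {U : Word ι} (h : FreeGroup.IsReduced U) : FreeGroup.IsReduced (pW m U) := by
  induction U with
  | nil => simp [pW]
  | cons x U ih =>
    rw [FreeGroup.IsReduced, List.isChain_cons] at h
    rw [pW_cons, FreeGroup.IsReduced, List.isChain_append]
    refine ⟨List.isChain_replicate_of_rel _ fun _ => rfl, ih h.2, fun p hp q hq => ?_⟩
    rw [head?_pW] at hq
    obtain ⟨y, hy, rfl⟩ := Option.mem_map.1 hq
    have hp' : p = (((Encodable.encode x.1 : ℕ) : ℤ), x.2) :=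
      List.eq_of_mem_replicate (List.mem_of_getLast? hp)
    subst hp'
    intro e
    exact h.1 y hy (Encodable.encode_injective (Int.natCast_inj.1 e))

theorem Φ_u (U : Word ι) :
    Φ (u m (FreeGroup.mk U)) = SemidirectProduct.inl (FreeGroup.mk (pW m U)) := by
  have h1 : ∀ i : ι, Φ (u m (FreeGroup.of i)) =
      SemidirectProduct.inl (FreeGroup.of ((Encodable.encode i : ℕ) : ℤ) ^ (m + 1)) := by
    intro i
    rw [u_of, ← evW_of, map_evW, evW_uW]
    have e : FreeGroup.of ((Encodable.encode i : ℕ) : ℤ) ^ (m + 1) =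
        shift (Multiplicative.ofAdd 1 ^ Encodable.encode i) (FreeGroup.of 0 ^ (m + 1)) := by
      rw [map_pow, shift_apply]
      simp
    rw [e, SemidirectProduct.inl_aut]
    simp [Φ]
  induction U with
  | nil => simp [pW, ← FreeGroup.one_eq_mk]
  | cons x U ih =>
    rw [pW_cons, ← FreeGroup.mul_mk, ← List.singleton_append, ← FreeGroup.mul_mk, map_mul, map_mul,
      map_mul, ih]
    congr 1
    rw [← evW_of (List.replicate _ _), evW_replicate, ← evW_of]
    rcases x with ⟨i, _ | _⟩
    · simp [h1]
    · simp [h1]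

theorem le_νF_u [DecidableEq ι] (U : FreeGroup ι) : (m + 1) * U.norm ≤ νF (u m U) := by
  conv_rhs => rw [← FreeGroup.mk_toWord (x := U)]
  rw [νF, Φ_u, SemidirectProduct.left_inl, FreeGroup.norm, FreeGroup.norm, FreeGroup.toWord_mk,
    (isReduced_pW m FreeGroup.isReduced_toWord).reduce_eq, length_pW]

theorem u_injective : Function.Injective (u (ι := ι) m) := by
  classical
  refine (injective_iff_map_eq_one _).2 fun U hU => ?_
  have := le_νF_u m U
  rw [hU, isSN_νF.one] at this
  exact FreeGroup.norm_eq_zero.1 (by nlinarith)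

theorem wn_lift_le (X : MG ι) (U : FreeGroup ι) :
    m * X.wn (FreeGroup.lift X.gen U) ≤ νF (u m U) := by
  classical
  have h1 := le_νF_u m U
  have h2 : X.wn (FreeGroup.lift X.gen U) ≤ U.norm := by
    conv_lhs => rw [← FreeGroup.mk_toWord (x := U)]
    exact X.wn_le _
  nlinarith

theorem mem_range_u (w : Word Bool) : FreeGroup.mk w ∈ (u (ι := ι) m).range ↔
    ∃ U : Word ι, U.length ≤ w.length ∧ FreeGroup.mk w = FreeGroup.mk (subst (uW m) U) := by
  classical
  constructor
  · rintro ⟨U, hU⟩
    have h1 := le_νF_u m U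
    have h2 := νF_mk_le w
    rw [hU] at h1
    refine ⟨U.toWord, ?_, by rw [← u_mk, FreeGroup.mk_toWord, hU]⟩
    change U.norm ≤ _
    nlinarith
  · rintro ⟨U, -, h⟩
    exact ⟨FreeGroup.mk U, by rw [u_mk, h]⟩

theorem primrec_replicate {α : Type} [Primcodable α] (x : α) :
    Primrec fun k : ℕ => List.replicate k x :=
  (Primrec.list_map Primrec.list_range (Primrec.const x).to₂).of_eq fun k => by simp

theorem primrec_uW {ι : Type} [Primcodable ι] (m : ℕ) : Primrec (uW (ι := ι) m) :=
  Primrec.list_append.comp (Primrec.list_append.comp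
    ((primrec_replicate _).comp Primrec.encode) (Primrec.const _))
    ((primrec_replicate _).comp Primrec.encode)

theorem re_not_mem_range_u {ι : Type} [Primcodable ι] [Finite ι] (m : ℕ) :
    REPred fun w : Word Bool => FreeGroup.mk w ∉ (u (ι := ι) m).range := by
  obtain ⟨g, hg, hg'⟩ := exists_allWords (ι := ι)
  have h1 : REPred fun p : Word Bool × Word ι =>
      ¬ FreeGroup.mk p.1 = FreeGroup.mk (subst (uW m) p.2) :=
    re_of_primrecPred (PrimrecPred.not (primrecPred_mk_eq.comp
      (Primrec.fst.pair ((primrec_subst _).comp Primrec.snd))))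
  refine (re_forall_mem h1 (hg.comp Primrec.list_length).to_comp).of_eq fun w => ?_
  rw [mem_range_u]
  simp only [hg', not_exists, not_and]

end Crest.Agent.R185.St
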