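import Crest.Agent.R185.ThDef

/-!
# Row 185: the action of `Θ`: links and the stabiliser of the base point
-/

set_option autoImplicit false

namespace Crest.Agent.R185.Th

variable {C : Type} [Group C] {K : Subgroup C} {A : Set (VC C)}

theorem act_lab (γ γ' : VC C) (y : Cu) :
    lab γ' y = lab γ (vv (γ⁻¹ * γ') y) * lab (γ⁻¹ * γ') y := by
  rw [← lab_mul, mul_inv_cancel_left]

theorem act_lab_false {e : VC C} (he : e ∈ LabIn K) (a : VC C) {y : Cu} (hy : hd y = false) :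
    lab (e * io true a) y ∈ K := by
  rw [lab_mul, lab_io_of_ne a (by simp [hy]), mul_one]
  exact he _

theorem act_lab_iff {e : VC C} (he : e ∈ LabIn K) {a : VC C} (ha : Sound K a) (y : Cu) :
    lab (e * io true a) y ∈ K ↔ hd y = false := by
  refine ⟨fun h => ?_, act_lab_false he a⟩
  by_contra hy
  rw [lab_mul, K.mul_mem_cancel_left (he _), lab_io, if_pos (by simpa using hy)] at h
  exact ha _ h

theorem act_Cst_iff {γ γ' : VC C} (h : γ⁻¹ * γ' ∈ Cst K) (y : Cu) :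
    lab γ' y ∈ K ↔ lab γ (vv (γ⁻¹ * γ') y) ∈ K := by
  obtain ⟨k, hk, h⟩ := h
  rw [act_lab γ γ' y, h, K.mul_mem_cancel_right hk]

theorem act_Cst_le : Cst K ≤ Cst ⊤ := fun _ ⟨k, _, h⟩ => ⟨k, trivial, h⟩

theorem act_io_mem_Hd (b : Bool) (d : VC C) : io b d ∈ Hd C := hd_vv_io b d

theorem Lk_func (k : Bool) (x y y' : Pt K) (h : Lk K A k x y) (h' : Lk K A k x y') : y = y' := by
  cases k
  · obtain ⟨e, he, ⟨rfl, rfl⟩ | ⟨a, -, rfl, rfl⟩⟩ := h <;>
      obtain ⟨e', he', ⟨hx, rfl⟩ | ⟨a', -, hx, rfl⟩⟩ := h' <;>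
      obtain ⟨hi, hs⟩ := smul_oo_eq_iff.1 hx
    · obtain ⟨c, -, hc⟩ := hs
      refine smul_oo_eq_iff.2 ⟨rfl, c, ?_, hc⟩
      rw [← hc fun _ _ => false]
      exact (LabIn K).mul_mem ((LabIn K).inv_mem he) he' _
    · simp at hi
    · simp at hi
    · obtain ⟨⟨c, -, hc⟩, hH⟩ := hs
      refine smul_oo_eq_iff.2 ⟨rfl, c, ?_, hc⟩
      have h1 := act_lab_false he' a' (y := fun _ _ => false) rfl
      rw [act_lab (e * io true a), hc,
        K.mul_mem_cancel_left (act_lab_false he a ((hH _).trans rfl))] at h1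
      exact h1
  · obtain ⟨d, rfl, rfl⟩ := h
    obtain ⟨d', hx, rfl⟩ := h'
    obtain ⟨-, ⟨c, -, hc⟩, -⟩ := smul_oo_eq_iff.1 hx
    refine smul_oo_eq_iff.2 ⟨rfl, c, ?_, hc⟩
    rw [← hc fun _ _ => false, ← map_inv, ← map_mul, lab_io_of_ne _ (by simp [hd])]
    exact K.one_mem

theorem Lk_inj (hA : ∀ a ∈ A, Sound K a) (k : Bool) (x x' y : Pt K) (h : Lk K A k x y)
    (h' : Lk K A k x' y) : x = x' := by
  cases k
  · obtain ⟨e, he, ⟨rfl, rfl⟩ | ⟨a, ha, rfl, rfl⟩⟩ := h <;>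
      obtain ⟨e', he', ⟨rfl, hy⟩ | ⟨a', ha', rfl, hy⟩⟩ := h'
    · exact smul_oo_eq_iff.2 ⟨rfl, act_Cst_le (smul_oo_eq_iff.1 hy).2⟩
    · have h1 := (act_Cst_iff (smul_oo_eq_iff.1 hy).2 fun _ _ => true).2 (he _)
      rw [act_lab_iff he' (hA _ ha')] at h1
      exact absurd h1 (by simp [hd])
    · have h1 := (act_Cst_iff (smul_oo_eq_iff.1 hy.symm).2 fun _ _ => true).2 (he' _)
      rw [act_lab_iff he (hA _ ha)] at h1
      exact absurd h1 (by simp [hd])
    · have hs := (smul_oo_eq_iff.1 hy).2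
      refine smul_oo_eq_iff.2 ⟨rfl, act_Cst_le hs, fun y => ?_⟩
      have h1 := act_Cst_iff hs y
      rw [act_lab_iff he (hA _ ha), act_lab_iff he' (hA _ ha')] at h1
      exact Bool.eq_iff_iff.2 (by rw [← not_iff_not]; simpa using h1.symm)
  · obtain ⟨d, rfl, rfl⟩ := h
    obtain ⟨d', rfl, hy⟩ := h'
    exact smul_oo_eq_iff.2 ⟨rfl, act_Cst_le (smul_oo_eq_iff.1 hy).2,
      (Hd C).mul_mem ((Hd C).inv_mem (act_io_mem_Hd _ _)) (act_io_mem_Hd _ _)⟩

theorem Lk_equiv (k : Bool) (x y : Pt K) {e : VC C} (he : e ∈ EE K k) (h : Lk K A k x y) :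
    Lk K A k (e • x) (e • y) := by
  cases k
  · obtain ⟨e', he', ⟨rfl, rfl⟩ | ⟨a, ha, rfl, rfl⟩⟩ := h
    · exact ⟨e * e', (LabIn K).mul_mem he he', Or.inl ⟨(mul_smul _ _ _).symm, (mul_smul _ _ _).symm⟩⟩
    · exact ⟨e * e', (LabIn K).mul_mem he he', Or.inr ⟨a, ha, by rw [← mul_smul, mul_assoc],
        by rw [← mul_smul, mul_assoc]⟩⟩
  · obtain ⟨d, rfl, rfl⟩ := h
    obtain ⟨d', rfl⟩ := he
    exact ⟨d' * d, by rw [map_mul, mul_smul], by rw [map_mul, mul_smul]⟩

/-- The links of `Θ`. -/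
def LL (hA : ∀ a ∈ A, Sound K a) : Links (DD K) (Pt K) where
  L := Lk K A
  func := Lk_func
  inj := Lk_inj hA
  equiv k x y f h := Lk_equiv k x y f.2 h

theorem Lk_oo (k : Bool) : Lk K A k (oo K (some k)) (oo K none) := by
  cases k
  · exact ⟨1, one_mem _, Or.inl ⟨(one_smul _ _).symm, (one_smul _ _).symm⟩⟩
  · exact ⟨1, by rw [map_one, one_smul], by rw [map_one, one_smul]⟩

theorem t_inv_smul (hA : ∀ a ∈ A, Sound K a) (k : Bool) :
    ((DD K).t k)⁻¹ • (LL hA).j (oo K none) = (LL hA).j (oo K (some k)) := by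
  rw [inv_smul_eq_iff]
  exact ((LL hA).j_link (Lk_oo k)).symm

theorem act_V_mem_KT {u : VC C} (hu : u ∈ VV C) : (DD K).of u ∈ KT K A :=
  Subgroup.subset_closure (Or.inl (Or.inl (Or.inl ⟨u, hu, rfl⟩)))

theorem act_tc_mem_KT (k : Bool) (c : C) :
    (DD K).t k * (DD K).of (cst c) * ((DD K).t k)⁻¹ ∈ KT K A :=
  Subgroup.subset_closure (Or.inl (Or.inl (Or.inr ⟨k, c, rfl⟩)))

theorem act_tio_mem_KT (b : Bool) {u : VC C} (hu : u ∈ VV C) :
    (DD K).t true * (DD K).of (io b u) * ((DD K).t true)⁻¹ ∈ KT K A :=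
  Subgroup.subset_closure (Or.inl (Or.inr ⟨b, u, hu, rfl⟩))

theorem act_a_mem_KT {a : VC C} (ha : a ∈ A) :
    ((DD K).of (io true a))⁻¹ * ((DD K).t false * ((DD K).t true)⁻¹) * (DD K).of (io true a) ∈
      KT K A :=
  Subgroup.subset_closure (Or.inr ⟨a, ha, rfl⟩)

theorem cst_mem_KT {c : C} (hc : c ∈ K) : (DD K).of (cst c) ∈ KT K A := by
  have h1 : cst c ∈ EE K false := fun y => by rw [lab_cst]; exact hc
  have h2 := act_tc_mem_KT (K := K) (A := A) false c
  rwa [(t_commute K h1).eq, mul_inv_cancel_right] at h2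

theorem act_smul_oo {i : Option Bool} {s : VC C} (hs : s ∈ SS K i) : s • oo K i = oo K i := by
  have := smul_oo_eq_iff.2 (⟨rfl, by simpa using hs⟩ : i = i ∧ (1 : VC C)⁻¹ * s ∈ SS K i)
  rw [← this, one_smul]

theorem act_conj_smul (hA : ∀ a ∈ A, Sound K a) (k : Bool) {s : VC C} (hs : s ∈ SS K (some k)) :
    ((DD K).t k * (DD K).of s * ((DD K).t k)⁻¹) • (LL hA).j (oo K none) =
      (LL hA).j (oo K none) := by
  rw [mul_smul, mul_smul, t_inv_smul, ← Links.j_smul, act_smul_oo hs]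
  exact (LL hA).j_link (Lk_oo k)

variable (K) in
/-- Coset representatives of the base points. -/
def act_r : Option Bool → (DD K).MH
  | none => 1
  | some k => ((DD K).t k)⁻¹

theorem act_r_mem {i : Option Bool} {s : VC C} (hs : s ∈ SS K i) :
    (act_r K i)⁻¹ * (DD K).of s * act_r K i ∈ KT K A := by
  rcases i with _ | _ | _
  · obtain ⟨k, hk, u, hu, rfl⟩ := mem_Cst_iff.1 hs
    simp only [act_r, inv_one, one_mul, mul_one, map_mul]
    exact mul_mem (cst_mem_KT hk) (act_V_mem_KT hu)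
  · obtain ⟨c, -, u, hu, rfl⟩ := mem_Cst_iff.1 hs
    have h1 : u ∈ EE K false := VV_le_LabIn K hu
    have h2 := mul_mem (act_tc_mem_KT (K := K) (A := A) false c) (act_V_mem_KT hu)
    simp only [act_r, inv_inv, map_mul]
    rwa [mul_assoc, (t_commute K h1).inv_left.eq, ← mul_assoc, mul_assoc ((DD K).t false)] at h2
  · obtain ⟨c, u₀, h₀, u₁, h₁, rfl⟩ := mem_Cst_Hd_iff.1 hs
    have h2 := mul_mem (mul_mem (act_tc_mem_KT (K := K) (A := A) true c) (act_tio_mem_KT false h₀))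
      (act_tio_mem_KT true h₁)
    simp only [act_r, inv_inv, map_mul]
    convert h2 using 1
    group

variable (K A) in
/-- The coset attached to a point. -/
def act_c (x : Pt K) : (DD K).MH ⧸ KT K A :=
  Quotient.liftOn' x.2 (fun γ => (((DD K).of γ * act_r K x.1 : (DD K).MH) : (DD K).MH ⧸ KT K A))
    fun γ γ' h => QuotientGroup.eq.2 (by
      have := act_r_mem (A := A) (QuotientGroup.leftRel_apply.1 h)
      convert this using 1
      rw [map_mul, map_inv]
      group)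

theorem act_c_smul_oo (γ : VC C) (i : Option Bool) :
    act_c K A (γ • oo K i) = (((DD K).of γ * act_r K i : (DD K).MH) : (DD K).MH ⧸ KT K A) := by
  rw [smul_oo]
  rfl

theorem act_c_smul (γ : VC C) (x : Pt K) : act_c K A (γ • x) = (DD K).of γ • act_c K A x := by
  obtain ⟨i, γ', rfl⟩ := exists_name x
  rw [← mul_smul, act_c_smul_oo, act_c_smul_oo, MulAction.Quotient.smul_coe, smul_eq_mul, map_mul,
    mul_assoc]

theorem act_c_link (k : Bool) (x y : Pt K) (h : Lk K A k x y) :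
    (DD K).t k • act_c K A x = act_c K A y := by
  have key : ∀ (k : Bool) (e : VC C), e ∈ EE K k →
      (DD K).t k • act_c K A (e • oo K (some k)) = act_c K A (e • oo K none) := by
    intro k e he
    rw [act_c_smul_oo, act_c_smul_oo, MulAction.Quotient.smul_coe, smul_eq_mul, ← mul_assoc,
      (t_commute K he).eq]
    simp [act_r]
  cases k
  · obtain ⟨e, he, ⟨rfl, rfl⟩ | ⟨a, ha, rfl, rfl⟩⟩ := h
    · exact key false e he
    · rw [act_c_smul_oo, act_c_smul_oo, MulAction.Quotient.smul_coe, smul_eq_mul, eq_comm,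
        QuotientGroup.eq]
      have h1 : Commute ((DD K).t false) ((DD K).of e) := t_commute K he
      have h2 : Commute ((DD K).t true) ((DD K).of (io true a)) := t_commute K ⟨a, rfl⟩
      convert act_a_mem_KT (K := K) ha using 1
      simp only [act_r, map_mul, mul_one, mul_inv_rev, mul_assoc]
      rw [h2.inv_left.eq, ← mul_assoc ((DD K).t false), h1.eq, mul_assoc ((DD K).of e),
        inv_mul_cancel_left]
  · obtain ⟨d, rfl, rfl⟩ := h
    exact key true _ ⟨d, rfl⟩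

/-- `KT` is the stabiliser of the base point. -/
theorem mem_KT_iff (hA : ∀ a ∈ A, Sound K a) (g : (DD K).MH) :
    g ∈ KT K A ↔ g • (LL hA).j (oo K none) = (LL hA).j (oo K none) := by
  constructor
  · intro hg
    refine (Subgroup.closure_le (MulAction.stabilizer (DD K).MH ((LL hA).j (oo K none)))).2 ?_ hg
    rintro _ (((⟨u, hu, rfl⟩ | ⟨k, c, rfl⟩) | ⟨b, u, hu, rfl⟩) | ⟨a, ha, rfl⟩) <;>
      rw [SetLike.mem_coe, MulAction.mem_stabilizer_iff]
    · rw [← Links.j_smul, act_smul_oo (i := none) ⟨1, K.one_mem, mem_VV.1 hu⟩]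
    · refine act_conj_smul hA k ?_
      cases k
      · exact ⟨c, trivial, lab_cst c⟩
      · exact ⟨⟨c, trivial, lab_cst c⟩, fun _ => rfl⟩
    · exact act_conj_smul hA true
        ⟨⟨1, trivial, mem_VV.1 (io_mem_LabIn hu b)⟩, act_io_mem_Hd b u⟩
    · have h1 : (DD K).t true • (LL hA).j (io true a • oo K (some true)) =
          (LL hA).j (io true a • oo K none) := (LL hA).j_link (k := true) ⟨a, rfl, rfl⟩
      have h2 : (DD K).t false • (LL hA).j (io true a • oo K (some true)) =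
          (LL hA).j (io true a • oo K none) := (LL hA).j_link (k := false)
        ⟨1, one_mem _, Or.inr ⟨a, ha, by rw [one_mul], by rw [one_mul]⟩⟩
      rw [mul_smul, mul_smul, mul_smul, ← Links.j_smul, ← h1, inv_smul_smul, h2, Links.j_smul,
        inv_smul_smul]
  · intro hg
    have h := (LL hA).univ (act_c K A) act_c_smul act_c_link hg
    rw [← one_smul (VC C) (oo K none), act_c_smul_oo, MulAction.Quotient.smul_coe, eq_comm,
      QuotientGroup.eq] at h
    simpa [act_r] using h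

theorem inv_mul_mem_KT_iff (hA : ∀ a ∈ A, Sound K a) (g g' : (DD K).MH) :
    g⁻¹ * g' ∈ KT K A ↔ g' • (LL hA).j (oo K none) = g • (LL hA).j (oo K none) := by
  rw [mem_KT_iff hA, mul_smul, inv_smul_eq_iff]

end Crest.Agent.R185.Th
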