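import Crest.Agent.R185.ThMark
import Crest.Agent.R185.CertLib

/-!
# Row 185: certificates in `V(X)`
-/

set_option autoImplicit false

namespace Crest.Agent.R185.Th

section Aux

variable {C : Type} [Group C]

theorem tc_std_inV {u : VC Unit} {p p' : List Bool} (h : Std u p p' 1) :
    Std (inV u : VC C) p p' 1 := fun z => ⟨(h z).1, lab_inV _ _⟩

theorem tc_std_cone (c : C) : Std (cone c) [false] [false] c :=
  Std.io (σ := cst c) (p := []) (p' := []) (fun _ => ⟨rfl, lab_cst _ _⟩) false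

theorem tc_std_false_iff {τ : VC C} {c : C} :
    Std τ [false] [false] c ↔ ∃ d, τ = cone c * io true d := by
  constructor
  · intro h
    have h1 := (tc_std_cone c).inv.mul h
    obtain ⟨d, hd'⟩ : (cone c)⁻¹ * τ ∈ (io true).range := mem_range_io.2 fun y hy => by
      have h2 := h1 (tl y)
      rwa [cp_tl_of_hd (by simpa using hy), inv_mul_cancel] at h2
    exact ⟨d, by rw [hd', mul_inv_cancel_left]⟩
  · rintro ⟨d, rfl⟩
    have h1 : Std (io true d) [false] [false] 1 := fun z =>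
      ⟨vv_io_of_ne _ (by simp), lab_io_of_ne _ (by simp)⟩
    simpa using (tc_std_cone c).mul h1

theorem tc_std_iff {σ a a' : VC C} {p p' : List Bool} {c : C} (ha : Std a [false] p 1)
    (ha' : Std a' [false] p' 1) : Std σ p p' c ↔ ∃ d, a'⁻¹ * σ * a = cone c * io true d := by
  rw [← tc_std_false_iff]
  constructor
  · intro h
    simpa using (ha'.inv.mul h).mul ha
  · intro h
    simpa [mul_assoc] using (ha'.mul h).mul ha.inv

theorem tc_exists_std (σ : VC C) (y : Cu) :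
    ∃ p p' z, p ≠ [] ∧ p' ≠ [] ∧ y = cp p z ∧ Std σ p p' (lab σ y) := by
  obtain ⟨p, p', c, z, rfl, h⟩ := exists_std_at σ y
  refine ⟨p ++ [hd z], p' ++ [hd z], tl z, by simp, by simp, by rw [cp_append, cp_hd_tl], ?_⟩
  rw [(h z).2]
  exact h.append _

theorem tc_hd_cp {p : List Bool} (hp : p ≠ []) (z : Cu) : hd (cp p z) = p.headI := by
  cases p with
  | nil => exact absurd rfl hp
  | cons b p => rfl

theorem tc_pred_fin {α : Type} [Primcodable α] [Finite α] (p : α → Prop) : PrimrecPred p := by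
  classical
  exact ⟨inferInstance, Primrec.dom_finite _⟩

theorem tc_exists_A (ι : Type) [Primcodable ι] [Finite ι] :
    ∃ A : List Bool → Word (ιV ι), Primrec A ∧
      ∀ (X : MG ι) (p : List Bool), p ≠ [] → Std (evV X (A p)) [false] p 1 := by
  choose u hu using fun b : Bool => exists_V_std (p := [false]) (p' := [b]) (by simp) (by simp)
  choose u' hu' using fun b : Bool =>
    exists_V_std (p := [false]) (p' := [b, false]) (by simp) (by simp)
  refine ⟨fun p => List.recOn p [] fun b l ih =>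
    if l = [] then sV ι (u b) else subst (sI b) ih ++ sV ι (u' b), ?_, fun X p hp => ?_⟩
  · have hb : Primrec fun v : List Bool × Bool × List Bool × Word (ιV ι) => v.2.1 :=
      Primrec.fst.comp Primrec.snd
    have hs : Primrec₂ fun (b : Bool) (i : ιV ι) => sI b i := Primrec.dom_finite _
    refine Primrec.list_rec (h := fun _ v => if v.2.1 = [] then sV ι (u v.1) else
      subst (sI v.1) v.2.2 ++ sV ι (u' v.1)) Primrec.id (Primrec.const []) ?_
    exact Primrec.ite (Primrec.eq.comp (Primrec.fst.comp (Primrec.snd.comp Primrec.snd))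
      (Primrec.const [])) ((Primrec.dom_finite fun b => sV ι (u b)).comp hb)
      (Primrec.list_append.comp ((primrec_subst₂ hs).comp hb
        (Primrec.snd.comp (Primrec.snd.comp Primrec.snd)))
        ((Primrec.dom_finite fun b => sV ι (u' b)).comp hb))
  · induction p with
    | nil => exact absurd rfl hp
    | cons b l ih =>
      by_cases hl : l = []
      · subst hl
        simp only [if_true, evV_sV]
        exact tc_std_inV (hu b)
      · simp only [hl, if_false, evV, evW_append]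
        have h1 := ((ih hl).io b).mul (tc_std_inV (hu' b))
        rw [← evV_subst_sI, ← evV_sV X, mul_one] at h1
        exact h1

end Aux

variable {ι : Type} [Primcodable ι] [Finite ι] {𝒞 : Ctx} (X : 𝒞.Ω → MG ι)
  (hE : Cert 𝒞 (fun ω w => (X ω).ev w = 1) fun _ _ => 0)

include hE

theorem cert_Veq : Cert 𝒞 (fun ω w => evV (X ω) w = 1) fun _ _ => 0 := by
  obtain ⟨R, hR⟩ := exists_presV (ι := ι)
  refine cert_eq_of_pres (fun ω => VM (X ω)) _ (fun ω => hR (X ω)) ?_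
  have h1 : Cert 𝒞 (fun _ (r : Word (ιV ι)) => r ∈ R) fun _ _ => 0 :=
    Cert.of_re (re_of_primrecPred (cl_primrecRel_mem.comp Primrec.id (Primrec.const R))) _
  have h2 : Cert 𝒞 (fun _ (v : Word (ιV ι) × Word ι) => ren Sum.inr v.2 = v.1) fun _ _ => 0 :=
    Cert.of_re (re_of_primrecPred (Primrec.eq.comp
      ((primrec_ren (Primrec.dom_finite _)).comp Primrec.snd) Primrec.fst)) _
  have h3 : Cert 𝒞 (fun ω (r : Word (ιV ι)) => r ∈ ren Sum.inr '' (X ω).rel) fun _ _ => 0 :=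
    ((hE.comp Computable.snd).and h2).guess (fun ω r u h => ⟨u, h⟩)
      fun ω r n _ _ ⟨u, h⟩ => ⟨u, h, by simp⟩
  exact (h1.or h3).mono fun _ _ _ => by simp

/-- The basic tool. -/
theorem cert_std : Cert 𝒞 (fun ω (a : Word (ιV ι) × List Bool × List Bool × Word ι) =>
    a.2.1 ≠ [] ∧ a.2.2.1 ≠ [] ∧ Std (evV (X ω) a.1) a.2.1 a.2.2.1 ((X ω).ev a.2.2.2))
    fun _ _ => 0 := by
  obtain ⟨A, hA, hAs⟩ := tc_exists_A ι
  have p1 : Primrec fun v : (Word (ιV ι) × List Bool × List Bool × Word ι) × Word (ιV ι) =>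
      v.1.2.1 := Primrec.fst.comp (Primrec.snd.comp Primrec.fst)
  have p2 : Primrec fun v : (Word (ιV ι) × List Bool × List Bool × Word ι) × Word (ιV ι) =>
      v.1.2.2.1 := Primrec.fst.comp (Primrec.snd.comp (Primrec.snd.comp Primrec.fst))
  have p3 : Primrec fun v : (Word (ιV ι) × List Bool × List Bool × Word ι) × Word (ιV ι) =>
      v.1.2.2.2 := Primrec.snd.comp (Primrec.snd.comp (Primrec.snd.comp Primrec.fst))
  have h1 : Cert 𝒞 (fun _ (v : (Word (ιV ι) × List Bool × List Bool × Word ι) × Word (ιV ι)) =>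
      v.1.2.1 ≠ [] ∧ v.1.2.2.1 ≠ []) fun _ _ => 0 :=
    Cert.of_re (re_of_primrecPred ((Primrec.eq.comp p1 (Primrec.const [])).not.and
      (Primrec.eq.comp p2 (Primrec.const [])).not)) _
  have h2 := (cert_eq₂ (fun ω => VM (X ω)) (cert_Veq X hE)).comp
    (f := fun v : (Word (ιV ι) × List Bool × List Bool × Word ι) × Word (ιV ι) =>
      ((A v.1.2.2.1).inv ++ v.1.1 ++ A v.1.2.1, ren Sum.inr v.1.2.2.2 ++ subst (sI true) v.2))
    ((Primrec.list_append.comp (Primrec.list_append.comp (primrec_inv.comp (hA.comp p2))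
      (Primrec.fst.comp Primrec.fst)) (hA.comp p1)).pair (Primrec.list_append.comp
        ((primrec_ren (Primrec.dom_finite _)).comp p3)
        ((primrec_subst _).comp Primrec.snd))).to_comp
  have key : ∀ ω (w : Word (ιV ι)) (p p' : List Bool) (c : Word ι) (d : Word (ιV ι)),
      (VM (X ω)).ev ((A p').inv ++ w ++ A p) = (VM (X ω)).ev (ren Sum.inr c ++ subst (sI true) d) ↔
        (evV (X ω) (A p'))⁻¹ * evV (X ω) w * evV (X ω) (A p) =
          cone ((X ω).ev c) * io true (evV (X ω) d) := by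
    intro ω w p p' c d
    rw [← evV_ren_inr, ← evV_subst_sI]
    simp only [MG.ev, evW_append, evW_inv]
  refine (h1.and h2).guess ?_ ?_
  · rintro ω ⟨w, p, p', c⟩ d ⟨⟨hp, hp'⟩, h⟩
    exact ⟨hp, hp', (tc_std_iff (hAs _ p hp) (hAs _ p' hp')).2 ⟨_, (key ω w p p' c d).1 h⟩⟩
  · rintro ω ⟨w, p, p', c⟩ n _ _ ⟨hp, hp', h⟩
    obtain ⟨d, hd'⟩ := (tc_std_iff (hAs _ p hp) (hAs _ p' hp')).1 h
    obtain ⟨d, rfl⟩ := (VM (X ω)).surj d
    exact ⟨d, ⟨⟨hp, hp'⟩, (key ω w p p' c d).2 hd'⟩, by simp⟩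

theorem cert_mov (b : Bool) :
    Cert 𝒞 (fun ω w => ∃ y, hd y = b ∧ vv (evV (X ω) w) y ≠ y) fun _ _ => 0 := by
  have p1 : Primrec fun v : Word (ιV ι) × List Bool × List Bool × Word ι => v.2.1 :=
    Primrec.fst.comp Primrec.snd
  have p2 : Primrec fun v : Word (ιV ι) × List Bool × List Bool × Word ι => v.2.2.1 :=
    Primrec.fst.comp (Primrec.snd.comp Primrec.snd)
  have h1 : Cert 𝒞 (fun _ (v : Word (ιV ι) × List Bool × List Bool × Word ι) =>
      v.2.1.headI = b ∧ v.2.1 ≠ v.2.2.1) fun _ _ => 0 :=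
    Cert.of_re (re_of_primrecPred ((Primrec.eq.comp (Primrec.list_headI.comp p1)
      (Primrec.const b)).and (Primrec.eq.comp p1 p2).not)) _
  refine ((cert_std X hE).and h1).guess ?_ ?_
  · rintro ω w ⟨p, p', c⟩ ⟨⟨hp, -, h⟩, hb, hne⟩
    obtain ⟨z, hz⟩ := not_forall.1 fun h' => hne (eq_of_cp_eq h')
    exact ⟨cp p z, (tc_hd_cp hp z).trans hb, by rw [(h z).1]; exact Ne.symm hz⟩
  · rintro ω w n _ _ ⟨y, hy, hne⟩
    obtain ⟨p, p', z, hp, hp', rfl, h⟩ := tc_exists_std (evV (X ω) w) y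
    obtain ⟨c, hc⟩ := (X ω).surj (lab (evV (X ω) w) (cp p z))
    refine ⟨(p, p', c), ⟨⟨hp, hp', by rwa [← hc] at h⟩, (tc_hd_cp hp z).symm.trans hy, ?_⟩, by simp⟩
    intro (e : p = p')
    exact hne (by rw [(h z).1, e])

/-- A point with a prescribed label. -/
theorem tc_cert_pt (B : Bool → Bool → Prop) :
    Cert 𝒞 (fun ω (v : Word (ιV ι) × Word ι) => ∃ y, B (hd y) (hd (vv (evV (X ω) v.1) y)) ∧
      lab (evV (X ω) v.1) y = (X ω).ev v.2) fun _ _ => 0 := by
  have p1 : Primrec fun v : (Word (ιV ι) × Word ι) × List Bool × List Bool => v.2.1 :=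
    Primrec.fst.comp Primrec.snd
  have p2 : Primrec fun v : (Word (ιV ι) × Word ι) × List Bool × List Bool => v.2.2 :=
    Primrec.snd.comp Primrec.snd
  have h1 : Cert 𝒞 (fun _ (v : (Word (ιV ι) × Word ι) × List Bool × List Bool) =>
      B v.2.1.headI v.2.2.headI) fun _ _ => 0 :=
    Cert.of_re (re_of_primrecPred ((tc_pred_fin fun x : Bool × Bool => B x.1 x.2).comp
      ((Primrec.list_headI.comp p1).pair (Primrec.list_headI.comp p2)))) _
  have h2 := (cert_std X hE).comp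
    (f := fun v : (Word (ιV ι) × Word ι) × List Bool × List Bool => (v.1.1, v.2.1, v.2.2, v.1.2))
    ((Primrec.fst.comp Primrec.fst).pair (p1.pair (p2.pair (Primrec.snd.comp Primrec.fst)))).to_comp
  refine (h2.and h1).guess ?_ ?_
  · rintro ω ⟨w, c⟩ ⟨p, p'⟩ ⟨⟨hp, hp', h⟩, hB⟩
    refine ⟨cp p fun _ _ => false, ?_, (h _).2⟩
    rwa [(h _).1, tc_hd_cp hp, tc_hd_cp hp']
  · rintro ω ⟨w, c⟩ n _ _ ⟨y, hB, hc⟩
    obtain ⟨p, p', z, hp, hp', rfl, h⟩ := tc_exists_std (evV (X ω) w) y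
    refine ⟨(p, p'), ⟨⟨hp, hp', by rwa [hc] at h⟩, ?_⟩, by simp⟩
    rwa [(h _).1, tc_hd_cp hp, tc_hd_cp hp'] at hB

theorem cert_one (B : Bool → Bool → Prop) (P : ∀ ω, (X ω).G → Prop)
    (hP : Cert 𝒞 (fun ω w => P ω ((X ω).ev w)) fun ω w => (X ω).wn ((X ω).ev w)) :
    Cert 𝒞 (fun ω w => ∃ y, B (hd y) (hd (vv (evV (X ω) w) y)) ∧ P ω (lab (evV (X ω) w) y))
      fun ω w => νV (X ω) (evV (X ω) w) := by
  refine ((tc_cert_pt X hE B).and (hP.comp Computable.snd)).guess ?_ ?_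
  · rintro ω w c ⟨⟨y, hB, hc⟩, h⟩
    exact ⟨y, hB, hc ▸ h⟩
  · rintro ω w n _ hn ⟨y, hB, h⟩
    obtain ⟨c, hc⟩ := (X ω).surj (lab (evV (X ω) w) y)
    refine ⟨c, ⟨⟨y, hB, hc.symm⟩, by rwa [← hc] at h⟩, max_le (Nat.zero_le _) (le_trans ?_ hn)⟩
    simpa only [MG.ev, hc] using le_nV (X ω).wn (evV (X ω) w) y

theorem cert_two (B B' : Bool → Bool → Prop) (P : ∀ ω, (X ω).G → Prop)
    (hP : Cert 𝒞 (fun ω w => P ω ((X ω).ev w)) fun ω w => (X ω).wn ((X ω).ev w)) :
    Cert 𝒞 (fun ω w => ∃ y y', B (hd y) (hd (vv (evV (X ω) w) y)) ∧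
      B' (hd y') (hd (vv (evV (X ω) w) y')) ∧
        P ω (lab (evV (X ω) w) y * (lab (evV (X ω) w) y')⁻¹))
      fun ω w => 2 * νV (X ω) (evV (X ω) w) := by
  have p1 : Primrec fun v : Word (ιV ι) × Word ι × Word ι => v.2.1 := Primrec.fst.comp Primrec.snd
  have p2 : Primrec fun v : Word (ιV ι) × Word ι × Word ι => v.2.2 := Primrec.snd.comp Primrec.snd
  have h1 := (tc_cert_pt X hE B).comp (f := fun v : Word (ιV ι) × Word ι × Word ι => (v.1, v.2.1))
    (Primrec.fst.pair p1).to_comp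
  have h2 := (tc_cert_pt X hE B').comp (f := fun v : Word (ιV ι) × Word ι × Word ι => (v.1, v.2.2))
    (Primrec.fst.pair p2).to_comp
  have h3 := hP.comp (f := fun v : Word (ιV ι) × Word ι × Word ι => v.2.1 ++ v.2.2.inv)
    (Primrec.list_append.comp p1 (primrec_inv.comp p2)).to_comp
  refine ((h1.and h2).and h3).guess ?_ ?_
  · rintro ω w ⟨c, c'⟩ ⟨⟨⟨y, hB, hc⟩, y', hB', hc'⟩, h⟩
    refine ⟨y, y', hB, hB', ?_⟩
    rw [hc, hc']
    simpa only [MG.ev, evW_append, evW_inv] using h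
  · rintro ω w n _ hn ⟨y, y', hB, hB', h⟩
    obtain ⟨c, hc⟩ := (X ω).surj (lab (evV (X ω) w) y)
    obtain ⟨c', hc'⟩ := (X ω).surj (lab (evV (X ω) w) y')
    refine ⟨(c, c'), ⟨⟨⟨y, hB, hc.symm⟩, y', hB', hc'.symm⟩, ?_⟩,
      max_le (by simp) (le_trans ?_ hn)⟩
    · simpa only [MG.ev, evW_append, evW_inv, hc, hc'] using h
    · simp only [MG.ev, evW_append, evW_inv, hc, hc']
      refine ((X ω).isSN_wn.mul _ _).trans ?_
      rw [(X ω).isSN_wn.inv, two_mul]
      exact add_le_add (le_nV _ _ _) (le_nV _ _ _)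

theorem cert_sound (K : ∀ ω, Subgroup (X ω).G)
    (hK : Cert 𝒞 (fun ω w => (X ω).ev w ∉ K ω) fun ω w => (X ω).wn ((X ω).ev w)) :
    Cert 𝒞 (fun ω x => Sound (K ω) (evV (X ω) x)) fun ω x => νV (X ω) (evV (X ω) x) := by
  obtain ⟨g, hg, hgm⟩ := exists_allWords (ι := Unit)
  have h1 := (cert_std X hE).comp
    (f := fun v : (Word (ιV ι) × List Bool) × List Bool × Word ι => (v.1.1, v.1.2, v.2))
    ((Primrec.fst.comp Primrec.fst).pair ((Primrec.snd.comp Primrec.fst).pair Primrec.snd)).to_comp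
  have h2 := hK.comp (f := fun v : (Word (ιV ι) × List Bool) × List Bool × Word ι => v.2.2)
    (Primrec.snd.comp Primrec.snd).to_comp
  have h3 : Cert 𝒞 (fun ω (v : Word (ιV ι) × List Bool) => v.2 ≠ [] ∧
      ∃ p' c, p' ≠ [] ∧ Std (evV (X ω) v.1) v.2 p' c ∧ c ∉ K ω)
      fun ω v => νV (X ω) (evV (X ω) v.1) := by
    refine (h1.and h2).guess ?_ ?_
    · rintro ω ⟨w, p⟩ ⟨p', c⟩ ⟨⟨hp, hp', h⟩, hc⟩
      exact ⟨hp, p', _, hp', h, hc⟩
    · rintro ω ⟨w, p⟩ n _ hn ⟨hp, p', c, hp', h, hc⟩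
      obtain ⟨c, rfl⟩ := (X ω).surj c
      refine ⟨(p', c), ⟨⟨hp, hp', h⟩, hc⟩, max_le (Nat.zero_le _) (le_trans ?_ hn)⟩
      simpa only [MG.ev, (h fun _ _ => false).2] using
        le_nV (X ω).wn (evV (X ω) w) (cp p fun _ _ => false)
  have h4 : Cert 𝒞 (fun _ (v : (Word (ιV ι) × ℕ) × Word Unit) => v.2.length ≠ v.1.2)
      fun _ _ => 0 :=
    Cert.of_re (re_of_primrecPred (Primrec.eq.comp (Primrec.list_length.comp Primrec.snd)
      (Primrec.snd.comp Primrec.fst)).not) _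
  have h5 := h3.comp (f := fun v : (Word (ιV ι) × ℕ) × Word Unit => (v.1.1, v.2.map Prod.snd))
    ((Primrec.fst.comp Primrec.fst).pair
      (Primrec.list_map Primrec.snd (Primrec.snd.comp Primrec.snd).to₂)).to_comp
  have h6 := (h4.or h5).forall_mem (g := fun v : Word (ιV ι) × ℕ => g v.2)
    (hg.comp Primrec.snd).to_comp (ν' := fun ω v => νV (X ω) (evV (X ω) v.1))
    fun _ _ _ _ _ => max_le (Nat.zero_le _) le_rfl
  refine h6.guess ?_ ?_
  · intro ω x d h y
    obtain ⟨p, z, hp, rfl⟩ := exists_prefix d y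
    rcases h (p.map fun b => ((), b)) ((hgm _ _).2 (by simp [hp])) with h' | ⟨-, p', c, -, h', hc⟩
    · exact absurd (by simp [hp]) h'
    · have e : (p.map fun b => ((), b)).map Prod.snd = p := by simp [Function.comp_def]
      simp only [e] at h'
      rwa [(h' z).2]
  · intro ω x n _ hn h
    obtain ⟨d, hd'⟩ := exists_depth (evV (X ω) x)
    refine ⟨d + 1, fun u _ => or_iff_not_imp_left.2 fun hu => ?_, hn⟩
    have hu' : (u.map Prod.snd).length = d + 1 := by simpa using hu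
    simp only
    generalize u.map Prod.snd = p at hu'
    obtain rfl | ⟨q, e, rfl⟩ := p.eq_nil_or_concat'
    · simp at hu'
    · obtain ⟨q', c, hq⟩ := hd' q (by simpa using hu'.ge)
      refine ⟨by simp, q' ++ [e], c, by simp, hq.append _, ?_⟩
      rw [← (hq fun _ _ => false).2]
      exact h _

end Crest.Agent.R185.Th
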