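import Crest.Agent.R185.ThGen
import Crest.Agent.R185.HNN
import Crest.Agent.R185.Pkg

/-!
# Row 185: the marked groups `V(X)`, `Θ(X, K)` and the action of `Θ` (definitions)
-/

set_option autoImplicit false

namespace Crest.Agent.R185.Th

/-! ### Markings -/

/-- The number of generators of Thompson's group. -/
noncomputable def kV : ℕ := exists_vgen.choose

/-- The generators of Thompson's group. -/
noncomputable def vg : Fin kV → VC Unit := exists_vgen.choose_spec.choose

theorem closure_vg : Subgroup.closure (Set.range vg) = ⊤ := exists_vgen.choose_spec.choose_spec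

theorem closure_inV_vg (C : Type) [Group C] :
    Subgroup.closure (Set.range fun j => (inV (vg j) : VC C)) = VV C := by
  rw [← range_inV, MonoidHom.range_eq_map, ← closure_vg, MonoidHom.map_closure, ← Set.range_comp]
  rfl

/-- The alphabet of `V(X)`. -/
abbrev ιV (ι : Type) : Type := Fin kV ⊕ ι

/-- The alphabet of `Θ`. -/
abbrev ιT (ι : Type) : Type := ιV ι ⊕ Bool

variable {ι : Type}

/-- The generators of `V(X)`. -/
noncomputable def genV (X : MG ι) : ιV ι → VC X.G :=
  Sum.elim (fun j => inV (vg j)) fun i => cone (X.gen i)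

theorem MG_closure_gen (X : MG ι) : Subgroup.closure (Set.range X.gen) = ⊤ :=
  eq_top_iff.2 fun g _ => (mem_closure_range_iff _ _).2 (X.surj g)

theorem closure_genV (X : MG ι) : Subgroup.closure (Set.range (genV X)) = ⊤ := by
  have h : LabIn (⊤ : Subgroup X.G) = ⊤ := eq_top_iff.2 fun _ _ _ => trivial
  rw [eq_top_iff, ← h, LabIn_eq_closure (MG_closure_gen X), Subgroup.closure_le]
  rintro σ (hσ | ⟨_, ⟨i, rfl⟩, rfl⟩)
  · rw [SetLike.mem_coe, ← closure_inV_vg] at hσ
    refine Subgroup.closure_mono ?_ hσ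
    rintro _ ⟨j, rfl⟩
    exact ⟨Sum.inl j, rfl⟩
  · exact Subgroup.subset_closure ⟨Sum.inr i, rfl⟩

/-- The marked group `V(X)`. -/
@[reducible] noncomputable def VM (X : MG ι) : MG (ιV ι) where
  G := VC X.G
  gen := genV X
  surj g := (mem_closure_range_iff _ _).1 (by rw [closure_genV]; trivial)

/-- Evaluation of words in `V(X)`. -/
noncomputable abbrev evV (X : MG ι) (w : Word (ιV ι)) : VC X.G := evW (genV X) w

/-- The norm on `V(X)`. -/
noncomputable abbrev νV (X : MG ι) : VC X.G → ℕ := nV X.wn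

section Group
variable {C : Type} [Group C]

/-- The subgroups centralised by the letters `g = false` and `η = true`. -/
def EE (K : Subgroup C) : Bool → Subgroup (VC C)
  | false => LabIn K
  | true => (io true).range

/-- The HNN data of `Θ`. -/
abbrev DD (K : Subgroup C) : HD (VC C) Bool := HD.central (EE K)

theorem DD_E (K : Subgroup C) (k b : Bool) : (DD K).E (k, b) = EE K k :=
  Subgroup.range_subtype _

theorem t_commute (K : Subgroup C) {k : Bool} {e : VC C} (he : e ∈ EE K k) :
    Commute ((DD K).t k) ((DD K).of e) :=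
  mul_inv_eq_iff_eq_mul.1 ((DD K).t_conj k ⟨e, he⟩)

/-- The norm on `Θ`. -/
noncomputable abbrev nT (μ : C → ℕ) (K : Subgroup C) : (DD K).MH → ℕ := (DD K).dnu (nV μ)

/-! ### The action -/

/-- The stabilisers of the three base points. -/
def SS (K : Subgroup C) : Option Bool → Subgroup (VC C)
  | none => Cst K
  | some false => Cst ⊤
  | some true => Cst ⊤ ⊓ Hd C

/-- The points. -/
def Pt (K : Subgroup C) : Type := Σ i : Option Bool, VC C ⧸ SS K i

instance (K : Subgroup C) : MulAction (VC C) (Pt K) :=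
  inferInstanceAs (MulAction (VC C) (Σ i : Option Bool, VC C ⧸ SS K i))

/-- The base points. -/
def oo (K : Subgroup C) (i : Option Bool) : Pt K := ⟨i, ((1 : VC C) : VC C ⧸ SS K i)⟩

theorem smul_oo (K : Subgroup C) (γ : VC C) (i : Option Bool) :
    γ • oo K i = (⟨i, (γ : VC C ⧸ SS K i)⟩ : Σ i : Option Bool, VC C ⧸ SS K i) := by
  change (⟨i, γ • ((1 : VC C) : VC C ⧸ SS K i)⟩ : Σ i : Option Bool, VC C ⧸ SS K i) = _
  rw [MulAction.Quotient.smul_coe, smul_eq_mul, mul_one]

theorem smul_oo_eq_iff {K : Subgroup C} {γ γ' : VC C} {i i' : Option Bool} :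
    γ • oo K i = γ' • oo K i' ↔ i = i' ∧ γ⁻¹ * γ' ∈ SS K i := by
  rw [smul_oo, smul_oo]
  constructor
  · intro h
    obtain rfl : i = i' := congrArg Sigma.fst h
    exact ⟨rfl, QuotientGroup.eq.1 (eq_of_heq (Sigma.mk.inj h).2)⟩
  · rintro ⟨rfl, h⟩
    rw [QuotientGroup.eq.2 h]

theorem exists_name {K : Subgroup C} (x : Pt K) : ∃ i γ, x = (γ : VC C) • oo K i := by
  obtain ⟨i, q⟩ := x
  obtain ⟨γ, rfl⟩ := QuotientGroup.mk_surjective q
  exact ⟨i, γ, (smul_oo K γ i).symm⟩

/-- The links. -/
def Lk (K : Subgroup C) (A : Set (VC C)) : Bool → Pt K → Pt K → Prop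
  | false, x, y => ∃ e ∈ LabIn K, (x = e • oo K (some false) ∧ y = e • oo K none) ∨
      ∃ a ∈ A, x = (e * io true a) • oo K (some true) ∧ y = (e * io true a) • oo K none
  | true, x, y => ∃ d : VC C, x = io true d • oo K (some true) ∧ y = io true d • oo K none

/-- The stabiliser of the base point in `Θ`, by generators. -/
def KT (K : Subgroup C) (A : Set (VC C)) : Subgroup (DD K).MH :=
  Subgroup.closure ((DD K).of '' (VV C) ∪
    {x | ∃ k c, x = (DD K).t k * (DD K).of (cst c) * ((DD K).t k)⁻¹} ∪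
    {x | ∃ b, ∃ u ∈ VV C, x = (DD K).t true * (DD K).of (io b u) * ((DD K).t true)⁻¹} ∪
    {x | ∃ a ∈ A, x = ((DD K).of (io true a))⁻¹ * ((DD K).t false * ((DD K).t true)⁻¹) *
      (DD K).of (io true a)})

end Group

/-- The marked group `Θ(X, K)`. -/
@[reducible] noncomputable def TM (X : MG ι) (K : Subgroup X.G) : MG (ιT ι) := (VM X).hnn (DD K)

/-- Evaluation of words in `Θ(X, K)`. -/
noncomputable abbrev evT (X : MG ι) (K : Subgroup X.G) (w : Word (ιT ι)) : (DD K).MH :=
  (TM X K).ev w

end Crest.Agent.R185.Th
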