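import Crest.Agent.R185.ThV
import Crest.Agent.R185.SVFin
import Crest.Agent.R185.FPres

/-!
# Row 185: structure of the groups `V(C)`
-/

set_option autoImplicit false

namespace Crest.Agent.R185.Th

variable {C C' : Type} [Group C] [Group C']

theorem io_commute (a₀ a₁ : VC C) : Commute (io false a₀) (io true a₁) := by
  refine VC.ext (fun y => ?_) fun y => ?_
  · rw [vv_mul, vv_mul]
    cases h : hd y
    · rw [vv_io_of_ne a₁ (by simp [h]), vv_io_of_ne a₁ (by simp [h])]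
    · rw [vv_io_of_ne a₀ (by simp [h]), vv_io_of_ne a₀ (by simp [h])]
  · rw [lab_mul, lab_mul]
    cases h : hd y
    · rw [vv_io_of_ne a₁ (by simp [h]), lab_io_of_ne a₁ (by simp [h]),
        lab_io_of_ne a₁ (by simp [h]), one_mul, mul_one]
    · rw [vv_io_of_ne a₀ (by simp [h]), lab_io_of_ne a₀ (by simp [h]),
        lab_io_of_ne a₀ (by simp [h]), one_mul, mul_one]

/-- The restriction of a first-letter preserving element to a cone. -/
theorem exists_restrict {σ : VC C} (h : σ ∈ Hd C) (b : Bool) : ∃ a : VC C,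
    ∀ z, cp [b] (vv a z) = vv σ (cp [b] z) ∧ lab a z = lab σ (cp [b] z) := by
  have key : ∀ {τ : VC C}, τ ∈ Hd C → ∀ z, cp [b] (tl (vv τ (cp [b] z))) = vv τ (cp [b] z) :=
    fun hτ z => cp_tl_of_hd (hτ _)
  let v : Equiv.Perm Cu :=
    { toFun := fun z => tl (vv σ (cp [b] z))
      invFun := fun z => tl (vv σ⁻¹ (cp [b] z))
      left_inv := fun z => by simp [key h]
      right_inv := fun z => by
        simp only [key (inv_mem h), vv_vv_inv, tl_cp_cons, cp_nil] }
  refine ⟨mkVC v (fun z => lab σ (cp [b] z)) fun y => ?_, fun z => ⟨key h z, lab_mkVC _ _ _ _⟩⟩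
  obtain ⟨d, hd⟩ := exists_depth σ
  obtain ⟨p, z, hp, rfl⟩ := exists_prefix d y
  obtain ⟨p', c, hs⟩ := hd (b :: p) (by simp [hp])
  cases p' with
  | nil =>
    exfalso
    have h1 := h (cp (b :: p) (cp [!b] z))
    rw [(hs _).1] at h1
    simp at h1
  | cons b' q =>
    refine ⟨p, q, c, z, rfl, fun z => ⟨?_, ?_⟩⟩
    · change tl (vv σ (cp [b] (cp p z))) = _
      rw [← cp_cons, (hs z).1, tl_cp_cons]
    · change lab σ (cp [b] (cp p z)) = _
      rw [← cp_cons, (hs z).2]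

/-- Elements which preserve the first letter split. -/
theorem exists_io_mul {σ : VC C} (h : σ ∈ Hd C) : ∃ a₀ a₁, σ = io false a₀ * io true a₁ ∧
    (∀ z, lab a₀ z = lab σ (cp [false] z)) ∧ ∀ z, lab a₁ z = lab σ (cp [true] z) := by
  obtain ⟨a₀, h₀⟩ := exists_restrict h false
  obtain ⟨a₁, h₁⟩ := exists_restrict h true
  refine ⟨a₀, a₁, VC.ext (fun y => ?_) fun y => ?_, fun z => (h₀ z).2, fun z => (h₁ z).2⟩
  · rw [vv_mul]
    cases hy : hd y
    · rw [vv_io_of_ne a₁ (by simp [hy]), ← cp_tl_of_hd hy, vv_io_cp, (h₀ _).1]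
    · rw [vv_io_of_ne a₀ (by simp [hy]), ← cp_tl_of_hd hy, vv_io_cp, (h₁ _).1]
  · rw [lab_mul]
    cases hy : hd y
    · rw [vv_io_of_ne a₁ (by simp [hy]), lab_io_of_ne a₁ (by simp [hy]), mul_one,
        ← cp_tl_of_hd hy, lab_io_cp, (h₀ _).2]
    · rw [lab_io_of_ne a₀ (by simp [hy]), one_mul, ← cp_tl_of_hd hy, lab_io_cp, (h₁ _).2]

theorem mem_range_io {b : Bool} {σ : VC C} :
    σ ∈ (io b).range ↔ ∀ y, hd y ≠ b → vv σ y = y ∧ lab σ y = 1 := by
  constructor
  · rintro ⟨a, rfl⟩ y hy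
    exact ⟨vv_io_of_ne a hy, lab_io_of_ne a hy⟩
  · intro h
    have hH : σ ∈ Hd C := fun y => by
      by_cases hy : hd y = b
      · by_contra hne
        have h1 : hd (vv σ y) ≠ b := hy ▸ hne
        have h2 : vv σ y = y := (vv σ).injective (h _ h1).1
        exact hne (by rw [h2])
      · rw [(h y hy).1]
    obtain ⟨a, ha⟩ := exists_restrict hH b
    refine ⟨a, VC.ext (fun y => ?_) fun y => ?_⟩
    · by_cases hy : hd y = b
      · rw [← cp_tl_of_hd hy, vv_io_cp, (ha _).1]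
      · rw [vv_io_of_ne a hy, (h y hy).1]
    · by_cases hy : hd y = b
      · rw [← cp_tl_of_hd hy, lab_io_cp, (ha _).2]
      · rw [lab_io_of_ne a hy, (h y hy).2]

theorem range_cp_ne_univ {p : List Bool} (hp : p ≠ []) : Set.range (cp p) ≠ Set.univ := by
  obtain ⟨b, q, rfl⟩ := List.exists_cons_of_ne_nil hp
  intro h
  obtain ⟨z, hz⟩ : cp [!b] (fun _ _ => false) ∈ Set.range (cp (b :: q)) := h ▸ Set.mem_univ _
  simpa using congrArg hd hz

/-- `V` is transitive on proper cones. -/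
theorem exists_V_std {p p' : List Bool} (hp : p ≠ []) (hp' : p' ≠ []) :
    ∃ u : VC Unit, Std u p p' 1 := by
  let σ : Cu × Unit → Cu × Unit := fun x => (cp p' ((br p).unpre x.1), x.2)
  have hσ : ∀ z h, σ (cp p z, h) = (cp p' z, h) := fun z h => by
    simp only [σ, cp, Brick.unpre_pre]
  obtain ⟨τ, hτ⟩ := @exists_extend Unit Unit _ PUnit.mulAction _ (Set.range (cp p))
    (isClopen_cp p) (range_cp_ne_univ hp) σ
    (fun y hy => ⟨br p, br p', 1, hy, fun z h => hσ z h⟩)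
    (by
      rintro ⟨_, h⟩ ⟨⟨z, rfl⟩, -⟩ ⟨_, h'⟩ ⟨⟨z', rfl⟩, -⟩ e
      rw [hσ, hσ] at e
      rw [cp_injective p' (congrArg Prod.fst e)])
    (by
      intro e
      apply range_cp_ne_univ hp'
      refine Set.eq_univ_of_forall fun y => ?_
      obtain ⟨⟨_, h⟩, ⟨⟨z, rfl⟩, -⟩, hz⟩ : (y, ()) ∈ σ '' (Set.range (cp p) ×ˢ Set.univ) :=
        e ▸ Set.mem_univ _
      rw [hσ] at hz
      exact ⟨z, congrArg Prod.fst hz⟩)
  refine ⟨τ, std_iff.2 fun z h => ?_⟩
  exact (hτ (cp p z, h) ⟨⟨z, rfl⟩, trivial⟩).trans (hσ z h)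

/-- `V` is transitive on proper clopen sets. -/
theorem exists_V_clopen {U : Set Cu} (hU : IsClopen U) (h₁ : U.Nonempty) (h₂ : Uᶜ.Nonempty) :
    ∃ u ∈ VV C, ∀ y, vv u y ∈ U ↔ hd y = false := by
  have hne : ∀ b, ({y : Cu | hd y = b}).Nonempty := fun b => ⟨cp [b] fun _ _ => false, rfl⟩
  obtain ⟨σ₀, hb₀, hl₀⟩ := @exists_untw_bij Unit Unit _ PUnit.mulAction _ _ _
    (isClopen_hd false) hU (hne false) h₁
  obtain ⟨σ₁, hb₁, hl₁⟩ := @exists_untw_bij Unit Unit _ PUnit.mulAction _ _ _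
    (isClopen_hd true) hU.compl (hne true) h₂
  obtain ⟨τ, hτ⟩ := @exists_glue Unit Unit _ PUnit.mulAction Bool (fun b => {y : Cu | hd y = b})
    (fun b => cond b Uᶜ U) isClopen_hd (fun y => ⟨hd y, rfl, fun b hb => hb.symm⟩)
    (fun y => by
      by_cases hy : y ∈ U
      · exact ⟨false, hy, fun b hb => by cases b <;> simp_all⟩
      · exact ⟨true, hy, fun b hb => by cases b <;> simp_all⟩)
    (fun b => cond b (Prod.map σ₁ id) (Prod.map σ₀ id))
    (fun b => by cases b; exacts [hl₀, hl₁])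
    (fun b => by
      cases b
      · exact hb₀.prodMap (Set.bijOn_id _)
      · exact hb₁.prodMap (Set.bijOn_id _))
  refine ⟨inV (show VC Unit from τ), inV_mem _, fun y => ?_⟩
  rw [vv_inV]
  cases hy : hd y
  · have h1 : vv (show VC Unit from τ) y = σ₀ y :=
      congrArg Prod.fst (hτ false (y, 1) ⟨hy, trivial⟩)
    rw [h1]
    exact iff_of_true (hb₀.mapsTo hy) rfl
  · have h1 : vv (show VC Unit from τ) y = σ₁ y :=
      congrArg Prod.fst (hτ true (y, 1) ⟨hy, trivial⟩)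
    rw [h1]
    exact iff_of_false (hb₁.mapsTo hy) (by simp)

/-- `c` on the cone `p`, `1` elsewhere. -/
def coneP (p : List Bool) (c : C) : VC C := p.foldr (fun b σ => io b σ) (cst c)

theorem vv_coneP (p : List Bool) (c : C) (y : Cu) : vv (coneP p c) y = y := by
  induction p generalizing y with
  | nil => rfl
  | cons b p ih =>
    change vv (io b (coneP p c)) y = y
    rw [vv_io]
    split_ifs with h
    · rw [ih, cp_tl_of_hd h]
    · rfl

theorem lab_coneP_cp (p : List Bool) (c : C) (z : Cu) : lab (coneP p c) (cp p z) = c := by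
  induction p with
  | nil => exact lab_cst c z
  | cons b p ih =>
    change lab (io b (coneP p c)) _ = c
    rw [cp_cons, lab_io_cp, ih]

theorem lab_coneP_of_not (p : List Bool) (c : C) {y : Cu} (hy : y ∉ Set.range (cp p)) :
    lab (coneP p c) y = 1 := by
  induction p generalizing y with
  | nil => exact absurd ⟨y, rfl⟩ hy
  | cons b p ih =>
    change lab (io b (coneP p c)) _ = 1
    rw [lab_io]
    split_ifs with h
    · refine ih ?_
      rintro ⟨z, hz⟩
      exact hy ⟨z, by rw [cp_cons, hz, cp_tl_of_hd h]⟩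
    · rfl

theorem coneP_eq_conj {p : List Bool} (hp : p ≠ []) (c : C) :
    ∃ u ∈ VV C, coneP p c = u * cone c * u⁻¹ := by
  obtain ⟨u, hu⟩ := exists_V_std (p := [false]) (p' := p) (by simp) hp
  refine ⟨inV u, inV_mem u, ?_⟩
  rw [eq_mul_inv_iff_mul_eq]
  refine VC.ext (fun y => by rw [vv_mul, vv_mul, vv_coneP, vv_cone]) fun y => ?_
  rw [lab_mul, lab_mul, lab_inV, lab_inV, mul_one, one_mul, vv_inV, lab_cone]
  split_ifs with h
  · rw [← cp_tl_of_hd h, (hu _).1, lab_coneP_cp]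
  · refine lab_coneP_of_not p c ?_
    rintro ⟨z, hz⟩
    rw [← (hu z).1] at hz
    exact h (by rw [← (vv u).injective hz]; rfl)

theorem mem_closure_conj {σ : VC C} (h : ∀ y, vv σ y = y) {S : Set C} (hS : ∀ y, lab σ y ∈ S) :
    σ ∈ Subgroup.closure {τ | ∃ u ∈ VV C, ∃ c ∈ S, τ = u * cone c * u⁻¹} := by
  set N := Subgroup.closure {τ | ∃ u ∈ VV C, ∃ c ∈ S, τ = u * cone c * u⁻¹}
  have key : ∀ (d : ℕ) (σ : VC C), (∀ y, vv σ y = y) → (∀ y, lab σ y ∈ S) →
      (∀ p : List Bool, p.length = d → ∀ z z', lab σ (cp p z) = lab σ (cp p z')) →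
      ∀ q : List Bool, q ≠ [] → q.foldr (fun b σ => io b σ) σ ∈ N := by
    intro d
    induction d with
    | zero =>
      intro σ h hS hc q hq
      have h1 : σ = cst (lab σ fun _ _ => false) :=
        VC.ext (fun y => h y) fun y => by rw [lab_cst]; exact hc [] rfl _ _
      obtain ⟨u, hu, e⟩ := coneP_eq_conj hq (lab σ fun _ _ => false)
      rw [h1]
      exact Subgroup.subset_closure ⟨u, hu, _, hS _, e⟩
    | succ d ih =>
      intro σ h hS hc q hq
      have hH : σ ∈ Hd C := fun y => by rw [h]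
      have hres : ∀ b, ∃ a : VC C, (∀ z, vv a z = z ∧ lab a z = lab σ (cp [b] z)) ∧
          (q ++ [b]).foldr (fun b σ => io b σ) a ∈ N := by
        intro b
        obtain ⟨a, ha⟩ := exists_restrict hH b
        have hv : ∀ z, vv a z = z := fun z => cp_injective [b] (by rw [(ha z).1, h])
        refine ⟨a, fun z => ⟨hv z, (ha z).2⟩, ih a hv (fun y => by rw [(ha y).2]; exact hS _)
          (fun p hp z z' => ?_) _ (by simp)⟩
        rw [(ha _).2, (ha _).2, ← cp_cons, ← cp_cons]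
        exact hc (b :: p) (by simp [hp]) z z'
      obtain ⟨a₀, h₀, n₀⟩ := hres false
      obtain ⟨a₁, h₁, n₁⟩ := hres true
      have e : σ = io false a₀ * io true a₁ := by
        refine VC.ext (fun y => ?_) fun y => ?_
        · rw [vv_mul, h]
          cases hy : hd y
          · rw [vv_io_of_ne a₁ (by simp [hy]), ← cp_tl_of_hd hy, vv_io_cp, (h₀ _).1]
          · rw [vv_io_of_ne a₀ (by simp [hy]), ← cp_tl_of_hd hy, vv_io_cp, (h₁ _).1]
        · rw [lab_mul]
          cases hy : hd y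
          · rw [vv_io_of_ne a₁ (by simp [hy]), lab_io_of_ne a₁ (by simp [hy]), mul_one,
              ← cp_tl_of_hd hy, lab_io_cp, (h₀ _).2]
          · rw [lab_io_of_ne a₀ (by simp [hy]), one_mul, ← cp_tl_of_hd hy, lab_io_cp, (h₁ _).2]
      have hmul : ∀ (q : List Bool) (a b : VC C), q.foldr (fun b σ => io b σ) (a * b) =
          q.foldr (fun b σ => io b σ) a * q.foldr (fun b σ => io b σ) b := by
        intro q a b
        induction q with
        | nil => rfl
        | cons c q ih => simp only [List.foldr_cons, ih, map_mul]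
      rw [List.foldr_append] at n₀ n₁
      rw [e, hmul]
      exact N.mul_mem n₀ n₁
  obtain ⟨d, hd⟩ := exists_depth σ
  have hH : σ ∈ Hd C := fun y => by rw [h]
  obtain ⟨a₀, a₁, e, h₀, h₁⟩ := exists_io_mul hH
  have hv : ∀ b a, (∀ z, vv (io b a : VC C) (cp [b] z) = cp [b] z) → ∀ z, vv a z = z :=
    fun b a ha z => cp_injective [b] (by rw [← vv_io_cp, ha])
  have hdep : ∀ b (a : VC C), (∀ z, lab a z = lab σ (cp [b] z)) →
      ∀ p : List Bool, p.length = d → ∀ z z', lab a (cp p z) = lab a (cp p z') := by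
    intro b a ha p hp z z'
    obtain ⟨p', c, hs⟩ := hd (b :: p) (by simp [hp])
    rw [ha, ha, ← cp_cons, ← cp_cons, (hs z).2, (hs z').2]
  rw [e]
  refine N.mul_mem
    (key d a₀ (hv false a₀ fun z => ?_) (fun y => h₀ y ▸ hS _) (hdep false a₀ h₀) [false] (by simp))
    (key d a₁ (hv true a₁ fun z => ?_) (fun y => h₁ y ▸ hS _) (hdep true a₁ h₁) [true] (by simp))
  · have := h (cp [false] z)
    rwa [e, vv_mul, vv_io_of_ne a₁ (by simp)] at this
  · have := h (cp [true] z)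
    rwa [e, (io_commute a₀ a₁).eq, vv_mul, vv_io_of_ne a₀ (by simp)] at this

/-- The `V`-part of an element. -/
theorem exists_V_part (σ : VC C) : ∃ u ∈ VV C, ∀ y, vv u y = vv σ y :=
  ⟨inV (map (1 : C →* Unit) σ), inV_mem _, fun _ => rfl⟩

theorem LabIn_eq_closure {K : Subgroup C} {S : Set C} (hS : Subgroup.closure S = K) :
    LabIn K = Subgroup.closure ((VV C : Set (VC C)) ∪ cone '' S) := by
  refine le_antisymm (fun σ hσ => ?_) ((Subgroup.closure_le _).2 ?_)
  · set N := Subgroup.closure ((VV C : Set (VC C)) ∪ cone '' S)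
    have hV : ∀ u ∈ VV C, u ∈ N := fun u hu => Subgroup.subset_closure (Or.inl hu)
    have hc : ∀ c ∈ K, cone c ∈ N := by
      intro c hc
      rw [← hS] at hc
      have : Subgroup.closure S ≤ N.comap cone :=
        (Subgroup.closure_le _).2 fun s hs => Subgroup.subset_closure (Or.inr ⟨s, hs, rfl⟩)
      exact this hc
    obtain ⟨u, hu, hv⟩ := exists_V_part σ
    have h1 := mem_closure_conj (σ := u⁻¹ * σ) (S := K)
      (fun y => by rw [vv_mul, ← hv, vv_inv_vv])
      ((LabIn K).mul_mem (VV_le_LabIn K (inv_mem hu)) hσ)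
    have h2 : u⁻¹ * σ ∈ N := by
      refine (Subgroup.closure_le N).2 ?_ h1
      rintro _ ⟨w, hw, c, hc', rfl⟩
      exact N.mul_mem (N.mul_mem (hV w hw) (hc c hc')) (N.inv_mem (hV w hw))
    simpa using N.mul_mem (hV u hu) h2
  · rintro σ (hσ | ⟨c, hc, rfl⟩)
    · exact VV_le_LabIn K hσ
    · intro y
      rw [lab_cone]
      split_ifs
      · exact hS ▸ Subgroup.subset_closure hc
      · exact K.one_mem

theorem mem_of_map_eq_one (φ : C →* C') {N : Subgroup (VC C)} [hN : N.Normal]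
    (h : ∀ c, φ c = 1 → cone c ∈ N) {σ : VC C} (hσ : map φ σ = 1) : σ ∈ N := by
  have h1 := mem_closure_conj (σ := σ) (S := {c | φ c = 1})
    (fun y => by rw [← vv_map φ, hσ, vv_one])
    (fun y => by rw [Set.mem_setOf_eq, ← lab_map, hσ, lab_one])
  refine (Subgroup.closure_le N).2 ?_ h1
  rintro _ ⟨w, -, c, hc, rfl⟩
  exact hN.conj_mem _ (h c hc) w

theorem mem_Cst_iff {K : Subgroup C} {σ : VC C} :
    σ ∈ Cst K ↔ ∃ k ∈ K, ∃ u ∈ VV C, σ = cst k * u := by
  constructor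
  · rintro ⟨k, hk, h⟩
    refine ⟨k, hk, (cst k)⁻¹ * σ, mem_VV.2 fun y => ?_, by group⟩
    rw [← map_inv, lab_mul, lab_cst, h, inv_mul_cancel]
  · rintro ⟨k, hk, u, hu, rfl⟩
    exact ⟨k, hk, fun y => by rw [lab_mul, lab_cst, mem_VV.1 hu, mul_one]⟩

theorem cst_mem_Hd (c : C) : cst c ∈ Hd C := fun _ => rfl

theorem io_mem_Hd (b : Bool) (a : VC C) : io b a ∈ Hd C := hd_vv_io b a

theorem mem_Cst_Hd_iff {σ : VC C} : σ ∈ Cst ⊤ ⊓ Hd C ↔
    ∃ c, ∃ u₀ ∈ VV C, ∃ u₁ ∈ VV C, σ = cst c * io false u₀ * io true u₁ := by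
  constructor
  · rintro ⟨h1, h2⟩
    obtain ⟨c, -, u, hu, rfl⟩ := mem_Cst_iff.1 h1
    have h3 : u ∈ Hd C := by
      simpa using (Hd C).mul_mem ((Hd C).inv_mem (cst_mem_Hd c)) h2
    obtain ⟨a₀, a₁, e, h₀, h₁⟩ := exists_io_mul h3
    exact ⟨c, a₀, mem_VV.2 fun y => by rw [h₀, mem_VV.1 hu], a₁,
      mem_VV.2 fun y => by rw [h₁, mem_VV.1 hu], by rw [mul_assoc, ← e]⟩
  · rintro ⟨c, u₀, h₀, u₁, h₁, rfl⟩
    refine ⟨mem_Cst_iff.2 ⟨c, trivial, _, (VV C).mul_mem (io_mem_LabIn h₀ false)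
      (io_mem_LabIn h₁ true), mul_assoc _ _ _⟩, ?_⟩
    exact (Hd C).mul_mem ((Hd C).mul_mem (cst_mem_Hd c) (io_mem_Hd _ _)) (io_mem_Hd _ _)

/-- The key factorisation. -/
theorem exists_key {K : Subgroup C} {γ : VC C} (h : ∀ y, lab γ y ∈ K ↔ hd y = false) :
    ∃ e ∈ LabIn K, ∃ a, Sound K a ∧ (∀ z, lab a z = lab γ (cp [true] z)) ∧
      γ = e * io true a := by
  have hf : IsLocallyConstant fun z => lab γ (cp [true] z) :=
    (isLocallyConstant_lab γ).comp_continuous (continuous_cp [true])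
  refine ⟨γ * (io true (mkLC _ hf))⁻¹, fun y => ?_, mkLC _ hf, fun z => ?_,
    fun z => lab_mkLC _ _ z, by group⟩
  · have hv : ∀ y, vv (io true (mkLC _ hf)) y = y := fun y => by
      rw [vv_io]
      split_ifs with hy
      · rw [vv_mkLC, cp_tl_of_hd hy]
      · rfl
    rw [← hv y, lab_mul, vv_inv_vv, lab_inv_vv, lab_io]
    split_ifs with hy
    · rw [lab_mkLC, cp_tl_of_hd hy, mul_inv_cancel]
      exact K.one_mem
    · rw [inv_one, mul_one, h]
      simpa using hy
  · rw [lab_mkLC, h]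
    simp

theorem exists_idx {n : ℕ} (hn : 0 < n) :
    ∃ idx : Cu → Fin n, Function.Surjective idx ∧ IsLocallyConstant idx := by
  haveI : Nonempty (Fin n) := ⟨⟨0, hn⟩⟩
  obtain ⟨e⟩ : Nonempty (Fin n ↪ (Fin n → Bool)) :=
    Function.Embedding.nonempty_of_card_le (by simpa using Nat.lt_two_pow_self.le)
  let π : Cu → Fin n → Bool := fun y i => y () i
  have hπ : Function.Surjective π := fun f =>
    ⟨fun _ m => if h : m < n then f ⟨m, h⟩ else false, funext fun i => by simp [π]⟩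
  have hc : IsLocallyConstant π :=
    IsLocallyConstant.iff_continuous _ |>.2 (by fun_prop)
  exact ⟨Function.invFun e ∘ π, (Function.invFun_surjective e.injective).comp hπ, hc.comp _⟩

theorem fp_VC (hC : Group.IsFinitelyPresented C) : Group.IsFinitelyPresented (VC C) := by
  refine @SV_fp C Unit _ PUnit.mulAction _ hC (fun n => Quotient.finite _) fun F => ?_
  have : @fixingSubgroup C Unit _ PUnit.mulAction (F : Set Unit) = ⊤ :=
    eq_top_iff.2 fun _ _ => (mem_fixingSubgroup_iff C).2 fun _ _ => rfl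
  rw [this]
  exact Group.fg_def.1 (fg_of_fp hC)

theorem exists_vgen : ∃ (k : ℕ) (vg : Fin k → VC Unit), Subgroup.closure (Set.range vg) = ⊤ := by
  have h : Group.IsFinitelyPresented Unit :=
    fp_of_ker (ι := Empty) 1 (fun _ => ⟨1, rfl⟩)
      ⟨∅, Set.finite_empty, Subsingleton.elim _ _⟩
  obtain ⟨S, hS, hf⟩ := Group.fg_iff.1 (fg_of_fp (fp_VC h))
  obtain ⟨k, f, hf⟩ := hf.fin_param
  exact ⟨k, f, by rw [hf.2, hS]⟩

end Crest.Agent.R185.Th
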