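import Crest.Agent.R185.ThDef
import Crest.Agent.R185.PresLib

/-!
# Row 185: words and presentations for `V(X)` and `Θ(X, K)`
-/

set_option autoImplicit false

namespace Crest.Agent.R185.Th

variable {ι : Type}

/-- The projection from the free group. -/
def prX (X : MG ι) : (MG.free ι).G →* X.G := FreeGroup.lift X.gen

theorem prX_gen (X : MG ι) (i : ι) : prX X ((MG.free ι).gen i) = X.gen i :=
  FreeGroup.lift_apply_of

theorem prX_ev (X : MG ι) (w : Word ι) : prX X ((MG.free ι).ev w) = X.ev w := by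
  rw [MG.ev, map_evW]
  exact congrArg (evW · w) (funext (prX_gen X))

theorem map_genV (X : MG ι) (i : ιV ι) : map (prX X) (genV (MG.free ι) i) = genV X i := by
  rcases i with j | i
  · exact map_inV _ _
  · exact (map_cone _ _).trans (congrArg cone (prX_gen X i))

theorem evV_eq_map (X : MG ι) (w : Word (ιV ι)) :
    evV X w = map (prX X) (evV (MG.free ι) w) := by
  rw [evV, evV, map_evW]
  exact congrArg (evW · w) (funext fun i => (map_genV X i).symm)

theorem exists_word (a : VC (MG.free ι).G) :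
    ∃ w : Word (ιV ι), ∀ X : MG ι, evV X w = map (prX X) a := by
  obtain ⟨w, hw⟩ := (VM (MG.free ι)).surj a
  exact ⟨w, fun X => by rw [evV_eq_map, ← hw]⟩

variable (ι) in
/-- A word for an element of Thompson's group. -/
noncomputable def sV (u : VC Unit) : Word (ιV ι) := (exists_word (inV u)).choose

theorem evV_sV (X : MG ι) (u : VC Unit) : evV X (sV ι u) = inV u := by
  rw [sV, (exists_word (inV u)).choose_spec X, map_inV]

/-- A word for a constant. -/
noncomputable def sC (i : ι) : Word (ιV ι) := (exists_word (cst ((MG.free ι).gen i))).choose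

theorem evV_sC (X : MG ι) (i : ι) : evV X (sC i) = cst (X.gen i) := by
  rw [sC, (exists_word _).choose_spec X, map_cst, prX_gen]

theorem evV_subst_sC (X : MG ι) (w : Word ι) : evV X (subst sC w) = cst (X.ev w) := by
  rw [evV, evW_subst, MG.ev, map_evW]
  exact congrArg (evW · w) (funext (evV_sC X))

/-- The substitution for `io b`. -/
noncomputable def sI (b : Bool) (i : ιV ι) : Word (ιV ι) :=
  (exists_word (io b (genV (MG.free ι) i))).choose

theorem evV_sI (X : MG ι) (b : Bool) (i : ιV ι) : evV X (sI b i) = io b (genV X i) := by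
  rw [sI, (exists_word _).choose_spec X, map_io, map_genV]

theorem evV_subst_sI (X : MG ι) (b : Bool) (w : Word (ιV ι)) :
    evV X (subst (sI b) w) = io b (evV X w) := by
  rw [evV, evW_subst, evV, map_evW]
  exact congrArg (evW · w) (funext (evV_sI X b))

theorem evV_ren_inr (X : MG ι) (w : Word ι) : evV X (ren Sum.inr w) = cone (X.ev w) := by
  rw [evV, evW_ren, MG.ev, map_evW]
  rfl

theorem νV_genV (X : MG ι) (i : ιV ι) : νV X (genV X i) ≤ 1 := by
  rcases i with j | i
  · exact (nV_of_mem_VV X.isSN_wn (inV_mem _)).trans_le zero_le_one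
  · exact (nV_cone X.isSN_wn _).trans_le (X.wn_gen i)

theorem νV_evV_le (X : MG ι) (w : Word (ιV ι)) : νV X (evV X w) ≤ w.length := by
  simpa using (isSN_nV X.isSN_wn).evW_le (νV_genV X) w

theorem exists_presV [Finite ι] : ∃ R : List (Word (ιV ι)), ∀ X : MG ι,
    Pres (VM X) ({r | r ∈ R} ∪ ren Sum.inr '' X.rel) := by
  obtain ⟨R, hR⟩ := exists_pres_of_fp (VM (MG.free ι))
    (fp_VC ((pres_free ι).fp Set.finite_empty))
  refine ⟨R, fun X => ⟨?_, fun Z _ z hz w hw => ?_⟩⟩
  · rintro r (hr | ⟨u, hu, rfl⟩)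
    · show evV X r = 1
      rw [evV_eq_map, show evV (MG.free ι) r = 1 from hR.1 r hr, map_one]
    · show evV X _ = 1
      rw [evV_ren_inr, show X.ev u = 1 from hu, map_one]
  · obtain ⟨ψ, hψ⟩ := (VM (MG.free ι)).exists_hom z (hR.2 Z z fun r hr => hz r (Or.inl hr))
    rw [← hψ]
    have h1 : map (prX X) (evV (MG.free ι) w) = 1 := by
      rw [← evV_eq_map]
      exact hw
    refine mem_of_map_eq_one (N := ψ.ker) (prX X) (fun c hc => ?_) h1
    obtain ⟨u, rfl⟩ := (MG.free ι).surj c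
    have h2 : X.ev u = 1 := by
      rw [← prX_ev]
      exact hc
    have h3 := hz _ (Or.inr ⟨u, h2, rfl⟩)
    rw [← hψ] at h3
    have h4 := evV_ren_inr (MG.free ι) u
    rw [MonoidHom.mem_ker]
    exact (congrArg ψ h4).symm.trans h3

/-- The word for `cone (gen i)`. -/
def σc (i : ι) : Word (ιT ι) := [(Sum.inl (Sum.inr i), true)]

/-- The word for `cst (gen i)`. -/
noncomputable def σΔ (i : ι) : Word (ιT ι) := ren Sum.inl (sC i)

/-- The substitution for codes. -/
noncomputable def σx (i : ιV ι) : Word (ιT ι) := ren Sum.inl (sI true i)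

/-- The word `g η⁻¹`. -/
def wJ : Word (ιT ι) := [(Sum.inr false, true), (Sum.inr true, false)]

/-- The word `g`. -/
def wg : Word (ιT ι) := [(Sum.inr false, true)]

theorem evT_inl (X : MG ι) (K : Subgroup X.G) (w : Word (ιV ι)) :
    evT X K (ren Sum.inl w) = (DD K).of (evV X w) :=
  (VM X).hnn_ev_inl (DD K) w

theorem evT_append (X : MG ι) (K : Subgroup X.G) (v w : Word (ιT ι)) :
    evT X K (v ++ w) = evT X K v * evT X K w := evW_append _ v w

theorem evT_inv (X : MG ι) (K : Subgroup X.G) (w : Word (ιT ι)) :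
    evT X K w.inv = (evT X K w)⁻¹ := evW_inv _ w

theorem evT_t (X : MG ι) (K : Subgroup X.G) (k : Bool) :
    evT X K [(Sum.inr k, true)] = (DD K).t k := evW_true _ _

theorem evT_t_inv (X : MG ι) (K : Subgroup X.G) (k : Bool) :
    evT X K [(Sum.inr k, false)] = ((DD K).t k)⁻¹ := evW_false _ _

theorem evT_wJ (X : MG ι) (K : Subgroup X.G) :
    evT X K wJ = (DD K).t false * ((DD K).t true)⁻¹ := by
  rw [← evT_t, ← evT_t_inv, ← evT_append]
  rfl

theorem evT_subst (X : MG ι) (K : Subgroup X.G) {α : Type} (s : α → Word (ιV ι)) (w : Word α) :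
    evT X K (subst (fun i => ren Sum.inl (s i)) w) = (DD K).of (evV X (subst s w)) := by
  rw [evV, evW_subst, map_evW]
  exact (evW_subst _ _ w).trans (congrArg (evW · w) (funext fun i => evT_inl X K (s i)))

theorem evT_σx (X : MG ι) (K : Subgroup X.G) (x : Word (ιV ι)) :
    evT X K (subst σx x) = (DD K).of (io true (evV X x)) := by
  rw [← evV_subst_sI]
  exact evT_subst X K _ x

theorem evT_σΔ (X : MG ι) (K : Subgroup X.G) (i : ι) :
    evT X K (σΔ i) = (DD K).of (cst (X.gen i)) := by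
  rw [σΔ, evT_inl, evV_sC]

theorem evT_σc (X : MG ι) (K : Subgroup X.G) (i : ι) :
    evT X K (σc i) = (DD K).of (cone (X.gen i)) := evW_true _ _

theorem mark_exists_list {α : Type} {S : Set α} (h : S.Finite) :
    ∃ l : List α, ∀ x, x ∈ l ↔ x ∈ S :=
  ⟨h.toFinset.toList, fun x => by rw [Finset.mem_toList, h.mem_toFinset]⟩

theorem mark_hom_mem {G H : Type} [Group G] [Group H] (φ : G →* H) {S : Set G} {L : Subgroup H}
    (h : ∀ s ∈ S, φ s ∈ L) {x : G} (hx : x ∈ Subgroup.closure S) : φ x ∈ L :=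
  (Subgroup.closure_le (L.comap φ)).2 h hx

theorem mark_closure_top {Γ : Type} [Group Γ] {E : Subgroup Γ} {S : Set Γ}
    (h : Subgroup.closure S = E) {T : Set E} (hT : ∀ f : E, (f : Γ) ∈ S → f ∈ T) :
    Subgroup.closure T = ⊤ := by
  subst h
  rw [eq_top_iff, ← Subgroup.closure_closure_coe_preimage]
  exact Subgroup.closure_mono hT

theorem mark_evT_conj (X : MG ι) (K : Subgroup X.G) (k : Bool) (w : Word (ιV ι)) :
    evT X K ([(Sum.inr k, true)] ++ ren Sum.inl w ++ [(Sum.inr k, false)]) =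
      (DD K).t k * (DD K).of (evV X w) * ((DD K).t k)⁻¹ := by
  rw [evT_append, evT_append, evT_t, evT_t_inv, evT_inl]

theorem mark_evT_J (X : MG ι) (K : Subgroup X.G) (x : Word (ιV ι)) :
    evT X K ((subst σx x).inv ++ wJ ++ subst σx x) =
      ((DD K).of (io true (evV X x)))⁻¹ * ((DD K).t false * ((DD K).t true)⁻¹) *
        (DD K).of (io true (evV X x)) := by
  rw [evT_append, evT_append, evT_inv, evT_wJ, evT_σx]

theorem exists_K₀ [Finite ι] : ∃ K₀ : List (Word (ιT ι)), ∀ (X : MG ι) (K : Subgroup X.G)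
    (Acc : Set (Word (ιV ι))), (TM X K).sub (ktWords K₀ σx wJ Acc) = KT K (evV X '' Acc) := by
  obtain ⟨K₀, hK₀⟩ := mark_exists_list (α := Word (ιT ι))
    (S := Set.range (fun j : Fin kV => ren Sum.inl [(Sum.inl j, true)]) ∪
      Set.range (fun p : Bool × ι =>
        [(Sum.inr p.1, true)] ++ ren Sum.inl (sC p.2) ++ [(Sum.inr p.1, false)]) ∪
      Set.range (fun p : Bool × Fin kV =>
        [(Sum.inr true, true)] ++ ren Sum.inl (sI p.1 (Sum.inl p.2)) ++ [(Sum.inr true, false)]))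
    (((Set.finite_range _).union (Set.finite_range _)).union (Set.finite_range _))
  refine ⟨K₀, fun X K Acc => le_antisymm ?_ ?_⟩
  · refine (Subgroup.closure_le _).2 ?_
    rintro _ ⟨w, hw | ⟨x, hx, rfl⟩, rfl⟩
    · rcases (hK₀ w).1 hw with (⟨j, rfl⟩ | ⟨⟨k, i⟩, rfl⟩) | ⟨⟨b, j⟩, rfl⟩
      · refine Subgroup.subset_closure (Or.inl (Or.inl (Or.inl ⟨inV (vg j), inV_mem _, ?_⟩)))
        refine Eq.trans ?_ (evT_inl X K _).symm
        rw [evV, evW_true]
        rfl
      · refine Subgroup.subset_closure (Or.inl (Or.inl (Or.inr ⟨k, X.gen i, ?_⟩)))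
        refine (mark_evT_conj X K k _).trans ?_
        rw [evV_sC]
      · refine Subgroup.subset_closure (Or.inl (Or.inr ⟨b, inV (vg j), inV_mem _, ?_⟩))
        refine (mark_evT_conj X K true _).trans ?_
        rw [evV_sI]
        rfl
    · exact Subgroup.subset_closure (Or.inr ⟨_, ⟨x, hx, rfl⟩, mark_evT_J X K x⟩)
  · have key : ∀ w, w ∈ K₀ → evT X K w ∈ (TM X K).sub (ktWords K₀ σx wJ Acc) := fun w hw =>
      Subgroup.subset_closure ⟨w, Or.inl hw, rfl⟩
    refine (Subgroup.closure_le _).2 ?_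
    rintro _ (((⟨u, hu, rfl⟩ | ⟨k, c, rfl⟩) | ⟨b, u, hu, rfl⟩) | ⟨_, ⟨x, hx, rfl⟩, rfl⟩)
    · rw [SetLike.mem_coe, ← closure_inV_vg] at hu
      refine mark_hom_mem (DD K).of ?_ hu
      rintro _ ⟨j, rfl⟩
      have := key _ ((hK₀ _).2 (Or.inl (Or.inl ⟨j, rfl⟩)))
      rw [evT_inl, evV, evW_true] at this
      exact this
    · have hc : c ∈ Subgroup.closure (Set.range X.gen) := by
        rw [MG_closure_gen]
        trivial
      refine mark_hom_mem ((MulAut.conj ((DD K).t k)).toMonoidHom.comp ((DD K).of.comp cst)) ?_ hc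
      rintro _ ⟨i, rfl⟩
      have := key _ ((hK₀ _).2 (Or.inl (Or.inr ⟨(k, i), rfl⟩)))
      rw [mark_evT_conj, evV_sC] at this
      exact this
    · rw [← closure_inV_vg] at hu
      refine mark_hom_mem
        ((MulAut.conj ((DD K).t true)).toMonoidHom.comp ((DD K).of.comp (io b))) ?_ hu
      rintro _ ⟨j, rfl⟩
      have := key _ ((hK₀ _).2 (Or.inr ⟨(b, j), rfl⟩))
      rw [mark_evT_conj, evV_sI] at this
      exact this
    · exact Subgroup.subset_closure ⟨_, Or.inr ⟨x, hx, rfl⟩, mark_evT_J X K x⟩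

theorem mark_subst_σc (w : Word ι) : subst σc w = ren Sum.inl (ren Sum.inr w) := by
  induction w with
  | nil => rfl
  | cons x w ih =>
    rw [subst_cons, ih]
    rcases x with ⟨i, _ | _⟩ <;> rfl

/-- The generating words of the edge groups. -/
def markGW (𝒦 : Set (Word ι)) : Bool → Set (Word (ιV ι) × Word (ιV ι))
  | false => Set.range (fun j : Fin kV => ([(Sum.inl j, true)], [(Sum.inl j, true)])) ∪
      (fun k => (ren Sum.inr k, ren Sum.inr k)) '' 𝒦
  | true => Set.range fun i : ιV ι => (sI true i, sI true i)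

theorem exists_presT [Finite ι] : ∃ R : List (Word (ιT ι)), ∀ (X : MG ι) (𝒦 : Set (Word ι)),
    Pres (TM X (X.sub 𝒦)) ({r | r ∈ R} ∪ subst σc '' X.rel ∪
      {r | ∃ k ∈ 𝒦, r = wg ++ subst σc k ++ wg.inv ++ (subst σc k).inv}) := by
  obtain ⟨RV, hRV⟩ := exists_presV (ι := ι)
  obtain ⟨R, hR⟩ := mark_exists_list (α := Word (ιT ι))
    (S := ren Sum.inl '' {r | r ∈ RV} ∪
      Set.range (fun j : Fin kV => [(Sum.inr false, true)] ++ ren Sum.inl [(Sum.inl j, true)] ++
        [(Sum.inr false, false)] ++ (ren Sum.inl [(Sum.inl j, true)]).inv) ∪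
      Set.range (fun i : ιV ι => [(Sum.inr true, true)] ++ ren Sum.inl (sI true i) ++
        [(Sum.inr true, false)] ++ (ren Sum.inl (sI true i)).inv))
    ((((List.finite_toSet RV).image _).union (Set.finite_range _)).union (Set.finite_range _))
  refine ⟨R, fun X 𝒦 => ?_⟩
  have h := pres_hnn (VM X) (DD (X.sub 𝒦)) (hRV X) (markGW 𝒦) (by
      rintro (_ | _) p hp
      · rcases hp with ⟨j, rfl⟩ | ⟨k, hk, rfl⟩
        · exact ⟨⟨inV (vg j), VV_le_LabIn _ (inV_mem _)⟩, evW_true _ _, evW_true _ _⟩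
        · refine ⟨⟨cone (X.ev k), fun y => ?_⟩, evV_ren_inr X k, evV_ren_inr X k⟩
          rw [lab_cone]
          split_ifs
          · exact Subgroup.subset_closure ⟨k, hk, rfl⟩
          · exact Subgroup.one_mem _
      · obtain ⟨i, rfl⟩ := hp
        exact ⟨⟨io true (genV X i), _, rfl⟩, evV_sI X true i, evV_sI X true i⟩) (by
      rintro (_ | _)
      · refine mark_closure_top (E := LabIn (X.sub 𝒦))
          (S := Set.range (fun j => (inV (vg j) : VC X.G)) ∪ cone '' (X.ev '' 𝒦)) ?_ ?_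
        · rw [LabIn_eq_closure (K := X.sub 𝒦) (S := X.ev '' 𝒦) rfl, Subgroup.closure_union,
            Subgroup.closure_union, closure_inV_vg, Subgroup.closure_eq]
        · rintro f (⟨j, hj⟩ | ⟨_, ⟨k, hk, rfl⟩, hf⟩)
          · exact ⟨_, Or.inl ⟨j, rfl⟩, (evW_true _ _).trans hj⟩
          · exact ⟨_, Or.inr ⟨k, hk, rfl⟩, (evV_ren_inr X k).trans hf⟩
      · refine mark_closure_top (E := (io true : VC X.G →* VC X.G).range)
          (S := Set.range fun i => io true (genV X i)) ?_ ?_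
        · rw [MonoidHom.range_eq_map, ← closure_genV X, MonoidHom.map_closure, ← Set.range_comp]
          rfl
        · rintro f ⟨i, hi⟩
          exact ⟨_, ⟨i, rfl⟩, (evV_sI X true i).trans hi⟩)
  convert h using 1
  ext r
  constructor
  · rintro ((hr | ⟨w, hw, rfl⟩) | ⟨k, hk, rfl⟩)
    · rcases (hR r).1 hr with (⟨w, hw, rfl⟩ | ⟨j, rfl⟩) | ⟨i, rfl⟩
      · exact Or.inl ⟨w, Or.inl hw, rfl⟩
      · exact Or.inr ⟨false, _, Or.inl ⟨j, rfl⟩, rfl⟩
      · exact Or.inr ⟨true, _, ⟨i, rfl⟩, rfl⟩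
    · exact Or.inl ⟨_, Or.inr ⟨w, hw, rfl⟩, (mark_subst_σc w).symm⟩
    · refine Or.inr ⟨false, _, Or.inr ⟨k, hk, rfl⟩, ?_⟩
      rw [mark_subst_σc]
      rfl
  · rintro (⟨w, hw | ⟨u, hu, rfl⟩, rfl⟩ | ⟨_ | _, p, hp, rfl⟩)
    · exact Or.inl (Or.inl ((hR _).2 (Or.inl (Or.inl ⟨w, hw, rfl⟩))))
    · exact Or.inl (Or.inr ⟨u, hu, mark_subst_σc u⟩)
    · rcases hp with ⟨j, rfl⟩ | ⟨k, hk, rfl⟩
      · exact Or.inl (Or.inl ((hR _).2 (Or.inl (Or.inr ⟨j, rfl⟩))))
      · refine Or.inr ⟨k, hk, ?_⟩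
        rw [mark_subst_σc]
        rfl
    · obtain ⟨i, rfl⟩ := hp
      exact Or.inl (Or.inl ((hR _).2 (Or.inr ⟨i, rfl⟩)))

theorem nT_gen (X : MG ι) (K : Subgroup X.G) (i : ιT ι) : nT X.wn K ((TM X K).gen i) ≤ 1 := by
  rcases i with i | k
  · exact ((DD K).dnu_of_le _).trans (νV_genV X i)
  · have h := (DD K).dnu_conj_T_le (isSN_nV X.isSN_wn) 1 (k, true)
    rw [map_one, one_mul, inv_one, mul_one, (isSN_nV X.isSN_wn).one] at h
    exact h.trans zero_le_one

theorem nT_dep (X : MG ι) (K : Subgroup X.G) (n : ℕ) (g : (DD K).MH)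
    (hg : g ∈ (TM X K).sub (ktWords [] σx wJ {x | x.length ≤ n})) (x : Word (ιV ι))
    (hx : x.length ≤ n) : nT X.wn K (g * evT X K (subst σx x)) ≤ 2 * n := by
  have hν := isSN_nV X.isSN_wn
  have hio : ∀ y : Word (ιV ι), y.length ≤ n → nV X.wn (io true (evV X y)) ≤ n := fun y hy => by
    rw [nV_io X.isSN_wn]
    exact (νV_evV_le X y).trans hy
  have key : ∃ l, (∀ p ∈ l, nV X.wn p.1 ≤ n) ∧ g = (DD K).cprod l := by
    induction hg using Subgroup.closure_induction with
    | mem g hg =>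
      obtain ⟨w, hw | ⟨y, hy, rfl⟩, rfl⟩ := hg
      · exact absurd hw List.not_mem_nil
      · refine ⟨[((io true (evV X y))⁻¹, false, true), ((io true (evV X y))⁻¹, true, false)],
          fun p hp => ?_, (mark_evT_J X K y).trans ?_⟩
        · have h1 : nV X.wn (io true (evV X y))⁻¹ ≤ n := by
            rw [hν.inv]
            exact hio y hy
          rcases List.mem_cons.1 hp with rfl | hp
          · exact h1
          · rw [List.mem_singleton.1 hp]
            exact h1
        · simp only [HD.cprod_cons, HD.cprod_nil, HD.T_true, HD.T_false, map_inv]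
          group
    | one => exact ⟨[], by simp, rfl⟩
    | mul a b _ _ ha hb =>
      obtain ⟨l, hl, rfl⟩ := ha
      obtain ⟨l', hl', rfl⟩ := hb
      refine ⟨l ++ l', fun p hp => ?_, ((DD K).cprod_append l l').symm⟩
      rcases List.mem_append.1 hp with hp | hp
      exacts [hl p hp, hl' p hp]
    | inv a _ ha =>
      obtain ⟨l, hl, rfl⟩ := ha
      refine ⟨_, fun p hp => ?_, ((DD K).cprod_inv l).symm⟩
      obtain ⟨q, hq, rfl⟩ := List.mem_map.1 (List.mem_reverse.1 hp)
      exact hl q hq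
  obtain ⟨l, hl, rfl⟩ := key
  rw [evT_σx]
  exact (DD K).dnu_le_two hν l _ hl (hio x hx)

end Crest.Agent.R185.Th
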