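import Crest.Agent.R185.SVBasic
import Crest.Agent.R185.Basic

/-!
# Row 185: the groups `V(C) = LC(Cantor, C) ⋊ V`, definitions and basic API

An element `σ : VC C` acts on `Cu × C` by `(y, h) ↦ (vv σ y, lab σ y * h)`.
-/

set_option autoImplicit false

namespace Crest.Agent.R185.Th

/-- The Cantor space. -/
abbrev Cu : Type := Cube Unit

/-- The brick of a prefix. -/
def br (p : List Bool) : Brick Unit := ⟨fun _ => p, Set.toFinite _⟩

theorem br_eq (β : Brick Unit) : br (β.p ()) = β := rfl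

/-- Concatenation of a prefix. -/
def cp (p : List Bool) (y : Cu) : Cu := (br p).pre y

theorem cp_apply (p : List Bool) (y : Cu) : cp p y () = pre p (y ()) := rfl

/-- The first letter. -/
def hd (y : Cu) : Bool := y () 0

/-- Removal of the first letter. -/
def tl (y : Cu) : Cu := fun _ n => y () (n + 1)

@[simp] theorem cp_nil (y : Cu) : cp [] y = y := rfl

theorem cp_append (p q : List Bool) (y : Cu) : cp (p ++ q) y = cp p (cp q y) :=
  (br p).append_pre (br q) y

theorem cp_cons (b : Bool) (p : List Bool) (y : Cu) : cp (b :: p) y = cp [b] (cp p y) :=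
  cp_append [b] p y

@[simp] theorem hd_cp_cons (b : Bool) (p : List Bool) (y : Cu) : hd (cp (b :: p) y) = b := rfl

@[simp] theorem tl_cp_cons (b : Bool) (p : List Bool) (y : Cu) : tl (cp (b :: p) y) = cp p y := rfl

theorem cp_hd_tl (y : Cu) : cp [hd y] (tl y) = y := by
  funext u n
  cases n <;> rfl

theorem cp_tl_of_hd {y : Cu} {b : Bool} (h : hd y = b) : cp [b] (tl y) = y := h ▸ cp_hd_tl y

theorem cp_injective (p : List Bool) : Function.Injective (cp p) := (br p).pre_injective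

theorem mem_range_cp_single {b : Bool} {y : Cu} : y ∈ Set.range (cp [b]) ↔ hd y = b :=
  ⟨by rintro ⟨z, rfl⟩; rfl, fun h => ⟨_, cp_tl_of_hd h⟩⟩

theorem isClopen_cp (p : List Bool) : IsClopen (Set.range (cp p)) := (br p).isClopen

theorem isClopen_hd (b : Bool) : IsClopen {y : Cu | hd y = b} := by
  have : {y : Cu | hd y = b} = Set.range (cp [b]) := Set.ext fun _ => mem_range_cp_single.symm
  rw [this]
  exact isClopen_cp _

theorem continuous_cp (p : List Bool) : Continuous (cp p) := (br p).continuous_pre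

theorem exists_cp_subset {U : Set Cu} (hU : IsOpen U) {y : Cu} (hy : y ∈ U) :
    ∃ p z, y = cp p z ∧ ∀ z, cp p z ∈ U := by
  obtain ⟨β, ⟨z, hz⟩, h⟩ := exists_brick_subset hU hy
  exact ⟨β.p (), z, hz.symm, fun z => h ⟨z, rfl⟩⟩

/-- Every point has prefixes of every length. -/
theorem exists_prefix (d : ℕ) (y : Cu) : ∃ p z, p.length = d ∧ y = cp p z := by
  induction d generalizing y with
  | zero => exact ⟨[], y, rfl, rfl⟩
  | succ d ih =>
    obtain ⟨p, z, h1, h2⟩ := ih (tl y)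
    exact ⟨hd y :: p, z, by simp [h1], by rw [cp_cons, ← h2, cp_hd_tl]⟩

/-- A prefix is determined by the concatenation map. -/
theorem eq_of_cp_eq {p q : List Bool} (h : ∀ z, cp p z = cp q z) : p = q := by
  induction p generalizing q with
  | nil =>
    cases q with
    | nil => rfl
    | cons c q =>
      have := congrArg hd (h (cp [!c] fun _ _ => false))
      simp at this
  | cons b p ih =>
    cases q with
    | nil =>
      have := congrArg hd (h (cp [!b] fun _ _ => false))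
      simp at this
    | cons c q =>
      have h1 : b = c := congrArg hd (h fun _ _ => false)
      rw [h1, ih fun z => congrArg tl (h z)]

/-- The group `V(C)`. -/
def VC (C : Type) [Group C] : Type := @SV C Unit _ PUnit.mulAction

variable {C C' C'' : Type} [Group C] [Group C'] [Group C'']

instance : Group (VC C) := inferInstanceAs (Group (@SV C Unit _ PUnit.mulAction))

/-- The underlying permutation of `Cu × C`. -/
def VC.perm (σ : VC C) : Equiv.Perm (Cu × C) := Subtype.val σ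

theorem VC.locStd (σ : VC C) : LocStd (G := C) (S := Unit) σ.perm := Subtype.property σ

/-- The label of `σ` at the source point `y`. -/
def lab (σ : VC C) (y : Cu) : C := (σ.perm (y, 1)).2

theorem VC.perm_apply' (σ : VC C) (y : Cu) (h : C) :
    σ.perm (y, h) = ((σ.perm (y, 1)).1, lab σ y * h) := by
  obtain ⟨β, β', g, ⟨z, rfl⟩, hs⟩ := σ.locStd y
  rw [lab, hs, hs, mul_one]

/-- The underlying element of Thompson's group `V`. -/
def vv : VC C →* Equiv.Perm Cu where
  toFun σ :=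
    { toFun := fun y => (σ.perm (y, 1)).1
      invFun := fun y => ((σ⁻¹).perm (y, 1)).1
      left_inv := fun y => by
        have h1 : (σ⁻¹).perm (σ.perm (y, 1)) = (y, 1) := σ.perm.symm_apply_apply _
        rw [VC.perm_apply', VC.perm_apply'] at h1
        exact congrArg Prod.fst h1
      right_inv := fun y => by
        have h1 : σ.perm ((σ⁻¹).perm (y, 1)) = (y, 1) := σ.perm.apply_symm_apply _
        rw [VC.perm_apply' σ⁻¹, VC.perm_apply'] at h1
        exact congrArg Prod.fst h1 }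
  map_one' := rfl
  map_mul' σ τ := by
    ext1 y
    change (σ.perm (τ.perm (y, 1))).1 = (σ.perm ((τ.perm (y, 1)).1, 1)).1
    rw [VC.perm_apply' τ, VC.perm_apply' σ]

theorem VC.perm_apply (σ : VC C) (y : Cu) (h : C) : σ.perm (y, h) = (vv σ y, lab σ y * h) :=
  σ.perm_apply' y h

theorem VC.ext {σ τ : VC C} (h₁ : ∀ y, vv σ y = vv τ y) (h₂ : ∀ y, lab σ y = lab τ y) :
    σ = τ := by
  apply Subtype.ext
  ext1 ⟨y, h⟩
  change σ.perm (y, h) = τ.perm (y, h)
  rw [VC.perm_apply, VC.perm_apply, h₁, h₂]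

@[simp] theorem lab_one (y : Cu) : lab (1 : VC C) y = 1 := rfl

theorem lab_mul (σ τ : VC C) (y : Cu) : lab (σ * τ) y = lab σ (vv τ y) * lab τ y := by
  change (σ.perm (τ.perm (y, 1))).2 = _
  rw [VC.perm_apply τ, VC.perm_apply σ, mul_one]

theorem vv_mul (σ τ : VC C) (y : Cu) : vv (σ * τ) y = vv σ (vv τ y) := by
  rw [map_mul, Equiv.Perm.mul_apply]

@[simp] theorem vv_one (y : Cu) : vv (1 : VC C) y = y := rfl

@[simp] theorem vv_inv_vv (σ : VC C) (y : Cu) : vv σ⁻¹ (vv σ y) = y := by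
  rw [← vv_mul, inv_mul_cancel, vv_one]

@[simp] theorem vv_vv_inv (σ : VC C) (y : Cu) : vv σ (vv σ⁻¹ y) = y := by
  rw [← vv_mul, mul_inv_cancel, vv_one]

theorem lab_inv_vv (σ : VC C) (y : Cu) : lab σ⁻¹ (vv σ y) = (lab σ y)⁻¹ := by
  rw [eq_inv_iff_mul_eq_one, ← lab_mul, inv_mul_cancel, lab_one]

theorem lab_inv (σ : VC C) (y : Cu) : lab σ⁻¹ y = (lab σ (vv σ⁻¹ y))⁻¹ := by
  rw [← lab_inv_vv, vv_vv_inv]

/-- `σ` maps the cone `p` onto the cone `p'` by prefix replacement, with label `c`. -/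
def Std (σ : VC C) (p p' : List Bool) (c : C) : Prop :=
  ∀ z, vv σ (cp p z) = cp p' z ∧ lab σ (cp p z) = c

theorem std_iff {σ : VC C} {p p' : List Bool} {c : C} :
    Std σ p p' c ↔ StdOn (G := C) (S := Unit) σ.perm (br p) (br p') c := by
  constructor
  · intro h y k
    change σ.perm (cp p y, k) = (cp p' y, c * k)
    rw [VC.perm_apply, (h y).1, (h y).2]
  · intro h z
    have h1 : σ.perm (cp p z, 1) = (cp p' z, c * 1) := h z 1
    rw [VC.perm_apply] at h1
    exact ⟨congrArg Prod.fst h1, mul_right_cancel (congrArg Prod.snd h1)⟩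

theorem Std.append {σ : VC C} {p p' : List Bool} {c : C} (h : Std σ p p' c) (q : List Bool) :
    Std σ (p ++ q) (p' ++ q) c := fun z => by
  rw [cp_append, cp_append]
  exact h _

theorem Std.mul {σ τ : VC C} {p p' p'' : List Bool} {c c' : C} (h : Std σ p' p'' c')
    (h' : Std τ p p' c) : Std (σ * τ) p p'' (c' * c) := fun z => by
  rw [vv_mul, lab_mul, (h' z).1, (h' z).2, (h z).1, (h z).2]
  exact ⟨rfl, rfl⟩

theorem Std.inv {σ : VC C} {p p' : List Bool} {c : C} (h : Std σ p p' c) :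
    Std σ⁻¹ p' p c⁻¹ := fun z => by
  rw [← (h z).1, vv_inv_vv, lab_inv_vv, (h z).2]
  exact ⟨rfl, rfl⟩

theorem std_one (p : List Bool) : Std (1 : VC C) p p 1 := fun _ => ⟨rfl, rfl⟩

theorem exists_std_at (σ : VC C) (y : Cu) : ∃ p p' c z, y = cp p z ∧ Std σ p p' c := by
  obtain ⟨β, β', g, ⟨z, hz⟩, hs⟩ := σ.locStd y
  exact ⟨β.p (), β'.p (), g, z, hz.symm, std_iff.2 hs⟩

/-- Compactness. -/
theorem exists_depth (σ : VC C) :
    ∃ d : ℕ, ∀ p : List Bool, d ≤ p.length → ∃ p' c, Std σ p p' c := by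
  obtain ⟨F, d, h⟩ := σ.locStd.exists_grid
  refine ⟨d, fun p hp => ?_⟩
  obtain ⟨β', g, hs⟩ := h (br p) fun _ _ => hp
  exact ⟨β'.p (), g, std_iff.2 hs⟩

theorem isLocallyConstant_lab (σ : VC C) : IsLocallyConstant (lab σ) := by
  refine (IsLocallyConstant.iff_exists_open _).2 fun y => ?_
  obtain ⟨p, p', c, z, rfl, hs⟩ := exists_std_at σ y
  refine ⟨_, (isClopen_cp p).isOpen, ⟨z, rfl⟩, ?_⟩
  rintro _ ⟨z', rfl⟩
  rw [(hs z').2, (hs z).2]

theorem continuous_vv (σ : VC C) : Continuous (vv σ) := by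
  refine continuous_iff_continuousAt.2 fun y => ?_
  obtain ⟨p, p', c, z, rfl, hs⟩ := exists_std_at σ y
  have h1 : Continuous fun y => cp p' ((br p).unpre y) :=
    (continuous_cp p').comp (br p).continuous_unpre
  refine h1.continuousAt.congr ?_
  filter_upwards [(isClopen_cp p).isOpen.mem_nhds ⟨z, rfl⟩]
  rintro _ ⟨z', rfl⟩
  rw [(hs z').1, cp, cp, Brick.unpre_pre]
  rfl

/-- The constructor. -/
def mkVC (v : Equiv.Perm Cu) (f : Cu → C)
    (h : ∀ y, ∃ p p' c z, y = cp p z ∧ ∀ z, v (cp p z) = cp p' z ∧ f (cp p z) = c) : VC C :=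
  Subtype.mk
    { toFun := fun x => (v x.1, f x.1 * x.2)
      invFun := fun x => (v.symm x.1, (f (v.symm x.1))⁻¹ * x.2)
      left_inv := fun x => by simp
      right_inv := fun x => by simp }
    (fun y => by
      obtain ⟨p, p', c, z, rfl, hs⟩ := h y
      refine ⟨br p, br p', c, ⟨z, rfl⟩, fun z k => ?_⟩
      change (v (cp p z), f (cp p z) * k) = (cp p' z, c * k)
      rw [(hs z).1, (hs z).2])

@[simp] theorem vv_mkVC (v : Equiv.Perm Cu) (f : Cu → C) (h) (y : Cu) :
    vv (mkVC v f h) y = v y := rfl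

@[simp] theorem lab_mkVC (v : Equiv.Perm Cu) (f : Cu → C) (h) (y : Cu) :
    lab (mkVC v f h) y = f y := mul_one _

/-- Multiplication by a locally constant function. -/
def mkLC (f : Cu → C) (hf : IsLocallyConstant f) : VC C :=
  mkVC 1 f fun y => by
    obtain ⟨p, z, hz, h⟩ := exists_cp_subset (hf.isOpen_fiber (f y)) (y := y) rfl
    exact ⟨p, p, f y, z, hz, fun z => ⟨rfl, h z⟩⟩

@[simp] theorem vv_mkLC (f : Cu → C) (hf) (y : Cu) : vv (mkLC f hf) y = y := rfl

@[simp] theorem lab_mkLC (f : Cu → C) (hf) (y : Cu) : lab (mkLC f hf) y = f y := mul_one _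

/-- Functoriality. -/
def map (φ : C →* C') : VC C →* VC C' :=
  MonoidHom.mk' (fun σ => mkVC (vv σ) (fun y => φ (lab σ y)) fun y => by
      obtain ⟨p, p', c, z, hz, hs⟩ := exists_std_at σ y
      exact ⟨p, p', φ c, z, hz, fun z => ⟨(hs z).1, by rw [(hs z).2]⟩⟩)
    fun σ τ => VC.ext (fun y => by simp [vv_mul]) fun y => by simp [lab_mul]

@[simp] theorem vv_map (φ : C →* C') (σ : VC C) (y : Cu) : vv (map φ σ) y = vv σ y := rfl

@[simp] theorem lab_map (φ : C →* C') (σ : VC C) (y : Cu) : lab (map φ σ) y = φ (lab σ y) :=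
  mul_one _

theorem map_map (ψ : C' →* C'') (φ : C →* C') (σ : VC C) :
    map ψ (map φ σ) = map (ψ.comp φ) σ :=
  VC.ext (fun _ => rfl) fun y => by simp

/-- The constants. -/
def cst : C →* VC C :=
  MonoidHom.mk' (fun c => mkLC (fun _ => c) (IsLocallyConstant.const c))
    fun c c' => VC.ext (fun y => by simp [vv_mul]) fun y => by simp [lab_mul]

@[simp] theorem vv_cst (c : C) (y : Cu) : vv (cst c) y = y := rfl

@[simp] theorem lab_cst (c : C) (y : Cu) : lab (cst c) y = c := mul_one _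

theorem map_cst (φ : C →* C') (c : C) : map φ (cst c) = cst (φ c) :=
  VC.ext (fun _ => rfl) fun y => by simp

/-- The permutation acting as `v` on the cone `b` and trivially elsewhere. -/
def ioP (b : Bool) (v : Equiv.Perm Cu) : Equiv.Perm Cu where
  toFun y := if hd y = b then cp [b] (v (tl y)) else y
  invFun y := if hd y = b then cp [b] (v.symm (tl y)) else y
  left_inv y := by
    by_cases h : hd y = b
    · simp [h, cp_tl_of_hd h]
    · simp [h]
  right_inv y := by
    by_cases h : hd y = b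
    · simp [h, cp_tl_of_hd h]
    · simp [h]

/-- The element acting as `σ` on the cone `b` and trivially elsewhere. -/
def ioF (b : Bool) (σ : VC C) : VC C :=
  mkVC (ioP b (vv σ)) (fun y => if hd y = b then lab σ (tl y) else 1) fun y => by
    by_cases h : hd y = b
    · obtain ⟨p, p', c, z, hz, hs⟩ := exists_std_at σ (tl y)
      refine ⟨b :: p, b :: p', c, z, by rw [cp_cons, ← hz, cp_tl_of_hd h], fun z => ?_⟩
      simp [ioP, (hs z).1, (hs z).2, ← cp_cons]
    · refine ⟨[hd y], [hd y], 1, tl y, (cp_hd_tl y).symm, fun z => ?_⟩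
      simp [ioP, h]

theorem vv_ioF (b : Bool) (σ : VC C) (y : Cu) :
    vv (ioF b σ) y = if hd y = b then cp [b] (vv σ (tl y)) else y := rfl

theorem lab_ioF (b : Bool) (σ : VC C) (y : Cu) :
    lab (ioF b σ) y = if hd y = b then lab σ (tl y) else 1 := mul_one _

/-- The embedding of `V(C)` as the elements supported on the cone `b`. -/
def io (b : Bool) : VC C →* VC C :=
  MonoidHom.mk' (ioF b) fun σ τ => VC.ext
    (fun y => by
      by_cases h : hd y = b <;> simp [vv_mul, vv_ioF, h])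
    fun y => by
      by_cases h : hd y = b <;> simp [lab_mul, lab_ioF, vv_ioF, h]

theorem vv_io (b : Bool) (σ : VC C) (y : Cu) :
    vv (io b σ) y = if hd y = b then cp [b] (vv σ (tl y)) else y := rfl

theorem lab_io (b : Bool) (σ : VC C) (y : Cu) :
    lab (io b σ) y = if hd y = b then lab σ (tl y) else 1 := mul_one _

@[simp] theorem vv_io_cp (b : Bool) (σ : VC C) (z : Cu) :
    vv (io b σ) (cp [b] z) = cp [b] (vv σ z) := by simp [vv_io]

@[simp] theorem lab_io_cp (b : Bool) (σ : VC C) (z : Cu) :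
    lab (io b σ) (cp [b] z) = lab σ z := by simp [lab_io]

theorem vv_io_of_ne {b : Bool} (σ : VC C) {y : Cu} (h : hd y ≠ b) : vv (io b σ) y = y :=
  if_neg h

theorem lab_io_of_ne {b : Bool} (σ : VC C) {y : Cu} (h : hd y ≠ b) : lab (io b σ) y = 1 := by
  rw [lab_io, if_neg h]

@[simp] theorem hd_vv_io (b : Bool) (σ : VC C) (y : Cu) : hd (vv (io b σ) y) = hd y := by
  by_cases h : hd y = b <;> simp [vv_io, h]

theorem map_io (φ : C →* C') (b : Bool) (σ : VC C) : map φ (io b σ) = io b (map φ σ) :=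
  VC.ext (fun _ => rfl) fun y => by
    by_cases h : hd y = b <;> simp [lab_io, h]

theorem Std.io {σ : VC C} {p p' : List Bool} {c : C} (h : Std σ p p' c) (b : Bool) :
    Std (io b σ) (b :: p) (b :: p') c := fun z => by
  rw [cp_cons, vv_io_cp, lab_io_cp, (h z).1, (h z).2, ← cp_cons]
  exact ⟨rfl, rfl⟩

/-- `c` on the cone `false`, `1` elsewhere. -/
def cone : C →* VC C := (io false).comp cst

theorem cone_eq (c : C) : cone c = io false (cst c) := rfl

@[simp] theorem vv_cone (c : C) (y : Cu) : vv (cone c) y = y := by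
  rw [cone_eq, vv_io]
  split_ifs with h
  · rw [vv_cst, cp_tl_of_hd h]
  · rfl

theorem lab_cone (c : C) (y : Cu) : lab (cone c) y = if hd y = false then c else 1 := by
  rw [cone_eq, lab_io, lab_cst]

theorem map_cone (φ : C →* C') (c : C) : map φ (cone c) = cone (φ c) := by
  rw [cone_eq, map_io, map_cst, cone_eq]

/-- The elements with all labels in `K`. -/
def LabIn (K : Subgroup C) : Subgroup (VC C) where
  carrier := {σ | ∀ y, lab σ y ∈ K}
  one_mem' := fun _ => K.one_mem
  mul_mem' := fun {σ τ} hσ hτ y => by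
    rw [lab_mul]
    exact K.mul_mem (hσ _) (hτ _)
  inv_mem' := fun {σ} hσ y => by
    rw [lab_inv]
    exact K.inv_mem (hσ _)

theorem mem_LabIn {K : Subgroup C} {σ : VC C} : σ ∈ LabIn K ↔ ∀ y, lab σ y ∈ K := Iff.rfl

variable (C) in
/-- Thompson's group `V` inside `V(C)`. -/
def VV : Subgroup (VC C) := LabIn ⊥

theorem mem_VV {σ : VC C} : σ ∈ VV C ↔ ∀ y, lab σ y = 1 :=
  forall_congr' fun _ => Subgroup.mem_bot

theorem VV_le_LabIn (K : Subgroup C) : VV C ≤ LabIn K := fun _ h y => by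
  rw [mem_VV.1 h y]
  exact K.one_mem

/-- The inclusion of Thompson's group `V = V(1)`. -/
def inV : VC Unit →* VC C := map 1

theorem inV_mem (u : VC Unit) : (inV u : VC C) ∈ VV C := mem_VV.2 fun y => by simp [inV]

@[simp] theorem vv_inV (u : VC Unit) (y : Cu) : vv (inV u : VC C) y = vv u y := rfl

@[simp] theorem lab_inV (u : VC Unit) (y : Cu) : lab (inV u : VC C) y = 1 :=
  mem_VV.1 (inV_mem u) y

theorem inV_map_one {σ : VC C} (h : σ ∈ VV C) : inV (map (1 : C →* Unit) σ) = σ :=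
  VC.ext (fun _ => rfl) fun y => by rw [lab_inV, mem_VV.1 h]

theorem range_inV : (inV : VC Unit →* VC C).range = VV C := by
  ext σ
  exact ⟨by rintro ⟨u, rfl⟩; exact inV_mem u, fun h => ⟨_, inV_map_one h⟩⟩

theorem map_inV (φ : C →* C') (u : VC Unit) : map φ (inV u) = inV u :=
  VC.ext (fun _ => rfl) fun y => by simp

theorem io_inV (b : Bool) (u : VC Unit) : (io b (inV u) : VC C) = inV (io b u) :=
  (map_io 1 b u).symm

theorem io_mem_LabIn {K : Subgroup C} {σ : VC C} (h : σ ∈ LabIn K) (b : Bool) :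
    io b σ ∈ LabIn K := fun y => by
  rw [lab_io]
  split_ifs
  exacts [h _, K.one_mem]

theorem cst_commute {u : VC C} (hu : u ∈ VV C) (c : C) : Commute (cst c) u :=
  VC.ext (fun y => by simp [vv_mul]) fun y => by simp [lab_mul, mem_VV.1 hu]

/-- The elements with a constant label in `K`. -/
def Cst (K : Subgroup C) : Subgroup (VC C) where
  carrier := {σ | ∃ k ∈ K, ∀ y, lab σ y = k}
  one_mem' := ⟨1, K.one_mem, fun _ => rfl⟩
  mul_mem' := by
    rintro σ τ ⟨k, hk, h⟩ ⟨k', hk', h'⟩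
    exact ⟨k * k', K.mul_mem hk hk', fun y => by rw [lab_mul, h, h']⟩
  inv_mem' := by
    rintro σ ⟨k, hk, h⟩
    exact ⟨k⁻¹, K.inv_mem hk, fun y => by rw [lab_inv, h]⟩

theorem mem_Cst {K : Subgroup C} {σ : VC C} : σ ∈ Cst K ↔ ∃ k ∈ K, ∀ y, lab σ y = k := Iff.rfl

variable (C) in
/-- The elements preserving the first letter. -/
def Hd : Subgroup (VC C) where
  carrier := {σ | ∀ y, hd (vv σ y) = hd y}
  one_mem' := fun _ => rfl
  mul_mem' := fun {σ τ} hσ hτ y => by rw [vv_mul, hσ, hτ]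
  inv_mem' := fun {σ} hσ y => by rw [← hσ (vv σ⁻¹ y), vv_vv_inv]

theorem mem_Hd {σ : VC C} : σ ∈ Hd C ↔ ∀ y, hd (vv σ y) = hd y := Iff.rfl

/-- All labels lie outside `K`. -/
def Sound (K : Subgroup C) (a : VC C) : Prop := ∀ y, lab a y ∉ K

/-- The maximal norm of a label. -/
noncomputable def nV (μ : C → ℕ) (σ : VC C) : ℕ := ⨆ y, μ (lab σ y)

theorem nV_le_iff {μ : C → ℕ} {σ : VC C} {n : ℕ} : nV μ σ ≤ n ↔ ∀ y, μ (lab σ y) ≤ n :=
  ciSup_le_iff (((isLocallyConstant_lab σ).comp μ).range_finite.bddAbove)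

theorem le_nV (μ : C → ℕ) (σ : VC C) (y : Cu) : μ (lab σ y) ≤ nV μ σ := nV_le_iff.1 le_rfl y

theorem isSN_nV {μ : C → ℕ} (h : IsSN μ) : IsSN (nV μ) := by
  have hinv : ∀ σ : VC C, nV μ σ⁻¹ ≤ nV μ σ := fun σ => nV_le_iff.2 fun y => by
    rw [lab_inv, h.inv]
    exact le_nV _ _ _
  refine ⟨Nat.le_zero.1 (nV_le_iff.2 fun y => by rw [lab_one, h.one]),
    fun σ τ => nV_le_iff.2 fun y => ?_,
    fun σ => le_antisymm (hinv σ) (by simpa using hinv σ⁻¹)⟩
  rw [lab_mul]
  exact (h.mul _ _).trans (add_le_add (le_nV _ _ _) (le_nV _ _ _))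

theorem nV_cst (μ : C → ℕ) (c : C) : nV μ (cst c) = μ c :=
  le_antisymm (nV_le_iff.2 fun y => by rw [lab_cst])
    (by simpa using le_nV μ (cst c) fun _ _ => false)

theorem nV_io {μ : C → ℕ} (h : IsSN μ) (b : Bool) (σ : VC C) : nV μ (io b σ) = nV μ σ := by
  refine le_antisymm (nV_le_iff.2 fun y => ?_) (nV_le_iff.2 fun y => ?_)
  · rw [lab_io]
    split_ifs
    · exact le_nV _ _ _
    · rw [h.one]
      exact Nat.zero_le _
  · simpa using le_nV μ (io b σ) (cp [b] y)

theorem nV_cone {μ : C → ℕ} (h : IsSN μ) (c : C) : nV μ (cone c) = μ c := by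
  rw [cone_eq, nV_io h, nV_cst]

theorem nV_of_mem_VV {μ : C → ℕ} (h : IsSN μ) {u : VC C} (hu : u ∈ VV C) : nV μ u = 0 :=
  Nat.le_zero.1 (nV_le_iff.2 fun y => by rw [mem_VV.1 hu, h.one])

end Crest.Agent.R185.Th
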