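import Crest.Agent.R185.TopExt
import Crest.Agent.Lib.TwoComplex.PathClass

/-!
# Row 185, `f.p. + FP∞ ⇒ F∞`: the Cayley complex
-/

set_option autoImplicit false

noncomputable section

namespace Crest.Agent.R185.Top

open unitInterval Set Topology Crest.Agent.Lib.TwoComplex

section Cat

variable {X Y : Type}

/-- concatenation of functions on the interval -/
def cat (p q : I → X) (t : I) : X :=
  if (t : ℝ) ≤ 1 / 2 then p (projIcc 0 1 zero_le_one (2 * t))
  else q (projIcc 0 1 zero_le_one (2 * t - 1))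

lemma cat_lo (p q : I → X) {s t : I} (h : (s : ℝ) = 2 * t) : cat p q t = p s := by
  rw [cat, if_pos (by linarith [s.2.2]), ← h, projIcc_val]

lemma cat_hi {p q : I → X} (hpq : p 1 = q 0) {s t : I} (h : (s : ℝ) = 2 * t - 1) :
    cat p q t = q s := by
  rw [cat]
  split_ifs with ht
  · obtain rfl : s = 0 := Subtype.ext (by simp only [Icc.coe_zero]; linarith [s.2.1])
    rw [projIcc_of_right_le _ (by simp only [Icc.coe_zero] at h; linarith)]
    exact hpq
  · rw [← h, projIcc_val]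

lemma cat_zero (p q : I → X) : cat p q 0 = p 0 := cat_lo p q (by simp)

lemma cat_one (p q : I → X) : cat p q 1 = q 1 := by
  rw [cat, if_neg (by norm_num), projIcc_of_right_le _ (by norm_num)]
  rfl

lemma map_cat (f : X → Y) (p q : I → X) (t : I) :
    f (cat p q t) = cat (fun s => f (p s)) (fun s => f (q s)) t := by
  unfold cat
  split_ifs <;> rfl

lemma cat_cases (p q : I → X) (t : I) : ∃ s, cat p q t = p s ∨ cat p q t = q s := by
  unfold cat
  split_ifs
  · exact ⟨_, Or.inl rfl⟩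
  · exact ⟨_, Or.inr rfl⟩

variable [TopologicalSpace X]

/-- a continuous function on the interval as a path -/
def mkP {p : I → X} (hp : Continuous p) {x y : X} (h0 : p 0 = x) (h1 : p 1 = y) : Path x y :=
  ⟨⟨p, hp⟩, h0, h1⟩

lemma continuous_cat {p q : I → X} (hp : Continuous p) (hq : Continuous q) (h : p 1 = q 0) :
    Continuous (cat p q) :=
  ((mkP hp rfl h).trans (mkP hq rfl rfl)).continuous

end Cat

variable {G : Type} [Group G] {J : ℕ → Type} [Unique (J 0)]

/-- the value of a letter -/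
def lv (gen : J 1 → G) (l : J 1 × Bool) : G := cond l.2 (gen l.1) (gen l.1)⁻¹

/-- the value of a word -/
def ev (gen : J 1 → G) (w : List (J 1 × Bool)) : G := FreeGroup.lift gen (FreeGroup.mk w)

omit [Unique (J 0)] in
lemma ev_nil (gen : J 1 → G) : ev gen [] = 1 := map_one _

omit [Unique (J 0)] in
lemma ev_cons (gen : J 1 → G) (l : J 1 × Bool) (w : List (J 1 × Bool)) :
    ev gen (l :: w) = lv gen l * ev gen w := by
  simp only [ev, FreeGroup.lift_mk, List.map_cons, List.prod_cons, lv]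

/-- the path of a letter -/
def stp (gen : J 1 → G) (e : G → J 1 → I → Pt G J) (h : G) (l : J 1 × Bool) (t : I) : Pt G J :=
  cond l.2 (e (h * gen l.1) l.1 t) (e h l.1 (σ t))

/-- the path of a word -/
def wp (gen : J 1 → G) (e : G → J 1 → I → Pt G J) : G → List (J 1 × Bool) → I → Pt G J
  | h, [] => fun _ => vtx h
  | h, l :: w => cat (stp gen e h l) (wp gen e (h * lv gen l) w)

theorem wp_anchor : type_of% @wp.eq_def := @wp.eq_def
theorem wp_anchor1 : type_of% @wp.eq_1 := @wp.eq_1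
theorem wp_anchor2 : type_of% @wp.eq_2 := @wp.eq_2

/-- the edges -/
def ed (Γ : Att G J) (g : G) (a : J 1) (t : I) : Pt G J := chi Γ 1 g a fun _ => t

section

variable {gen : J 1 → G} {Γ : Att G J} (h0 : ∀ a y, Γ 0 a y = vtx (gen a)⁻¹)
include h0

lemma good_one : Good Γ 1 := by
  intro k hk
  obtain rfl : k = 0 := by omega
  exact ⟨fun _ => continuous_of_discreteTopology, fun _ y hy => absurd hy (not_mem_Bd_zero y),
    fun a y => by rw [h0]; rfl⟩

lemma ed_zero (g : G) (a : J 1) : ed Γ g a 0 = vtx (g * (gen a)⁻¹) := by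
  rw [ed, chi_bot g a rfl, h0, smul_vtx]

omit h0 in
lemma ed_one (g : G) (a : J 1) : ed Γ g a 1 = vtx g := chi_top g a rfl

omit h0 in
lemma continuous_ed (g : G) (a : J 1) : Continuous fun t => toSk Γ 1 (ed Γ g a t) :=
  (cts_toSk le_rfl 1 le_rfl g a).comp (continuous_pi fun _ => continuous_id)

lemma stp_zero (h : G) (l : J 1 × Bool) : stp gen (ed Γ) h l 0 = vtx h := by
  obtain ⟨a, _ | _⟩ := l
  · simp [stp, ed_one]
  · simp [stp, ed_zero h0]

lemma stp_one (h : G) (l : J 1 × Bool) : stp gen (ed Γ) h l 1 = vtx (h * lv gen l) := by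
  obtain ⟨a, _ | _⟩ := l
  · simp [stp, ed_zero h0, lv]
  · simp [stp, ed_one, lv]

omit h0 in
lemma continuous_stp (h : G) (l : J 1 × Bool) :
    Continuous fun t => toSk Γ 1 (stp gen (ed Γ) h l t) := by
  obtain ⟨a, _ | _⟩ := l
  · exact (continuous_ed h a).comp continuous_symm
  · exact continuous_ed _ a

lemma stp_dim (h : G) (l : J 1 × Bool) (t : I) : (stp gen (ed Γ) h l t).n ≤ 1 := by
  obtain ⟨a, _ | _⟩ := l <;> exact chi_dim (good_one h0) _ _ _

lemma wp_zero (h : G) (w : List (J 1 × Bool)) : wp gen (ed Γ) h w 0 = vtx h := by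
  cases w with
  | nil => rfl
  | cons l w => rw [wp, cat_zero, stp_zero h0]

omit h0 in
lemma wp_one (h : G) (w : List (J 1 × Bool)) : wp gen (ed Γ) h w 1 = vtx (h * ev gen w) := by
  induction w generalizing h with
  | nil => rw [ev_nil, mul_one]; rfl
  | cons l w ih => rw [wp, cat_one, ih, ev_cons, mul_assoc]

lemma stp_wp (h : G) (l : J 1 × Bool) (w : List (J 1 × Bool)) :
    stp gen (ed Γ) h l 1 = wp gen (ed Γ) (h * lv gen l) w 0 := by
  rw [stp_one h0, wp_zero h0]

lemma continuous_wp (h : G) (w : List (J 1 × Bool)) :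
    Continuous fun t => toSk Γ 1 (wp gen (ed Γ) h w t) := by
  induction w generalizing h with
  | nil => exact continuous_const
  | cons l w ih => exact continuous_cat (continuous_stp h l) (ih _) (stp_wp h0 h l w)

lemma wp_dim (h : G) (w : List (J 1 × Bool)) (t : I) : (wp gen (ed Γ) h w t).n ≤ 1 := by
  induction w generalizing h t with
  | nil => exact Nat.zero_le _
  | cons l w ih =>
    obtain ⟨s, e | e⟩ := cat_cases (stp gen (ed Γ) h l) (wp gen (ed Γ) (h * lv gen l) w) t
    · rw [wp, e]; exact stp_dim h0 _ _ _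
    · rw [wp, e]; exact ih _ _

omit h0 in
lemma smul_wp (g h : G) (w : List (J 1 × Bool)) (t : I) :
    g • wp gen (ed Γ) h w t = wp gen (ed Γ) (g * h) w t := by
  induction w generalizing h t with
  | nil => rfl
  | cons l w ih =>
    rw [wp, wp, map_cat (g • ·), mul_assoc]
    congr 1
    · funext s
      obtain ⟨a, _ | _⟩ := l <;> simp [stp, ed, smul_chi, mul_assoc]
    · funext s
      exact ih _ _

/-- The class of a loop-valued map on an edge path is given by the Fox chain. -/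
lemma cls_wp {W : Type} [TopologicalSpace W] {w₀ : W} {K : Pt G J → I → W} (hK : CtsH Γ 1 K)
    (hlow : ∀ p : Pt G J, p.n ≤ 0 → ∀ t, K p t = w₀)
    (h01 : ∀ p : Pt G J, p.n ≤ 1 → K p 0 = w₀ ∧ K p 1 = w₀) (h : G) (w : List (J 1 × Bool)) :
    cls (m := 0) w₀ (fun z => K (wp gen (ed Γ) h w (z 1)) (z 0)) =
      lin (fun b : G × J 1 => cls (m := 0) w₀ fun z => K (ed Γ b.1 b.2 (z 1)) (z 0))
        (fox gen h w) := by
  have hl : ∀ p : I → Pt G J, Continuous (fun t => toSk Γ 1 (p t)) → (∀ t, (p t).n ≤ 1) →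
      (p 0).n = 0 → (p 1).n = 0 → IsLoop w₀ fun z : Cb 2 => K (p (z 1)) (z 0) := by
    intro p hp hd e0 e1
    refine ⟨hK.comp (good_one h0) (hp.comp (continuous_apply 1)) (fun _ => hd _)
      (continuous_apply 0), fun z ⟨i, hi⟩ => ?_⟩
    fin_cases i
    · rcases hi with hi | hi
      · exact (congrArg (K _) hi).trans (h01 _ (hd _)).1
      · exact (congrArg (K _) hi).trans (h01 _ (hd _)).2
    · rcases hi with hi | hi
      · exact hlow _ ((congrArg (fun s => (p s).n) hi).trans e0).le _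
      · exact hlow _ ((congrArg (fun s => (p s).n) hi).trans e1).le _
  induction w generalizing h with
  | nil =>
    simp only [wp, hlow _ (vtx_n h).le, cls_const, fox, map_zero]
  | cons l w ih =>
    have h1 := hl _ (continuous_stp h l) (stp_dim h0 h l) (by rw [stp_zero h0]; rfl)
      (by rw [stp_one h0]; rfl)
    have h2 := hl _ (continuous_wp h0 (h * lv gen l) w) (wp_dim h0 _ w) (by rw [wp_zero h0]; rfl)
      (by rw [wp_one]; rfl)
    rw [cls_trans (m := 0) 1 h1 h2 (fun y s hs => by simp [wp, cat_lo _ _ hs])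
      (fun y s hs => by simp [wp, cat_hi (stp_wp h0 h l w) hs]), ih]
    obtain ⟨a, _ | _⟩ := l
    · have h3 := cls_symm (m := 0) 1 (hl _ (continuous_ed h a)
        (fun _ => chi_dim (good_one h0) _ _ _) (by rw [ed_zero h0]; rfl) (by rw [ed_one]; rfl))
      simp only [Function.update_self, ne_eq, zero_ne_one, not_false_eq_true,
        Function.update_of_ne] at h3
      simp [fox, stp, lv, h3]
    · simp [fox, stp, lv]

/-! ### Classes of edge paths in the 2-skeleton -/

omit h0 in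
lemma to2 {p : I → Pt G J} (hp : Continuous fun t => toSk Γ 1 (p t)) :
    Continuous fun t => toSk Γ 2 (p t) := (cts_toSk one_le_two).comp hp

/-- the path of a letter in the 2-skeleton -/
def stP (h : G) (l : J 1 × Bool) : Path (toSk Γ 2 (vtx h)) (toSk Γ 2 (vtx (h * lv gen l))) :=
  mkP (to2 (continuous_stp h l)) (stp_zero h0 h l) (stp_one h0 h l)

/-- the path of a word in the 2-skeleton -/
def wP (h : G) (w : List (J 1 × Bool)) :
    Path (toSk Γ 2 (vtx h)) (toSk Γ 2 (vtx (h * ev gen w))) :=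
  mkP (to2 (continuous_wp h0 h w)) (wp_zero h0 h w) (wp_one h w)

variable (z₀ : Sk Γ 2)

lemma cl_wP_nil (h : G) : cl z₀ (wP h0 h []) = 1 :=
  (cl_ext z₀ (p := wP h0 h []) (q := Path.refl (toSk Γ 2 (vtx h))) fun _ => rfl).trans
    (cl_refl z₀ _)

lemma cl_wP_cons (h : G) (l : J 1 × Bool) (w : List (J 1 × Bool)) :
    cl z₀ (wP h0 h (l :: w)) = cl z₀ (stP h0 h l) * cl z₀ (wP h0 (h * lv gen l) w) :=
  (cl_ext z₀ (p := wP h0 h (l :: w)) (q := (stP h0 h l).trans (wP h0 (h * lv gen l) w))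
    fun _ => rfl).trans (cl_trans z₀ _ _)

lemma cl_stP_false (h : G) (a : J 1) :
    cl z₀ (stP h0 (h * gen a) (a, false)) = (cl z₀ (stP h0 h (a, true)))⁻¹ :=
  (cl_ext z₀ (p := stP h0 (h * gen a) (a, false)) (q := (stP h0 h (a, true)).symm)
    fun _ => rfl).trans (cl_symm z₀ _)

/-- a generator acts on pairs (vertex, class) -/
def thP (a : J 1) : Equiv.Perm (G × LG z₀) where
  toFun x := (x.1 * gen a, x.2 * cl z₀ (stP h0 x.1 (a, true)))
  invFun x := (x.1 * (gen a)⁻¹, x.2 * cl z₀ (stP h0 x.1 (a, false)))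
  left_inv x := by simp [cl_stP_false]
  right_inv x := by
    obtain ⟨g, x⟩ := x
    obtain ⟨g, rfl⟩ : ∃ g', g = g' * gen a := ⟨g * (gen a)⁻¹, by simp⟩
    simp only [cl_stP_false, mul_inv_cancel_right, Prod.mk.injEq, true_and]
    rw [show cl z₀ (stP h0 (g * gen a * (gen a)⁻¹) (a, true)) = cl z₀ (stP h0 g (a, true)) by
      rw [mul_inv_cancel_right], inv_mul_cancel_right]

lemma lift_thP (w : List (J 1 × Bool)) (g : G) (x : LG z₀) :
    (FreeGroup.lift (fun a => (thP h0 z₀ a)⁻¹) (FreeGroup.mk w))⁻¹ (g, x) =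
      (g * ev gen w, x * cl z₀ (wP h0 g w)) := by
  induction w generalizing g x with
  | nil =>
    rw [cl_wP_nil, ev_nil, mul_one, mul_one]
    rfl
  | cons l w ih =>
    rw [cl_wP_cons, ev_cons, ← mul_assoc, ← mul_assoc, ← ih, ← List.singleton_append,
      ← FreeGroup.mul_mk, map_mul, mul_inv_rev, Equiv.Perm.mul_apply]
    congr 1
    obtain ⟨a, _ | _⟩ := l
    · rw [FreeGroup.lift_mk]; rfl
    · rw [FreeGroup.lift_mk]; rfl

end

theorem base (R : Res G J) : ∃ (γ₀ : J 1 → Cb 0 → Pt G J) (γ₁ : J 2 → Cb 1 → Pt G J),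
    ∀ Γ : Att G J, Γ 0 = γ₀ → Γ 1 = γ₁ → Good Γ 2 ∧ JH Γ 0 (R.d 0) ∧ Nul Γ 0 := by
  let Γ₀ : Att G J := fun n => match n with
    | 0 => fun a _ => vtx (R.gen a)⁻¹
    | _ + 1 => fun _ _ => vtx 1
  refine ⟨Γ₀ 0, fun r y => wp R.gen (ed Γ₀) 1 (R.rel r) (y 0), fun Γ e0 e1 => ?_⟩
  have h0 : ∀ a y, Γ 0 a y = vtx (R.gen a)⁻¹ := fun a y => by rw [e0]
  have hed : ed Γ₀ = ed Γ := by
    funext g a t
    by_cases hx : (fun _ => t) ∈ Bd 1
    · by_cases ht : t = 0
      · rw [ed, ed, chi_bot g a ht, chi_bot g a ht, e0]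
      · rw [ed, ed, chi_side' g a hx ht, chi_side' g a hx ht]
    · rw [ed, ed, chi_int g a hx, chi_int g a hx]
  have h1 : ∀ (g : G) r y, g • Γ 1 r y = wp R.gen (ed Γ) g (R.rel r) (y 0) := fun g r y => by
    rw [e1, hed, smul_wp, mul_one]
  have hrel : ∀ r, ev R.gen (R.rel r) = 1 := fun r =>
    MonoidHom.mem_ker.1 (R.ker ▸ Subgroup.subset_normalClosure ⟨r, rfl⟩)
  have hΓ : Good Γ 2 := by
    intro k hk
    rcases (Nat.le_of_lt_succ hk).eq_or_lt with rfl | hk'
    · have h2 : ∀ r y, Γ 1 r y = wp R.gen (ed Γ) 1 (R.rel r) (y 0) := fun r y => by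
        rw [← h1, one_smul]
      refine ⟨fun r => ?_, fun r y ⟨i, hi⟩ => ?_, fun r y => ?_⟩
      · simp only [h2]
        exact (continuous_wp h0 1 _).comp (continuous_apply 0)
      · obtain rfl : i = 0 := Subsingleton.elim _ _
        rcases hi with hi | hi
        · rw [h2, hi, wp_zero h0]
        · rw [h2, hi, wp_one, hrel, mul_one]
      · rw [h2]; exact wp_dim h0 _ _ _
    · exact good_one h0 k hk'
  refine ⟨hΓ, fun W _ w K hK hlow h01 g r => ?_, ?_⟩
  · rw [R.d_fox]
    simp only [h1]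
    refine (cls_wp h0 hK hlow h01 g (R.rel r)).trans ?_
    congr 2
    funext b
    congr 1
    funext z
    rw [ed]
    congr 2
    funext i
    rw [Subsingleton.elim i 0]
    rfl
  let z₀ := toSk Γ 2 (vtx 1)
  -- relator loops bound
  have hnull : ∀ g r, cl z₀ (wP h0 g (R.rel r)) = 1 := by
    intro g r
    let p : Path (toSk Γ 2 (vtx g)) (toSk Γ 2 (vtx g)) :=
      mkP (to2 (continuous_wp h0 g (R.rel r))) (wp_zero h0 _ _) (by rw [wp_one, hrel, mul_one])
    rw [cl_ext z₀ (p := wP h0 g (R.rel r)) (q := p) fun _ => rfl, ← cl_refl z₀ (toSk Γ 2 (vtx g))]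
    refine cl_congr z₀ ⟨⟨⟨⟨fun x => toSk Γ 2 (chi Γ 2 g r (Fin.cons x.1 fun _ => x.2)),
      (cts_toSk le_rfl 2 le_rfl g r).comp (continuous_cons continuous_fst
        (continuous_pi fun _ => continuous_snd))⟩, fun t => ?_, fun t => ?_⟩, fun s t ht => ?_⟩⟩
    · exact (chi_cons_zero g r _).trans (h1 g r _)
    · exact chi_top g r rfl
    · refine (chi_side hΓ g r (x := Fin.cons s fun _ => t) ⟨0, ht⟩).trans ?_
      rcases ht with rfl | rfl
      · exact p.source.symm
      · exact p.target.symm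
  have hker : (FreeGroup.lift R.gen).ker ≤ (FreeGroup.lift fun a => (thP h0 z₀ a)⁻¹).ker := by
    rw [R.ker]
    refine Subgroup.normalClosure_le_normal ?_
    rintro _ ⟨r, rfl⟩
    refine MonoidHom.mem_ker.2 (inv_eq_one.1 (Equiv.ext fun x => ?_))
    rw [lift_thP, hnull, hrel, mul_one, mul_one]
    rfl
  have hind : ∀ g w w', ev R.gen w = ev R.gen w' → cl z₀ (wP h0 g w) = cl z₀ (wP h0 g w') := by
    intro g w w' e
    have h2 := MonoidHom.eq_iff _ |>.2 (hker ((MonoidHom.eq_iff _).1 e))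
    have h3 := lift_thP h0 z₀ w g 1
    rw [h2, lift_thP, one_mul, one_mul] at h3
    exact (Prod.mk.inj h3).2.symm
  have hσ : ∀ g : G, ∃ w, g * ev R.gen w = 1 := fun g => by
    obtain ⟨⟨w⟩, hw⟩ := R.surj g⁻¹
    exact ⟨w, mul_eq_one_iff_eq_inv'.2 hw⟩
  choose s hs using hσ
  let P : ∀ g : G, Path (toSk Γ 2 (vtx g)) z₀ := fun g =>
    mkP (to2 (continuous_wp h0 g (s g))) (wp_zero h0 _ _) (by rw [wp_one, hs])
  let E : ∀ (g : G) (a : J 1), Path (toSk Γ 2 (vtx (g * (R.gen a)⁻¹))) (toSk Γ 2 (vtx g)) :=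
    fun g a => mkP (to2 (continuous_ed g a)) (ed_zero h0 g a) (ed_one g a)
  have hsq : ∀ g a, ((E g a).trans (P g)).Homotopic
      ((P (g * (R.gen a)⁻¹)).trans (Path.refl z₀)) := by
    intro g a
    obtain ⟨u, rfl⟩ : ∃ u, g = u * R.gen a := ⟨g * (R.gen a)⁻¹, by simp⟩
    refine cl_inj z₀ ⟨(P _).symm⟩ ?_
    rw [cl_trans, cl_trans, cl_refl, mul_one,
      cl_ext z₀ (p := E _ a) (q := stP h0 u (a, true)) fun _ => rfl,
      cl_ext z₀ (p := P (u * R.gen a)) (q := wP h0 (u * lv R.gen (a, true)) _) fun _ => rfl,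
      ← cl_wP_cons, hind u _ (s u), mul_inv_cancel_right]
    · exact cl_ext z₀ (p := wP h0 u (s u)) (q := P u) fun _ => rfl
    · rw [ev_cons]
      refine mul_left_cancel (a := u) ?_
      rw [hs, ← mul_assoc]
      exact hs _
  choose S hS0 hS1 hSl hSr using fun g a => exists_square _ _ _ _ (hsq g a)
  obtain ⟨N, hNl, hNc⟩ := exists_ext (good_one h0) (fun p t => P p.g t)
    (fun g a x t => S g a (t, x 0)) fun g a x ⟨i, hi⟩ => by
      obtain rfl : i = 0 := Subsingleton.elim (α := Fin 1) _ _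
      funext t
      rcases hi with hi | hi
      · rw [hi, hSl, chi_bot g a hi, h0, smul_vtx, vtx_g]
      · rw [hi, hSr, chi_top g a hi, vtx_g]
  refine ⟨N, CtsH.succ (fun _ hk => absurd hk (Nat.not_lt_zero _)) (K := fun p t => P p.g t)
    (fun k hk g j => ?_) hNl fun g a => ?_, fun p hp => ?_, fun p hp t => ?_⟩
  · obtain rfl : k = 0 := Nat.le_zero.1 hk
    exact (P g).continuous.comp continuous_snd
  · simp only [hNc]
    fun_prop
  · rcases cases_succ Γ hp with hp | ⟨g, a, x, rfl⟩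
    · simp only [hNl p hp, Path.source, Path.target]
      exact ⟨(eq_vtx (Nat.le_zero.1 hp)).symm, rfl⟩
    · simp only [hNc, hS0, hS1]
      exact ⟨congrArg (chi Γ 1 g a) (funext fun i => by
        rw [Subsingleton.elim (α := Fin 1) i 0]), rfl⟩
  · rw [hNl p hp]
    exact wp_dim h0 _ _ _

end Crest.Agent.R185.Top
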