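import Crest.Agent.R185.TopExt

/-!
# Row 185, `f.p. + FP∞ ⇒ F∞`: contractibility
-/

set_option autoImplicit false

noncomputable section

namespace Crest.Agent.R185.Top

open unitInterval Set Topology

variable {G : Type} [Group G] {J : ℕ → Type} [Unique (J 0)] {Γ : Att G J}

/-- a contraction of the `(k+1)`-skeleton inside the `(k+2)`-skeleton -/
def ContrInv (Γ : Att G J) (k : ℕ) (C : Pt G J → I → Pt G J) : Prop :=
  CtsH Γ (k + 1) (fun p t => toSk Γ (k + 2) (C p t)) ∧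
    ∀ p : Pt G J, p.n ≤ k + 1 → C p 0 = p ∧ C p 1 = vtx 1

theorem contr_cell (hΓ : ∀ n, Good Γ n) (hN : ∀ m, Nul Γ m) {k : ℕ} {C : Pt G J → I → Pt G J}
    (hC : ContrInv Γ k C) (g : G) (j : J (k + 2)) :
    ∃ φ : Cb (k + 2) → I → Pt G J,
      Continuous (fun q : Cb (k + 2) × I => toSk Γ (k + 3) (φ q.1 q.2)) ∧
      (∀ x ∈ Bd (k + 2), φ x = C (chi Γ (k + 2) g j x)) ∧
      ∀ x, φ x 0 = chi Γ (k + 2) g j x ∧ φ x 1 = vtx 1 := by
  classical
  obtain ⟨N, hNc, hN01, -⟩ := hN (k + 1)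
  let b : Cb (k + 3) → Pt G J := fun z =>
    if Fin.tail z ∈ Bd (k + 2) then C (chi Γ (k + 2) g j (Fin.tail z)) (z 0)
    else if z 0 = 0 then chi Γ (k + 2) g j (Fin.tail z) else vtx 1
  have hbd : ∀ x ∈ Bd (k + 2), (chi Γ (k + 2) g j x).n ≤ k + 1 := fun x hx =>
    Nat.le_of_lt_succ (chi_bd_dim (hΓ _) g j hx)
  have b0 : ∀ z : Cb (k + 3), z 0 = 0 → b z = chi Γ (k + 2) g j (Fin.tail z) := by
    intro z hz
    by_cases h : Fin.tail z ∈ Bd (k + 2)
    · simp only [b, if_pos h, hz]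
      exact (hC.2 _ (hbd _ h)).1
    · simp only [b, if_neg h, if_pos hz]
  have b1 : ∀ z : Cb (k + 3), z 0 = 1 → b z = vtx 1 := by
    intro z hz
    by_cases h : Fin.tail z ∈ Bd (k + 2)
    · simp only [b, if_pos h, hz]
      exact (hC.2 _ (hbd _ h)).2
    · have h0 : z 0 ≠ 0 := by rw [hz]; exact one_ne_zero
      simp only [b, if_neg h, if_neg h0]
  have b2 : ∀ z : Cb (k + 3), Fin.tail z ∈ Bd (k + 2) →
      b z = C (chi Γ (k + 2) g j (Fin.tail z)) (z 0) := fun z h => if_pos h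
  have hbc : ContinuousOn (fun z => toSk Γ (k + 2) (b z)) (Bd (k + 3)) := by
    have h0 : ContinuousOn (fun z => toSk Γ (k + 2) (b z)) {z | z 0 = 0} :=
      ((cts_toSk le_rfl (k + 2) le_rfl g j).comp
        (continuous_tail continuous_id)).continuousOn.congr fun z hz => by
          simp only [Function.comp_apply, id, b0 z hz]
    have h1 : ContinuousOn (fun z => toSk Γ (k + 2) (b z)) {z | z 0 = 1} :=
      (continuousOn_const (c := toSk Γ (k + 2) (vtx 1))).congr fun z hz => by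
        simp only [b1 z hz]
    have h2 : ContinuousOn (fun z => toSk Γ (k + 2) (b z)) (Fin.tail ⁻¹' Bd (k + 2)) :=
      ((hC.1.on_bd (hΓ _) g j).comp (f := fun z : Cb (k + 3) => (Fin.tail z, z 0))
        (by fun_prop) fun z hz => ⟨hz, mem_univ _⟩).congr fun z hz => by
          simp only [Function.comp_apply, b2 z hz]
    have c0 : IsClosed {z : Cb (k + 3) | z 0 = 0} :=
      isClosed_eq (continuous_apply 0) continuous_const
    have c1 : IsClosed {z : Cb (k + 3) | z 0 = 1} :=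
      isClosed_eq (continuous_apply 0) continuous_const
    have c2 : IsClosed (Fin.tail ⁻¹' Bd (k + 2) : Set (Cb (k + 3))) :=
      (isClosed_Bd _).preimage (continuous_tail continuous_id)
    exact (h0.union_of_isClosed (h1.union_of_isClosed h2 c1 c2) c0 (c1.union c2)).mono
      fun z hz => mem_Bd_succ.1 hz
  have hbn : ∀ z ∈ Bd (k + 3), (b z).n ≤ k + 2 := by
    intro z hz
    rcases mem_Bd_succ.1 hz with h | h | h
    · rw [b0 z h]; exact chi_dim (hΓ _) g j _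
    · rw [b1 z h]; exact Nat.zero_le _
    · rw [b2 z h]
      refine dim_le_of_continuous (hΓ _) (hC.1.path (hbd _ h)) (y₀ := 0) ?_ (z 0)
      rw [pt_toSk, (hC.2 _ (hbd _ h)).1]
      exact (hbd _ h).trans (Nat.le_succ _)
  obtain ⟨Φ, hΦ, -, hΦb⟩ := hep (n := k + 3) (f := fun _ => toSk Γ (k + 3) (vtx 1))
    continuous_const (k := fun z t => N (b z) (σ t)) (by
      rw [continuousOn_iff_continuous_domRestrict]
      exact hNc.comp (hΓ _) (γ := fun q : ↥(Bd (k + 3) ×ˢ (univ : Set I)) => b q.1.1)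
        (hbc.comp_continuous (by fun_prop) fun q => q.2.1) (fun q => hbn _ q.2.1)
        (t := fun q => σ q.1.2) (by fun_prop))
    (fun z hz => by
      rw [symm_zero]
      exact (hN01 _ (hbn z hz)).2)
  have hΦ1 : ∀ z ∈ Bd (k + 3), (Φ z 1).pt = b z := by
    intro z hz
    rw [hΦb z hz]
    simp only [symm_one]
    exact (hN01 _ (hbn z hz)).1
  refine ⟨fun x t => (Φ (Fin.cons t x) 1).pt, ?_, fun x hx => ?_, fun x => ⟨?_, ?_⟩⟩
  · exact hΦ.comp (f := fun q : Cb (k + 2) × I => ((Fin.cons q.2 q.1 : Cb (k + 3)), (1 : I)))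
      (by fun_prop)
  · funext t
    show (Φ (Fin.cons t x) 1).pt = _
    rw [hΦ1 _ (cons_mem_Bd.2 (Or.inr (Or.inr hx))), b2 _ (by rwa [Fin.tail_cons]),
      Fin.tail_cons, Fin.cons_zero]
  · show (Φ (Fin.cons 0 x) 1).pt = _
    rw [hΦ1 _ (cons_mem_Bd.2 (Or.inl rfl)), b0 _ rfl, Fin.tail_cons]
  · show (Φ (Fin.cons 1 x) 1).pt = _
    rw [hΦ1 _ (cons_mem_Bd.2 (Or.inr (Or.inl rfl))), b1 _ rfl]

theorem contr_step (hΓ : ∀ n, Good Γ n) (hN : ∀ m, Nul Γ m) {k : ℕ} {C : Pt G J → I → Pt G J}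
    (hC : ContrInv Γ k C) :
    ∃ C', ContrInv Γ (k + 1) C' ∧ ∀ p : Pt G J, p.n ≤ k + 1 → C' p = C p := by
  choose φ h1 h2 h3 using contr_cell hΓ hN hC
  obtain ⟨C', e1, e2⟩ := exists_ext (hΓ (k + 2)) C φ h2
  refine ⟨C', ⟨?_, fun p hp => ?_⟩, e1⟩
  · refine CtsH.succ (hΓ _) (hC.1.post (continuous_incl (Nat.le_succ (k + 2))))
      (fun p hp => ?_) fun g j => ?_
    · funext t
      rw [e1 p hp]
      rfl
    · simpa only [e2] using h1 g j
  · rcases cases_succ Γ hp with hp | ⟨g, j, x, rfl⟩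
    · rw [e1 p hp]
      exact hC.2 p hp
    · rw [e2]
      exact h3 g j x

theorem contractible (hΓ : ∀ n, Good Γ n) (hN : ∀ m, Nul Γ m) : ContractibleSpace (Tot Γ) := by
  obtain ⟨N, hNc, hN01, -⟩ := hN 0
  have h0 : ContrInv Γ 0 fun p t => (N p t).pt := ⟨hNc, hN01⟩
  choose step hs1 hs2 using fun (k : ℕ) (C : {C // ContrInv Γ k C}) => contr_step hΓ hN C.2
  let C : ∀ k, {C // ContrInv Γ k C} := fun k =>
    Nat.rec ⟨_, h0⟩ (fun k C => ⟨step k C, hs1 k C⟩) k
  have hsucc : ∀ k (p : Pt G J), p.n ≤ k + 1 → (C (k + 1)).1 p = (C k).1 p :=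
    fun k p hp => hs2 k (C k) p hp
  have hle : ∀ (p : Pt G J) k, p.n ≤ k → (C k).1 p = (C p.n).1 p := by
    intro p k hk
    induction k, hk using Nat.le_induction with
    | base => rfl
    | succ k hk ih => rw [hsucc k p (hk.trans k.le_succ), ih]
  have hcell : ∀ n (g : G) (j : J n), Continuous fun q : Cb n × I =>
      toTot Γ ((C (chi Γ n g j q.1).n).1 (chi Γ n g j q.1) q.2) := by
    intro n g j
    refine ((cts_toTot (n + 2)).comp ((C n).2.1 n n.le_succ g j)).congr fun q => ?_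
    rw [hle _ n (chi_dim (hΓ n) g j q.1)]
  let F : Tot Γ → C(I, Tot Γ) := fun p =>
    ⟨fun t => toTot Γ ((C p.pt.n).1 p.pt t),
      (cts_toTot (p.pt.n + 2)).comp ((C p.pt.n).2.1.path (Nat.le_succ _))⟩
  have hF : Continuous F := continuous_tot_iff.2 fun n g j =>
    ContinuousMap.continuous_of_continuous_uncurry _ (hcell n g j)
  rw [contractible_iff_id_nullhomotopic]
  refine ⟨toTot Γ (vtx 1), ⟨⟨⟨fun q => F q.2 q.1, (hF.comp continuous_snd).eval continuous_fst⟩,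
    fun p => ?_, fun p => ?_⟩⟩⟩
  · exact ((C p.pt.n).2.2 p.pt (Nat.le_succ _)).1
  · exact ((C p.pt.n).2.2 p.pt (Nat.le_succ _)).2

end Crest.Agent.R185.Top
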