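import Crest.Agent.R185.TopDef
import Crest.Agent.Lib.TwoComplex.CW
import Crest.Prelude.Def_FiniteTypeClassifying

/-!
# Row 185, `f.p. + FP∞ ⇒ F∞`: the quotient is a CW complex of finite type
-/

set_option autoImplicit false

noncomputable section

namespace Crest.Agent.R185.Top

open unitInterval Set _root_.Topology

variable {G : Type} [Group G] {J : ℕ → Type} [Unique (J 0)] {Γ : Att G J}

namespace Sp

open Crest.Agent.Lib.TwoComplex Metric

/-! ### The extension operator -/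

/-- interpolation between the bottom face and the vertex -/
def low (Γ : Att G J) (F : Pt G J → ℝ) (v : G → ℝ) : Pt G J → ℝ
  | ⟨0, g, _, _, _⟩ => v g
  | ⟨m + 1, g, j, x, _⟩ => (1 - (x 0 : ℝ)) * F (g • Γ m j (Fin.tail x)) + (x 0 : ℝ) * v g

omit [Unique (J 0)] in
lemma low_succ (F : Pt G J → ℝ) (v : G → ℝ) (m : ℕ) (g : G) (j : J (m + 1)) (x : Cb (m + 1))
    (hx : x ∉ Bd (m + 1)) :
    low Γ F v ⟨m + 1, g, j, x, hx⟩ =
      (1 - (x 0 : ℝ)) * F (g • Γ m j (Fin.tail x)) + (x 0 : ℝ) * v g := rfl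

/-- the extension with fuel -/
def extL (Γ : Att G J) (n : ℕ) (φ : Pt G J → ℝ) (k : ℕ) : Pt G J → ℝ :=
  Nat.rec φ (fun _ F p => if p.n ≤ n then φ p else low Γ F (fun g => φ (vtx g)) p) k

lemma extL_zero (n : ℕ) (φ : Pt G J → ℝ) : extL Γ n φ 0 = φ := rfl

lemma extL_succ (n : ℕ) (φ : Pt G J → ℝ) (k : ℕ) (p : Pt G J) :
    extL Γ n φ (k + 1) p =
      if p.n ≤ n then φ p else low Γ (extL Γ n φ k) (fun g => φ (vtx g)) p := rfl

lemma dimΓ (hΓ : ∀ n, Good Γ n) (m : ℕ) (g : G) (j : J (m + 1)) (y : Cb m) :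
    (g • Γ m j y).n ≤ m := (hΓ (m + 1) m m.lt_succ_self).dim j y

lemma extL_stab (hΓ : ∀ n, Good Γ n) (n : ℕ) (φ : Pt G J → ℝ) (k : ℕ) :
    ∀ p : Pt G J, p.n ≤ k → extL Γ n φ (k + 1) p = extL Γ n φ k p := by
  induction k with
  | zero =>
    intro p hp
    rw [extL_succ, if_pos (hp.trans (Nat.zero_le _)), extL_zero]
  | succ k ih =>
    intro p hp
    rw [extL_succ, extL_succ n φ k]
    split_ifs with h
    · rfl
    · obtain ⟨m, g, j, x, hx⟩ := p
      cases m with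
      | zero => rfl
      | succ m =>
        rw [low_succ, low_succ, ih _ ((dimΓ hΓ m g j _).trans (Nat.le_of_succ_le_succ hp))]

/-- the extension of a function on the `n`-skeleton -/
def ext (Γ : Att G J) (n : ℕ) (φ : Pt G J → ℝ) (p : Pt G J) : ℝ := extL Γ n φ p.n p

lemma extL_eq (hΓ : ∀ n, Good Γ n) (n : ℕ) (φ : Pt G J → ℝ) (p : Pt G J) {k : ℕ}
    (hk : p.n ≤ k) : extL Γ n φ k p = ext Γ n φ p := by
  induction k, hk using Nat.le_induction with
  | base => rfl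
  | succ k hk ih => rw [extL_stab hΓ n φ k p hk, ih]

lemma ext_of_le (hΓ : ∀ n, Good Γ n) {n : ℕ} (φ : Pt G J → ℝ) {p : Pt G J} (hp : p.n ≤ n) :
    ext Γ n φ p = φ p := by
  rw [← extL_eq hΓ n φ p (Nat.le_succ _), extL_succ, if_pos hp]

lemma ext_mk (hΓ : ∀ n, Good Γ n) {n : ℕ} (φ : Pt G J → ℝ) {m : ℕ} (hm : ¬ m + 1 ≤ n) (g : G)
    (j : J (m + 1)) (x : Cb (m + 1)) (hx : x ∉ Bd (m + 1)) :
    ext Γ n φ ⟨m + 1, g, j, x, hx⟩ =
      (1 - (x 0 : ℝ)) * ext Γ n φ (g • Γ m j (Fin.tail x)) + (x 0 : ℝ) * φ (vtx g) := by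
  change extL Γ n φ (m + 1) ⟨m + 1, g, j, x, hx⟩ = _
  rw [extL_succ, if_neg hm, low_succ, extL_eq hΓ n φ _ (dimΓ hΓ m g j _)]

lemma ext_chi (hΓ : ∀ n, Good Γ n) {n : ℕ} (φ : Pt G J → ℝ) {m : ℕ} (hm : ¬ m + 1 ≤ n) (g : G)
    (j : J (m + 1)) (x : Cb (m + 1)) :
    ext Γ n φ (chi Γ (m + 1) g j x) =
      (1 - (x 0 : ℝ)) * ext Γ n φ (g • Γ m j (Fin.tail x)) + (x 0 : ℝ) * φ (vtx g) := by
  have hv : ext Γ n φ (vtx g) = φ (vtx g) := ext_of_le hΓ φ (Nat.zero_le _)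
  by_cases hx : x ∈ Bd (m + 1)
  · rcases mem_Bd_succ.1 hx with h | h | h
    · rw [chi_bot _ _ h, h]; simp
    · rw [chi_top _ _ h, h, hv]; simp
    · rw [chi_side (hΓ _) _ _ h, (hΓ (m + 1) m m.lt_succ_self).bd j _ h, smul_vtx, mul_one, hv]
      ring
  · rw [chi_int _ _ hx, ext_mk hΓ φ hm]

lemma cts_ext (hΓ : ∀ n, Good Γ n) {n : ℕ} {φ : Pt G J → ℝ} (hφ : Cts Γ n φ) (m : ℕ) :
    Cts Γ m (ext Γ n φ) := by
  have hle : ∀ k ≤ n, ∀ (g : G) (j : J k), Continuous fun x => ext Γ n φ (chi Γ k g j x) :=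
    fun k hk g j => (hφ k hk g j).congr fun x =>
      (ext_of_le hΓ φ ((chi_dim (hΓ k) g j x).trans hk)).symm
  induction m with
  | zero => exact fun k hk => hle k (hk.trans (Nat.zero_le _))
  | succ m ih =>
    refine Cts.succ (hΓ m) ih (fun _ _ => rfl) fun g j => ?_
    by_cases hm : m + 1 ≤ n
    · exact hle _ hm g j
    · simp only [ext_chi hΓ φ hm]
      have h1 : Continuous fun x : Cb (m + 1) => ext Γ n φ (g • Γ m j (Fin.tail x)) :=
        ih.comp (continuous_smul_sk g (((hΓ (m + 1) m m.lt_succ_self).cts j).comp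
          (continuous_tail continuous_id)))
      have h2 : Continuous fun x : Cb (m + 1) => (x 0 : ℝ) :=
        continuous_subtype_val.comp (continuous_apply 0)
      exact ((continuous_const.sub h2).mul h1).add (h2.mul continuous_const)

lemma continuous_ext (hΓ : ∀ n, Good Γ n) {n : ℕ} {φ : Pt G J → ℝ} (hφ : Cts Γ n φ) :
    Continuous fun p : Tot Γ => ext Γ n φ p.pt :=
  continuous_tot_iff.2 fun m g j => cts_ext hΓ hφ m m le_rfl g j

/-- induction along the cells above dimension `n` -/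
lemma ind_above (hΓ : ∀ n, Good Γ n) (n : ℕ) {P : Pt G J → Prop} (h0 : ∀ p, p.n ≤ n → P p)
    (h1 : ∀ m, ¬ m + 1 ≤ n → ∀ g j x hx, P (g • Γ m j (Fin.tail x)) → P ⟨m + 1, g, j, x, hx⟩)
    (p : Pt G J) : P p := by
  have key : ∀ k, ∀ p : Pt G J, p.n ≤ k → P p := by
    intro k
    induction k with
    | zero => exact fun p hp => h0 p (hp.trans (Nat.zero_le _))
    | succ k ih =>
      intro p hp
      by_cases h : p.n ≤ n
      · exact h0 p h
      · obtain ⟨m, g, j, x, hx⟩ := p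
        cases m with
        | zero => exact absurd (Nat.zero_le _) h
        | succ m =>
          exact h1 m h g j x hx (ih _ ((dimΓ hΓ m g j _).trans (Nat.le_of_succ_le_succ hp)))
  exact key _ p le_rfl

lemma ext_smul (hΓ : ∀ n, Good Γ n) (n : ℕ) (φ : Pt G J → ℝ) (h : G) (p : Pt G J) :
    ext Γ n φ (h • p) = ext Γ n (fun q => φ (h • q)) p := by
  refine ind_above hΓ n (P := fun p => ext Γ n φ (h • p) = ext Γ n (fun q => φ (h • q)) p)
    (fun p hp => ?_) (fun m hm g j x hx ih => ?_) p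
  · rw [ext_of_le hΓ _ hp, ext_of_le hΓ φ (p := h • p) hp]
  · rw [smul_mk, ext_mk hΓ _ hm, ext_mk hΓ _ hm, mul_smul, ih, smul_vtx]

lemma ext_add_le (hΓ : ∀ n, Good Γ n) (n : ℕ) {φ₁ φ₂ φ₃ : Pt G J → ℝ}
    (h : ∀ q, φ₁ q + φ₂ q ≤ φ₃ q) (p : Pt G J) :
    ext Γ n φ₁ p + ext Γ n φ₂ p ≤ ext Γ n φ₃ p := by
  refine ind_above hΓ n (P := fun p => ext Γ n φ₁ p + ext Γ n φ₂ p ≤ ext Γ n φ₃ p)
    (fun p hp => ?_) (fun m hm g j x hx ih => ?_) p
  · rw [ext_of_le hΓ _ hp, ext_of_le hΓ _ hp, ext_of_le hΓ _ hp]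
    exact h p
  · rw [ext_mk hΓ _ hm, ext_mk hΓ _ hm, ext_mk hΓ _ hm]
    have h1 := mul_le_mul_of_nonneg_left ih (sub_nonneg.2 (x 0).2.2)
    have h2 := mul_le_mul_of_nonneg_left (h (vtx g)) (x 0).2.1
    linarith

/-! ### Functions supported on the open cells of one dimension -/

/-- a function on the open `n`-cells, extended by zero -/
def cf (n : ℕ) (f : G → J n → Cb n → ℝ) (p : Pt G J) : ℝ :=
  (Pi.single n f : ∀ m, G → J m → Cb m → ℝ) p.n p.g p.j p.x

omit [Group G] [Unique (J 0)] in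
lemma cf_mk (n : ℕ) (f : G → J n → Cb n → ℝ) (g : G) (j : J n) (x : Cb n) (hx : x ∉ Bd n) :
    cf n f ⟨n, g, j, x, hx⟩ = f g j x := by
  simp only [cf, Pi.single_eq_same]

omit [Group G] [Unique (J 0)] in
lemma cf_ne (n : ℕ) (f : G → J n → Cb n → ℝ) {p : Pt G J} (hp : p.n ≠ n) : cf n f p = 0 := by
  simp only [cf, Pi.single_eq_of_ne hp, Pi.zero_apply]

omit [Unique (J 0)] in
lemma cf_smul (n : ℕ) (f : G → J n → Cb n → ℝ) (h : G) (p : Pt G J) :
    cf n f (h • p) = cf n (fun g => f (h * g)) p := by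
  by_cases hp : p.n = n
  · obtain ⟨m, g, j, x, hx⟩ := p
    subst hp
    rw [smul_mk, cf_mk, cf_mk]
  · rw [cf_ne n _ hp, cf_ne n _ (p := h • p) hp]

lemma cts_cf (hΓ : ∀ n, Good Γ n) (n : ℕ) {f : G → J n → Cb n → ℝ}
    (hc : ∀ g j, Continuous (f g j)) (hb : ∀ g j, ∀ x ∈ Bd n, f g j x = 0) :
    Cts Γ n (cf n f) := by
  intro m hm g j
  rcases hm.eq_or_lt with rfl | hm
  · refine (hc g j).congr fun x => ?_
    by_cases hx : x ∈ Bd m
    · rw [hb g j x hx, cf_ne m f (chi_bd_dim (hΓ m) g j hx).ne]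
    · rw [chi_int _ _ hx, cf_mk]
  · exact (continuous_const (y := (0 : ℝ))).congr fun x =>
      (cf_ne n f ((chi_dim (hΓ m) g j x).trans_lt hm).ne).symm

/-- the bump function of the cube -/
def bump {n : ℕ} (x : Cb n) : ℝ := ∏ i, (x i : ℝ) * (1 - x i)

lemma continuous_bump {n : ℕ} : Continuous (bump (n := n)) := by
  unfold bump
  fun_prop

lemma bump_nonneg {n : ℕ} (x : Cb n) : 0 ≤ bump x :=
  Finset.prod_nonneg fun i _ => mul_nonneg (x i).2.1 (sub_nonneg.2 (x i).2.2)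

lemma bump_bd {n : ℕ} {x : Cb n} (hx : x ∈ Bd n) : bump x = 0 := by
  obtain ⟨i, hi⟩ := hx
  refine Finset.prod_eq_zero (Finset.mem_univ i) ?_
  rcases hi with hi | hi <;> simp [hi]

lemma bump_pos {n : ℕ} {x : Cb n} (hx : x ∉ Bd n) : 0 < bump x := by
  refine Finset.prod_pos fun i _ => ?_
  have h : Int (x i) := by
    by_contra h
    exact hx ⟨i, (not_int_iff _).1 h⟩
  exact mul_pos h.1 (sub_pos.2 h.2)

/-! ### The action -/

instance : MulAction G (Tot Γ) := inferInstanceAs (MulAction G (Pt G J))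

omit [Unique (J 0)] in
lemma pt_smul (h : G) (p : Tot Γ) : (h • p).pt = h • p.pt := rfl

omit [Unique (J 0)] in
lemma smul_toTot (h : G) (p : Pt G J) : h • toTot Γ p = toTot Γ (h • p) := rfl

lemma continuous_chi (n : ℕ) (g : G) (j : J n) : Continuous fun x => toTot Γ (chi Γ n g j x) :=
  cts_toTot n n le_rfl g j

instance : ContinuousConstSMul G (Tot Γ) :=
  ⟨fun h => continuous_tot_iff.2 fun n g j => by
    simp only [smul_toTot, smul_chi]
    exact continuous_chi n (h * g) j⟩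

lemma exists_nhds (hΓ : ∀ n, Good Γ n) (p : Tot Γ) :
    ∃ U ∈ 𝓝 p, ∀ g : G, ((g • ·) '' U ∩ U).Nonempty → g = 1 := by
  classical
  obtain ⟨n, g₀, j₀, x₀, hx₀⟩ := p
  let T : Pt G J → ℝ := cf n fun _ _ x => bump x
  let β : G → Pt G J → ℝ := fun a => cf n fun g _ x => if g = a then bump x else 0
  have hT : Cts Γ n T := cts_cf hΓ n (fun _ _ => continuous_bump) fun _ _ _ hx => bump_bd hx
  have hβ : ∀ a, Cts Γ n (β a) := fun a => cts_cf hΓ n
    (fun g _ => by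
      split_ifs
      · exact continuous_bump
      · exact continuous_const)
    fun _ _ _ hx => by rw [bump_bd hx, ite_self]
  refine ⟨{q : Tot Γ | ext Γ n T q.pt < 2 * ext Γ n (β g₀) q.pt}, IsOpen.mem_nhds
    (isOpen_lt (continuous_ext hΓ hT) (continuous_const.mul (continuous_ext hΓ (hβ g₀)))) ?_, ?_⟩
  · change ext Γ n T ⟨n, g₀, j₀, x₀, hx₀⟩ < 2 * ext Γ n (β g₀) ⟨n, g₀, j₀, x₀, hx₀⟩
    rw [ext_of_le hΓ (n := n) _ (p := ⟨n, g₀, j₀, x₀, hx₀⟩) le_rfl,
      ext_of_le hΓ (n := n) _ (p := ⟨n, g₀, j₀, x₀, hx₀⟩) le_rfl]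
    simp only [T, β, cf_mk, if_true]
    linarith [bump_pos hx₀]
  · rintro h ⟨_, ⟨y, hy1, rfl⟩, hy2⟩
    by_contra hne
    change ext Γ n T y.pt < 2 * ext Γ n (β g₀) y.pt at hy1
    change ext Γ n T (h • y.pt) < 2 * ext Γ n (β g₀) (h • y.pt) at hy2
    rw [ext_smul hΓ, ext_smul hΓ] at hy2
    have e1 : (fun q => T (h • q)) = T := funext fun q => cf_smul n _ h q
    rw [e1] at hy2
    have h3 := ext_add_le hΓ n (φ₁ := β g₀) (φ₂ := fun q => β g₀ (h • q)) (φ₃ := T)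
      (fun q => by
        simp only [β, T, cf_smul]
        by_cases hq : q.n = n
        · obtain ⟨m, g, j, x, hx⟩ := q
          subst hq
          rw [cf_mk, cf_mk, cf_mk]
          have := bump_nonneg x
          split_ifs with a b
          · exact absurd (mul_eq_right.1 (b.trans a.symm)) hne
          · linarith
          · linarith
          · linarith
        · rw [cf_ne n _ hq, cf_ne n _ hq, cf_ne n _ hq, add_zero]) y.pt
    linarith

/-! ### The quotient -/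

/-- the orbit space -/
abbrev Xq (Γ : Att G J) : Type := MulAction.orbitRel.Quotient G (Tot Γ)

/-- the covering map -/
def prj (x : Tot Γ) : Xq Γ := Quotient.mk _ x

lemma continuous_prj : Continuous (prj (Γ := Γ)) := continuous_quotient_mk'

omit [Unique (J 0)] in
lemma prj_smul (g : G) (x : Tot Γ) : prj (g • x) = prj x :=
  Quotient.sound (MulAction.orbitRel_apply.mpr (MulAction.mem_orbit _ _))

omit [Unique (J 0)] in
lemma prj_eq {x y : Tot Γ} (h : prj x = prj y) : ∃ g : G, g • y.pt = x.pt :=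
  MulAction.orbitRel_apply.mp (Quotient.exact h)

lemma isQuotientCoveringMap (hΓ : ∀ n, Good Γ n) : IsQuotientCoveringMap (prj (Γ := Γ)) G where
  toIsQuotientMap := isQuotientMap_quotient_mk'
  continuous_const_smul := continuous_const_smul
  apply_eq_iff_mem_orbit := Quotient.eq.trans MulAction.orbitRel_apply
  disjoint := exists_nhds hΓ

lemma exists_desc (hΓ : ∀ n, Good Γ n) (n : ℕ) {f : J n → Cb n → ℝ}
    (hc : ∀ j, Continuous (f j)) (hb : ∀ j, ∀ x ∈ Bd n, f j x = 0) :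
    ∃ F : Xq Γ → ℝ, Continuous F ∧
      ∀ p : Tot Γ, p.pt.n ≤ n → F (prj p) = cf n (fun _ => f) p.pt := by
  refine ⟨Quotient.lift (fun p : Tot Γ => ext Γ n (cf n fun _ => f) p.pt) ?_,
    (continuous_ext hΓ (cts_cf hΓ n (fun _ => hc) fun _ => hb)).quotient_lift _,
    fun p hp => ext_of_le hΓ _ hp⟩
  rintro x y ⟨g, rfl⟩
  change ext Γ n _ (g • y.pt) = _
  rw [ext_smul hΓ]
  exact congrArg (fun φ => ext Γ n φ y.pt) (funext fun q => cf_smul n _ g q)

lemma exists_sep (hΓ : ∀ n, Good Γ n) (p q : Tot Γ) (hpq : q.pt.n ≤ p.pt.n)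
    (hne : prj p ≠ prj q) : ∃ F : Xq Γ → ℝ, Continuous F ∧ F (prj p) ≠ F (prj q) := by
  classical
  by_contra hno
  push Not at hno
  obtain ⟨n, g, j, x, hx⟩ := p
  obtain ⟨F, hF, hF'⟩ := exists_desc hΓ n (f := fun j' y => if j' = j then bump y else 0)
    (fun j' => by
      split_ifs
      · exact continuous_bump
      · exact continuous_const)
    fun _ _ hx => by rw [bump_bd hx, ite_self]
  have h1 := hno F hF
  rw [hF' _ le_rfl, hF' q hpq] at h1
  change cf n _ ⟨n, g, j, x, hx⟩ = _ at h1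
  rw [cf_mk, if_pos rfl] at h1
  have hpos := bump_pos hx
  have hq : q.pt.n = n := by
    by_contra hq
    rw [cf_ne n _ hq] at h1
    exact hpos.ne' h1
  obtain ⟨m, g', j', x', hx'⟩ := q
  obtain rfl : m = n := hq
  change _ = cf m _ ⟨m, g', j', x', hx'⟩ at h1
  rw [cf_mk] at h1
  have hj : j' = j := by
    by_contra hj
    rw [if_neg hj] at h1
    exact hpos.ne' h1
  subst hj
  rw [if_pos rfl] at h1
  have hxx : x = x' := by
    funext i
    obtain ⟨F, hF, hF'⟩ := exists_desc hΓ m (f := fun _ y => (y i : ℝ) * bump y)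
      (fun _ => (continuous_subtype_val.comp (continuous_apply i)).mul continuous_bump)
      fun _ _ hx => by rw [bump_bd hx, mul_zero]
    have h2 := hno F hF
    rw [hF' _ le_rfl, hF' _ le_rfl] at h2
    change cf m _ ⟨m, g, j', x, hx⟩ = cf m _ ⟨m, g', j', x', hx'⟩ at h2
    rw [cf_mk, cf_mk, ← h1] at h2
    exact Subtype.ext (mul_right_cancel₀ hpos.ne' h2)
  subst hxx
  apply hne
  rw [← prj_smul (g' * g⁻¹)]
  congr 1
  change (⟨m, g' * g⁻¹ * g, j', x, hx⟩ : Pt G J) = _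
  rw [inv_mul_cancel_right]

lemma t2 (hΓ : ∀ n, Good Γ n) : T2Space (Xq Γ) := by
  refine ⟨fun a b hab => ?_⟩
  obtain ⟨p, rfl⟩ : ∃ p, prj p = a := Quotient.mk_surjective a
  obtain ⟨q, rfl⟩ : ∃ q, prj q = b := Quotient.mk_surjective b
  rcases le_total q.pt.n p.pt.n with h | h
  · obtain ⟨F, hF, h1⟩ := exists_sep hΓ p q h hab
    exact separated_by_continuous hF h1
  · obtain ⟨F, hF, h1⟩ := exists_sep hΓ q p h hab.symm
    exact separated_by_continuous hF h1.symm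

/-! ### The cells -/

/-- from the closed ball to the cube -/
def cub {n : ℕ} (x : Fin n → ℝ) : Cb n := fun i => pr (x i)

lemma continuous_cub {n : ℕ} : Continuous (cub (n := n)) :=
  continuous_pi fun i => continuous_pr.comp (continuous_apply i)

lemma cub_ball {n : ℕ} {x : Fin n → ℝ} (hx : x ∈ ball (0 : Fin n → ℝ) 1) : cub x ∉ Bd n :=
  fun ⟨i, hi⟩ => (not_int_iff _).2 hi (int_pr (abs_lt_of_ball hx i))

lemma cub_sphere {n : ℕ} {x : Fin n → ℝ} (hx : x ∈ sphere (0 : Fin n → ℝ) 1) : cub x ∈ Bd n := by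
  obtain ⟨i, hi⟩ := exists_abs_eq_of_sphere hx
  exact ⟨i, (not_int_iff _).1 (not_int_pr hi)⟩

/-- the characteristic maps -/
def chr (Γ : Att G J) (n : ℕ) (j : J n) : C(Fin n → ℝ, Xq Γ) :=
  ⟨fun x => prj (toTot Γ (chi Γ n 1 j (cub x))),
    continuous_prj.comp ((continuous_chi n 1 j).comp continuous_cub)⟩

lemma chr_apply (n : ℕ) (j : J n) (x : Fin n → ℝ) :
    chr Γ n j x = prj (toTot Γ (chi Γ n 1 j (cub x))) := rfl

lemma mem_cell (n : ℕ) (g : G) (j : J n) (x : Cb n) :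
    prj (toTot Γ (chi Γ n g j x)) ∈ chr Γ n j '' closedBall 0 1 := by
  refine ⟨fun i => 2 * x i - 1, ?_, ?_⟩
  · rw [mem_closedBall_zero_iff, pi_norm_le_iff_of_nonneg zero_le_one]
    intro i
    exact abs_le.2 ⟨by linarith [(x i).2.1], by linarith [(x i).2.2]⟩
  · have e : cub (fun i => 2 * (x i : ℝ) - 1) = x := funext fun i => pr_inv (x i)
    rw [chr_apply, e, ← prj_smul g, smul_toTot, smul_chi, mul_one]

lemma mem_cell' (p : Pt G J) : prj (toTot Γ p) ∈ chr Γ p.n p.j '' closedBall 0 1 := by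
  have := mem_cell (Γ := Γ) p.n p.g p.j p.x
  rwa [chi_self] at this

lemma isClosed_tot {S : Set (Tot Γ)}
    (h : ∀ n g j, IsClosed {x | toTot Γ (chi Γ n g j x) ∈ S}) : IsClosed S := by
  change @IsClosed (Pt G J) (⨆ n, tau Γ n) S
  simp only [isClosed_iSup_iff, isClosed_coinduced]
  exact fun _ m _ g j => h m g j

lemma exists_cw (hfin : ∀ n, Finite (J n)) (hΓ : ∀ n, Good Γ n) :
    ∃ _ : CWComplex (univ : Set (Xq Γ)), RelCWComplex.FiniteType (univ : Set (Xq Γ)) := by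
  have := t2 hΓ
  have hinj : ∀ n (j : J n), ∀ x ∈ ball (0 : Fin n → ℝ) 1,
      ∀ y ∈ closedBall (0 : Fin n → ℝ) 1, chr Γ n j x = chr Γ n j y → x = y := by
    intro n j x hx y hy h
    obtain ⟨g, hg⟩ := prj_eq h
    rw [pt_toTot, pt_toTot, smul_chi, chi_int _ _ (cub_ball hx)] at hg
    by_cases hb : cub y ∈ Bd n
    · have h1 := chi_bd_dim (hΓ n) (g * 1) j hb
      rw [hg] at h1
      exact absurd h1 (lt_irrefl n)
    · rw [chi_int _ _ hb] at hg
      have h2 : cub y = cub x := by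
        simp only [Pt.mk.injEq, heq_eq_eq, true_and] at hg
        exact hg.2
      funext i
      exact pr_inj (abs_lt_of_ball hx i).le (abs_le_of_closedBall hy i) (congrFun h2 i).symm
  have hi : ∀ n j, InjOn (chr Γ n j) (ball 0 1) := fun n j x hx y hy h =>
    hinj n j x hx y (ball_subset_closedBall hy) h
  refine ⟨CWComplex.mkFiniteType univ J
    (fun n j => (hi n j).toPartialEquiv (chr Γ n j) (ball 0 1)) hfin (fun _ _ => rfl)
    (fun n j => (chr Γ n j).continuous.continuousOn)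
    (fun n j => continuousOn_symm_of_inj (chr Γ n j) (hinj n j) (hi n j)) ?_ ?_ ?_ ?_,
    CWComplex.finiteType_mkFiniteType _ _ _ _ _ _ _ _ _ _ _⟩
  · rintro ⟨n, j⟩ - ⟨m, j'⟩ - hne
    rw [Function.onFun, Set.disjoint_left]
    rintro _ ⟨x, hx, rfl⟩ ⟨y, hy, h⟩
    obtain ⟨g, hg⟩ := prj_eq h
    rw [pt_toTot, pt_toTot, smul_chi, chi_int _ _ (cub_ball hx), chi_int _ _ (cub_ball hy)] at hg
    exact hne (congrArg (fun p : Pt G J => (⟨p.n, p.j⟩ : Σ n, J n)) hg)
  · intro n j x hx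
    simp only [mem_iUnion]
    exact ⟨_, chi_bd_dim (hΓ n) 1 j (cub_sphere hx), _, mem_cell' _⟩
  · intro A _ hA
    rw [← isQuotientMap_quotient_mk'.isClosed_preimage]
    refine isClosed_tot fun n g j => ?_
    have h1 := (hA n j).preimage (continuous_prj.comp (continuous_chi (Γ := Γ) n g j))
    convert h1 using 1
    ext x
    exact ⟨fun hx => ⟨hx, mem_cell n g j x⟩, fun hx => hx.1⟩
  · refine eq_univ_of_forall fun z => ?_
    obtain ⟨p, rfl⟩ : ∃ p, prj p = z := Quotient.mk_surjective z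
    exact mem_iUnion₂.2 ⟨_, _, mem_cell' p.pt⟩

end Sp

theorem classifying (hfin : ∀ n, Finite (J n)) (hΓ : ∀ n, Good Γ n)
    (hc : ContractibleSpace (Tot Γ)) : Crest.Topology.HasFiniteTypeClassifyingComplex G := by
  obtain ⟨cw, hft⟩ := Sp.exists_cw hfin hΓ
  have hp := Sp.isQuotientCoveringMap hΓ
  exact ⟨Sp.Xq Γ, inferInstance, cw, Sp.t2 hΓ, hft,
    ⟨Tot Γ, inferInstance, Sp.prj, hc, hp.isCoveringMap, hp.surjective⟩,
    Sp.prj (toTot Γ (vtx 1)),
    ⟨(hp.fundamentalGroupEquiv ⟨toTot Γ (vtx 1), rfl⟩).trans (MulEquiv.inv' G).symm⟩⟩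

end Crest.Agent.R185.Top
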