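import Crest.Agent.R185.TopExt

/-!
# Row 185, `f.p. + FP∞ ⇒ F∞`: the inductive step
-/

set_option autoImplicit false

noncomputable section

namespace Crest.Agent.R185.Top

open unitInterval Set Topology

variable {G : Type} [Group G] {J : ℕ → Type} [Unique (J 0)] {Γ : Att G J} {m : ℕ}

lemma lin_ext {X A : Type} [AddCommGroup A] {φ ψ : (X →₀ ℤ) →+ A}
    (h : ∀ x, φ (Finsupp.single x 1) = ψ (Finsupp.single x 1)) (z : X →₀ ℤ) : φ z = ψ z := by
  induction z using Finsupp.induction_linear with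
  | zero => rw [map_zero, map_zero]
  | add f g hf hg => rw [map_add, map_add, hf, hg]
  | single x n =>
    rw [← mul_one n, ← smul_eq_mul, ← Finsupp.smul_single, map_zsmul, map_zsmul, h]

lemma lin_single {X A : Type} [AddCommGroup A] (c : X → A) (x : X) :
    lin c (Finsupp.single x 1) = c x := by simp

lemma map_lin {X A B : Type} [AddCommGroup A] [AddCommGroup B] (φ : A →+ B) (c : X → A)
    (z : X →₀ ℤ) : φ (lin c z) = lin (fun x => φ (c x)) z :=
  lin_ext (φ := φ.comp (lin c).toAddMonoidHom) (ψ := (lin fun x => φ (c x)).toAddMonoidHom)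
    (fun x => by simp) z

lemma lin_add {X Y A : Type} [AddCommGroup A] {c c' : X → A} (u : (Y →₀ ℤ) →+ A)
    (d : (X →₀ ℤ) →+ (Y →₀ ℤ)) (h : ∀ x, c x = u (d (Finsupp.single x 1)) + c' x) (z : X →₀ ℤ) :
    lin c z = u (d z) + lin c' z :=
  lin_ext (φ := (lin c).toAddMonoidHom) (ψ := u.comp d + (lin c').toAddMonoidHom)
    (fun x => by simp [h]) z

section Loops

variable {W : Type} [TopologicalSpace W] {w : W}

lemma isLoop_chi {n : ℕ} (hΓ : Good Γ (n + 1)) {F : Pt G J → W} (hF : Cts Γ (n + 1) F)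
    (h : ∀ p : Pt G J, p.n ≤ n → F p = w) (g : G) (j : J (n + 1)) :
    IsLoop w fun y => F (chi Γ (n + 1) g j y) :=
  ⟨hF _ le_rfl g j, fun _ hy => h _ (Nat.le_of_lt_succ (chi_bd_dim hΓ g j hy))⟩

/-- The square lemma on a cell, combined with the incidence numbers. -/
lemma cls_chi_htp (hΓ : Good Γ (m + 2)) {d : Ch G J (m + 2) →+ Ch G J (m + 1)} (hJ : JH Γ m d)
    {K : Pt G J → I → W} (hK : CtsH Γ (m + 2) K) (hlow : ∀ p : Pt G J, p.n ≤ m → ∀ t, K p t = w)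
    (h01 : ∀ p : Pt G J, p.n ≤ m + 1 → K p 0 = w ∧ K p 1 = w) (z : Ch G J (m + 2)) :
    lin (fun a : G × J (m + 2) => cls w fun y => K (chi Γ (m + 2) a.1 a.2 y) 0) z =
      lin (fun b : G × J (m + 1) =>
        cls w fun z : Cb (m + 2) => K (chi Γ (m + 1) b.1 b.2 (Fin.tail z)) (z 0)) (d z) +
      lin (fun a : G × J (m + 2) => cls w fun y => K (chi Γ (m + 2) a.1 a.2 y) 1) z := by
  refine lin_add (lin _).toAddMonoidHom d (fun a => ?_) z
  obtain ⟨g, j⟩ := a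
  have hd : ∀ y ∈ Bd (m + 2), (chi Γ (m + 2) g j y).n ≤ m + 1 := fun y hy =>
    Nat.le_of_lt_succ (chi_bd_dim hΓ g j hy)
  have h1 := cls_square (w := w) (fun y => K (chi Γ (m + 2) g j y)) (hK _ le_rfl g j)
    (fun y hy => (h01 _ (hd y hy)).1) (fun y hy => (h01 _ (hd y hy)).2) fun y hy t => by
      rcases hy with hy | hy
      · rw [chi_top _ _ hy]; exact hlow _ (Nat.zero_le _) t
      · rw [chi_side hΓ _ _ hy]; exact hlow _ (Nat.zero_le _) t
  simp only [chi_cons_zero] at h1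
  rw [h1, hJ W w K (hK.mono (Nat.le_succ _)) hlow h01 g j]
  rfl

end Loops

/-- the extension of a null-homotopy of the `(m+1)`-skeleton to the `(m+2)`-skeleton -/
lemma Nul.exists_htp (hΓ : Good Γ (m + 2)) (hN : Nul Γ m) :
    ∃ H : Pt G J → I → Sk Γ (m + 2), CtsH Γ (m + 2) H ∧
      (∀ p : Pt G J, p.n ≤ m + 2 → H p 0 = toSk Γ (m + 2) p) ∧
      (∀ p : Pt G J, p.n ≤ m + 1 → H p 1 = toSk Γ (m + 2) (vtx 1)) ∧
      ∀ p : Pt G J, p.n ≤ m → ∀ t, (H p t).pt.n ≤ m + 1 := by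
  obtain ⟨N, hc, h01, hd⟩ := hN
  obtain ⟨H, h1, h2, h3⟩ := hepE hΓ (cts_toSk le_rfl) hc fun p hp => (h01 p hp).1
  exact ⟨H, h1, h2, fun p hp => by rw [h3 p hp]; exact (h01 p hp).2,
    fun p hp t => by rw [h3 p (hp.trans m.le_succ)]; exact hd p hp t⟩

/-- Attaching loops with the right incidence numbers exist. -/
theorem stepA (hΓ : Good Γ (m + 2)) (R : Res G J) (hJ : JH Γ m (R.d m)) (hN : Nul Γ m) :
    ∃ γ, GoodAt Γ (m + 2) γ ∧ JP Γ m (R.d (m + 1)) γ := by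
  obtain ⟨H, hH, hH0, hH1, hHd⟩ := hN.exists_htp hΓ
  let Λ := lin fun a : G × J (m + 2) =>
    cls (toSk Γ (m + 2) (vtx 1)) fun y => H (chi Γ (m + 2) a.1 a.2 y) 1
  choose γ hγ hγc using fun j : J (m + 3) => cls_surj (Λ (R.d (m + 1) (Finsupp.single (1, j) 1)))
  have key : ∀ (W : Type) [TopologicalSpace W] (w : W) (F : Pt G J → W), Cts Γ (m + 2) F →
      (∀ p : Pt G J, p.n ≤ m + 1 → F p = w) → ∀ j : J (m + 3), cls w (fun y => F (γ j y).pt) =
        lin (fun a : G × J (m + 2) => cls w fun y => F (chi Γ (m + 2) a.1 a.2 y))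
          (R.d (m + 1) (Finsupp.single (1, j) 1)) := by
    intro W _ w F hF hFw j
    obtain ⟨φ, hφ⟩ := exists_map (m := m) hF.continuous
      (w := toSk Γ (m + 2) (vtx 1)) (hFw _ (Nat.zero_le _))
    have h1 := cls_chi_htp hΓ hJ (w := w) (hH.post hF.continuous)
      (fun p hp t => hFw _ (hHd p hp t))
      (fun p hp => ⟨by rw [hH0 p (hp.trans (Nat.le_succ _))]; exact hFw p hp,
        by rw [hH1 p hp]; exact hFw _ (Nat.zero_le _)⟩) (R.d (m + 1) (Finsupp.single (1, j) 1))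
    rw [R.d_d, map_zero, zero_add] at h1
    simp only [hH0 _ (chi_dim hΓ _ _ _), pt_toSk] at h1
    rw [h1, ← hφ _ (hγ j), hγc, map_lin]
    congr 2
    funext a
    exact hφ _ (isLoop_chi hΓ (hH.at 1) hH1 a.1 a.2)
  refine ⟨fun j y => (γ j y).pt, ⟨fun j => (hγ j).1, fun j y hy => (hγ j).2 y hy, fun j y => ?_⟩,
    fun W _ w F hF hFw g j => ?_⟩
  · refine dim_le_of_continuous hΓ (hγ j).1 (y₀ := fun _ => 0) ?_ y
    rw [(hγ j).2 _ ⟨0, Or.inl rfl⟩]
    exact Nat.zero_le _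
  · have h1 := key W w (fun p => F (g • p)) (hF.smul g) (fun p hp => hFw _ hp) j
    have h2 : (Finsupp.single (g, j) 1 : Ch G J (m + 3)) = tl g (Finsupp.single (1, j) 1) := by
      simp [Finsupp.mapDomain_single]
    rw [h1, h2, R.d_act, Finsupp.linearCombination_mapDomain]
    simp only [smul_chi]
    rfl

/-- From maps to loop-valued maps. -/
theorem stepJ (hΓ : Good Γ (m + 3)) {d : Ch G J (m + 3) →+ Ch G J (m + 2)}
    (hP : JP Γ m d (Γ (m + 2))) : JH Γ (m + 1) d := by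
  intro W _ w K hK hlow h01 g j
  have hΓ' : Good Γ (m + 2) := hΓ.mono (Nat.le_succ _)
  have hG := hΓ (m + 2) (Nat.lt_succ_self _)
  let F : Pt G J → Path w w := fun p =>
    if h : p.n ≤ m + 2 then ⟨⟨K p, hK.path h⟩, (h01 p h).1, (h01 p h).2⟩ else Path.refl w
  have hF : ∀ p : Pt G J, p.n ≤ m + 2 → ∀ t, F p t = K p t := fun p hp t => by
    simp only [F, dif_pos hp]; rfl
  have hFc : Cts Γ (m + 2) F := fun k hk g j =>
    Path.continuous_uncurry_iff.1 ((hK k hk g j).congr fun q =>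
      (hF _ ((chi_dim (hΓ'.mono hk) g j q.1).trans hk) q.2).symm)
  have hFw : ∀ p : Pt G J, p.n ≤ m + 1 → F p = Path.refl w := fun p hp =>
    Path.ext (funext fun t => (hF p (hp.trans (Nat.le_succ _)) t).trans (hlow p hp t))
  obtain ⟨φ, hφ⟩ := exists_uncurry (m := m) w
  have h1 := congrArg φ (hP _ _ F hFc hFw g j)
  rw [hφ _ ⟨hFc.comp (continuous_smul_sk g (hG.cts j)), fun y hy => by
    rw [hG.bd j y hy]; exact hFw _ (Nat.zero_le _)⟩, map_lin] at h1
  simp only [hF _ (show (g • Γ (m + 2) j _).n ≤ m + 2 from hG.dim j _)] at h1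
  rw [h1]
  congr 2
  funext a
  rw [hφ _ (isLoop_chi hΓ' hFc hFw a.1 a.2)]
  simp only [hF _ (chi_dim hΓ' _ _ _)]

/-- The next skeleton is null-homotopic. -/
theorem stepN (hΓ : Good Γ (m + 3)) (R : Res G J) (hJ : JH Γ m (R.d m))
    (hP : JP Γ m (R.d (m + 1)) (Γ (m + 2))) (hN : Nul Γ m) : Nul Γ (m + 1) := by
  have hΓ' : Good Γ (m + 2) := hΓ.mono (Nat.le_succ _)
  have hΓ'' : Good Γ (m + 1) := hΓ'.mono (Nat.le_succ _)
  have hG := hΓ (m + 2) (Nat.lt_succ_self _)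
  obtain ⟨H, hH, hH0, hH1, -⟩ := hN.exists_htp hΓ'
  obtain ⟨s, hs⟩ := R.split m
  let ι : Sk Γ (m + 2) → Sk Γ (m + 3) := fun p => toSk Γ (m + 3) p.pt
  have hι : Continuous ι := continuous_incl (Nat.le_succ _)
  let b₂ := toSk Γ (m + 2) (vtx 1)
  let b₃ := toSk Γ (m + 3) (vtx 1)
  let Λ := lin fun a : G × J (m + 2) => cls b₂ fun y => H (chi Γ (m + 2) a.1 a.2 y) 1
  obtain ⟨φ, hφ⟩ := exists_map (m := m) hι (w := b₂) (w' := b₃) rfl
  -- boundaries are killed in the next skeleton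
  have hbd : ∀ e, φ (Λ (R.d (m + 1) e)) = 0 := by
    refine lin_ext (φ := φ.comp (Λ.toAddMonoidHom.comp (R.d (m + 1)))) (ψ := 0) ?_
    rintro ⟨g, j⟩
    have h1 := hP _ b₃ (fun p => ι (H p 1)) ((hH.at 1).post hι)
      (fun p hp => by rw [hH1 p hp]; rfl) g j
    obtain ⟨H', hH', -, hH'e⟩ := hepE hΓ (cts_toSk le_rfl) (hH.post hι)
      fun p hp => by rw [hH0 p hp]; rfl
    have h2 := cls_congr (w := b₃) (fun y t => H' (chi Γ (m + 3) g j (Fin.cons t y)) 1)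
      (((hH'.at 1) _ le_rfl g j).comp (continuous_cons continuous_snd continuous_fst))
      fun y hy t => by
        rw [chi_side hΓ g j (by rwa [Fin.tail_cons]), hH'e _ (Nat.zero_le _)]
        exact congrArg ι (hH1 _ (Nat.zero_le _))
    have e1 : ∀ y : Cb (m + 2), H' (chi Γ (m + 3) g j (Fin.cons 1 y)) 1 = b₃ := fun y => by
      rw [chi_top g j rfl, hH'e _ (Nat.zero_le _)]
      exact congrArg ι (hH1 _ (Nat.zero_le _))
    simp only [e1, cls_const, chi_cons_zero,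
      hH'e _ (show (g • Γ (m + 2) j _).n ≤ m + 2 from hG.dim j _)] at h2
    rw [h2] at h1
    change φ (Λ _) = 0
    rw [h1, map_lin]
    congr 2
    funext a
    exact hφ _ (isLoop_chi hΓ' (hH.at 1) hH1 a.1 a.2)
  -- the correction on the `(m+1)`-cells
  choose k hk hkc using fun b : G × J (m + 1) => cls_surj (Λ (s (Finsupp.single b 1)))
  obtain ⟨K, hKl, hKc⟩ := exists_ext hΓ'' (fun _ (_ : I) => b₂)
    (fun g j x t => k (g, j) (Fin.cons t x))
    fun g j x hx => funext fun t => (hk _).2 _ (cons_mem_Bd.2 (Or.inr (Or.inr hx)))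
  have hK : CtsH Γ (m + 1) K :=
    CtsH.succ (hΓ''.mono (Nat.le_succ _)) (K := fun _ _ => b₂) (fun _ _ _ _ => continuous_const) hKl
      fun g j => by
        simp only [hKc]
        exact (hk _).1.comp (continuous_cons continuous_snd continuous_fst)
  have hK01 : ∀ p : Pt G J, p.n ≤ m + 1 → K p 0 = b₂ ∧ K p 1 = b₂ := fun p hp => by
    rcases cases_succ Γ hp with hp | ⟨g, j, x, rfl⟩
    · rw [hKl p hp]; exact ⟨rfl, rfl⟩
    · rw [hKc]
      exact ⟨(hk _).2 _ (cons_mem_Bd.2 (Or.inl rfl)),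
        (hk _).2 _ (cons_mem_Bd.2 (Or.inr (Or.inl rfl)))⟩
  obtain ⟨K', hK', hK'0, hK'e⟩ := hepE hΓ' (hH.at 1) hK
    fun p hp => (hK01 p hp).1.trans (hH1 p hp).symm
  have hK'1 : ∀ p : Pt G J, p.n ≤ m + 1 → K' p 1 = b₂ := fun p hp => by
    rw [hK'e p hp]; exact (hK01 p hp).2
  have hob : ∀ a : G × J (m + 2),
      cls b₃ (fun y => ι (K' (chi Γ (m + 2) a.1 a.2 y) 1)) = 0 := by
    intro a
    have h1 := cls_chi_htp hΓ' hJ (w := b₂) hK'
      (fun p hp t => by rw [hK'e p (hp.trans m.le_succ), hKl p hp])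
      (fun p hp => by rw [hK'e p hp]; exact hK01 p hp) (Finsupp.single a 1)
    simp only [hK'0 _ (chi_dim hΓ' _ _ _), hK'e _ (chi_dim hΓ'' _ _ _), hKc, Fin.cons_self_tail,
      hkc] at h1
    obtain ⟨e, he⟩ := hs (Finsupp.single a 1)
    have h2 : ∀ z, lin (fun b => Λ (s (Finsupp.single b 1))) z = Λ (s z) :=
      lin_ext (φ := (lin _).toAddMonoidHom) (ψ := Λ.toAddMonoidHom.comp s) fun b => lin_single _ b
    rw [h2, lin_single (fun a : G × J (m + 2) =>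
      cls b₂ fun y => K' (chi Γ (m + 2) a.1 a.2 y) 1)] at h1
    have h3 : Λ (Finsupp.single a 1) = _ := congrArg Λ he
    rw [map_add] at h3
    have h4 := add_left_cancel (h1.symm.trans h3)
    rw [← hφ _ (isLoop_chi hΓ' (hK'.at 1) hK'1 a.1 a.2), h4, hbd]
  -- the final null-homotopy
  choose Ψ hΨ hΨ0 hΨ1 hΨb using fun a : G × J (m + 2) => exists_null
    (isLoop_chi hΓ' ((hK'.at 1).post hι) (fun p hp => by rw [hK'1 p hp]; rfl) a.1 a.2) (hob a)
  obtain ⟨M, hMl, hMc⟩ := exists_ext hΓ' (fun _ (_ : I) => b₃) (fun g j => Ψ (g, j))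
    fun g j x hx => funext (hΨb _ x hx)
  have hM : CtsH Γ (m + 2) M :=
    CtsH.succ hΓ'' (K := fun _ _ => b₃) (fun _ _ _ _ => continuous_const) hMl
      fun g j => by simpa only [hMc] using hΨ _
  have hM01 : ∀ p : Pt G J, p.n ≤ m + 2 → ι (K' p 1) = M p 0 ∧ M p 1 = b₃ := fun p hp => by
    rcases cases_succ Γ hp with hp | ⟨g, j, x, rfl⟩
    · rw [hMl p hp, hK'1 p hp]; exact ⟨rfl, rfl⟩
    · rw [hMc, hΨ0, hΨ1]; exact ⟨rfl, rfl⟩
  obtain ⟨N₁, hN₁, h10, h11, h1t⟩ := hH.trans hΓ' hK' fun p hp => (hK'0 p hp).symm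
  obtain ⟨N₂, hN₂, h20, h21, h2t⟩ := (hN₁.post hι).trans hΓ' hM fun p hp => by
    rw [h11]; exact (hM01 p hp).1
  refine ⟨N₂, hN₂, fun p hp => ⟨?_, ?_⟩, fun p hp t => ?_⟩
  · rw [h20, h10, hH0 p hp]; rfl
  · rw [h21, (hM01 p hp).2]; rfl
  · have hp' := hp.trans (Nat.le_succ _)
    obtain ⟨t', h | h⟩ := h2t p t
    · rw [h]
      refine dim_le_of_continuous hΓ' (hN₁.path hp') (y₀ := 0) ?_ t'
      rw [h10, hH0 p hp']
      exact hp'
    · rw [h, hMl p hp]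
      exact Nat.zero_le _

end Crest.Agent.R185.Top
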