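import Crest.Agent.R185.TopAlg
import Crest.Agent.R185.TopStep
import Crest.Agent.R185.TopBase
import Crest.Agent.R185.TopContr
import Crest.Agent.R185.TopSp

/-!
# Row 185: finitely presented + `FP∞` implies `F∞`
-/

set_option autoImplicit false

namespace Crest.Agent.R185

namespace Top

/-- Recursive choice for a local condition. -/
lemma exists_rec {A : ℕ → Type} [∀ n, Nonempty (A n)] (P : ∀ n, (∀ k, A k) → A n → Prop)
    (hloc : ∀ n Γ Γ', (∀ k < n, Γ k = Γ' k) → ∀ a, P n Γ a → P n Γ' a) :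
    ∃ Γ, ∀ n, (∃ a, P n Γ a) → P n Γ (Γ n) := by
  classical
  let S : ℕ → ∀ k, A k := fun n => Nat.rec (fun k => Classical.arbitrary (A k))
    (fun n s => Function.update s n (Classical.epsilon (P n s))) n
  have hS : ∀ n, S (n + 1) = Function.update (S n) n (Classical.epsilon (P n (S n))) := fun _ => rfl
  have h : ∀ n, ∀ k < n, S n k = S (k + 1) k := by
    intro n
    induction n with
    | zero => intro k hk; exact absurd hk (Nat.not_lt_zero k)
    | succ n ih =>
      intro k hk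
      rcases (Nat.le_of_lt_succ hk).eq_or_lt with rfl | hk'
      · rfl
      · rw [hS n, Function.update_of_ne hk'.ne, ih k hk']
  refine ⟨fun k => S (k + 1) k, fun n ⟨a, ha⟩ => hloc n (S n) _ (h n) _ ?_⟩
  change P n (S n) (S (n + 1) n)
  rw [hS n, Function.update_self]
  exact Classical.epsilon_spec ⟨a, hloc n _ (S n) (fun k hk => (h n k hk).symm) a ha⟩

variable {G : Type} [Group G] {J : ℕ → Type} [Unique (J 0)]

lemma chi_congr {Γ Γ' : Att G J} {n : ℕ} (h : ∀ k < n, Γ k = Γ' k) {m : ℕ} (hm : m ≤ n) :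
    chi Γ m = chi Γ' m := by
  funext g j x
  cases m with
  | zero => rfl
  | succ m =>
    by_cases hx : x ∈ Bd (m + 1)
    · by_cases h0 : x 0 = 0
      · rw [chi_bot _ _ h0, chi_bot _ _ h0, h m hm]
      · rw [chi_side' _ _ hx h0, chi_side' _ _ hx h0]
    · rw [chi_int _ _ hx, chi_int _ _ hx]

lemma Cts.congr_att {Γ Γ' : Att G J} {n : ℕ} (h : ∀ k < n, Γ k = Γ' k) {W : Type}
    [TopologicalSpace W] {F : Pt G J → W} (hF : Cts Γ n F) : Cts Γ' n F :=
  fun m hm g j => by rw [← chi_congr h hm]; exact hF m hm g j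

theorem exists_complex (R : Res G J) : ∃ Γ : Att G J, (∀ n, Good Γ n) ∧ ∀ m, Nul Γ m := by
  obtain ⟨γ₀, γ₁, hb⟩ := base R
  have : Nonempty (Pt G J) := ⟨vtx 1⟩
  obtain ⟨Γ, hΓ⟩ := exists_rec (A := fun n => J (n + 1) → Cb n → Pt G J)
    (fun n => match n with
      | 0 => fun _ γ => γ = γ₀
      | 1 => fun _ γ => γ = γ₁
      | m + 2 => fun Γ γ => GoodAt Γ (m + 2) γ ∧ JP Γ m (R.d (m + 1)) γ) (by
      intro n Γ Γ' h γ hγ
      match n, h, γ, hγ with
      | 0, _, _, hγ => exact hγ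
      | 1, _, _, hγ => exact hγ
      | m + 2, h, γ, ⟨h1, h2⟩ =>
        have h' : ∀ k < m + 2, Γ' k = Γ k := fun k hk => (h k hk).symm
        refine ⟨⟨fun j => ((cts_toSk le_rfl).congr_att h').comp (h1.cts j), h1.bd, h1.dim⟩,
          fun W _ w F hF hFw g j => ?_⟩
        rw [← chi_congr h le_rfl]
        exact h2 W w F (hF.congr_att h') hFw g j)
  have key : ∀ m, Good Γ (m + 2) ∧ JH Γ m (R.d m) ∧ Nul Γ m := by
    intro m
    induction m with
    | zero => exact hb Γ (hΓ 0 ⟨_, rfl⟩) (hΓ 1 ⟨_, rfl⟩)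
    | succ m ih =>
      obtain ⟨h1, h2, h3⟩ := ih
      obtain ⟨h4, h5⟩ := hΓ (m + 2) (stepA h1 R h2 h3)
      have h6 : Good Γ (m + 3) := fun k hk => by
        rcases (Nat.le_of_lt_succ hk).eq_or_lt with rfl | hk'
        · exact h4
        · exact h1 k hk'
      exact ⟨h6, stepJ h6 h5, stepN h6 R h2 h5 h3⟩
  exact ⟨Γ, fun n => (key n).1.mono (Nat.le_add_right _ _), fun m => (key m).2.2⟩

end Top

theorem finiteType_of_fp (G : Type) [Group G] (h₁ : Group.IsFinitelyPresented G) (h₂ : FPinf G) :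
    Crest.Topology.HasFiniteTypeClassifyingComplex G := by
  obtain ⟨J, _, hfin, ⟨R⟩⟩ := Top.exists_res G h₁ h₂
  obtain ⟨Γ, hΓ, hN⟩ := Top.exists_complex R
  exact Top.classifying hfin hΓ (Top.contractible hΓ hN)

end Crest.Agent.R185
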