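import Crest.Agent.R185.TopDef
import Crest.Agent.R185.FPAlg

/-!
# Row 185, `f.p. + FP∞ ⇒ F∞`: the resolution
-/

set_option autoImplicit false

noncomputable section

namespace Crest.Agent.R185.Top

section Fox

variable {G α : Type} [Group G] (gen : α → G)

theorem alg_fox_append (u v : List (α × Bool)) (g : G) :
    fox gen g (u ++ v) = fox gen g u + fox gen (g * FreeGroup.lift gen (FreeGroup.mk u)) v := by
  induction u generalizing g with
  | nil => simp [fox]
  | cons x u ih =>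
    obtain ⟨a, b⟩ := x
    cases b <;> simp [fox, ih, add_assoc, mul_assoc]

theorem alg_fox_tl (w : List (α × Bool)) (g h : G) : fox gen (g * h) w = tl g (fox gen h w) := by
  induction w generalizing h with
  | nil => simp [fox]
  | cons x w ih =>
    obtain ⟨a, b⟩ := x
    cases b
    · simp only [fox, mul_assoc, ih, tl, neg_add_eq_sub, Finsupp.mapDomain_sub,
        Finsupp.mapDomain_single]
    · simp only [fox, mul_assoc, ih, tl, Finsupp.mapDomain_add, Finsupp.mapDomain_single]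

/-- the Fox derivative on the free group -/
def algD (g : G) : FreeGroup α → (G × α →₀ ℤ) :=
  Quot.lift (fox gen g) (by
    rintro _ _ ⟨⟩
    rename_i u v a b
    rw [alg_fox_append, alg_fox_append]
    cases b <;> simp [fox])

theorem algD_mk (g : G) (w : List (α × Bool)) : algD gen g (FreeGroup.mk w) = fox gen g w := rfl

theorem algD_mul (g : G) (x y : FreeGroup α) :
    algD gen g (x * y) = algD gen g x + algD gen (g * FreeGroup.lift gen x) y := by
  obtain ⟨u⟩ := x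
  obtain ⟨v⟩ := y
  exact alg_fox_append gen u v g

theorem algD_one (g : G) : algD gen g 1 = 0 := rfl

theorem algD_of (g : G) (a : α) :
    algD gen g (FreeGroup.of a) = Finsupp.single (g * gen a, a) 1 := add_zero _

theorem algD_inv (g : G) (x : FreeGroup α) :
    algD gen (g * FreeGroup.lift gen x) x⁻¹ = -algD gen g x := by
  rw [eq_neg_iff_add_eq_zero, add_comm, ← algD_mul, mul_inv_cancel, algD_one]

/-- boundary of edges -/
def algd0 : (G × α →₀ ℤ) →+ (G × Unit →₀ ℤ) :=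
  (lin fun e : G × α => (Finsupp.single (e.1, ()) 1 -
    Finsupp.single (e.1 * (gen e.2)⁻¹, ()) 1 : G × Unit →₀ ℤ)).toAddMonoidHom

theorem algd0_single (g : G) (a : α) : algd0 gen (Finsupp.single (g, a) 1) =
    Finsupp.single (g, ()) 1 - Finsupp.single (g * (gen a)⁻¹, ()) 1 := by
  simp [algd0]

theorem algd0_D (g : G) (x : FreeGroup α) : algd0 gen (algD gen g x) =
    Finsupp.single (g * FreeGroup.lift gen x, ()) 1 - Finsupp.single (g, ()) 1 := by
  obtain ⟨w⟩ := x
  rw [FreeGroup.quot_mk_eq_mk, algD_mk]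
  induction w generalizing g with
  | nil => simp [fox]
  | cons x w ih =>
    obtain ⟨a, b⟩ := x
    cases b <;> simp [fox, ih, algd0_single, mul_assoc]

end Fox

theorem alg_ext {X A : Type} [AddCommGroup A] {f g : (X →₀ ℤ) →+ A}
    (h : ∀ x, f (Finsupp.single x 1) = g (Finsupp.single x 1)) (c : X →₀ ℤ) : f c = g c := by
  have : f = g := Finsupp.addHom_ext' fun x => AddMonoidHom.ext_int (h x)
  rw [this]

theorem alg_equiv {G X Y : Type} [Group G] {f : (G × X →₀ ℤ) →+ (G × Y →₀ ℤ)}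
    (h : ∀ g k x, f (Finsupp.single (g * k, x) 1) = tl g (f (Finsupp.single (k, x) 1))) (g : G)
    (c : G × X →₀ ℤ) : f (tl g c) = tl g (f c) :=
  alg_ext (f := f.comp (Finsupp.mapDomain.addMonoidHom _))
    (g := (Finsupp.mapDomain.addMonoidHom _).comp f)
    (fun x => by simpa [Finsupp.mapDomain.addMonoidHom] using h g x.1 x.2) c

theorem alg_split {A B X D : Type} [AddCommGroup A] [AddCommGroup B] [AddCommGroup D]
    (d₀ : (X →₀ ℤ) →+ A) (d₁ : B →+ (X →₀ ℤ)) (d₂ : D →+ B) (s : A →+ (X →₀ ℤ))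
    (hs : ∀ a, ∃ e, a = s (d₀ a) + d₁ e) (h₀ : ∀ b, d₀ (d₁ b) = 0)
    (h₁ : ∀ b, d₁ b = 0 → b ∈ Set.range d₂) :
    ∃ s' : (X →₀ ℤ) →+ B, ∀ b, ∃ e, b = s' (d₁ b) + d₂ e := by
  choose e he using hs
  let s' : (X →₀ ℤ) →+ B := (lin fun x => e (Finsupp.single x 1)).toAddMonoidHom
  have h : ∀ a, a = s (d₀ a) + d₁ (s' a) :=
    alg_ext (f := AddMonoidHom.id _) (g := s.comp d₀ + d₁.comp s') fun x => by
      simpa [s'] using he (Finsupp.single x 1)
  refine ⟨s', fun b => ?_⟩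
  obtain ⟨c, hc⟩ := h₁ (b - s' (d₁ b)) (by
    have := h (d₁ b)
    rw [h₀, map_zero, zero_add] at this
    rw [map_sub, ← this, sub_self])
  exact ⟨c, by rw [hc]; abel⟩

theorem exists_res (G : Type) [Group G] (h₁ : Group.IsFinitelyPresented G) (h₂ : FPinf G) :
    ∃ (J : ℕ → Type) (_ : Unique (J 0)), (∀ n, Finite (J n)) ∧ Nonempty (Res G J) := by
  obtain ⟨n, φ, hφ, S, hS, hker⟩ := h₁.out
  have := hS.to_subtype
  obtain ⟨gen, rfl⟩ := FreeGroup.lift.surjective φ
  choose σ hσ using hφ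
  let d₁ : (G × S →₀ ℤ) →+ (G × Fin n →₀ ℤ) :=
    (lin fun e : G × S => algD gen e.1 e.2).toAddMonoidHom
  have hd₁ : ∀ g r, d₁ (Finsupp.single (g, r) 1) = algD gen g r := fun g r => by simp [d₁]
  have hS1 : ∀ r : S, FreeGroup.lift gen (r : FreeGroup (Fin n)) = 1 := fun r =>
    MonoidHom.mem_ker.1 (hker ▸ Subgroup.subset_normalClosure r.2)
  have h01 : ∀ c, algd0 gen (d₁ c) = 0 :=
    alg_ext (f := (algd0 gen).comp d₁) (g := 0) fun ⟨g, r⟩ => by
      simp [hd₁, algd0_D, hS1]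
  let N : Subgroup (FreeGroup (Fin n)) :=
    { carrier := {x | FreeGroup.lift gen x = 1 ∧ ∀ g, algD gen g x ∈ d₁.range}
      one_mem' := ⟨map_one _, fun g => zero_mem _⟩
      mul_mem' := fun {x y} hx hy => ⟨by rw [map_mul, hx.1, hy.1, one_mul], fun g => by
        rw [algD_mul]; exact add_mem (hx.2 _) (hy.2 _)⟩
      inv_mem' := fun {x} hx => ⟨by rw [map_inv, hx.1, inv_one], fun g => by
        have := algD_inv gen g x
        rw [hx.1, mul_one] at this
        rw [this]; exact neg_mem (hx.2 _)⟩ }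
  have : N.Normal := ⟨fun x hx y => ⟨by simp [hx.1], fun g => by
    rw [algD_mul, algD_mul, map_mul, hx.1, mul_one, algD_inv, add_neg_cancel_comm]
    exact hx.2 _⟩⟩
  have hN : ∀ x, FreeGroup.lift gen x = 1 → ∀ g, algD gen g x ∈ d₁.range := fun x hx =>
    (Subgroup.normalClosure_le_normal (N := N)
      (fun r hr => ⟨hS1 ⟨r, hr⟩, fun g => ⟨_, hd₁ g ⟨r, hr⟩⟩⟩) (hker ▸ MonoidHom.mem_ker.2 hx)).2
  let s₀ : (G × Unit →₀ ℤ) →+ (G × Fin n →₀ ℤ) :=
    (lin fun e : G × Unit => algD gen 1 (σ e.1)).toAddMonoidHom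
  have hs₀ : ∀ g, s₀ (Finsupp.single (g, ()) 1) = algD gen 1 (σ g) := fun g => by simp [s₀]
  have hs : ∀ a, ∃ e, a = s₀ (algd0 gen a) + d₁ e := by
    have : ∀ (g : G) (a : Fin n), ∃ e, d₁ e =
        Finsupp.single (g, a) 1 - s₀ (algd0 gen (Finsupp.single (g, a) 1)) := by
      intro g a
      have h1 := hN (σ (g * (gen a)⁻¹) * FreeGroup.of a * (σ g)⁻¹) (by simp [hσ]) 1
      have h2 := algD_inv gen 1 (σ g)
      rw [hσ] at h2
      rw [algD_mul, algD_mul, algD_of, map_mul, hσ, FreeGroup.lift_apply_of, inv_mul_cancel_right,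
        h2, mul_assoc, inv_mul_cancel_right, one_mul] at h1
      obtain ⟨e, he⟩ := h1
      exact ⟨e, by rw [he, algd0_single, map_sub, hs₀, hs₀]; abel⟩
    choose e he using this
    intro a
    refine ⟨lin (fun x => e x.1 x.2) a, ?_⟩
    exact alg_ext (f := AddMonoidHom.id _)
      (g := s₀.comp (algd0 gen) + d₁.comp (lin fun x => e x.1 x.2).toAddMonoidHom)
      (fun x => by simp [he]) a
  let ε : (G × Unit →₀ ℤ) →+ ℤ := (lin fun _ => (1 : ℤ)).toAddMonoidHom
  have hε : ∀ x, ε (Finsupp.single x 1) = 1 := fun x => by simp [ε]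
  have hd₁e : ∀ g c, d₁ (tl g c) = tl g (d₁ c) := alg_equiv fun g k r => by
    rw [hd₁, hd₁]
    obtain ⟨⟨w⟩, -⟩ := r
    exact alg_fox_tl gen w g k
  have hex₁ : ∀ c, algd0 gen c = 0 ↔ c ∈ Set.range d₁ := fun c => ⟨fun h => by
    obtain ⟨e, he⟩ := hs c
    rw [h, map_zero, zero_add] at he
    exact ⟨e, he.symm⟩, by rintro ⟨c, rfl⟩; exact h01 c⟩
  obtain ⟨k, d₂, d, a1, a2, a3, a4, a5⟩ := exists_resolution h₂ Unit (Fin n) S ε (algd0 gen) d₁
    (fun g => alg_ext (f := ε.comp (Finsupp.mapDomain.addMonoidHom _)) fun x => by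
      simp [Finsupp.mapDomain.addMonoidHom, hε])
    (alg_equiv fun g k a => by
      simp only [algd0_single, tl, Finsupp.mapDomain_sub, Finsupp.mapDomain_single, mul_assoc])
    hd₁e (fun z => ⟨z • Finsupp.single (1, ()) 1, by rw [map_zsmul, hε]; simp⟩)
    (fun c => ⟨fun h => ⟨s₀ c, by
      have := alg_ext (f := (algd0 gen).comp s₀)
        (g := AddMonoidHom.id _ - (zmultiplesHom _ (Finsupp.single (1, ()) 1)).comp ε)
        (fun x => by simp [hs₀ x.1, algd0_D, hσ, hε]) c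
      simpa [h] using this⟩, by
      rintro ⟨c, rfl⟩
      exact alg_ext (f := ε.comp (algd0 gen)) (g := 0)
        (fun x => by simp [algd0_single gen x.1 x.2, hε]) c⟩) hex₁
  let J : ℕ → Type := fun
    | 0 => Unit
    | 1 => Fin n
    | 2 => S
    | m + 3 => Fin (k m)
  let D : ∀ m, Ch G J (m + 2) →+ Ch G J (m + 1) := fun
    | 0 => d₁
    | 1 => d₂
    | m + 2 => d m
  have hD : ∀ m c, D m c = 0 ↔ c ∈ Set.range (D (m + 1)) := fun
    | 0 => a3
    | 1 => a4
    | m + 2 => a5 m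
  have hDD : ∀ m c, D m (D (m + 1) c) = 0 := fun m c => (hD m _).2 ⟨c, rfl⟩
  refine ⟨J, inferInstanceAs (Unique Unit), fun
    | 0 => inferInstanceAs (Finite Unit)
    | 1 => inferInstanceAs (Finite (Fin n))
    | 2 => inferInstanceAs (Finite S)
    | m + 3 => inferInstanceAs (Finite (Fin (k m))), ⟨⟨gen,
      fun r : S => (r : FreeGroup (Fin n)).toWord, fun g => ⟨σ g, hσ g⟩, ?_, D, fun
      | 0 => hd₁e
      | 1 => a1
      | m + 2 => a2 m, fun g (r : S) => ?_, hDD, fun m => ?_⟩⟩⟩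
  · refine hker.symm.trans (congrArg Subgroup.normalClosure ?_)
    ext x
    exact ⟨fun hx => ⟨⟨x, hx⟩, FreeGroup.mk_toWord⟩, by
      rintro ⟨r, rfl⟩
      exact Set.mem_of_eq_of_mem FreeGroup.mk_toWord r.2⟩
  · exact (hd₁ g r).trans (congrArg (algD gen g) FreeGroup.mk_toWord.symm)
  · induction m with
    | zero => exact alg_split (algd0 gen) d₁ d₂ s₀ hs h01 fun b => (a3 b).1
    | succ m ih =>
      obtain ⟨s, hs⟩ := ih
      exact alg_split (D m) (D (m + 1)) (D (m + 2)) s hs (hDD m) fun b => (hD _ b).1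

end Crest.Agent.R185.Top
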