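import Crest.Agent.R185.TopDef

/-!
# Row 185, `f.p. + FP∞ ⇒ F∞`: cube lemmas
-/

set_option autoImplicit false

noncomputable section

namespace Crest.Agent.R185.Top

open unitInterval Set Topology

variable {W : Type} [TopologicalSpace W] {W' : Type} [TopologicalSpace W'] {m : ℕ} {w : W}

namespace TC

/-- clamping to the unit interval -/
def pj (x : ℝ) : I := projIcc 0 1 zero_le_one x

@[fun_prop] lemma continuous_pj : Continuous pj := continuous_projIcc (h := zero_le_one)

lemma pj_of_nonpos {x : ℝ} (h : x ≤ 0) : pj x = 0 := projIcc_of_le_left _ h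

lemma pj_of_one_le {x : ℝ} (h : 1 ≤ x) : pj x = 1 := projIcc_of_right_le _ h

lemma pj_eq {x : ℝ} {s : I} (h : (s : ℝ) = x) : pj x = s := h ▸ projIcc_val _ s

lemma coe_pj {x : ℝ} (h0 : 0 ≤ x) (h1 : x ≤ 1) : (pj x : ℝ) = x :=
  congrArg Subtype.val (projIcc_of_mem zero_le_one ⟨h0, h1⟩)

variable {n : ℕ}

/-- centred coordinates -/
def ctr (y : Cb n) : Fin n → ℝ := fun i => 2 * y i - 1

@[fun_prop] lemma continuous_ctr : Continuous (ctr : Cb n → Fin n → ℝ) := by
  unfold ctr
  fun_prop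

lemma norm_ctr_le (y : Cb n) : ‖ctr y‖ ≤ 1 := by
  refine (pi_norm_le_iff_of_nonneg zero_le_one).2 fun i => ?_
  rw [Real.norm_eq_abs, abs_le, ctr]
  constructor <;> linarith [(y i).2.1, (y i).2.2]

lemma norm_ctr_of_mem {y : Cb n} (hy : y ∈ Bd n) : ‖ctr y‖ = 1 := by
  obtain ⟨i, hi⟩ := hy
  refine (norm_ctr_le y).antisymm (le_trans (le_of_eq ?_) (norm_le_pi_norm (ctr y) i))
  rcases hi with hi | hi <;> norm_num [ctr, hi]

/-- the scaling factor of the radial projection -/
def scl (q : Cb n × I) : ℝ := max (1 - q.2 / 2) ‖ctr q.1‖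

lemma scl_pos (q : Cb n × I) : 0 < scl q :=
  lt_max_of_lt_left (by linarith [q.2.2.2])

@[fun_prop] lemma continuous_scl : Continuous (scl : Cb n × I → ℝ) := by
  unfold scl
  fun_prop

/-- the retraction of `I^n × I` onto `I^n × 0 ∪ ∂I^n × I` -/
def retr (q : Cb n × I) : Cb n × I :=
  (fun i => pj ((ctr q.1 i / scl q + 1) / 2), pj (2 - (2 - q.2) / scl q))

lemma continuous_retr : Continuous (retr : Cb n × I → Cb n × I) := by
  refine Continuous.prodMk (continuous_pi fun i => continuous_pj.comp ?_) (continuous_pj.comp ?_)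
  · exact ((((continuous_apply i).comp (continuous_ctr.comp continuous_fst)).div continuous_scl
      fun q => (scl_pos q).ne').add continuous_const).div_const _
  · exact continuous_const.sub (Continuous.div (by fun_prop) continuous_scl
      fun q => (scl_pos q).ne')

lemma retr_eq {q : Cb n × I} (h : scl q = 1) : retr q = q := by
  refine Prod.ext (funext fun i => pj_eq ?_) (pj_eq ?_)
  · rw [h, ctr]; ring
  · rw [h]; ring

lemma retr_mem (q : Cb n × I) : retr q ∈ (univ ×ˢ {0} : Set (Cb n × I)) ∪ Bd n ×ˢ univ := by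
  have hp := scl_pos q
  rcases max_choice (1 - (q.2 : ℝ) / 2) ‖ctr q.1‖ with h | h
  · refine Or.inl ⟨trivial, pj_of_nonpos (le_of_eq ?_)⟩
    have h' : scl q = 1 - q.2 / 2 := h
    rw [sub_eq_zero, eq_div_iff hp.ne', h']
    ring
  · have h' : scl q = ‖ctr q.1‖ := h
    have : ¬ ∀ i, ‖ctr q.1 i‖ < scl q := fun hi =>
      ((pi_norm_lt_iff hp).2 hi).ne h'.symm
    push Not at this
    obtain ⟨i, hi⟩ := this
    refine Or.inr ⟨⟨i, ?_⟩, trivial⟩
    rcases le_abs.1 hi with hi | hi
    · refine Or.inr (pj_of_one_le ?_)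
      have := (one_le_div hp).2 hi
      linarith
    · refine Or.inl (pj_of_nonpos ?_)
      have := (one_le_div hp).2 hi
      rw [neg_div] at this
      linarith

lemma isLoop_coe (p : GenLoop (Fin n) W w) : IsLoop w p := ⟨p.1.continuous, p.2⟩

/-- the generalized loop of a cube loop -/
def gl {f : Cb n → W} (h : IsLoop w f) : GenLoop (Fin n) W w := ⟨⟨f, h.1⟩, h.2⟩

lemma cls_gl {f : Cb (m + 2) → W} (h : IsLoop w f) :
    cls w f = Additive.ofMul (⟦gl h⟧ : HomotopyGroup (Fin (m + 2)) W w) := dif_pos h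

lemma cls_coe (p : GenLoop (Fin (m + 2)) W w) :
    cls w p = Additive.ofMul (⟦p⟧ : HomotopyGroup (Fin (m + 2)) W w) := cls_gl (isLoop_coe p)

lemma transAt_left (i : Fin n) (f g : GenLoop (Fin n) W w) (y : Cb n) (s : I)
    (hs : (s : ℝ) = 2 * y i) : GenLoop.transAt i f g y = f (Function.update y i s) := by
  have : (y i : ℝ) ≤ 1 / 2 := by linarith [s.2.2]
  exact (if_pos this).trans (congrArg (fun s => f (Function.update y i s)) (pj_eq hs))

lemma transAt_right (i : Fin n) (f g : GenLoop (Fin n) W w) (y : Cb n) (s : I)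
    (hs : (s : ℝ) = 2 * y i - 1) : GenLoop.transAt i f g y = g (Function.update y i s) := by
  by_cases h : (y i : ℝ) ≤ 1 / 2
  · have h0 : s = 0 := Subtype.ext (le_antisymm (by change (s : ℝ) ≤ 0; linarith) s.2.1)
    rw [transAt_left i f g y 1
        (by rw [h0] at hs; simp only [Icc.coe_zero, Icc.coe_one] at hs ⊢; linarith),
      GenLoop.boundary f _ ⟨i, Or.inr (by simp)⟩, GenLoop.boundary g _ ⟨i, Or.inl (by simp [h0])⟩]
  · exact (if_neg h).trans (congrArg (fun s => g (Function.update y i s)) (pj_eq hs))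

/-- construction of homomorphisms on `π_n` -/
lemma exists_hom {A : Type} [AddCommGroup A] (ψ : (Cb (m + 2) → W) → A)
    (hc : ∀ Φ : Cb (m + 2) → I → W, (Continuous fun q : Cb (m + 2) × I => Φ q.1 q.2) →
      (∀ y ∈ Bd (m + 2), ∀ t, Φ y t = w) → ψ (fun y => Φ y 0) = ψ fun y => Φ y 1)
    (ht : ∀ f g h : Cb (m + 2) → W, IsLoop w f → IsLoop w g →
      (∀ (y : Cb (m + 2)) (s : I), (s : ℝ) = 2 * y 0 → h y = f (Function.update y 0 s)) →
      (∀ (y : Cb (m + 2)) (s : I), (s : ℝ) = 2 * y 0 - 1 → h y = g (Function.update y 0 s)) →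
      ψ h = ψ f + ψ g) :
    ∃ φ : PiA m W w →+ A, ∀ f, IsLoop w f → φ (cls w f) = ψ f := by
  let φ : HomotopyGroup (Fin (m + 2)) W w → A := Quotient.lift (fun p => ψ p) (by
    rintro p q ⟨H⟩
    have := hc (fun y t => H (t, y)) (H.continuous.comp continuous_swap)
      (fun y hy t => (H.eq_fst t hy).trans (p.2 y hy))
    simpa using this)
  refine ⟨AddMonoidHom.mk' (fun u => φ u.toMul) ?_, fun f hf => ?_⟩
  · rintro ⟨p⟩ ⟨q⟩
    have := congrArg φ (HomotopyGroup.mul_spec (i := 0) (p := p) (q := q))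
    refine this.trans ((ht q p _ (isLoop_coe q) (isLoop_coe p) (transAt_left 0 q p)
      (transAt_right 0 q p)).trans (add_comm _ _))
  · rw [cls_gl hf]
    rfl

end TC

open TC

/-- The homotopy extension property of the cube and its boundary. -/
theorem hep {n : ℕ} {f : Cb n → W} (hf : Continuous f) {k : Cb n → I → W}
    (hk : ContinuousOn (fun q : Cb n × I => k q.1 q.2) (Bd n ×ˢ univ))
    (h0 : ∀ y ∈ Bd n, k y 0 = f y) :
    ∃ Φ : Cb n → I → W, Continuous (fun q : Cb n × I => Φ q.1 q.2) ∧ (∀ y, Φ y 0 = f y) ∧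
      ∀ y ∈ Bd n, Φ y = k y := by
  classical
  let G : Cb n × I → W := fun q => if q.2 = 0 then f q.1 else k q.1 q.2
  have h1 : ∀ q : Cb n × I, q.1 ∈ Bd n → G q = k q.1 q.2 := by
    intro q hq
    by_cases h : q.2 = 0
    · exact (if_pos h).trans (by rw [h, h0 _ hq])
    · exact if_neg h
  have hG : ContinuousOn G ((univ ×ˢ {0} : Set (Cb n × I)) ∪ Bd n ×ˢ univ) :=
    ContinuousOn.union_of_isClosed
      ((hf.comp continuous_fst).continuousOn.congr fun q hq => if_pos hq.2)
      (hk.congr fun q hq => h1 q hq.1) (isClosed_univ.prod isClosed_singleton)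
      ((isClosed_Bd n).prod isClosed_univ)
  refine ⟨fun y t => G (retr (y, t)), hG.comp_continuous continuous_retr retr_mem, fun y => ?_,
    fun y hy => funext fun t => ?_⟩
  · show G (retr (y, 0)) = _
    rw [retr_eq (q := (y, 0)) (by simpa [scl] using norm_ctr_le y)]
    exact if_pos rfl
  · show G (retr (y, t)) = _
    rw [retr_eq (q := (y, t)), h1 _ hy]
    rw [scl, norm_ctr_of_mem hy]
    exact max_eq_right (by linarith [t.2.1])

theorem cls_surj (u : PiA m W w) : ∃ f, IsLoop w f ∧ cls w f = u := by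
  obtain ⟨p⟩ := u
  exact ⟨p, isLoop_coe p, cls_coe p⟩

theorem cls_const : cls (m := m) w (fun _ => w) = 0 := cls_coe GenLoop.const

theorem cls_congr (Φ : Cb (m + 2) → I → W) (hΦ : Continuous fun q : Cb (m + 2) × I => Φ q.1 q.2)
    (hb : ∀ y ∈ Bd (m + 2), ∀ t, Φ y t = w) : cls w (fun y => Φ y 0) = cls w fun y => Φ y 1 := by
  have hl : ∀ t, IsLoop w fun y => Φ y t := fun t =>
    ⟨hΦ.comp (continuous_id.prodMk continuous_const), fun y hy => hb y hy t⟩
  rw [cls_gl (hl 0), cls_gl (hl 1)]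
  refine congrArg Additive.ofMul (Quotient.sound ⟨⟨⟨⟨fun q => Φ q.2 q.1,
    hΦ.comp continuous_swap⟩, fun _ => rfl, fun _ => rfl⟩, fun t y hy => ?_⟩⟩)
  exact (hb y hy t).trans (hb y hy 0).symm

theorem exists_null {f : Cb (m + 2) → W} (hf : IsLoop w f) (h : cls w f = 0) :
    ∃ Φ : Cb (m + 2) → I → W, Continuous (fun q : Cb (m + 2) × I => Φ q.1 q.2) ∧
      (∀ y, Φ y 0 = f y) ∧ (∀ y, Φ y 1 = w) ∧ ∀ y ∈ Bd (m + 2), ∀ t, Φ y t = w := by
  rw [cls_gl hf] at h
  have h' : (⟦gl hf⟧ : HomotopyGroup (Fin (m + 2)) W w) = ⟦GenLoop.const⟧ := h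
  obtain ⟨H⟩ := Quotient.exact h'
  exact ⟨fun y t => H (t, y), H.continuous.comp continuous_swap, fun y => H.apply_zero y,
    fun y => H.apply_one y, fun y hy t => (H.eq_fst t hy).trans (hf.2 y hy)⟩

/-- concatenation in the direction `i` -/
theorem cls_trans (i : Fin (m + 2)) {f g h : Cb (m + 2) → W} (hf : IsLoop w f) (hg : IsLoop w g)
    (h1 : ∀ (y : Cb (m + 2)) (s : I), (s : ℝ) = 2 * y i → h y = f (Function.update y i s))
    (h2 : ∀ (y : Cb (m + 2)) (s : I), (s : ℝ) = 2 * y i - 1 → h y = g (Function.update y i s)) :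
    cls w h = cls w f + cls w g := by
  have e : h = GenLoop.transAt i (gl hf) (gl hg) := by
    funext y
    by_cases hy : (y i : ℝ) ≤ 1 / 2
    · have hs := coe_pj (x := 2 * y i) (by linarith [(y i).2.1]) (by linarith)
      exact (h1 y _ hs).trans (transAt_left i (gl hf) (gl hg) y _ hs).symm
    · have hs := coe_pj (x := 2 * y i - 1) (by linarith) (by linarith [(y i).2.2])
      exact (h2 y _ hs).trans (transAt_right i (gl hf) (gl hg) y _ hs).symm
  rw [e, cls_coe, ← HomotopyGroup.mul_spec, add_comm (cls w f), cls_gl hf, cls_gl hg]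
  rfl

/-- reversal in the direction `i` -/
theorem cls_symm (i : Fin (m + 2)) {f : Cb (m + 2) → W} (hf : IsLoop w f) :
    cls w (fun y => f (Function.update y i (σ (y i)))) = -cls w f := by
  have e : (fun y => f (Function.update y i (σ (y i)))) = GenLoop.symmAt i (gl hf) := by
    funext y
    exact congrArg f (funext fun j => Function.update_apply _ _ _ _)
  rw [e, cls_coe, ← HomotopyGroup.inv_spec, cls_gl hf]
  rfl

/-- functoriality -/
theorem exists_map {F : W → W'} (hF : Continuous F) {w' : W'} (h : F w = w') :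
    ∃ φ : PiA m W w →+ PiA m W' w', ∀ f, IsLoop w f → φ (cls w f) = cls w' fun y => F (f y) := by
  have hl : ∀ f : Cb (m + 2) → W, IsLoop w f → IsLoop w' fun y => F (f y) := fun f hf =>
    ⟨hF.comp hf.1, fun y hy => (congrArg F (hf.2 y hy)).trans h⟩
  refine exists_hom (fun f => cls w' fun y => F (f y)) (fun Φ hΦ hb => ?_)
    fun f g k hf hg h1 h2 => ?_
  · exact cls_congr (fun y t => F (Φ y t)) (hF.comp hΦ) fun y hy t =>
      (congrArg F (hb y hy t)).trans h
  · exact cls_trans 0 (hl f hf) (hl g hg) (fun y s hs => congrArg F (h1 y s hs))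
      fun y s hs => congrArg F (h2 y s hs)

/-- loops of loops -/
theorem exists_uncurry (w : W) : ∃ φ : PiA m (Path w w) (Path.refl w) →+ PiA (m + 1) W w,
    ∀ f, IsLoop (Path.refl w) f →
      φ (cls (Path.refl w) f) = cls w fun z : Cb (m + 3) => f (Fin.tail z) (z 0) := by
  have hb : ∀ (γ : Cb (m + 2) → Path w w), (∀ y ∈ Bd (m + 2), γ y = Path.refl w) →
      ∀ z ∈ Bd (m + 3), γ (Fin.tail z) (z 0) = w := by
    intro γ hγ z hz
    rcases mem_Bd_succ.1 hz with h | h | h
    · rw [h, Path.source]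
    · rw [h, Path.target]
    · rw [hγ _ h, Path.refl_apply]
  have hl : ∀ f : Cb (m + 2) → Path w w, IsLoop (Path.refl w) f →
      IsLoop w fun z : Cb (m + 3) => f (Fin.tail z) (z 0) := fun f hf =>
    ⟨(hf.1.comp (continuous_tail continuous_id)).eval (continuous_apply 0), hb f hf.2⟩
  refine exists_hom (fun f : Cb (m + 2) → Path w w =>
      cls w fun z : Cb (m + 3) => f (Fin.tail z) (z 0))
    (fun Φ hΦ hb' => ?_) fun f g k hf hg h1 h2 => ?_
  · exact cls_congr (fun (z : Cb (m + 3)) t => Φ (Fin.tail z) t (z 0))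
      ((hΦ.comp ((continuous_tail continuous_fst).prodMk continuous_snd)).eval
        ((continuous_apply 0).comp continuous_fst))
      fun z hz t => hb (fun y => Φ y t) (fun y hy => hb' y hy t) z hz
  · refine cls_trans (Fin.succ 0) (hl f hf) (hl g hg) (fun z s hs => ?_) fun z s hs => ?_
    · simp only [Fin.tail_update_succ, Function.update_of_ne (Fin.succ_ne_zero _).symm]
      rw [h1 (Fin.tail z) s hs]
    · simp only [Fin.tail_update_succ, Function.update_of_ne (Fin.succ_ne_zero _).symm]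
      rw [h2 (Fin.tail z) s hs]

/-- The square lemma: a homotopy of cube loops that moves only the bottom face. -/
theorem cls_square (Φ : Cb (m + 2) → I → W) (hΦ : Continuous fun q : Cb (m + 2) × I => Φ q.1 q.2)
    (h0 : ∀ y ∈ Bd (m + 2), Φ y 0 = w) (h1 : ∀ y ∈ Bd (m + 2), Φ y 1 = w)
    (hb : ∀ y : Cb (m + 2), y 0 = 1 ∨ Fin.tail y ∈ Bd (m + 1) → ∀ t, Φ y t = w) :
    cls w (fun y => Φ y 0) =
      cls w (fun z : Cb (m + 2) => Φ (Fin.cons 0 (Fin.tail z)) (z 0)) + cls w fun y => Φ y 1 := by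
  have e1 := cls_congr (w := w) (fun (z : Cb (m + 2)) (u : I) =>
      Φ (Fin.cons (pj ((1 + u) * z 0 - u)) (Fin.tail z)) (pj (2 * u * z 0)))
    (hΦ.comp (f := fun q : Cb (m + 2) × I =>
      ((Fin.cons (pj ((1 + q.2) * q.1 0 - q.2)) (Fin.tail q.1) : Cb (m + 2)),
        pj (2 * q.2 * q.1 0))) (by fun_prop)) (by
      intro z hz u
      rcases mem_Bd_succ.1 hz with h | h | h
      · rw [h, pj_of_nonpos (x := (1 + u) * _ - u) (by simpa using u.2.1),
          pj_of_nonpos (by simp)]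
        exact h0 _ (cons_mem_Bd.2 (Or.inl rfl))
      · exact hb _ (Or.inl (pj_of_one_le (by simp [h]))) _
      · exact hb (Fin.cons _ (Fin.tail z)) (Or.inr h) _)
  have e2 : (fun z : Cb (m + 2) => Φ (Fin.cons (pj ((1 + (0 : I)) * z 0 - (0 : I))) (Fin.tail z))
      (pj (2 * (0 : I) * z 0))) = fun y => Φ y 0 := by
    funext z
    rw [pj_eq (s := z 0) (by simp), pj_of_nonpos (by simp), Fin.cons_self_tail]
  rw [← e2, e1]
  refine cls_trans 0 ⟨hΦ.comp (f := fun z : Cb (m + 2) =>
      ((Fin.cons 0 (Fin.tail z) : Cb (m + 2)), z 0)) (by fun_prop), fun z hz => ?_⟩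
    ⟨hΦ.comp (continuous_id.prodMk continuous_const), h1⟩ (fun y s hs => ?_) fun y s hs => ?_
  · show Φ (Fin.cons 0 (Fin.tail z)) (z 0) = w
    rcases mem_Bd_succ.1 hz with h | h | h
    · rw [h]; exact h0 _ (cons_mem_Bd.2 (Or.inl rfl))
    · rw [h]; exact h1 _ (cons_mem_Bd.2 (Or.inl rfl))
    · exact hb (Fin.cons _ (Fin.tail z)) (Or.inr h) _
  · rw [pj_of_nonpos (x := (1 + (1 : I)) * _ - (1 : I))
        (by simp only [Icc.coe_one]; linarith [s.2.2]),
      pj_eq (s := s) (by simpa using hs), Fin.tail_update_zero, Function.update_self]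
  · rw [pj_eq (s := s) (x := (1 + (1 : I)) * _ - (1 : I)) (by simp only [Icc.coe_one]; linarith),
      pj_of_one_le (by simp only [Icc.coe_one]; linarith [s.2.1]), ← Fin.update_cons_zero (y 0),
      Fin.cons_self_tail]

end Crest.Agent.R185.Top
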