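import Mathlib

/-!
# Row 185, `f.p. + FP∞ ⇒ F∞`: the cell complex (definitions and basic API)

One fixed type of points `Pt G J` (interior points of cubes).  An `(n+1)`-cell `(g, j)` is a
null-homotopy of the cube loop `g • Γ n j` based at the vertex `g`: coordinate `0` of the cube is
the homotopy parameter, the bottom face `x 0 = 0` is the loop and all other faces go to `vtx g`.
`Sk Γ n` is the type of points with the final topology of the cells of dimension `≤ n` (the points
of higher dimension are isolated junk), `Tot Γ` has the final topology of all cells.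
-/

set_option autoImplicit false

noncomputable section

namespace Crest.Agent.R185.Top

open unitInterval Set Topology

/-- the cube -/
abbrev Cb (n : ℕ) : Type := Fin n → I

/-- the boundary of the cube -/
abbrev Bd (n : ℕ) : Set (Cb n) := Cube.boundary (Fin n)

lemma mem_Bd {n : ℕ} {x : Cb n} : x ∈ Bd n ↔ ∃ i, x i = 0 ∨ x i = 1 := Iff.rfl

lemma mem_Bd_succ {n : ℕ} {x : Cb (n + 1)} :
    x ∈ Bd (n + 1) ↔ x 0 = 0 ∨ x 0 = 1 ∨ Fin.tail x ∈ Bd n := by
  rw [mem_Bd, Fin.exists_fin_succ, or_assoc]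
  rfl

lemma cons_mem_Bd {n : ℕ} {t : I} {y : Cb n} :
    (Fin.cons t y : Cb (n + 1)) ∈ Bd (n + 1) ↔ t = 0 ∨ t = 1 ∨ y ∈ Bd n := by
  rw [mem_Bd_succ, Fin.cons_zero, Fin.tail_cons]

lemma not_mem_Bd_zero (x : Cb 0) : x ∉ Bd 0 := fun ⟨i, _⟩ => i.elim0

lemma isClosed_Bd (n : ℕ) : IsClosed (Bd n) := by
  have : Bd n = ⋃ i, ({x : Cb n | x i = 0} ∪ {x | x i = 1}) := by
    ext x; simp [mem_Bd]
  rw [this]
  exact isClosed_iUnion_of_finite fun i =>
    (isClosed_eq (continuous_apply i) continuous_const).union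
      (isClosed_eq (continuous_apply i) continuous_const)

@[fun_prop]
lemma continuous_tail {n : ℕ} {Y : Type} [TopologicalSpace Y] {f : Y → Cb (n + 1)}
    (hf : Continuous f) : Continuous fun y => (Fin.tail (f y) : Cb n) :=
  continuous_pi fun i => (continuous_apply i.succ).comp hf

@[fun_prop]
lemma continuous_cons {n : ℕ} {Y : Type} [TopologicalSpace Y] {t : Y → I} {f : Y → Cb n}
    (ht : Continuous t) (hf : Continuous f) :
    Continuous fun y => (Fin.cons (t y) (f y) : Cb (n + 1)) :=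
  continuous_pi fun i => by
    refine Fin.cases ?_ (fun i => ?_) i
    · simpa using ht
    · exact (continuous_apply i).comp hf

/-! ### Classes of cube loops -/

/-- the homotopy group `π_{m+2}`, written additively -/
abbrev PiA (m : ℕ) (W : Type) [TopologicalSpace W] (w : W) : Type :=
  Additive (HomotopyGroup (Fin (m + 2)) W w)

/-- a cube loop -/
def IsLoop {n : ℕ} {W : Type} [TopologicalSpace W] (w : W) (f : Cb n → W) : Prop :=
  Continuous f ∧ ∀ y ∈ Bd n, f y = w

open Classical in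
/-- the class of a cube loop (junk value `0`) -/
def cls {m : ℕ} {W : Type} [TopologicalSpace W] (w : W) (f : Cb (m + 2) → W) : PiA m W w :=
  if h : IsLoop w f then
    Additive.ofMul (⟦(⟨⟨f, h.1⟩, h.2⟩ : GenLoop (Fin (m + 2)) W w)⟧ : HomotopyGroup (Fin (m + 2)) W w)
  else 0

/-- linear extension to chains -/
abbrev lin {X A : Type} [AddCommGroup A] (c : X → A) : (X →₀ ℤ) →ₗ[ℤ] A :=
  Finsupp.linearCombination ℤ c

/-! ### Points and cells -/

/-- the points of the complex -/
structure Pt (G : Type) (J : ℕ → Type) : Type where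
  n : ℕ
  g : G
  j : J n
  x : Cb n
  hx : x ∉ Bd n

/-- families of attaching loops -/
abbrev Att (G : Type) (J : ℕ → Type) : Type := ∀ n, J (n + 1) → Cb n → Pt G J

/-- cellular chains -/
abbrev Ch (G : Type) (J : ℕ → Type) (n : ℕ) : Type := G × J n →₀ ℤ

variable {G : Type} [Group G] {J : ℕ → Type}

instance : MulAction G (Pt G J) where
  smul h p := ⟨p.n, h * p.g, p.j, p.x, p.hx⟩
  one_smul p := by
    change Pt.mk p.n (1 * p.g) p.j p.x p.hx = p
    rw [one_mul]
  mul_smul g h p := by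
    change Pt.mk p.n (g * h * p.g) p.j p.x p.hx = Pt.mk p.n (g * (h * p.g)) p.j p.x p.hx
    rw [mul_assoc]

lemma smul_mk (h : G) (n : ℕ) (g : G) (j : J n) (x : Cb n) (hx : x ∉ Bd n) :
    h • (⟨n, g, j, x, hx⟩ : Pt G J) = ⟨n, h * g, j, x, hx⟩ := rfl

@[simp] lemma smul_n (h : G) (p : Pt G J) : (h • p).n = p.n := rfl

@[simp] lemma smul_g (h : G) (p : Pt G J) : (h • p).g = h * p.g := rfl

variable [Unique (J 0)]

/-- the vertices -/
def vtx (g : G) : Pt G J := ⟨0, g, default, Fin.elim0, not_mem_Bd_zero _⟩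

omit [Group G] in
@[simp] lemma vtx_n (g : G) : (vtx g : Pt G J).n = 0 := rfl

omit [Group G] in
@[simp] lemma vtx_g (g : G) : (vtx g : Pt G J).g = g := rfl

@[simp] lemma smul_vtx (h g : G) : h • (vtx g : Pt G J) = vtx (h * g) := rfl

omit [Group G] in
lemma eq_vtx {p : Pt G J} (h : p.n = 0) : p = vtx p.g := by
  obtain ⟨n, g, j, x, hx⟩ := p
  subst h
  obtain rfl : j = default := Subsingleton.elim _ _
  obtain rfl : x = Fin.elim0 := Subsingleton.elim _ _
  rfl

open Classical in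
/-- the characteristic maps -/
def chi (Γ : Att G J) : ∀ n, G → J n → Cb n → Pt G J
  | 0, g, _, _ => vtx g
  | n + 1, g, j, x =>
    if h : x ∈ Bd (n + 1) then (if x 0 = 0 then g • Γ n j (Fin.tail x) else vtx g)
    else ⟨n + 1, g, j, x, h⟩

theorem chi_anchor : type_of% @chi.eq_def := @chi.eq_def
theorem chi_anchor1 : type_of% @chi.eq_1 := @chi.eq_1
theorem chi_anchor2 : type_of% @chi.eq_2 := @chi.eq_2

variable {Γ : Att G J}

lemma chi_zero (g : G) (j : J 0) (x : Cb 0) : chi Γ 0 g j x = vtx g := rfl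

lemma chi_int {n : ℕ} (g : G) (j : J n) {x : Cb n} (hx : x ∉ Bd n) :
    chi Γ n g j x = ⟨n, g, j, x, hx⟩ := by
  cases n with
  | zero => exact (eq_vtx (p := ⟨0, g, j, x, hx⟩) rfl).symm
  | succ n => exact dif_neg hx

lemma chi_self (p : Pt G J) : chi Γ p.n p.g p.j p.x = p := chi_int _ _ p.hx

lemma chi_bot {n : ℕ} (g : G) (j : J (n + 1)) {x : Cb (n + 1)} (hx : x 0 = 0) :
    chi Γ (n + 1) g j x = g • Γ n j (Fin.tail x) :=
  (dif_pos (mem_Bd_succ.2 (Or.inl hx))).trans (if_pos hx)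

lemma chi_cons_zero {n : ℕ} (g : G) (j : J (n + 1)) (y : Cb n) :
    chi Γ (n + 1) g j (Fin.cons 0 y) = g • Γ n j y := chi_bot g j rfl

lemma chi_top {n : ℕ} (g : G) (j : J (n + 1)) {x : Cb (n + 1)} (hx : x 0 = 1) :
    chi Γ (n + 1) g j x = vtx g :=
  (dif_pos (mem_Bd_succ.2 (Or.inr (Or.inl hx)))).trans (if_neg (by rw [hx]; exact one_ne_zero))

lemma chi_side' {n : ℕ} (g : G) (j : J (n + 1)) {x : Cb (n + 1)} (hx : x ∈ Bd (n + 1))
    (h0 : x 0 ≠ 0) : chi Γ (n + 1) g j x = vtx g := (dif_pos hx).trans (if_neg h0)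

lemma smul_chi (h : G) (n : ℕ) (g : G) (j : J n) (x : Cb n) :
    h • chi Γ n g j x = chi Γ n (h * g) j x := by
  cases n with
  | zero => rfl
  | succ n =>
    by_cases hx : x ∈ Bd (n + 1)
    · by_cases h0 : x 0 = 0
      · rw [chi_bot _ _ h0, chi_bot _ _ h0, mul_smul]
      · rw [chi_side' _ _ hx h0, chi_side' _ _ hx h0, smul_vtx]
    · rw [chi_int _ _ hx, chi_int _ _ hx, smul_mk]

/-! ### Topologies -/

/-- the final topology of the cells of dimension at most `n` -/
@[reducible] def tau (Γ : Att G J) (n : ℕ) : TopologicalSpace (Pt G J) :=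
  ⨆ (m : ℕ) (_ : m ≤ n) (g : G) (j : J m), TopologicalSpace.coinduced (chi Γ m g j) inferInstance

/-- the `n`-skeleton together with isolated junk points -/
def Sk (_Γ : Att G J) (_n : ℕ) : Type := Pt G J

instance (n : ℕ) : TopologicalSpace (Sk Γ n) := tau Γ n

/-- a point as a point of the skeleton -/
def toSk (Γ : Att G J) (n : ℕ) (p : Pt G J) : Sk Γ n := p

/-- the underlying point -/
def Sk.pt {n : ℕ} (p : Sk Γ n) : Pt G J := p

omit [Group G] [Unique (J 0)] in
@[simp] lemma pt_toSk (n : ℕ) (p : Pt G J) : (toSk Γ n p).pt = p := rfl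

omit [Group G] [Unique (J 0)] in
@[simp] lemma toSk_pt {n : ℕ} (p : Sk Γ n) : toSk Γ n p.pt = p := rfl

/-- the whole complex -/
def Tot (_Γ : Att G J) : Type := Pt G J

instance : TopologicalSpace (Tot Γ) := ⨆ n, tau Γ n

/-- a point as a point of the whole complex -/
def toTot (Γ : Att G J) (p : Pt G J) : Tot Γ := p

/-- the underlying point -/
def Tot.pt (p : Tot Γ) : Pt G J := p

omit [Group G] [Unique (J 0)] in
@[simp] lemma pt_toTot (p : Pt G J) : (toTot Γ p).pt = p := rfl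

omit [Group G] [Unique (J 0)] in
@[simp] lemma toTot_pt (p : Tot Γ) : toTot Γ p.pt = p := rfl

section Cts

variable {W : Type} [TopologicalSpace W] {Y : Type} [TopologicalSpace Y]

/-- continuity on the `n`-skeleton -/
def Cts (Γ : Att G J) (n : ℕ) (F : Pt G J → W) : Prop :=
  ∀ m ≤ n, ∀ (g : G) (j : J m), Continuous fun x => F (chi Γ m g j x)

/-- continuity of a homotopy on the `n`-skeleton -/
def CtsH (Γ : Att G J) (n : ℕ) (K : Pt G J → I → W) : Prop :=
  ∀ m ≤ n, ∀ (g : G) (j : J m), Continuous fun q : Cb m × I => K (chi Γ m g j q.1) q.2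

lemma continuous_sk_iff {n : ℕ} {F : Sk Γ n → W} :
    Continuous F ↔ Cts Γ n fun p => F (toSk Γ n p) := by
  change @Continuous (Pt G J) W (tau Γ n) _ F ↔ _
  simp only [continuous_iSup_dom, continuous_coinduced_dom]
  rfl

lemma Cts.continuous {n : ℕ} {F : Pt G J → W} (h : Cts Γ n F) :
    Continuous fun p : Sk Γ n => F p.pt := continuous_sk_iff.2 h

lemma continuous_tot_iff {F : Tot Γ → W} :
    Continuous F ↔ ∀ n g j, Continuous fun x => F (toTot Γ (chi Γ n g j x)) := by
  change @Continuous (Pt G J) W (⨆ n, tau Γ n) _ F ↔ _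
  simp only [continuous_iSup_dom, continuous_coinduced_dom]
  exact ⟨fun h n g j => h n n le_rfl g j, fun h _ m _ g j => h m g j⟩

lemma cts_toSk {m n : ℕ} (h : m ≤ n) : Cts Γ m (toSk Γ n) := fun k hk g j =>
  continuous_sk_iff.1 (continuous_id (X := Sk Γ n)) k (hk.trans h) g j

lemma cts_toTot (n : ℕ) : Cts Γ n (toTot Γ) := fun k _ g j =>
  continuous_tot_iff.1 (continuous_id (X := Tot Γ)) k g j

lemma continuous_incl {m n : ℕ} (h : m ≤ n) : Continuous fun p : Sk Γ m => toSk Γ n p.pt :=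
  (cts_toSk h).continuous

lemma Cts.mono {m n : ℕ} (h : m ≤ n) {F : Pt G J → W} (hF : Cts Γ n F) : Cts Γ m F :=
  fun k hk => hF k (hk.trans h)

lemma CtsH.mono {m n : ℕ} (h : m ≤ n) {K : Pt G J → I → W} (hK : CtsH Γ n K) : CtsH Γ m K :=
  fun k hk => hK k (hk.trans h)

lemma Cts.comp {n : ℕ} {F : Pt G J → W} (hF : Cts Γ n F) {γ : Y → Pt G J}
    (hγ : Continuous fun y => toSk Γ n (γ y)) : Continuous fun y => F (γ y) :=
  hF.continuous.comp hγ

lemma Cts.post {n : ℕ} {F : Pt G J → W} (hF : Cts Γ n F) {φ : W → Y} (hφ : Continuous φ) :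
    Cts Γ n fun p => φ (F p) := fun m hm g j => hφ.comp (hF m hm g j)

lemma CtsH.post {n : ℕ} {K : Pt G J → I → W} (hK : CtsH Γ n K) {φ : W → Y} (hφ : Continuous φ) :
    CtsH Γ n fun p t => φ (K p t) := fun m hm g j => hφ.comp (hK m hm g j)

lemma CtsH.at {n : ℕ} {K : Pt G J → I → W} (hK : CtsH Γ n K) (t : I) : Cts Γ n fun p => K p t :=
  fun m hm g j => (hK m hm g j).comp (Continuous.prodMk_left t)

lemma CtsH.path {n : ℕ} {K : Pt G J → I → W} (hK : CtsH Γ n K) {p : Pt G J} (hp : p.n ≤ n) :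
    Continuous (K p) := by
  have h := (hK p.n hp p.g p.j).comp (Continuous.prodMk_right p.x)
  simpa only [Function.comp_def, chi_self] using h

lemma Cts.smul {n : ℕ} {F : Pt G J → W} (hF : Cts Γ n F) (h : G) : Cts Γ n fun p => F (h • p) :=
  fun m hm g j => by simpa only [smul_chi] using hF m hm (h * g) j

lemma continuous_smul_sk {n : ℕ} (h : G) {γ : Y → Pt G J}
    (hγ : Continuous fun y => toSk Γ n (γ y)) : Continuous fun y => toSk Γ n (h • γ y) :=
  ((cts_toSk le_rfl).smul h).comp hγ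

end Cts

/-- The attaching loops of the `(n+1)`-cells are continuous loops in the `n`-skeleton. -/
structure GoodAt (Γ : Att G J) (n : ℕ) (γ : J (n + 1) → Cb n → Pt G J) : Prop where
  cts : ∀ j, Continuous fun y => toSk Γ n (γ j y)
  bd : ∀ j, ∀ y ∈ Bd n, γ j y = vtx 1
  dim : ∀ j y, (γ j y).n ≤ n

/-- all cells of dimension at most `n` are well attached -/
def Good (Γ : Att G J) (n : ℕ) : Prop := ∀ k < n, GoodAt Γ k (Γ k)

lemma Good.mono {m n : ℕ} (hΓ : Good Γ n) (h : m ≤ n) : Good Γ m := fun k hk => hΓ k (hk.trans_le h)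

lemma chi_side {n : ℕ} (hΓ : Good Γ (n + 1)) (g : G) (j : J (n + 1)) {x : Cb (n + 1)}
    (hx : Fin.tail x ∈ Bd n) : chi Γ (n + 1) g j x = vtx g := by
  by_cases h0 : x 0 = 0
  · rw [chi_bot _ _ h0, (hΓ n n.lt_succ_self).bd j _ hx, smul_vtx, mul_one]
  · exact (dif_pos (mem_Bd_succ.2 (Or.inr (Or.inr hx)))).trans (if_neg h0)

lemma chi_bd_dim {n : ℕ} (hΓ : Good Γ n) (g : G) (j : J n) {x : Cb n} (hx : x ∈ Bd n) :
    (chi Γ n g j x).n < n := by
  cases n with
  | zero => exact absurd hx (not_mem_Bd_zero x)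
  | succ n =>
    rcases mem_Bd_succ.1 hx with h | h | h
    · rw [chi_bot _ _ h]; exact Nat.lt_succ_of_le ((hΓ n n.lt_succ_self).dim _ _)
    · rw [chi_top _ _ h]; exact n.succ_pos
    · rw [chi_side hΓ _ _ h]; exact n.succ_pos

lemma chi_dim {n : ℕ} (hΓ : Good Γ n) (g : G) (j : J n) (x : Cb n) : (chi Γ n g j x).n ≤ n := by
  by_cases hx : x ∈ Bd n
  · exact (chi_bd_dim hΓ g j hx).le
  · rw [chi_int _ _ hx]

/-- The boundary of an `(n+1)`-cell maps continuously to the `n`-skeleton. -/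
lemma continuousOn_chi_bd {n : ℕ} (hΓ : Good Γ (n + 1)) (g : G) (j : J (n + 1)) :
    ContinuousOn (fun x => toSk Γ n (chi Γ (n + 1) g j x)) (Bd (n + 1)) := by
  have h1 : ContinuousOn (fun x => toSk Γ n (chi Γ (n + 1) g j x)) {x | x 0 = 0} :=
    ((continuous_smul_sk g ((hΓ n n.lt_succ_self).cts j)).comp
      (continuous_tail continuous_id)).continuousOn.congr fun x hx => by
        simp only [Function.comp_apply, id, chi_bot g j hx]
  have h2 : ContinuousOn (fun x => toSk Γ n (chi Γ (n + 1) g j x))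
      ({x | x 0 = 1} ∪ Fin.tail ⁻¹' Bd n) :=
    (continuousOn_const (c := toSk Γ n (vtx g))).congr fun x hx => by
      rcases hx with hx | hx
      · simp only [chi_top g j hx]
      · simp only [chi_side hΓ g j hx]
  refine (h1.union_of_isClosed h2 (isClosed_eq (continuous_apply 0) continuous_const)
    ((isClosed_eq (continuous_apply 0) continuous_const).union
      ((isClosed_Bd n).preimage (continuous_tail continuous_id)))).mono fun x hx => ?_
  exact mem_Bd_succ.1 hx

section Cts2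

variable {W : Type} [TopologicalSpace W] {Y : Type} [TopologicalSpace Y]

/-- A homotopy on the skeleton is jointly continuous. -/
lemma CtsH.comp {n : ℕ} (hΓ : Good Γ n) {K : Pt G J → I → W} (hK : CtsH Γ n K) {γ : Y → Pt G J}
    (hγ : Continuous fun y => toSk Γ n (γ y)) (hd : ∀ y, (γ y).n ≤ n) {t : Y → I}
    (ht : Continuous t) : Continuous fun y => K (γ y) (t y) := by
  classical
  rcases isEmpty_or_nonempty Y with hY | ⟨⟨y₀⟩⟩
  · exact continuous_of_discreteTopology
  let F : Pt G J → C(I, W) := fun p =>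
    if h : p.n ≤ n then ⟨K p, hK.path h⟩ else .const _ (K (γ y₀) 0)
  have hF : ∀ p : Pt G J, p.n ≤ n → ∀ s, F p s = K p s := fun p hp s => by
    simp only [F, dif_pos hp, ContinuousMap.coe_mk]
  have hc : Cts Γ n F := fun m hm g j =>
    ContinuousMap.continuous_of_continuous_uncurry _ ((hK m hm g j).congr fun q =>
      (hF _ ((chi_dim (hΓ.mono hm) g j q.1).trans hm) q.2).symm)
  exact ((hc.comp hγ).eval ht).congr fun y => hF _ (hd y) _

/-- A connected family in the skeleton that starts in dimension `≤ n` stays there. -/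
lemma dim_le_of_continuous {n : ℕ} (hΓ : Good Γ n) [PreconnectedSpace Y] {γ : Y → Sk Γ n}
    (hγ : Continuous γ) {y₀ : Y} (h₀ : (γ y₀).pt.n ≤ n) (y : Y) : (γ y).pt.n ≤ n := by
  have hc : Cts Γ n fun p : Pt G J => decide (p.n ≤ n) := fun m hm g j =>
    (continuous_const (y := true)).congr fun x =>
      (decide_eq_true ((chi_dim (hΓ.mono hm) g j x).trans hm)).symm
  have h := IsPreconnected.constant isPreconnected_univ (hc.continuous.comp hγ).continuousOn
    (mem_univ y₀) (mem_univ y)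
  simpa [h₀] using h

lemma Cts.succ {n : ℕ} (hΓ : Good Γ n) {F F' : Pt G J → W} (hF : Cts Γ n F)
    (h : ∀ p : Pt G J, p.n ≤ n → F' p = F p)
    (h' : ∀ g j, Continuous fun x => F' (chi Γ (n + 1) g j x)) : Cts Γ (n + 1) F' := by
  intro m hm g j
  rcases hm.eq_or_lt with rfl | hm
  · exact h' g j
  · have hm' := Nat.le_of_lt_succ hm
    exact (hF m hm' g j).congr fun x => (h _ ((chi_dim (hΓ.mono hm') g j x).trans hm')).symm

lemma CtsH.succ {n : ℕ} (hΓ : Good Γ n) {K K' : Pt G J → I → W} (hK : CtsH Γ n K)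
    (h : ∀ p : Pt G J, p.n ≤ n → K' p = K p)
    (h' : ∀ g j, Continuous fun q : Cb (n + 1) × I => K' (chi Γ (n + 1) g j q.1) q.2) :
    CtsH Γ (n + 1) K' := by
  intro m hm g j
  rcases hm.eq_or_lt with rfl | hm
  · exact h' g j
  · have hm' := Nat.le_of_lt_succ hm
    exact (hK m hm' g j).congr fun q => by
      rw [h _ ((chi_dim (hΓ.mono hm') g j q.1).trans hm')]

end Cts2

/-- Extension of a function over the `(n+1)`-cells (no topology; for homotopies take
`W = I → W'`). -/
lemma exists_ext {n : ℕ} (hΓ : Good Γ (n + 1)) {W : Type} (F : Pt G J → W)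
    (φ : G → J (n + 1) → Cb (n + 1) → W)
    (h : ∀ g j, ∀ x ∈ Bd (n + 1), φ g j x = F (chi Γ (n + 1) g j x)) :
    ∃ F' : Pt G J → W, (∀ p : Pt G J, p.n ≤ n → F' p = F p) ∧
      ∀ g j x, F' (chi Γ (n + 1) g j x) = φ g j x := by
  let F' : Pt G J → W := fun p =>
    if e : p.n = n + 1 then φ p.g (e ▸ p.j) (e ▸ p.x) else F p
  have h1 : ∀ p : Pt G J, p.n ≤ n → F' p = F p := fun p hp => dif_neg (by omega)
  refine ⟨F', h1, fun g j x => ?_⟩
  by_cases hx : x ∈ Bd (n + 1)
  · rw [h g j x hx, h1 _ (Nat.le_of_lt_succ (chi_bd_dim hΓ g j hx))]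
  · rw [chi_int _ _ hx]
    exact dif_pos rfl

/-- Every point of dimension at most `n + 1` is lower dimensional or on an `(n+1)`-cell. -/
lemma cases_succ (Γ : Att G J) {n : ℕ} {p : Pt G J} (hp : p.n ≤ n + 1) :
    p.n ≤ n ∨ ∃ g j x, p = chi Γ (n + 1) g j x := by
  rcases hp.eq_or_lt with e | hp
  · obtain ⟨m, g, j, x, hx⟩ := p
    subst e
    exact Or.inr ⟨g, j, x, (chi_int g j hx).symm⟩
  · exact Or.inl (Nat.le_of_lt_succ hp)

/-! ### The invariants of the construction -/

/-- The incidence numbers of the `(m+2)`-cells are given by `d`, tested on loop-valued maps. -/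
def JH (Γ : Att G J) (m : ℕ) (d : Ch G J (m + 2) →+ Ch G J (m + 1)) : Prop :=
  ∀ (W : Type) [TopologicalSpace W] (w : W) (K : Pt G J → I → W), CtsH Γ (m + 1) K →
    (∀ p : Pt G J, p.n ≤ m → ∀ t, K p t = w) →
    (∀ p : Pt G J, p.n ≤ m + 1 → K p 0 = w ∧ K p 1 = w) → ∀ (g : G) (j : J (m + 2)),
    cls w (fun z : Cb (m + 2) => K (g • Γ (m + 1) j (Fin.tail z)) (z 0)) =
      lin (fun b : G × J (m + 1) =>
        cls w fun z : Cb (m + 2) => K (chi Γ (m + 1) b.1 b.2 (Fin.tail z)) (z 0))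
        (d (Finsupp.single (g, j) 1))

/-- The incidence numbers of `(m+3)`-cells attached along `γ` are given by `d`. -/
def JP (Γ : Att G J) (m : ℕ) (d : Ch G J (m + 3) →+ Ch G J (m + 2))
    (γ : J (m + 3) → Cb (m + 2) → Pt G J) : Prop :=
  ∀ (W : Type) [TopologicalSpace W] (w : W) (F : Pt G J → W), Cts Γ (m + 2) F →
    (∀ p : Pt G J, p.n ≤ m + 1 → F p = w) → ∀ (g : G) (j : J (m + 3)),
    cls w (fun y => F (g • γ j y)) =
      lin (fun a : G × J (m + 2) => cls w fun y => F (chi Γ (m + 2) a.1 a.2 y))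
        (d (Finsupp.single (g, j) 1))

/-- The `(m+1)`-skeleton is null-homotopic in the `(m+2)`-skeleton, cellularly. -/
def Nul (Γ : Att G J) (m : ℕ) : Prop :=
  ∃ N : Pt G J → I → Sk Γ (m + 2), CtsH Γ (m + 1) N ∧
    (∀ p : Pt G J, p.n ≤ m + 1 → (N p 0).pt = p ∧ (N p 1).pt = vtx 1) ∧
    ∀ p : Pt G J, p.n ≤ m → ∀ t, (N p t).pt.n ≤ m + 1

/-! ### The algebraic data -/

/-- The chain of an edge path: the edge `(g, a)` runs from `g * (gen a)⁻¹` to `g`. -/
def fox {α : Type} (gen : α → G) : G → List (α × Bool) → (G × α →₀ ℤ)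
  | _, [] => 0
  | h, (a, true) :: w => Finsupp.single (h * gen a, a) 1 + fox gen (h * gen a) w
  | h, (a, false) :: w => -Finsupp.single (h, a) 1 + fox gen (h * (gen a)⁻¹) w

theorem fox_anchor : type_of% @fox.eq_def := @fox.eq_def
theorem fox_anchor1 : type_of% @fox.eq_1 := @fox.eq_1
theorem fox_anchor2 : type_of% @fox.eq_2 := @fox.eq_2
theorem fox_anchor3 : type_of% @fox.eq_3 := @fox.eq_3

/-- translation of chains (the same as `frAct` of `FPAlg`) -/
abbrev tl {X : Type} (g : G) (c : G × X →₀ ℤ) : G × X →₀ ℤ :=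
  Finsupp.mapDomain (fun x => (g * x.1, x.2)) c

/-- A finite type free resolution that starts with the chain complex of a presentation. -/
structure Res (G : Type) [Group G] (J : ℕ → Type) where
  gen : J 1 → G
  rel : J 2 → List (J 1 × Bool)
  surj : Function.Surjective (FreeGroup.lift gen)
  ker : (FreeGroup.lift gen).ker = Subgroup.normalClosure (range fun r => FreeGroup.mk (rel r))
  d : ∀ m, Ch G J (m + 2) →+ Ch G J (m + 1)
  d_act : ∀ m g c, d m (tl g c) = tl g (d m c)
  d_fox : ∀ g r, d 0 (Finsupp.single (g, r) 1) = fox gen g (rel r)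
  d_d : ∀ m c, d m (d (m + 1) c) = 0
  split : ∀ m, ∃ s : Ch G J (m + 1) →+ Ch G J (m + 2), ∀ a, ∃ e, a = s (d m a) + d (m + 1) e

end Crest.Agent.R185.Top
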