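import Crest.Agent.R185.TopCube

/-!
# Row 185, `f.p. + FP∞ ⇒ F∞`: homotopy extension and concatenation on skeleta
-/

set_option autoImplicit false

noncomputable section

namespace Crest.Agent.R185.Top

open unitInterval Set Topology

variable {G : Type} [Group G] {J : ℕ → Type} [Unique (J 0)] {Γ : Att G J}
  {W : Type} [TopologicalSpace W]

lemma CtsH.on_bd {n : ℕ} (hΓ : Good Γ (n + 1)) {K : Pt G J → I → W} (hK : CtsH Γ n K) (g : G)
    (j : J (n + 1)) : ContinuousOn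
      (fun q : Cb (n + 1) × I => K (chi Γ (n + 1) g j q.1) q.2) (Bd (n + 1) ×ˢ univ) := by
  rw [continuousOn_iff_continuous_domRestrict]
  refine hK.comp (hΓ.mono n.le_succ)
    (γ := fun q : ↥(Bd (n + 1) ×ˢ (univ : Set I)) => chi Γ (n + 1) g j q.1.1) ?_
    (fun q => Nat.le_of_lt_succ (chi_bd_dim hΓ g j q.2.1))
    (t := fun q => q.1.2) (by fun_prop)
  exact (continuousOn_chi_bd hΓ g j).comp_continuous (by fun_prop) fun q => q.2.1

/-- The homotopy extension property of the pair of skeleta. -/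
theorem hepE {n : ℕ} (hΓ : Good Γ (n + 1)) {F : Pt G J → W} (hF : Cts Γ (n + 1) F)
    {K : Pt G J → I → W} (hK : CtsH Γ n K) (h0 : ∀ p : Pt G J, p.n ≤ n → K p 0 = F p) :
    ∃ K' : Pt G J → I → W, CtsH Γ (n + 1) K' ∧ (∀ p : Pt G J, p.n ≤ n + 1 → K' p 0 = F p) ∧
      ∀ p : Pt G J, p.n ≤ n → K' p = K p := by
  choose Φ hΦ hΦ0 hΦb using fun (g : G) (j : J (n + 1)) =>
    hep (hF (n + 1) le_rfl g j) (k := fun x => K (chi Γ (n + 1) g j x)) (hK.on_bd hΓ g j)
      fun y hy => h0 _ (Nat.le_of_lt_succ (chi_bd_dim hΓ g j hy))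
  obtain ⟨K', h1, h2⟩ := exists_ext hΓ K Φ hΦb
  refine ⟨K', hK.succ (hΓ.mono n.le_succ) h1 fun g j => by simpa only [h2] using hΦ g j,
    fun p hp => ?_, h1⟩
  rcases cases_succ Γ hp with hp | ⟨g, j, x, rfl⟩
  · rw [h1 p hp, h0 p hp]
  · rw [h2, hΦ0]

/-- Concatenation of homotopies. -/
theorem CtsH.trans {n : ℕ} (hΓ : Good Γ n) {K₁ K₂ : Pt G J → I → W} (h₁ : CtsH Γ n K₁)
    (h₂ : CtsH Γ n K₂) (h : ∀ p : Pt G J, p.n ≤ n → K₁ p 1 = K₂ p 0) :
    ∃ K : Pt G J → I → W, CtsH Γ n K ∧ (∀ p, K p 0 = K₁ p 0) ∧ (∀ p, K p 1 = K₂ p 1) ∧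
      ∀ p t, ∃ s, K p t = K₁ p s ∨ K p t = K₂ p s := by
  let a : I → I := fun t => projIcc 0 1 zero_le_one (2 * t)
  let b : I → I := fun t => projIcc 0 1 zero_le_one (2 * t - 1)
  have ha : Continuous a := continuous_projIcc.comp (by fun_prop)
  have hb : Continuous b := continuous_projIcc.comp (by fun_prop)
  refine ⟨fun p t => if (t : ℝ) ≤ 1 / 2 then K₁ p (a t) else K₂ p (b t), fun m hm g j => ?_,
    fun p => ?_, fun p => ?_, fun p t => ?_⟩
  · refine Continuous.if_le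
      ((h₁ m hm g j).comp (f := fun q : Cb m × I => (q.1, a q.2)) (by fun_prop))
      ((h₂ m hm g j).comp (f := fun q : Cb m × I => (q.1, b q.2)) (by fun_prop))
      (by fun_prop) continuous_const fun q hq => ?_
    have e1 : a q.2 = 1 := projIcc_of_right_le _ (by rw [hq]; norm_num)
    have e2 : b q.2 = 0 := projIcc_of_le_left _ (by rw [hq]; norm_num)
    rw [e1, e2]
    exact h _ ((chi_dim (hΓ.mono hm) g j _).trans hm)
  · have e1 : a 0 = 0 := projIcc_of_le_left _ (by simp)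
    simp [e1]
  · have e2 : b 1 = 1 := projIcc_of_right_le _ (by norm_num)
    have : ¬ ((1 : I) : ℝ) ≤ 1 / 2 := by norm_num
    simp only [if_neg this, e2]
  · by_cases ht : (t : ℝ) ≤ 1 / 2
    · exact ⟨a t, Or.inl (if_pos ht)⟩
    · exact ⟨b t, Or.inr (if_neg ht)⟩

end Crest.Agent.R185.Top
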