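import Crest.Agent.R185.Lim
import Crest.Agent.R185.Ext2
import Crest.Agent.R185.Stretch
import Crest.Agent.R185.Gad
import Crest.Agent.R185.Final

/-!
# Row 185: every finitely presented group embeds in a finitely presented group of type `FP∞`
-/

set_option autoImplicit false

namespace Crest.Agent.R185

theorem exists_fpinf_over {ιU : Type} [Primcodable ιU] [Finite ιU] (U : MG ιU)
    (RU : List (Word ιU)) (hU : Pres U {r | r ∈ RU}) :
    ∃ (H : Type) (_ : Group H) (f : U.G →* H),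
      Group.IsFinitelyPresented H ∧ FPinf H ∧ Function.Injective f := by
  obtain ⟨ιC, _, _, κ, ⟨P⟩⟩ := exists_gad (Fin 3)
  obtain ⟨St⟩ := exists_stretch (ιC ⊕ ιU) 0
  let σ : ιC ⊕ ιU → Word (ιC ⊕ ιU) := fun i => ren Sum.inl (subst P.σ (St.σ i))
  let R : Set (Word (ιC ⊕ ιU)) := ren Sum.inl '' {r | r ∈ P.R} ∪
    (fun r => ren Sum.inl (subst P.σ r)) '' {r | r ∈ St.R} ∪ ren Sum.inr '' {r | r ∈ RU} ∪
    {r | ∃ i i', r = comm [(Sum.inl i, true)] [(Sum.inr i', true)]}
  have hR : R.Finite := by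
    refine ((((List.finite_toSet _).image _).union ((List.finite_toSet _).image _)).union
      ((List.finite_toSet _).image _)).union ?_
    exact (Set.finite_range fun p : ιC × ιU =>
      comm [(Sum.inl p.1, true)] [(Sum.inr p.2, true)]).subset
      (by rintro _ ⟨i, i', rfl⟩; exact ⟨(i, i'), rfl⟩)
  let A := stg σ R ⊤
  let X := (P.obj (St.obj A)).prod U
  let f : A.G →* X.G := (MonoidHom.inl _ U.G).comp ((P.f (St.obj A)).comp (St.f A))
  have hgen : ∀ i, f (A.gen i) = X.ev (σ i) := fun i => by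
    rw [show X.ev (σ i) = _ from MG.prod_ev_inl _ _ _, ← P.f_ev, ← St.f_gen]
    rfl
  have hX0 := pres_prod (P.pres (St.obj A)) hU
  have hX : Pres X (R ∪ subst σ '' A.rel) := by
    refine hX0.of_imp ?_ ?_
    · rintro r ((((⟨r, hr, rfl⟩ | ⟨r, hr, rfl⟩) | hr) | hr) | ⟨w, hw, rfl⟩)
      · exact hX0.1 _ (Or.inl (Or.inl ⟨r, Or.inl hr, rfl⟩))
      · exact hX0.1 _ (Or.inl (Or.inl ⟨_, Or.inr ⟨r, (St.pres A).1 r (Or.inl hr), rfl⟩, rfl⟩))
      · exact hX0.1 _ (Or.inl (Or.inr hr))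
      · exact hX0.1 _ (Or.inr hr)
      · rw [← hom_ev hgen, show A.ev w = 1 from hw, map_one]
    · intro Z _ z hz
      rintro r ((⟨_, hr | ⟨w, hw, rfl⟩, rfl⟩ | hr) | hr)
      · exact hz _ (Or.inl (Or.inl (Or.inl (Or.inl ⟨_, hr, rfl⟩))))
      · rw [evW_ren, evW_subst]
        refine (St.pres A).2 Z _ ?_ w hw
        rintro r (hr | ⟨v, hv, rfl⟩)
        · have := hz _ (Or.inl (Or.inl (Or.inl (Or.inr ⟨_, hr, rfl⟩))))
          rwa [evW_ren, evW_subst] at this
        · have := hz _ (Or.inr ⟨v, hv, rfl⟩)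
          simpa only [σ, evW_ren, evW_subst] using this
      · exact hz _ (Or.inl (Or.inl (Or.inr hr)))
      · exact hz _ (Or.inl (Or.inr hr))
  have hf : Function.Injective f := fun a b h =>
    St.inj A (P.inj _ (congrArg Prod.fst h))
  obtain ⟨D, e, -, -⟩ := exists_finalData σ R hR hX f hf hgen ((P.gad _).comp _ _)
  obtain ⟨H, _, g, h1, h2, h3⟩ := final_fp D
  refine ⟨H, inferInstance, g.comp ((e : X.G →* D.A.G).comp (MonoidHom.inr _ U.G)), h1, h2, ?_⟩
  exact h3.comp (e.injective.comp fun a b h => congrArg Prod.snd h)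

end Crest.Agent.R185
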