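import Crest.Agent.R185.Higman
import Crest.Agent.R185.StretchH

/-!
# Row 185: a universal finitely presented group
-/

set_option autoImplicit false

namespace Crest.Agent.R185

namespace St

/-- The relators of the free product of all finitely presented groups. -/
def T0 : Set (Word ℕ) :=
  {r | ∃ L : List (Word ℕ), ∃ r' ∈ L, r = ren (Nat.pair (Encodable.encode L)) r'}

theorem re_T0 : REPred fun r => r ∈ T0 := by
  have h1 : Primrec fun q : Word ℕ × List (Word ℕ) × Word ℕ =>
      ren (Nat.pair (Encodable.encode q.2.1)) q.2.2 :=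
    Primrec.list_map (Primrec.snd.comp Primrec.snd)
      ((Primrec₂.natPair.comp (Primrec.encode.comp (Primrec.fst.comp (Primrec.snd.comp Primrec.fst)))
        (Primrec.fst.comp Primrec.snd)).pair (Primrec.snd.comp Primrec.snd)).to₂
  have h2 : REPred fun q : Word ℕ × List (Word ℕ) × Word ℕ =>
      q.2.2 ∈ q.2.1 ∧ q.1 = ren (Nat.pair (Encodable.encode q.2.1)) q.2.2 :=
    re_of_primrecPred (PrimrecPred.and
      (cl_primrecRel_mem.comp (Primrec.snd.comp Primrec.snd) (Primrec.fst.comp Primrec.snd))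
      (Primrec.eq.comp Primrec.fst h1))
  exact (re_exists h2).of_eq fun r => by simp [T0]

theorem evW_one {κ G : Type} [Group G] (w : Word κ) : evW (fun _ => (1 : G)) w = 1 := by
  induction w with
  | nil => simp
  | cons x w ih => rw [evW_cons, ih]; rcases x with ⟨_, _ | _⟩ <;> simp

theorem exists_emb_T0 (G : Type) [Group G] (hG : Group.IsFinitelyPresented G) :
    ∃ f : G →* (MG.ofRel T0).G, Function.Injective f := by
  obtain ⟨n, φ, hφ, -⟩ := hG.out
  let X : MG (Fin n) :=
    { G := G
      gen := fun i => φ (FreeGroup.of i)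
      surj := fun g => by
        obtain ⟨x, rfl⟩ := hφ g
        induction x using Quot.inductionOn with
        | h w => exact ⟨w, by rw [← map_evW, evW_of]; rfl⟩ }
  obtain ⟨R, hR⟩ := exists_pres_of_fp X hG
  let L : List (Word ℕ) := R.map (ren Fin.val)
  obtain ⟨f, hf⟩ := X.exists_hom
    (fun i : Fin n => (MG.ofRel T0).gen (Nat.pair (Encodable.encode L) i))
    (hR.2 _ _ fun r hr => by
      have := (pres_ofRel T0).1 _ ⟨L, ren Fin.val r, List.mem_map_of_mem hr, rfl⟩
      rwa [MG.ev, evW_ren, evW_ren] at this)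
  let z : ℕ → G := fun j =>
    if h : j.unpair.1 = Encodable.encode L ∧ j.unpair.2 < n then X.gen ⟨j.unpair.2, h.2⟩ else 1
  have hz : ∀ i : Fin n, z (Nat.pair (Encodable.encode L) i) = X.gen i := fun i => by
    simp [z]
  obtain ⟨g, hg⟩ := (MG.ofRel T0).exists_hom z ((pres_ofRel T0).2 _ _ (by
    rintro _ ⟨L', r', hr', rfl⟩
    rw [evW_ren]
    by_cases e : L' = L
    · subst e
      obtain ⟨r, hr, rfl⟩ := List.mem_map.1 hr'
      rw [evW_ren]
      simp only [hz]
      exact hR.1 r hr
    · have : (fun i => z (Nat.pair (Encodable.encode L') i)) = fun _ => 1 := by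
        funext i
        simp [z, e]
      rw [this, evW_one]))
  refine ⟨f, Function.LeftInverse.injective (g := g) fun x => ?_⟩
  obtain ⟨w, rfl⟩ := X.surj x
  have h1 := hg (ren (fun i : Fin n => Nat.pair (Encodable.encode L) i) w)
  rw [MG.ev, evW_ren, evW_ren] at h1
  simp only [hz] at h1
  exact (congrArg g (hf w)).trans h1

end St

theorem exists_universal : ∃ (ι : Type) (_ : Primcodable ι) (_ : Finite ι) (X : MG ι)
    (R : List (Word ι)), Pres X {r | r ∈ R} ∧
    ∀ (G : Type) [Group G], Group.IsFinitelyPresented G →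
      ∃ f : G →* X.G, Function.Injective f := by
  have h1 : REPred fun w => (St.obj 0 (MG.ofRel St.T0)).ev w = 1 :=
    Cert.triv_iff.1 (St.cert_eq_obj (𝒞 := Ctx.triv) 0 (fun _ => MG.ofRel St.T0) (fun _ => St.T0)
      (fun _ => pres_ofRel _) (Cert.of_re St.re_T0 _))
  obtain ⟨ι', i1, i2, X', R, f, hR, hf, -⟩ := higman _ h1
  refine ⟨ι', i1, i2, X', R, hR, fun G _ hG => ?_⟩
  obtain ⟨g, hg⟩ := St.exists_emb_T0 G hG
  exact ⟨f.comp ((St.emb 0 _).comp g), hf.comp ((St.emb_injective 0 _).comp hg)⟩

end Crest.Agent.R185
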